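import Vale.Agent.P212.MathlibUsed

set_option linter.all false

section

section

namespace Vale.Agent.P212

open Matrix

/-- Murray-von Neumann equivalence of idempotent matrices. -/
def MvN {R : Type} [Ring R] {ι κ : Type} [Fintype ι] [Fintype κ]
    (e : Matrix ι ι R) (f : Matrix κ κ R) : Prop :=
  ∃ (x : Matrix ι κ R) (y : Matrix κ ι R), x * y = e ∧ y * x = f

/-- An idempotent square matrix over `R`. -/
structure IdemMat (R : Type) [Ring R] where
  size : ℕ
  mat : Matrix (Fin size) (Fin size) R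
  idem : mat * mat = mat

/-- The idempotent matrix indexed by a finite type, as an element of `IdemMat`. -/
noncomputable def IdemMat.of {R : Type} [Ring R] {ι : Type} [Fintype ι]
    (e : Matrix ι ι R) (h : e * e = e) : IdemMat R where
  size := Fintype.card ι
  mat := e.submatrix (Fintype.equivFin ι).symm (Fintype.equivFin ι).symm
  idem := by rw [submatrix_mul_equiv, h]

/-- Direct sum of idempotent matrices. -/
noncomputable def IdemMat.add {R : Type} [Ring R] (e f : IdemMat R) : IdemMat R :=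
  IdemMat.of (Matrix.fromBlocks e.mat 0 0 f.mat) (by
    simp [Matrix.fromBlocks_multiply, e.idem, f.idem])

/-- The image of an idempotent matrix under a ring homomorphism. -/
def IdemMat.map {R S : Type} [Ring R] [Ring S] (φ : R →+* S) (e : IdemMat R) : IdemMat S :=
  ⟨e.size, e.mat.map φ, by rw [← Matrix.map_mul, e.idem]⟩

end Vale.Agent.P212
end
end

section

section

/-! Murray-von Neumann equivalence of idempotent matrices. -/

namespace Vale.Agent.P212

open Matrix

section MvN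

variable {R : Type} [Ring R] {ι κ ι' κ' μ : Type} [Fintype ι] [Fintype κ] [Fintype ι'] [Fintype κ']
  [Fintype μ]

theorem MvN.refl {e : Matrix ι ι R} (h : e * e = e) : MvN e e := ⟨e, e, h, h⟩

theorem MvN.symm {e : Matrix ι ι R} {f : Matrix κ κ R} (h : MvN e f) : MvN f e := by
  obtain ⟨x, y, h1, h2⟩ := h
  exact ⟨y, x, h2, h1⟩

theorem MvN.trans {e : Matrix ι ι R} {f : Matrix κ κ R} {g : Matrix μ μ R}
    (he : e * e = e) (hg : g * g = g) (h : MvN e f) (h' : MvN f g) : MvN e g := by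
  obtain ⟨x, y, h1, h2⟩ := h
  obtain ⟨z, w, h3, h4⟩ := h'
  refine ⟨x * z, w * y, ?_, ?_⟩
  · rw [Matrix.mul_assoc, ← Matrix.mul_assoc z, h3, ← h2, Matrix.mul_assoc y x y,
      ← Matrix.mul_assoc x, h1, he]
  · rw [Matrix.mul_assoc, ← Matrix.mul_assoc y, h2, ← h3, Matrix.mul_assoc z w z,
      ← Matrix.mul_assoc w, h4, hg]

theorem MvN.submatrix {e : Matrix ι ι R} (he : e * e = e) (σ : κ ≃ ι) :
    MvN (e.submatrix σ σ) e := by
  classical
  refine ⟨e.submatrix σ id, e.submatrix id σ, ?_, ?_⟩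
  · have := submatrix_mul_equiv e e (σ : κ → ι) (Equiv.refl ι) (σ : κ → ι)
    rw [he] at this
    exact this
  · have := submatrix_mul_equiv e e (id : ι → ι) σ (id : ι → ι)
    rw [he] at this
    simpa using this

theorem MvN.fromBlocks {e : Matrix ι ι R} {f : Matrix κ κ R} {e' : Matrix ι' ι' R}
    {f' : Matrix κ' κ' R} (h : MvN e e') (h' : MvN f f') :
    MvN (Matrix.fromBlocks e 0 0 f) (Matrix.fromBlocks e' 0 0 f') := by
  obtain ⟨x, y, h1, h2⟩ := h
  obtain ⟨z, w, h3, h4⟩ := h'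
  refine ⟨Matrix.fromBlocks x 0 0 z, Matrix.fromBlocks y 0 0 w, ?_, ?_⟩
  · simp [Matrix.fromBlocks_multiply, h1, h3]
  · simp [Matrix.fromBlocks_multiply, h2, h4]

theorem IdemMat.of_mvn (e : Matrix ι ι R) (h : e * e = e) : MvN (IdemMat.of e h).mat e :=
  MvN.submatrix h _

theorem blocks_idem {e : Matrix ι ι R} {f : Matrix κ κ R} (he : e * e = e) (hf : f * f = f) :
    Matrix.fromBlocks e 0 0 f * Matrix.fromBlocks e 0 0 f = Matrix.fromBlocks e 0 0 f := by
  simp [Matrix.fromBlocks_multiply, he, hf]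

theorem IdemMat.add_mvn (e f : IdemMat R) :
    MvN (IdemMat.add e f).mat (Matrix.fromBlocks e.mat 0 0 f.mat) :=
  IdemMat.of_mvn _ _

theorem IdemMat.mvn_refl (e : IdemMat R) : MvN e.mat e.mat := MvN.refl e.idem

theorem IdemMat.mvn_symm {e f : IdemMat R} (h : MvN e.mat f.mat) : MvN f.mat e.mat := h.symm

theorem IdemMat.mvn_trans {e f g : IdemMat R} (h : MvN e.mat f.mat) (h' : MvN f.mat g.mat) :
    MvN e.mat g.mat := h.trans e.idem g.idem h'

theorem IdemMat.add_congr {e e' : IdemMat R} (he : MvN e.mat e'.mat) {f f' : IdemMat R}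
    (hf : MvN f.mat f'.mat) : MvN (IdemMat.add e f).mat (IdemMat.add e' f').mat :=
  (((IdemMat.add_mvn e f).trans (IdemMat.add e f).idem (blocks_idem e'.idem f'.idem)
      (MvN.fromBlocks he hf)).trans (IdemMat.add e f).idem (IdemMat.add e' f').idem
      (IdemMat.add_mvn e' f').symm)

theorem IdemMat.add_assoc_mvn (a b c : IdemMat R) :
    MvN (IdemMat.add (IdemMat.add a b) c).mat (IdemMat.add a (IdemMat.add b c)).mat := by
  have h1 : MvN (IdemMat.add (IdemMat.add a b) c).mat
      (Matrix.fromBlocks (Matrix.fromBlocks a.mat 0 0 b.mat) 0 0 c.mat) :=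
    (IdemMat.add_mvn _ _).trans (IdemMat.add _ _).idem
      (blocks_idem (blocks_idem a.idem b.idem) c.idem)
      (MvN.fromBlocks (IdemMat.add_mvn a b) c.mvn_refl)
  have h2 : MvN (IdemMat.add a (IdemMat.add b c)).mat
      (Matrix.fromBlocks a.mat 0 0 (Matrix.fromBlocks b.mat 0 0 c.mat)) :=
    (IdemMat.add_mvn _ _).trans (IdemMat.add _ _).idem
      (blocks_idem a.idem (blocks_idem b.idem c.idem))
      (MvN.fromBlocks a.mvn_refl (IdemMat.add_mvn b c))
  have h := MvN.submatrix (blocks_idem a.idem (blocks_idem b.idem c.idem))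
    (Equiv.sumAssoc (Fin a.size) (Fin b.size) (Fin c.size))
  have h3 : (Matrix.fromBlocks a.mat 0 0 (Matrix.fromBlocks b.mat 0 0 c.mat)).submatrix
      (Equiv.sumAssoc (Fin a.size) (Fin b.size) (Fin c.size))
      (Equiv.sumAssoc (Fin a.size) (Fin b.size) (Fin c.size)) =
      Matrix.fromBlocks (Matrix.fromBlocks a.mat 0 0 b.mat) 0 0 c.mat := by
    ext i j
    rcases i with (i | i) | i <;> rcases j with (j | j) | j <;> simp
  rw [h3] at h
  exact (h1.trans (IdemMat.add _ _).idem (blocks_idem a.idem (blocks_idem b.idem c.idem))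
    h).trans (IdemMat.add _ _).idem (IdemMat.add _ _).idem h2.symm

theorem IdemMat.add_comm_mvn (a b : IdemMat R) :
    MvN (IdemMat.add a b).mat (IdemMat.add b a).mat := by
  have h := MvN.submatrix (blocks_idem b.idem a.idem) (Equiv.sumComm (Fin a.size) (Fin b.size))
  have h2 : (Matrix.fromBlocks b.mat 0 0 a.mat).submatrix (Equiv.sumComm (Fin a.size)
      (Fin b.size)) (Equiv.sumComm (Fin a.size) (Fin b.size)) =
      Matrix.fromBlocks a.mat 0 0 b.mat := by
    ext i j
    rcases i with i | i <;> rcases j with j | j <;> simp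
  rw [h2] at h
  exact ((IdemMat.add_mvn a b).trans (IdemMat.add _ _).idem (blocks_idem b.idem a.idem)
    h).trans (IdemMat.add _ _).idem (IdemMat.add _ _).idem (IdemMat.add_mvn b a).symm

/-- The zero matrix of size zero. -/
theorem zero_idem : (0 : Matrix ι ι R) * 0 = 0 := by simp

theorem IdemMat.zero_add_mvn (a : IdemMat R) :
    MvN (IdemMat.add (IdemMat.of (0 : Matrix (Fin 0) (Fin 0) R) zero_idem) a).mat a.mat := by
  have h := MvN.submatrix a.idem (Equiv.emptySum (Fin 0) (Fin a.size))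
  have h2 : a.mat.submatrix (Equiv.emptySum (Fin 0) (Fin a.size))
      (Equiv.emptySum (Fin 0) (Fin a.size)) =
      Matrix.fromBlocks (0 : Matrix (Fin 0) (Fin 0) R) 0 0 a.mat := by
    ext i j
    rcases i with i | i
    · exact i.elim0
    · rcases j with j | j
      · exact j.elim0
      · simp
  rw [h2] at h
  exact ((IdemMat.add_mvn _ a).trans (IdemMat.add _ _).idem (blocks_idem zero_idem a.idem)
    (MvN.fromBlocks (IdemMat.of_mvn _ _) a.mvn_refl)).trans (IdemMat.add _ _).idem a.idem h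

theorem IdemMat.add_zero_mvn (a : IdemMat R) :
    MvN (IdemMat.add a (IdemMat.of (0 : Matrix (Fin 0) (Fin 0) R) zero_idem)).mat a.mat :=
  IdemMat.mvn_trans (IdemMat.add_comm_mvn _ _) (IdemMat.zero_add_mvn a)

end MvN

section Map

variable {R S : Type} [Ring R] [Ring S] {ι κ : Type} [Fintype ι] [Fintype κ]

theorem mapMat_idem (φ : R →+* S) {e : Matrix ι ι R} (he : e * e = e) :
    e.map φ * e.map φ = e.map φ := by
  rw [← Matrix.map_mul, he]

theorem MvN.map (φ : R →+* S) {e : Matrix ι ι R} {f : Matrix κ κ R} (h : MvN e f) :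
    MvN (e.map φ) (f.map φ) := by
  obtain ⟨x, y, h1, h2⟩ := h
  refine ⟨x.map φ, y.map φ, ?_, ?_⟩
  · rw [← Matrix.map_mul, h1]
  · rw [← Matrix.map_mul, h2]

theorem IdemMat.map_congr (φ : R →+* S) {e f : IdemMat R} (h : MvN e.mat f.mat) :
    MvN (e.map φ).mat (f.map φ).mat := MvN.map φ h

theorem IdemMat.of_map_mvn (φ : R →+* S) {e : Matrix ι ι R} (he : e * e = e) :
    MvN ((IdemMat.of e he).mat.map φ) (IdemMat.of (e.map φ) (mapMat_idem φ he)).mat :=
  (MvN.map φ (IdemMat.of_mvn e he)).trans (mapMat_idem φ (IdemMat.of e he).idem)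
    (IdemMat.of (e.map φ) (mapMat_idem φ he)).idem (IdemMat.of_mvn _ _).symm

theorem IdemMat.map_zero_mvn (φ : R →+* S) :
    MvN ((IdemMat.of (0 : Matrix (Fin 0) (Fin 0) R) zero_idem).map φ).mat
      (IdemMat.of (0 : Matrix (Fin 0) (Fin 0) S) zero_idem).mat :=
  ⟨0, 0, by
    rw [Matrix.zero_mul]
    ext i
    exact (Fin.cast (by simp [IdemMat.map, IdemMat.of]) i : Fin 0).elim0, by
    rw [Matrix.zero_mul]
    ext i
    exact (Fin.cast (by simp [IdemMat.of]) i : Fin 0).elim0⟩

theorem IdemMat.map_add_mvn (φ : R →+* S) (a b : IdemMat R) :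
    MvN ((IdemMat.add a b).map φ).mat (IdemMat.add (a.map φ) (b.map φ)).mat := by
  have h := IdemMat.map_congr φ (e := IdemMat.add a b) (f := IdemMat.add a b)
    (IdemMat.mvn_refl _)
  have h1 := MvN.map φ (IdemMat.add_mvn a b)
  rw [Matrix.fromBlocks_map] at h1
  simp only [Matrix.map_zero _ (map_zero φ)] at h1
  exact h1.trans ((IdemMat.add a b).map φ).idem (IdemMat.add _ _).idem
    (IdemMat.add_mvn (a.map φ) (b.map φ)).symm

end Map

end Vale.Agent.P212
end
end

section

section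

/-! Algebraic K_0 of a ring. -/

namespace Vale.Agent.P212

/-- Equivalence of idempotent matrices. -/
instance idemSetoid (R : Type) [Ring R] : Setoid (IdemMat R) where
  r e f := MvN e.mat f.mat
  iseqv := ⟨IdemMat.mvn_refl, IdemMat.mvn_symm, IdemMat.mvn_trans⟩

/-- The monoid of equivalence classes of idempotent matrices. -/
def V (R : Type) [Ring R] : Type := Quotient (idemSetoid R)

/-- The class of an idempotent matrix. -/
noncomputable def V.cls {R : Type} [Ring R] {ι : Type} [Fintype ι]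
    (e : Matrix ι ι R) (h : e * e = e) : V R := Quotient.mk (idemSetoid R) (IdemMat.of e h)

/-- Addition is the direct sum of idempotent matrices. -/
noncomputable instance (R : Type) [Ring R] : Add (V R) :=
  ⟨Quotient.map₂ IdemMat.add fun _ _ h _ _ => IdemMat.add_congr h⟩

noncomputable instance (R : Type) [Ring R] : Zero (V R) :=
  ⟨V.cls (0 : Matrix (Fin 0) (Fin 0) R) zero_idem⟩

noncomputable instance (R : Type) [Ring R] : AddCommMonoid (V R) where
  add_assoc := by
    rintro ⟨a⟩ ⟨b⟩ ⟨c⟩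
    exact Quotient.sound (IdemMat.add_assoc_mvn a b c)
  zero_add := by
    rintro ⟨a⟩
    exact Quotient.sound (IdemMat.zero_add_mvn a)
  add_zero := by
    rintro ⟨a⟩
    exact Quotient.sound (IdemMat.add_zero_mvn a)
  add_comm := by
    rintro ⟨a⟩ ⟨b⟩
    exact Quotient.sound (IdemMat.add_comm_mvn a b)
  nsmul := nsmulRec

/-- The Grothendieck group `K_0(R)`. -/
def K0 (R : Type) [Ring R] : Type := Algebra.GrothendieckAddGroup (V R)

noncomputable instance (R : Type) [Ring R] : AddCommGroup (K0 R) :=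
  inferInstanceAs (AddCommGroup (Algebra.GrothendieckAddGroup (V R)))

/-- Functoriality of the monoid of classes of idempotents. -/
noncomputable def V.map {R S : Type} [Ring R] [Ring S] (φ : R →+* S) : V R →+ V S where
  toFun := Quotient.map (IdemMat.map φ) fun _ _ => IdemMat.map_congr φ
  map_zero' := Quotient.sound (IdemMat.map_zero_mvn φ)
  map_add' := by
    rintro ⟨a⟩ ⟨b⟩
    exact Quotient.sound (IdemMat.map_add_mvn φ a b)

/-- Functoriality of `K_0`. -/
noncomputable def K0.map {R S : Type} [Ring R] [Ring S] (φ : R →+* S) : K0 R →+ K0 S :=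
  Algebra.GrothendieckAddGroup.lift (Algebra.GrothendieckAddGroup.of.comp (V.map φ))

end Vale.Agent.P212
end
end

section

section

/-! Algebraic K_0 of a ring: basic properties. -/

namespace Vale.Agent.P212

open Matrix

section MvN

variable {R : Type} [Ring R] {ι κ ι' κ' μ : Type} [Fintype ι] [Fintype κ] [Fintype ι'] [Fintype κ']
  [Fintype μ]

theorem V.cls_eq_iff {e : Matrix ι ι R} {f : Matrix κ κ R} (he : e * e = e) (hf : f * f = f) :
    V.cls e he = V.cls f hf ↔ MvN e f := by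
  constructor
  · intro h
    have h' : MvN (IdemMat.of e he).mat (IdemMat.of f hf).mat := Quotient.exact h
    exact ((IdemMat.of_mvn e he).symm.trans he (IdemMat.of f hf).idem h').trans he hf
      (IdemMat.of_mvn f hf)
  · intro h
    refine Quotient.sound ?_
    change MvN _ _
    exact ((IdemMat.of_mvn e he).trans (IdemMat.of e he).idem hf h).trans
      (IdemMat.of e he).idem (IdemMat.of f hf).idem (IdemMat.of_mvn f hf).symm

theorem V.cls_mk (e : IdemMat R) : V.cls e.mat e.idem = Quotient.mk (idemSetoid R) e :=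
  Quotient.sound (IdemMat.of_mvn e.mat e.idem)

theorem V.add_cls {e : Matrix ι ι R} {f : Matrix κ κ R} (he : e * e = e) (hf : f * f = f) :
    V.cls e he + V.cls f hf = V.cls (Matrix.fromBlocks e 0 0 f) (blocks_idem he hf) := by
  refine Quotient.sound ?_
  change MvN _ _
  refine (IdemMat.add_mvn _ _).trans (IdemMat.add _ _).idem (IdemMat.of _ _).idem ?_
  refine MvN.trans (blocks_idem (IdemMat.of e he).idem (IdemMat.of f hf).idem)
    (IdemMat.of _ _).idem (MvN.fromBlocks (IdemMat.of_mvn e he) (IdemMat.of_mvn f hf)) ?_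
  exact (IdemMat.of_mvn _ _).symm

theorem V.ind {P : V R → Prop} (h : ∀ (n : ℕ) (e : Matrix (Fin n) (Fin n) R) (he : e * e = e),
    P (V.cls e he)) (x : V R) : P x := by
  induction x using Quotient.inductionOn with
  | h e =>
    rw [← V.cls_mk]
    exact h _ _ _

theorem V.zero_def : (0 : V R) = V.cls (0 : Matrix (Fin 0) (Fin 0) R) (by simp) := rfl

theorem V.cls_zero : V.cls (0 : Matrix ι ι R) (by simp) = 0 := by
  rw [V.zero_def, V.cls_eq_iff]
  exact ⟨0, 0, by simp, by simp⟩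

end MvN

/-- The class of an idempotent matrix in `K_0(R)`. -/
noncomputable def K0.cls {R : Type} [Ring R] {ι : Type} [Fintype ι]
    (e : Matrix ι ι R) (h : e * e = e) : K0 R := Algebra.GrothendieckAddGroup.of (V.cls e h)


section Toolkit

variable {R S T : Type} [Ring R] [Ring S] [Ring T] {ι κ ι' κ' μ : Type} [Fintype ι] [Fintype κ]
  [Fintype ι'] [Fintype κ'] [Fintype μ]

theorem K0.cls_eq_of_mvn {e : Matrix ι ι R} {f : Matrix κ κ R} (he : e * e = e)
    (hf : f * f = f) (h : MvN e f) : K0.cls e he = K0.cls f hf :=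
  congrArg _ ((V.cls_eq_iff he hf).2 h)

theorem K0.cls_congr {e f : Matrix ι ι R} (he : e * e = e) (h : e = f) :
    K0.cls e he = K0.cls f (h ▸ he) := by
  subst h
  rfl

theorem K0.cls_blocks {e : Matrix ι ι R} {f : Matrix κ κ R} (he : e * e = e)
    (hf : f * f = f) : K0.cls (Matrix.fromBlocks e 0 0 f) (blocks_idem he hf) =
      K0.cls e he + K0.cls f hf := by
  rw [K0.cls, ← V.add_cls he hf]
  exact map_add Algebra.GrothendieckAddGroup.of _ _

theorem K0.cls_zero : K0.cls (0 : Matrix ι ι R) (by simp) = 0 := by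
  rw [K0.cls, V.cls_zero]
  exact map_zero Algebra.GrothendieckAddGroup.of

/-- Orthogonal idempotents add up in `K_0`. -/
theorem K0.cls_add {e f : Matrix ι ι R} (he : e * e = e) (hf : f * f = f)
    (hef : e * f = 0) (hfe : f * e = 0) (h : (e + f) * (e + f) = e + f) :
    K0.cls (e + f) h = K0.cls e he + K0.cls f hf := by
  rw [← K0.cls_blocks he hf]
  apply K0.cls_eq_of_mvn
  refine ⟨Matrix.fromCols e f, Matrix.fromRows e f, ?_, ?_⟩
  · rw [Matrix.fromCols_mul_fromRows, he, hf]
  · rw [Matrix.fromRows_mul_fromCols, he, hf, hef, hfe]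

theorem K0.mk_eq (a b : V R) (hb : b ∈ (⊤ : AddSubmonoid (V R))) :
    (AddLocalization.mk a ⟨b, hb⟩ : K0 R) =
      (Algebra.GrothendieckAddGroup.of a - Algebra.GrothendieckAddGroup.of b : K0 R) := by
  have h := Algebra.GrothendieckAddGroup.mk_sub_mk a b (0 : (⊤ : AddSubmonoid (V R))) 0
  have ha : (Algebra.GrothendieckAddGroup.of a : Algebra.GrothendieckAddGroup (V R)) =
      AddLocalization.mk a 0 := (AddLocalization.mk_zero_eq_addMonoidOf_mk a).symm
  have hb : (Algebra.GrothendieckAddGroup.of b : Algebra.GrothendieckAddGroup (V R)) =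
      AddLocalization.mk b 0 := (AddLocalization.mk_zero_eq_addMonoidOf_mk b).symm
  change (AddLocalization.mk a ⟨b, _⟩ : Algebra.GrothendieckAddGroup (V R)) =
    (Algebra.GrothendieckAddGroup.of a - Algebra.GrothendieckAddGroup.of b :
      Algebra.GrothendieckAddGroup (V R))
  rw [ha, hb, h]
  congr 1
  · simp
  · apply Subtype.ext
    simp

theorem K0.cls_submatrix {e : Matrix ι ι R} (he : e * e = e) (σ : κ ≃ ι) :
    K0.cls (e.submatrix σ σ) (by rw [submatrix_mul_equiv, he]) = K0.cls e he :=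
  K0.cls_eq_of_mvn _ _ (MvN.submatrix he σ)

/-- Every element of `K_0` is a difference of classes of idempotent matrices. -/
theorem K0.exists_rep (x : K0 R) : ∃ (n : ℕ) (e f : Matrix (Fin n) (Fin n) R)
    (he : e * e = e) (hf : f * f = f), x = K0.cls e he - K0.cls f hf := by
  induction x using AddLocalization.ind with
  | H y => ?_
  obtain ⟨a, b, hb⟩ := y
  induction a using V.ind with | h n e he => ?_
  revert hb
  induction b using V.ind with | h m f hf => ?_
  intro hb
  have h0n : (0 : Matrix (Fin n) (Fin n) R) * 0 = 0 := by simp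
  have h0m : (0 : Matrix (Fin m) (Fin m) R) * 0 = 0 := by simp
  have he' : K0.cls (Matrix.fromBlocks e 0 0 (0 : Matrix (Fin m) (Fin m) R))
      (blocks_idem he h0m) = K0.cls e he := by
    rw [K0.cls_blocks he h0m, K0.cls_zero, add_zero]
  have hf' : K0.cls (Matrix.fromBlocks (0 : Matrix (Fin n) (Fin n) R) 0 0 f)
      (blocks_idem h0n hf) = K0.cls f hf := by
    rw [K0.cls_blocks h0n hf, K0.cls_zero, zero_add]
  refine ⟨n + m, (Matrix.fromBlocks e 0 0 (0 : Matrix (Fin m) (Fin m) R)).submatrix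
      finSumFinEquiv.symm finSumFinEquiv.symm,
    (Matrix.fromBlocks (0 : Matrix (Fin n) (Fin n) R) 0 0 f).submatrix
      finSumFinEquiv.symm finSumFinEquiv.symm,
    by rw [submatrix_mul_equiv, blocks_idem he h0m],
    by rw [submatrix_mul_equiv, blocks_idem h0n hf], ?_⟩
  rw [K0.cls_submatrix (blocks_idem he h0m), K0.cls_submatrix (blocks_idem h0n hf), he', hf']
  exact K0.mk_eq _ _ _

theorem V.map_aux (φ : R →+* S) {e : Matrix ι ι R} (he : e * e = e) :
    Quotient.map (sa := idemSetoid R) (sb := idemSetoid S)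
      (fun e => ⟨e.size, e.mat.map φ, mapMat_idem φ e.idem⟩)
      (fun _ _ h => MvN.map φ h) (V.cls e he) = V.cls (e.map φ) (mapMat_idem φ he) :=
  Quotient.sound (IdemMat.of_map_mvn φ he)

theorem V.map_cls (φ : R →+* S) {e : Matrix ι ι R} (he : e * e = e) :
    V.map φ (V.cls e he) = V.cls (e.map φ) (mapMat_idem φ he) :=
  V.map_aux φ he

theorem K0.map_cls (φ : R →+* S) {e : Matrix ι ι R} (he : e * e = e) :
    K0.map φ (K0.cls e he) = K0.cls (e.map φ) (mapMat_idem φ he) := by
  have h := DFunLike.congr_fun (Algebra.GrothendieckAddGroup.lift.left_inv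
    (Algebra.GrothendieckAddGroup.of.comp (V.map φ))) (V.cls e he)
  change Algebra.GrothendieckAddGroup.lift _ (Algebra.GrothendieckAddGroup.of (V.cls e he)) = _
    at h
  change Algebra.GrothendieckAddGroup.lift _ (Algebra.GrothendieckAddGroup.of (V.cls e he)) = _
  exact h.trans (congrArg Algebra.GrothendieckAddGroup.of (V.map_cls φ he))

theorem K0.map_comp (φ : R →+* S) (ψ : S →+* T) (x : K0 R) :
    K0.map (ψ.comp φ) x = K0.map ψ (K0.map φ x) := by
  obtain ⟨n, e, f, he, hf, rfl⟩ := K0.exists_rep x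
  rw [map_sub, map_sub, map_sub, K0.map_cls, K0.map_cls, K0.map_cls, K0.map_cls, K0.map_cls,
    K0.map_cls]
  rfl

/-- Equality in `K_0` is stable equivalence. -/
theorem K0.cls_eq_iff {e : Matrix ι ι R} {f : Matrix κ κ R} (he : e * e = e)
    (hf : f * f = f) : K0.cls e he = K0.cls f hf ↔
      ∃ n : ℕ, MvN (Matrix.fromBlocks e 0 0 (1 : Matrix (Fin n) (Fin n) R))
        (Matrix.fromBlocks f 0 0 (1 : Matrix (Fin n) (Fin n) R)) := by
  constructor
  · intro h
    have h1 : ∃ c : V R, c + V.cls e he = c + V.cls f hf := by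
      change (Algebra.GrothendieckAddGroup.of (V.cls e he) :
        Algebra.GrothendieckAddGroup (V R)) = Algebra.GrothendieckAddGroup.of (V.cls f hf) at h
      obtain ⟨c, hc⟩ := (AddLocalization.addMonoidOf (⊤ : AddSubmonoid (V R))).eq_iff_exists.1 h
      exact ⟨c, hc⟩
    obtain ⟨c, hc⟩ := h1
    induction c using V.ind with | h n g hg => ?_
    refine ⟨n, ?_⟩
    have hg' : (1 - g) * (1 - g) = 1 - g := by
      rw [mul_sub, sub_mul, sub_mul, hg, one_mul, mul_one, one_mul, sub_self, sub_zero]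
    have h2 : V.cls g hg + V.cls (1 - g) hg' =
        V.cls (1 : Matrix (Fin n) (Fin n) R) (one_mul 1) := by
      rw [V.add_cls, V.cls_eq_iff]
      refine (MvN.symm ?_)
      refine ⟨Matrix.fromCols g (1 - g), Matrix.fromRows g (1 - g), ?_, ?_⟩
      · rw [Matrix.fromCols_mul_fromRows, hg, hg', add_sub_cancel]
      · rw [Matrix.fromRows_mul_fromCols, hg, hg']
        congr 1
        · rw [mul_sub, hg, mul_one, sub_self]
        · rw [sub_mul, hg, one_mul, sub_self]
    have h3 : V.cls e he + V.cls (1 : Matrix (Fin n) (Fin n) R) (one_mul 1) =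
        V.cls f hf + V.cls (1 : Matrix (Fin n) (Fin n) R) (one_mul 1) := by
      rw [← h2, ← add_assoc, ← add_assoc, add_comm (V.cls e he), add_comm (V.cls f hf), hc]
    rwa [V.add_cls, V.add_cls, V.cls_eq_iff] at h3
  · rintro ⟨n, h⟩
    have h1 := K0.cls_eq_of_mvn (blocks_idem he (one_mul 1)) (blocks_idem hf (one_mul 1)) h
    rw [K0.cls_blocks he (one_mul 1), K0.cls_blocks hf (one_mul 1)] at h1
    exact add_right_cancel h1

/-- Conjugate idempotents have the same class. -/
theorem K0.cls_conj [DecidableEq ι] {e f : Matrix ι ι R} (he : e * e = e) (hf : f * f = f)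
    (u v : Matrix ι ι R) (huv : u * v = 1) (hvu : v * u = 1) (h : u * e * v = f) :
    K0.cls e he = K0.cls f hf := by
  apply K0.cls_eq_of_mvn
  refine ⟨e * v, u * e, ?_, ?_⟩
  · rw [Matrix.mul_assoc, ← Matrix.mul_assoc v, hvu, Matrix.one_mul, he]
  · rw [Matrix.mul_assoc, ← Matrix.mul_assoc e, he, ← h, Matrix.mul_assoc]

end Toolkit

end Vale.Agent.P212
end
end

section

section

/-! Close idempotents, almost idempotents. -/

namespace Vale.Agent.P212

/-- Close idempotents are equivalent. -/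
theorem mvn_of_close {A : Type} [NormedRing A] [CompleteSpace A] {e f : A}
    (he : e * e = e) (hf : f * f = f) (h : ‖2 * e - 1‖ * ‖e - f‖ < 1) :
    ∃ x y : A, x * y = e ∧ y * x = f := by
  have ht : ‖(2 * e - 1) * (e - f)‖ < 1 := (norm_mul_le _ _).trans_lt h
  set u : Aˣ := Units.oneSub ((2 * e - 1) * (e - f)) ht with hu
  have hz : (u : A) = e * f + (1 - e) * (1 - f) := by
    rw [hu, Units.val_oneSub]
    have h1 : (2 * e - 1) * (e - f) = 2 * (e * e) - e - 2 * (e * f) + f := by noncomm_ring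
    rw [h1, he]
    noncomm_ring
  have h1 : e * u = e * f := by
    rw [hz]
    have : e * (e * f + (1 - e) * (1 - f)) = (e * e) * f + (e - e * e) * (1 - f) := by
      noncomm_ring
    rw [this, he, sub_self, zero_mul, add_zero]
  have h2 : (u : A) * f = e * f := by
    rw [hz]
    have : (e * f + (1 - e) * (1 - f)) * f = e * (f * f) + (1 - e) * (f - f * f) := by
      noncomm_ring
    rw [this, hf, sub_self, mul_zero, add_zero]
  refine ⟨e * u, (↑u⁻¹ : A) * e, ?_, ?_⟩
  · rw [mul_assoc, ← mul_assoc (u : A), Units.mul_inv, one_mul, he]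
  · rw [mul_assoc, ← mul_assoc e, he, h1, ← h2, ← mul_assoc, Units.inv_mul, one_mul]

/-- one Newton step -/
def newton {A : Type} [NonUnitalRing A] (x : A) : A :=
  x * x + x * x + x * x - x * x * x - x * x * x

theorem newton_sub {A : Type} [Ring A] (x : A) :
    newton x - x = (x * x - x) - (x * (x * x - x) + x * (x * x - x)) := by
  unfold newton
  noncomm_ring

theorem newton_idem {A : Type} [Ring A] (x : A) :
    newton x * newton x - newton x =
      (x * x - x) * (x * x - x) * ((x * x - x) + (x * x - x) + (x * x - x) + (x * x - x)) -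
      ((x * x - x) * (x * x - x) + (x * x - x) * (x * x - x) + (x * x - x) * (x * x - x)) := by
  unfold newton
  noncomm_ring

theorem norm_newton_sub_le {A : Type} [NormedRing A] (x : A) :
    ‖newton x - x‖ ≤ (2 * ‖x‖ + 1) * ‖x * x - x‖ := by
  rw [newton_sub]
  have h1 := norm_sub_le (x * x - x) (x * (x * x - x) + x * (x * x - x))
  have h2 := norm_add_le (x * (x * x - x)) (x * (x * x - x))
  have h3 := norm_mul_le x (x * x - x)
  linarith only [h3, h2, h1]

theorem norm_newton_idem_le {A : Type} [NormedRing A] (x : A) (δ : ℝ) (hδ : δ ≤ 1 / 8)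
    (hx : ‖x * x - x‖ ≤ δ) : ‖newton x * newton x - newton x‖ ≤ ‖x * x - x‖ / 2 := by
  rw [newton_idem]
  set y := x * x - x with hy
  have h0 := norm_nonneg y
  have h1 := norm_sub_le (y * y * (y + y + y + y)) (y * y + y * y + y * y)
  have h2 := norm_mul_le (y * y) (y + y + y + y)
  have h3 := norm_mul_le y y
  have h4 : ‖y + y + y + y‖ ≤ 4 * ‖y‖ := by
    have a1 := norm_add_le (y + y + y) y
    have a2 := norm_add_le (y + y) y
    have a3 := norm_add_le y y
    linarith
  have h5 : ‖y * y + y * y + y * y‖ ≤ 3 * (‖y‖ * ‖y‖) := by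
    have a2 := norm_add_le (y * y + y * y) (y * y)
    have a3 := norm_add_le (y * y) (y * y)
    linarith
  have h6 : ‖y * y‖ * ‖y + y + y + y‖ ≤ (‖y‖ * ‖y‖) * (4 * ‖y‖) := by gcongr
  have h7 : ‖y‖ ≤ 1 / 8 := hx.trans hδ
  have h8 : ‖y‖ * ‖y‖ ≤ ‖y‖ * (1 / 8) := mul_le_mul_of_nonneg_left h7 h0
  have h9 : (‖y‖ * ‖y‖) * (4 * ‖y‖) ≤ (‖y‖ * (1 / 8)) * (4 * (1 / 8)) := by gcongr
  linarith only [h0, h1, h2, h5, h6, h8, h9]

/-- Almost idempotent elements are close to idempotents in any closed set which is stable under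
the Newton step. -/
theorem exists_idem_near_set {A : Type} [NormedRing A] [CompleteSpace A] (M ε : ℝ) (hM : 0 < M)
    (hε : 0 < ε) :
    ∃ δ > 0, ∀ (N : Set A), IsClosed N → (∀ z ∈ N, newton z ∈ N) → ∀ x ∈ N, ‖x‖ ≤ M →
      ‖x * x - x‖ < δ → ∃ f ∈ N, f * f = f ∧ ‖f - x‖ < ε := by
  have hm : 0 < min 1 (ε / 2) := lt_min one_pos (by positivity)
  set δ : ℝ := min (1 / 8) (min 1 (ε / 2) / (2 * (2 * M + 3))) with hδdef
  have hδ : 0 < δ := lt_min (by norm_num) (by positivity)
  have hδ8 : δ ≤ 1 / 8 := min_le_left _ _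
  have hδ2 : 2 * (2 * M + 3) * δ ≤ min 1 (ε / 2) := by
    have := min_le_right (1 / 8) (min 1 (ε / 2) / (2 * (2 * M + 3)))
    rw [← hδdef, le_div_iff₀ (by positivity)] at this
    linarith
  clear_value δ
  refine ⟨δ, hδ, fun N hN hnewt x hxN hxM hx => ?_⟩
  -- the Newton sequence
  set s : ℕ → A := fun k => newton^[k] x with hs
  have hs0 : s 0 = x := rfl
  have hs1 : ∀ k, s (k + 1) = newton (s k) := fun k => by
    rw [hs]
    exact Function.iterate_succ_apply' _ _ _
  have hmem : ∀ k, s k ∈ N := by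
    intro k
    induction k with
    | zero => exact hxN
    | succ k ih =>
      rw [hs1]
      exact hnewt _ ih
  set C : ℝ := 2 * ((2 * M + 3) * δ) with hC
  have hC1 : C ≤ 1 := by
    have := hδ2.trans (min_le_left _ _)
    rw [hC]
    linarith
  have hC2 : C ≤ ε / 2 := by
    have := hδ2.trans (min_le_right _ _)
    rw [hC]
    linarith
  have hinv : ∀ k, ‖s k * s k - s k‖ ≤ δ / 2 ^ k ∧ ‖s k - x‖ ≤ C * (1 - 1 / 2 ^ k) := by
    intro k
    induction k with
    | zero =>
      rw [hs0]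
      simp only [pow_zero, div_one, sub_self, norm_zero, mul_zero, le_refl, and_true]
      exact hx.le
    | succ k ih =>
      obtain ⟨h1, h2⟩ := ih
      have h3 : δ / 2 ^ k ≤ δ := div_le_self hδ.le (one_le_pow₀ one_le_two)
      have hCpos : 0 ≤ C := by rw [hC]; positivity
      have h4 : ‖s k‖ ≤ M + 1 := by
        have a1 : ‖s k‖ ≤ ‖s k - x‖ + ‖x‖ := by
          have := norm_add_le (s k - x) x
          rwa [sub_add_cancel] at this
        have a2 : C * (1 - 1 / 2 ^ k) ≤ C := by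
          have : (0 : ℝ) ≤ 1 / 2 ^ k := by positivity
          (by_contra nlg; linarith only [mul_pos (sub_pos.2 (not_le.1 nlg)) (sub_pos.2 hδ), mul_nonneg (le_of_lt (sub_pos.2 (not_le.1 nlg))) (sub_nonneg.2 hδ8), mul_nonneg (sub_nonneg.2 hCpos) (sub_nonneg.2 this)])
        linarith only [a2, a1, h2, hC1, hxM]
      rw [hs1]
      constructor
      · refine (norm_newton_idem_le (s k) δ hδ8 (h1.trans h3)).trans ?_
        rw [pow_succ, ← div_div]
        exact div_le_div_of_nonneg_right h1 two_pos.le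
      · have h5 := norm_newton_sub_le (s k)
        have h6 : (2 * ‖s k‖ + 1) * ‖s k * s k - s k‖ ≤ (2 * M + 3) * (δ / 2 ^ k) := by
          refine mul_le_mul (by linarith only [h4]) h1 (norm_nonneg _) (by positivity)
        have h7 : ‖newton (s k) - x‖ ≤ ‖newton (s k) - s k‖ + ‖s k - x‖ := by
          have := norm_add_le (newton (s k) - s k) (s k - x)
          rwa [sub_add_sub_cancel] at this
        have h8 : (2 * M + 3) * (δ / 2 ^ k) = C * (1 / 2 ^ k - 1 / 2 ^ (k + 1)) := by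
          rw [hC, pow_succ]
          field_simp
          ring
        have h9 : C * (1 - 1 / 2 ^ (k + 1)) =
            C * (1 / 2 ^ k - 1 / 2 ^ (k + 1)) + C * (1 - 1 / 2 ^ k) := by ring
        rw [h9]
        linarith only [h8, h7, h6, h5, h2]
  have hdist : ∀ k, dist (s k) (s (k + 1)) ≤ C / 2 / 2 ^ k := by
    intro k
    obtain ⟨h1, h2⟩ := hinv k
    have hCpos : 0 ≤ C := by rw [hC]; positivity
    have h4 : ‖s k‖ ≤ M + 1 := by
      have a1 : ‖s k‖ ≤ ‖s k - x‖ + ‖x‖ := by
        have := norm_add_le (s k - x) x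
        rwa [sub_add_cancel] at this
      have a2 : C * (1 - 1 / 2 ^ k) ≤ C := by
        have : (0 : ℝ) ≤ 1 / 2 ^ k := by positivity
        (by_contra nlg; linarith only [nlg, mul_nonneg (sub_nonneg.2 hCpos) (sub_nonneg.2 this), mul_nonneg (le_of_lt (sub_pos.2 (not_le.1 nlg))) (sub_nonneg.2 hδ8), mul_pos (sub_pos.2 (not_le.1 nlg)) (sub_pos.2 hδ)])
      linarith only [a2, a1, h2, hC1, hxM]
    rw [dist_comm, dist_eq_norm, hs1]
    refine (norm_newton_sub_le (s k)).trans ?_
    have h6 : (2 * ‖s k‖ + 1) * ‖s k * s k - s k‖ ≤ (2 * M + 3) * (δ / 2 ^ k) := by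
      refine mul_le_mul (by linarith only [h4]) h1 (norm_nonneg _) (by positivity)
    refine h6.trans (le_of_eq ?_)
    rw [hC]
    field_simp
  have hcau : CauchySeq s := cauchySeq_of_le_geometric_two hdist
  obtain ⟨f, hf⟩ := cauchySeq_tendsto_of_complete hcau
  refine ⟨f, hN.mem_of_tendsto hf (Filter.Eventually.of_forall hmem), ?_, ?_⟩
  · have h1 : Filter.Tendsto (fun k => s k * s k - s k) Filter.atTop (nhds (f * f - f)) :=
      (hf.mul hf).sub hf
    have h2 : Filter.Tendsto (fun k => s k * s k - s k) Filter.atTop (nhds 0) := by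
      refine squeeze_zero_norm (fun k => (hinv k).1) ?_
      have : Filter.Tendsto (fun k : ℕ => δ * (1 / 2 : ℝ) ^ k) Filter.atTop (nhds (δ * 0)) :=
        (tendsto_pow_atTop_nhds_zero_of_lt_one (by norm_num) (by norm_num)).const_mul δ
      rw [mul_zero] at this
      refine this.congr fun k => ?_
      rw [one_div, inv_pow, div_eq_mul_inv]
    exact sub_eq_zero.1 (tendsto_nhds_unique h1 h2)
  · have h1 := dist_le_of_le_geometric_two_of_tendsto₀ hdist hf
    rw [hs0, dist_comm, dist_eq_norm] at h1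
    linarith

end Vale.Agent.P212
end
end

section

section

/-! Almost idempotents are close to idempotents, with constants independent of the algebra. -/

namespace Vale.Agent.P212

theorem exists_idem_near_unif (M ε : ℝ) (hM : 0 < M) (hε : 0 < ε) :
    ∃ δ > 0, ∀ (A : Type) [NormedRing A] [CompleteSpace A] (x : A), ‖x‖ ≤ M →
      ‖x * x - x‖ ≤ δ → ∃ f : A, f * f = f ∧ ‖f - x‖ < ε := by
  have hm : 0 < min 1 (ε / 2) := lt_min one_pos (by positivity)
  set δ : ℝ := min (1 / 8) (min 1 (ε / 2) / (2 * (2 * M + 3))) with hδdef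
  have hδ : 0 < δ := lt_min (by norm_num) (by positivity)
  have hδ8 : δ ≤ 1 / 8 := min_le_left _ _
  have hδ2 : 2 * (2 * M + 3) * δ ≤ min 1 (ε / 2) := by
    have := min_le_right (1 / 8) (min 1 (ε / 2) / (2 * (2 * M + 3)))
    rw [← hδdef, le_div_iff₀ (by positivity)] at this
    linarith
  clear_value δ
  refine ⟨δ, hδ, fun A _ _ x hxM hx => ?_⟩
  -- the Newton sequence
  set s : ℕ → A := fun k => newton^[k] x with hs
  have hs0 : s 0 = x := rfl
  have hs1 : ∀ k, s (k + 1) = newton (s k) := fun k => by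
    rw [hs]
    exact Function.iterate_succ_apply' _ _ _
  set C : ℝ := 2 * ((2 * M + 3) * δ) with hC
  have hC1 : C ≤ 1 := by
    have := hδ2.trans (min_le_left _ _)
    rw [hC]
    linarith
  have hC2 : C ≤ ε / 2 := by
    have := hδ2.trans (min_le_right _ _)
    rw [hC]
    linarith only [this]
  have hinv : ∀ k, ‖s k * s k - s k‖ ≤ δ / 2 ^ k ∧ ‖s k - x‖ ≤ C * (1 - 1 / 2 ^ k) := by
    intro k
    induction k with
    | zero =>
      rw [hs0]
      simp only [pow_zero, div_one, sub_self, norm_zero, mul_zero, le_refl, and_true]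
      exact hx
    | succ k ih =>
      obtain ⟨h1, h2⟩ := ih
      have h3 : δ / 2 ^ k ≤ δ := div_le_self hδ.le (one_le_pow₀ one_le_two)
      have hCpos : 0 ≤ C := by rw [hC]; positivity
      have h4 : ‖s k‖ ≤ M + 1 := by
        have a1 : ‖s k‖ ≤ ‖s k - x‖ + ‖x‖ := by
          have := norm_add_le (s k - x) x
          rwa [sub_add_cancel] at this
        have a2 : C * (1 - 1 / 2 ^ k) ≤ C := by
          have : (0 : ℝ) ≤ 1 / 2 ^ k := by positivity
          (by_contra nlg; linarith only [mul_pos (sub_pos.2 (not_le.1 nlg)) (sub_pos.2 hδ), mul_nonneg (le_of_lt (sub_pos.2 (not_le.1 nlg))) (sub_nonneg.2 hδ8), mul_nonneg (sub_nonneg.2 hCpos) (sub_nonneg.2 this)])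
        linarith only [a2, a1, h2, hC1, hxM]
      rw [hs1]
      constructor
      · refine (norm_newton_idem_le (s k) δ hδ8 (h1.trans h3)).trans ?_
        rw [pow_succ, ← div_div]
        exact div_le_div_of_nonneg_right h1 two_pos.le
      · have h5 := norm_newton_sub_le (s k)
        have h6 : (2 * ‖s k‖ + 1) * ‖s k * s k - s k‖ ≤ (2 * M + 3) * (δ / 2 ^ k) := by
          refine mul_le_mul (by linarith only [h4]) h1 (norm_nonneg _) (by positivity)
        have h7 : ‖newton (s k) - x‖ ≤ ‖newton (s k) - s k‖ + ‖s k - x‖ := by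
          have := norm_add_le (newton (s k) - s k) (s k - x)
          rwa [sub_add_sub_cancel] at this
        have h8 : (2 * M + 3) * (δ / 2 ^ k) = C * (1 / 2 ^ k - 1 / 2 ^ (k + 1)) := by
          rw [hC, pow_succ]
          field_simp
          ring
        have h9 : C * (1 - 1 / 2 ^ (k + 1)) =
            C * (1 / 2 ^ k - 1 / 2 ^ (k + 1)) + C * (1 - 1 / 2 ^ k) := by ring
        rw [h9]
        linarith only [h8, h7, h6, h5, h2]
  have hdist : ∀ k, dist (s k) (s (k + 1)) ≤ C / 2 / 2 ^ k := by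
    intro k
    obtain ⟨h1, h2⟩ := hinv k
    have hCpos : 0 ≤ C := by rw [hC]; positivity
    have h4 : ‖s k‖ ≤ M + 1 := by
      have a1 : ‖s k‖ ≤ ‖s k - x‖ + ‖x‖ := by
        have := norm_add_le (s k - x) x
        rwa [sub_add_cancel] at this
      have a2 : C * (1 - 1 / 2 ^ k) ≤ C := by
        have : (0 : ℝ) ≤ 1 / 2 ^ k := by positivity
        (by_contra nlg; linarith only [nlg, mul_nonneg (sub_nonneg.2 hCpos) (sub_nonneg.2 this), mul_nonneg (le_of_lt (sub_pos.2 (not_le.1 nlg))) (sub_nonneg.2 hδ8), mul_pos (sub_pos.2 (not_le.1 nlg)) (sub_pos.2 hδ)])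
      linarith only [a2, a1, h2, hC1, hxM]
    rw [dist_comm, dist_eq_norm, hs1]
    refine (norm_newton_sub_le (s k)).trans ?_
    have h6 : (2 * ‖s k‖ + 1) * ‖s k * s k - s k‖ ≤ (2 * M + 3) * (δ / 2 ^ k) := by
      refine mul_le_mul (by linarith only [h4]) h1 (norm_nonneg _) (by positivity)
    refine h6.trans (le_of_eq ?_)
    rw [hC]
    field_simp
  have hcau : CauchySeq s := cauchySeq_of_le_geometric_two hdist
  obtain ⟨f, hf⟩ := cauchySeq_tendsto_of_complete hcau
  refine ⟨f, ?_, ?_⟩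
  · have h1 : Filter.Tendsto (fun k => s k * s k - s k) Filter.atTop (nhds (f * f - f)) :=
      (hf.mul hf).sub hf
    have h2 : Filter.Tendsto (fun k => s k * s k - s k) Filter.atTop (nhds 0) := by
      refine squeeze_zero_norm (fun k => (hinv k).1) ?_
      have : Filter.Tendsto (fun k : ℕ => δ * (1 / 2 : ℝ) ^ k) Filter.atTop (nhds (δ * 0)) :=
        (tendsto_pow_atTop_nhds_zero_of_lt_one (by norm_num) (by norm_num)).const_mul δ
      rw [mul_zero] at this
      refine this.congr fun k => ?_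
      rw [one_div, inv_pow, div_eq_mul_inv]
    exact sub_eq_zero.1 (tendsto_nhds_unique h1 h2)
  · have h1 := dist_le_of_le_geometric_two_of_tendsto₀ hdist hf
    rw [hs0, dist_comm, dist_eq_norm] at h1
    linarith only [h1, hC2, hε]

end Vale.Agent.P212
end
end

section

section

/-! Norm estimates for block matrices. -/

set_option linter.unusedSectionVars false

namespace Vale.Agent.P212

open Matrix
open scoped Matrix.Norms.L2Operator Kronecker

section Norms

variable {m n k l : Type} [Fintype m] [Fintype n] [Fintype k] [Fintype l]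
  [DecidableEq m] [DecidableEq n] [DecidableEq k] [DecidableEq l]

theorem norm_sq_eq (A : Matrix m n ℂ) : ‖A‖ ^ 2 = ‖Aᴴ * A‖ := by
  rw [l2_opNorm_conjTranspose_mul_self, sq]

/-- A self-adjoint projection has norm at most one. -/
theorem norm_le_one_of_proj {p : Matrix m m ℂ} (h1 : pᴴ = p) (h2 : p * p = p) : ‖p‖ ≤ 1 := by
  have h := norm_sq_eq p
  rw [h1, h2] at h
  (by_contra nlg; linarith [mul_eq_zero_of_left (sub_eq_zero.2 h) (‖p‖ - (0)), mul_eq_zero_of_left (sub_eq_zero.2 h) (‖p‖ - (1)), mul_pos (sub_pos.2 (not_le.1 nlg)) (sub_pos.2 (not_le.1 nlg))])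

theorem norm_one_le' : ‖(1 : Matrix m m ℂ)‖ ≤ 1 :=
  norm_le_one_of_proj (by simp) (by simp)

/-- `‖A‖ ≤ 1` if `Aᴴ A` is a projection. -/
theorem norm_le_one_of_proj_left {A : Matrix m n ℂ} (h : (Aᴴ * A) * (Aᴴ * A) = Aᴴ * A) :
    ‖A‖ ≤ 1 := by
  have h1 : ‖Aᴴ * A‖ ≤ 1 := norm_le_one_of_proj (by
    rw [conjTranspose_mul, conjTranspose_conjTranspose]) h
  rw [← norm_sq_eq] at h1
  nlinarith [norm_nonneg A]

theorem norm_le_one_of_proj_right {A : Matrix m n ℂ} (h : (A * Aᴴ) * (A * Aᴴ) = A * Aᴴ) :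
    ‖A‖ ≤ 1 := by
  rw [← l2_opNorm_conjTranspose]
  apply norm_le_one_of_proj_left
  rw [conjTranspose_conjTranspose]
  exact h

/-- Selecting rows along an injective map. -/
theorem norm_sel_le (f : k → m) (hf : Function.Injective f) :
    ‖(1 : Matrix m m ℂ).submatrix f id‖ ≤ 1 := by
  apply norm_le_one_of_proj_right
  have : (1 : Matrix m m ℂ).submatrix f id * ((1 : Matrix m m ℂ).submatrix f id)ᴴ = 1 := by
    ext i j
    simp only [mul_apply, submatrix_apply, id_eq, conjTranspose_apply, one_apply]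
    rw [Finset.sum_eq_single (f i)]
    · by_cases h : i = j
      · subst h; simp
      · have : f j ≠ f i := fun e => h (hf e.symm)
        simp [h, this]
    · intro b _ hb
      simp [hb.symm]
    · simp
  rw [this, one_mul]

theorem submatrix_eq_sel (x : Matrix m n ℂ) (f : k → m) (g : l → n) :
    x.submatrix f g = (1 : Matrix m m ℂ).submatrix f id * x *
      ((1 : Matrix n n ℂ).submatrix g id)ᴴ := by
  ext i j
  simp [mul_apply, one_apply]

theorem norm_submatrix_le (x : Matrix m n ℂ) (f : k → m) (g : l → n)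
    (hf : Function.Injective f) (hg : Function.Injective g) : ‖x.submatrix f g‖ ≤ ‖x‖ := by
  rw [submatrix_eq_sel]
  calc _ ≤ ‖(1 : Matrix m m ℂ).submatrix f id‖ * ‖x‖ * ‖((1 : Matrix n n ℂ).submatrix g id)ᴴ‖ :=
        (l2_opNorm_mul _ _).trans (mul_le_mul_of_nonneg_right (l2_opNorm_mul _ _) (norm_nonneg _))
    _ ≤ 1 * ‖x‖ * 1 := by
        rw [l2_opNorm_conjTranspose]
        have := norm_sel_le f hf
        have := norm_sel_le g hg
        gcongr
    _ = ‖x‖ := by ring

theorem norm_submatrix_equiv (x : Matrix m n ℂ) (f : k ≃ m) (g : l ≃ n) :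
    ‖x.submatrix f g‖ = ‖x‖ := by
  refine le_antisymm (norm_submatrix_le x f g f.injective g.injective) ?_
  have h : x = (x.submatrix f g).submatrix f.symm g.symm := by
    ext i j; simp
  conv_lhs => rw [h]
  exact norm_submatrix_le _ _ _ f.symm.injective g.symm.injective

/-- Embedding along injective maps (padding by zeros). -/
theorem norm_pad_le (x : Matrix k l ℂ) (f : k → m) (g : l → n)
    (hf : Function.Injective f) (hg : Function.Injective g) :
    ‖((1 : Matrix m m ℂ).submatrix f id)ᴴ * x * (1 : Matrix n n ℂ).submatrix g id‖ ≤ ‖x‖ := by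
  calc _ ≤ ‖((1 : Matrix m m ℂ).submatrix f id)ᴴ‖ * ‖x‖ * ‖(1 : Matrix n n ℂ).submatrix g id‖ :=
        (l2_opNorm_mul _ _).trans (mul_le_mul_of_nonneg_right (l2_opNorm_mul _ _) (norm_nonneg _))
    _ ≤ 1 * ‖x‖ * 1 := by
        rw [l2_opNorm_conjTranspose]
        have := norm_sel_le f hf
        have := norm_sel_le g hg
        gcongr
    _ = ‖x‖ := by ring

end Norms

section Hom

variable {m n : Type} [Fintype m] [Fintype n] [DecidableEq m] [DecidableEq n]

/-- Amplification as a star homomorphism. -/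
noncomputable def ampHom (m B : Type) [Fintype m] [DecidableEq m] [Fintype B] [DecidableEq B] :
    Matrix m m ℂ →⋆ₙₐ[ℂ] Matrix (m × B) (m × B) ℂ where
  toFun x := x ⊗ₖ (1 : Matrix B B ℂ)
  map_smul' c x := by simp [smul_kronecker]
  map_zero' := by simp
  map_add' x y := by simp [add_kronecker]
  map_mul' x y := by rw [← mul_kronecker_mul, one_mul]
  map_star' x := by
    simp only [star_eq_conjTranspose, conjTranspose_kronecker, conjTranspose_one]

theorem norm_kron_one_le {B : Type} [Fintype B] [DecidableEq B] (x : Matrix m m ℂ) :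
    ‖x ⊗ₖ (1 : Matrix B B ℂ)‖ ≤ ‖x‖ :=
  NonUnitalStarAlgHom.norm_apply_le (ampHom m B) x

/-- Amplification on the other side as a star homomorphism. -/
noncomputable def ampHom' (m B : Type) [Fintype m] [DecidableEq m] [Fintype B] [DecidableEq B] :
    Matrix B B ℂ →⋆ₙₐ[ℂ] Matrix (m × B) (m × B) ℂ where
  toFun x := (1 : Matrix m m ℂ) ⊗ₖ x
  map_smul' c x := by simp [kronecker_smul]
  map_zero' := by simp
  map_add' x y := by simp [kronecker_add]
  map_mul' x y := by rw [← mul_kronecker_mul, one_mul]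
  map_star' x := by
    simp only [star_eq_conjTranspose, conjTranspose_kronecker, conjTranspose_one]

theorem norm_one_kron_le {B : Type} [Fintype B] [DecidableEq B] (x : Matrix B B ℂ) :
    ‖(1 : Matrix m m ℂ) ⊗ₖ x‖ ≤ ‖x‖ :=
  NonUnitalStarAlgHom.norm_apply_le (ampHom' m B) x

/-- Block diagonal embedding. -/
noncomputable def blkHom (m n : Type) [Fintype m] [DecidableEq m] [Fintype n] [DecidableEq n] :
    (Matrix m m ℂ × Matrix n n ℂ) →⋆ₙₐ[ℂ] Matrix (m ⊕ n) (m ⊕ n) ℂ where
  toFun x := fromBlocks x.1 0 0 x.2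
  map_smul' c x := by simp [fromBlocks_smul]
  map_zero' := by simp
  map_add' x y := by simp [fromBlocks_add]
  map_mul' x y := by simp [fromBlocks_multiply]
  map_star' x := by simp [star_eq_conjTranspose, fromBlocks_conjTranspose]

theorem norm_fromBlocks_diag_le (a : Matrix m m ℂ) (d : Matrix n n ℂ) :
    ‖fromBlocks a 0 0 d‖ ≤ max ‖a‖ ‖d‖ :=
  NonUnitalStarAlgHom.norm_apply_le (blkHom m n) (a, d)

/-- Block diagonal embedding. -/
noncomputable def blkHom' (ι : Type) (B : ι → Type) [Fintype ι] [DecidableEq ι]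
    [∀ i, Fintype (B i)] [∀ i, DecidableEq (B i)] :
    (∀ i, Matrix (B i) (B i) ℂ) →⋆ₙₐ[ℂ] Matrix (Σ i, B i) (Σ i, B i) ℂ where
  toFun x := blockDiagonal' x
  map_smul' c x := by simp [blockDiagonal'_smul]
  map_zero' := by simp
  map_add' x y := by simp [blockDiagonal'_add]
  map_mul' x y := by
    rw [← blockDiagonal'_mul]; rfl
  map_star' x := by
    simp only [star_eq_conjTranspose, blockDiagonal'_conjTranspose]
    rfl

theorem norm_blockDiagonal'_le {ι : Type} {B : ι → Type} [Fintype ι] [DecidableEq ι]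
    [∀ i, Fintype (B i)] [∀ i, DecidableEq (B i)] (x : ∀ i, Matrix (B i) (B i) ℂ) :
    ‖blockDiagonal' x‖ ≤ ‖x‖ :=
  NonUnitalStarAlgHom.norm_apply_le (blkHom' ι B) x

end Hom

end Vale.Agent.P212
end
end

section

section

/-! Ranks of almost idempotent matrices. -/

set_option linter.unusedSectionVars false

namespace Vale.Agent.P212

open Matrix
open scoped Matrix.Norms.L2Operator Kronecker

section Rank

variable {β : Type} [Fintype β] [DecidableEq β]

/-- A matrix close to an idempotent has at least the rank of the idempotent. -/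
theorem rank_le_of_close {z u : Matrix β β ℂ} (hz : z * z = z) (h : ‖u - z‖ < 1) :
    z.rank ≤ u.rank := by
  have h1 : u * z = (1 + (u - z)) * z := by
    rw [add_mul, one_mul, sub_mul, hz, add_sub_cancel]
  have h2 : IsUnit (1 + (u - z)) := by
    have := (Units.oneSub (-(u - z)) (by rwa [norm_neg])).isUnit
    rw [Units.val_oneSub, sub_neg_eq_add] at this
    exact this
  have h3 : ((1 + (u - z)) * z).rank = z.rank :=
    rank_mul_eq_right_of_isUnit_det _ _ ((isUnit_iff_isUnit_det _).1 h2)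
  rw [← h3, ← h1]
  exact rank_mul_le_left _ _

/-- Idempotents at distance less than one have the same rank. -/
theorem rank_eq_of_close {z z' : Matrix β β ℂ} (hz : z * z = z) (hz' : z' * z' = z')
    (h : ‖z - z'‖ < 1) : z.rank = z'.rank :=
  le_antisymm (rank_le_of_close hz (by rwa [norm_sub_rev])) (rank_le_of_close hz' h)

/-- `z` is an idempotent close to `y`. -/
def NearId (y : Matrix β β ℂ) (ε : ℝ) : Prop := ∃ z : Matrix β β ℂ, z * z = z ∧ ‖z - y‖ < ε

theorem NearId.mono {y : Matrix β β ℂ} {ε ε' : ℝ} (h : NearId y ε) (hε : ε ≤ ε') :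
    NearId y ε' := by
  obtain ⟨z, hz, h⟩ := h
  exact ⟨z, hz, h.trans_le hε⟩

open Classical in
/-- The rank of an almost idempotent matrix: the rank of an idempotent at distance less than
`1/4` (and zero if there is none). -/
noncomputable def rk (y : Matrix β β ℂ) : ℕ :=
  if h : NearId y (1 / 4) then (Classical.choose h).rank else 0

theorem rk_eq {y z : Matrix β β ℂ} (hz : z * z = z) (h : ‖z - y‖ < 1 / 4) :
    rk y = z.rank := by
  have hn : NearId y (1 / 4) := ⟨z, hz, h⟩
  have h0 := Classical.choose_spec hn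
  rw [rk, dif_pos hn]
  refine rank_eq_of_close h0.1 hz ?_
  have : Classical.choose hn - z = (Classical.choose hn - y) - (z - y) := by abel
  rw [this]
  have := norm_sub_le (Classical.choose hn - y) (z - y)
  linarith only [h0.2, this, h]

theorem rk_eq_of_close {y y' : Matrix β β ℂ} (h : NearId y (1 / 8)) (h' : ‖y - y'‖ < 1 / 8) :
    rk y = rk y' := by
  obtain ⟨z, hz, h⟩ := h
  rw [rk_eq hz (by linarith : ‖z - y‖ < 1 / 4), rk_eq (y := y') hz]
  have : z - y' = (z - y) + (y - y') := by abel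
  rw [this]
  have := norm_add_le (z - y) (y - y')
  linarith only [this, h, h']

/-- Almost idempotent matrices are close to idempotents. -/
theorem nearId_of_norm (C ε : ℝ) (hε : 0 < ε) : ∃ δ > 0, ∀ (β : Type) [Fintype β]
    [DecidableEq β] (y : Matrix β β ℂ), ‖y‖ ≤ C → ‖y * y - y‖ ≤ δ → NearId y ε := by
  obtain ⟨δ, hδ, h⟩ := exists_idem_near_unif (max C 1) ε (lt_max_of_lt_right one_pos) hε
  refine ⟨δ, hδ, fun β _ _ y hy hyy => ?_⟩
  exact h (Matrix β β ℂ) y (hy.trans (le_max_left _ _)) hyy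

/-- The rank of an idempotent is its trace. -/
theorem rank_eq_trace {z : Matrix β β ℂ} (hz : z * z = z) : (z.rank : ℂ) = z.trace := by
  have h : IsIdempotentElem (toLin' z) := by
    rw [IsIdempotentElem, Module.End.mul_eq_comp, ← toLin'_mul, hz]
  have := (LinearMap.IsIdempotentElem.isProj_range _ h).trace
  rw [Matrix.trace_toLin'_eq] at this
  rw [this]
  rfl

theorem rk_blocks {β' : Type} [Fintype β'] [DecidableEq β'] {y : Matrix β β ℂ}
    {y' : Matrix β' β' ℂ} (h : NearId y (1 / 4)) (h' : NearId y' (1 / 4)) :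
    rk (fromBlocks y 0 0 y') = rk y + rk y' := by
  obtain ⟨z, hz, h⟩ := h
  obtain ⟨z', hz', h'⟩ := h'
  have hb : fromBlocks z 0 0 z' * fromBlocks z 0 0 z' = fromBlocks z 0 0 z' := by
    simp [fromBlocks_multiply, hz, hz']
  have hn : ‖fromBlocks z 0 0 z' - fromBlocks y 0 0 y'‖ < 1 / 4 := by
    have : fromBlocks z 0 0 z' - fromBlocks y 0 0 y' = fromBlocks (z - y) 0 0 (z' - y') := by
      ext (i | i) (j | j) <;> simp
    rw [this]
    exact (norm_fromBlocks_diag_le _ _).trans_lt (max_lt h h')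
  rw [rk_eq hb hn, rk_eq hz h, rk_eq hz' h']
  have : ((fromBlocks z 0 0 z').rank : ℂ) = ((z.rank + z'.rank : ℕ) : ℂ) := by
    rw [rank_eq_trace hb, Nat.cast_add, rank_eq_trace hz, rank_eq_trace hz']
    simp [trace, Fintype.sum_sum_type]
  exact_mod_cast this

theorem rk_blockDiagonal' {ι : Type} {B : ι → Type} [Fintype ι] [DecidableEq ι]
    [∀ i, Fintype (B i)] [∀ i, DecidableEq (B i)] {y : ∀ i, Matrix (B i) (B i) ℂ}
    (h : ∀ i, NearId (y i) (1 / 4)) : rk (blockDiagonal' y) = ∑ i, rk (y i) := by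
  choose z hz h using h
  have hb : blockDiagonal' z * blockDiagonal' z = blockDiagonal' z := by
    rw [← blockDiagonal'_mul]
    congr 1
    funext i
    exact hz i
  have hn : ‖blockDiagonal' z - blockDiagonal' y‖ < 1 / 4 := by
    rw [← blockDiagonal'_sub]
    refine (norm_blockDiagonal'_le _).trans_lt ?_
    rw [pi_norm_lt_iff (by norm_num)]
    exact h
  rw [rk_eq hb hn]
  have : ((blockDiagonal' z).rank : ℂ) = ((∑ i, rk (y i) : ℕ) : ℂ) := by
    rw [rank_eq_trace hb, Nat.cast_sum, trace_blockDiagonal']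
    refine Finset.sum_congr rfl fun i _ => ?_
    rw [rk_eq (hz i) (h i), rank_eq_trace (hz i)]
  exact_mod_cast this

theorem rk_reindex {β' : Type} [Fintype β'] [DecidableEq β'] (σ : β' ≃ β) (y : Matrix β β ℂ) :
    rk (y.submatrix σ σ) = rk y := by
  by_cases h : NearId y (1 / 4)
  · obtain ⟨z, hz, h⟩ := h
    have h1 : z.submatrix σ σ * z.submatrix σ σ = z.submatrix σ σ := by
      rw [submatrix_mul_equiv, hz]
    have h2 : ‖z.submatrix σ σ - y.submatrix σ σ‖ < 1 / 4 := by
      have : z.submatrix σ σ - y.submatrix σ σ = (z - y).submatrix σ σ := rfl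
      rw [this, norm_submatrix_equiv]
      exact h
    rw [rk_eq h1 h2, rk_eq hz h, rank_submatrix]
  · have h' : ¬ NearId (y.submatrix σ σ) (1 / 4) := by
      rintro ⟨z, hz, hn⟩
      apply h
      refine ⟨z.submatrix σ.symm σ.symm, ?_, ?_⟩
      · rw [submatrix_mul_equiv, hz]
      · have : z.submatrix σ.symm σ.symm - y =
            (z - y.submatrix σ σ).submatrix σ.symm σ.symm := by
          ext i j; simp
        rw [this, norm_submatrix_equiv]
        exact hn
    simp only [rk, dif_neg h, dif_neg h']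

/-- Compression by a contraction does not increase the rank. -/
theorem rk_le_of_compress {β' : Type} [Fintype β'] [DecidableEq β'] {y : Matrix β β ℂ}
    {y' : Matrix β' β' ℂ} (S : Matrix β' β ℂ) (S' : Matrix β β' ℂ) (hS : ‖S‖ ≤ 1)
    (hS' : ‖S'‖ ≤ 1) (hy : NearId y (1 / 4)) (hy' : NearId y' (1 / 4))
    (h : ‖S * y * S' - y'‖ ≤ 1 / 4) : rk y' ≤ rk y := by
  obtain ⟨w, hw, hwy⟩ := hy
  obtain ⟨w', hw', hwy'⟩ := hy'
  rw [rk_eq hw hwy, rk_eq hw' hwy']
  have h1 : ‖S * w * S' - w'‖ < 1 := by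
    have e : S * w * S' - w' = S * (w - y) * S' + (S * y * S' - y') - (w' - y') := by
      simp only [Matrix.mul_sub, Matrix.sub_mul]; abel
    rw [e]
    have a1 : ‖S * (w - y) * S'‖ ≤ ‖w - y‖ := by
      calc _ ≤ ‖S‖ * ‖w - y‖ * ‖S'‖ :=
            (l2_opNorm_mul _ _).trans
              (mul_le_mul_of_nonneg_right (l2_opNorm_mul _ _) (norm_nonneg _))
        _ ≤ 1 * ‖w - y‖ * 1 := by gcongr
        _ = _ := by ring
    have a2 := norm_sub_le (S * (w - y) * S' + (S * y * S' - y')) (w' - y')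
    have a3 := norm_add_le (S * (w - y) * S') (S * y * S' - y')
    linarith only [a3, a2, a1, hwy', hwy, h]
  calc w'.rank ≤ (S * w * S').rank := rank_le_of_close hw' h1
    _ ≤ (S * w).rank := rank_mul_le_left _ _
    _ ≤ w.rank := rank_mul_le_right _ _

end Rank

end Vale.Agent.P212
end
end

section

section

/-! Ranks of almost idempotent matrices, and twisting by bundles. -/

set_option linter.unusedSectionVars false

namespace Vale.Agent.P212

open Matrix
open scoped Matrix.Norms.L2Operator Kronecker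

variable {α B B' : Type} [Fintype α] [DecidableEq α] [Fintype B] [DecidableEq B]
  [Fintype B'] [DecidableEq B']

/-- The block diagonal matrix given by a matrix valued function. -/
def dia (M : α → Matrix B B' ℂ) : Matrix (α × B) (α × B') ℂ :=
  fun a b => if a.1 = b.1 then M a.1 a.2 b.2 else 0

/-- The amplification of a matrix. -/
abbrev amp (B : Type) [DecidableEq B] (x : Matrix α α ℂ) : Matrix (α × B) (α × B) ℂ :=
  x ⊗ₖ (1 : Matrix B B ℂ)

/-- The matrix `x` twisted by a projection valued function. -/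
def tw (Q : α → Matrix B B ℂ) (x : Matrix α α ℂ) : Matrix (α × B) (α × B) ℂ :=
  dia Q * amp B x * dia Q

/-- The matrix `x` almost commutes with the matrix entries of `M`. -/
def AlmComm (δ : ℝ) (x : Matrix α α ℂ) (M : α → Matrix B B' ℂ) : Prop :=
  ∀ b b', ‖x * diagonal (fun a => M a b b') - diagonal (fun a => M a b b') * x‖ ≤ δ ∧
    ‖x * diagonal (fun a => star (M a b b')) - diagonal (fun a => star (M a b b')) * x‖ ≤ δ

/-- A self-adjoint projection valued function. -/
def IsBun (Q : α → Matrix B B ℂ) : Prop := ∀ a, (Q a)ᴴ = Q a ∧ Q a * Q a = Q a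

theorem dia_mul {B'' : Type} [Fintype B''] (M : α → Matrix B B' ℂ) (N : α → Matrix B' B'' ℂ) :
    dia M * dia N = dia (fun a => M a * N a) := by
  ext ⟨a, b⟩ ⟨a', b'⟩
  simp only [dia, mul_apply, Fintype.sum_prod_type]
  rw [Finset.sum_eq_single a]
  · by_cases h : a = a'
    · subst h; simp
    · simp [h]
  · intro c _ hc
    simp [hc.symm]
  · simp

theorem dia_conjTranspose (M : α → Matrix B B' ℂ) : (dia M)ᴴ = dia (fun a => (M a)ᴴ) := by
  ext ⟨a, b⟩ ⟨a', b'⟩
  simp only [dia, conjTranspose_apply]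
  by_cases h : a' = a
  · subst h; simp
  · simp [h, Ne.symm h]

theorem dia_eq_sum (M : α → Matrix B B' ℂ) :
    dia M = ∑ b, ∑ b', diagonal (fun a => M a b b') ⊗ₖ single b b' (1 : ℂ) := by
  ext ⟨a, b⟩ ⟨a', b'⟩
  simp only [dia, Matrix.sum_apply, kroneckerMap_apply, single_apply, diagonal_apply]
  rw [Finset.sum_eq_single b, Finset.sum_eq_single b']
  · simp
  · intro c _ hc
    simp [hc]
  · simp
  · intro c _ hc
    simp [hc]
  · simp

theorem IsBun.dia {Q : α → Matrix B B ℂ} (h : IsBun Q) : (dia Q)ᴴ = dia Q ∧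
    dia Q * dia Q = dia Q := by
  constructor
  · rw [dia_conjTranspose]
    congr 1
    funext a
    exact (h a).1
  · rw [dia_mul]
    congr 1
    funext a
    exact (h a).2

theorem IsBun.norm_le {Q : α → Matrix B B ℂ} (h : IsBun Q) : ‖Vale.Agent.P212.dia Q‖ ≤ 1 :=
  norm_le_one_of_proj h.dia.1 h.dia.2

theorem amp_mul (x y : Matrix α α ℂ) : amp B x * amp B y = amp B (x * y) := by
  rw [amp, amp, amp, ← mul_kronecker_mul, one_mul]

theorem amp_sub (x y : Matrix α α ℂ) : amp B (x - y) = amp B x - amp B y := by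
  ext ⟨a, b⟩ ⟨a', b'⟩
  simp [kroneckerMap_apply, sub_mul]

theorem norm_amp_le (x : Matrix α α ℂ) : ‖amp B x‖ ≤ ‖x‖ := norm_kron_one_le x

theorem norm_kron_single_le (y : Matrix α α ℂ) (b : B) (b' : B') :
    ‖y ⊗ₖ single b b' (1 : ℂ)‖ ≤ ‖y‖ := by
  have h1 : y ⊗ₖ single b b' (1 : ℂ) = amp B y * ((1 : Matrix α α ℂ) ⊗ₖ single b b' (1 : ℂ)) := by
    rw [amp, ← mul_kronecker_mul, Matrix.one_mul, Matrix.mul_one]
  have h2 : ‖(1 : Matrix α α ℂ) ⊗ₖ single b b' (1 : ℂ)‖ ≤ 1 := by
    apply norm_le_one_of_proj_left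
    rw [conjTranspose_kronecker, ← mul_kronecker_mul, conjTranspose_one, one_mul,
      conjTranspose_single, single_mul_single_same, ← mul_kronecker_mul, one_mul,
      single_mul_single_same]
    simp
  rw [h1]
  calc _ ≤ ‖amp B y‖ * ‖(1 : Matrix α α ℂ) ⊗ₖ single b b' (1 : ℂ)‖ := l2_opNorm_mul _ _
    _ ≤ ‖y‖ * 1 := by
      gcongr
      exact norm_amp_le y
    _ = _ := mul_one _

/-- Commutator of an amplification with a matrix valued function. -/
theorem AlmComm.norm_comm_le {δ : ℝ} {x : Matrix α α ℂ} {M : α → Matrix B B' ℂ}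
    (h : AlmComm δ x M) :
    ‖amp B x * dia M - dia M * amp B' x‖ ≤ Fintype.card B * Fintype.card B' * δ := by
  have h1 : amp B x * dia M - dia M * amp B' x = ∑ b, ∑ b',
      (x * diagonal (fun a => M a b b') - diagonal (fun a => M a b b') * x) ⊗ₖ
        single b b' (1 : ℂ) := by
    rw [dia_eq_sum, Matrix.mul_sum, Matrix.sum_mul, ← Finset.sum_sub_distrib]
    refine Finset.sum_congr rfl fun b _ => ?_
    rw [Matrix.mul_sum, Matrix.sum_mul, ← Finset.sum_sub_distrib]
    refine Finset.sum_congr rfl fun b' _ => ?_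
    rw [amp, amp, ← mul_kronecker_mul, ← mul_kronecker_mul, Matrix.one_mul, Matrix.mul_one]
    ext ⟨a, c⟩ ⟨a', c'⟩
    simp only [kroneckerMap_apply, Matrix.sub_apply, sub_mul]
  rw [h1]
  refine (norm_sum_le _ _).trans ?_
  calc ∑ b, ‖∑ b', (x * diagonal (fun a => M a b b') - diagonal (fun a => M a b b') * x) ⊗ₖ
        single b b' (1 : ℂ)‖ ≤ ∑ _b : B, ∑ _b' : B', δ := by
        refine Finset.sum_le_sum fun b _ => (norm_sum_le _ _).trans ?_
        refine Finset.sum_le_sum fun b' _ => ?_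
        exact (norm_kron_single_le _ _ _).trans (h b b').1
    _ = _ := by simp [mul_assoc]

theorem AlmComm.conj {δ : ℝ} {x : Matrix α α ℂ} {M : α → Matrix B B' ℂ}
    (h : AlmComm δ x M) : AlmComm δ x (fun a => (M a)ᴴ) := by
  intro b b'
  refine ⟨(h b' b).2, ?_⟩
  have := (h b' b).1
  simpa [conjTranspose_apply] using this

theorem AlmComm.nonneg {δ : ℝ} {x : Matrix α α ℂ} {M : α → Matrix B B' ℂ}
    (h : AlmComm δ x M) (b : B) (b' : B') : 0 ≤ δ :=
  (norm_nonneg _).trans (h b b').1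

theorem AlmComm.norm_comm_le' {δ : ℝ} {x : Matrix α α ℂ} {M : α → Matrix B B' ℂ}
    (h : AlmComm δ x M) (hδ : 0 ≤ δ) {n : ℕ} (h1 : Fintype.card B ≤ n)
    (h2 : Fintype.card B' ≤ n) :
    ‖amp B x * dia M - dia M * amp B' x‖ ≤ n * n * δ := by
  refine h.norm_comm_le.trans ?_
  have h1' : (Fintype.card B : ℝ) ≤ n := by exact_mod_cast h1
  have h2' : (Fintype.card B' : ℝ) ≤ n := by exact_mod_cast h2
  gcongr

theorem norm_mul3_le {m n k l : Type} [Fintype m] [Fintype n] [Fintype k] [Fintype l]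
    [DecidableEq m] [DecidableEq n] [DecidableEq k] [DecidableEq l]
    (a : Matrix m n ℂ) (b : Matrix n k ℂ) (c : Matrix k l ℂ) :
    ‖a * b * c‖ ≤ ‖a‖ * ‖b‖ * ‖c‖ :=
  (l2_opNorm_mul _ _).trans (mul_le_mul_of_nonneg_right (l2_opNorm_mul _ _) (norm_nonneg _))

theorem norm_tw_le {Q : α → Matrix B B ℂ} (hQ : IsBun Q) (x : Matrix α α ℂ) :
    ‖tw Q x‖ ≤ ‖x‖ := by
  calc _ ≤ ‖dia Q‖ * ‖amp B x‖ * ‖dia Q‖ := norm_mul3_le _ _ _
    _ ≤ 1 * ‖x‖ * 1 := by
      have := hQ.norm_le
      have := norm_amp_le (B := B) x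
      gcongr
    _ = _ := by ring

/-- Twisting an idempotent by a bundle with which it almost commutes gives an almost
idempotent. -/
theorem nearId_tw (C ε : ℝ) (hε : 0 < ε) (b : ℕ) : ∃ δ > 0, ∀ (α B : Type) [Fintype α]
    [DecidableEq α] [Fintype B] [DecidableEq B], Fintype.card B ≤ b →
    ∀ (x : Matrix α α ℂ) (Q : α → Matrix B B ℂ), ‖x‖ ≤ C → ‖x * x - x‖ ≤ δ → IsBun Q →
    AlmComm δ x Q → NearId (tw Q x) ε := by
  obtain ⟨δ₀, hδ₀, h⟩ := nearId_of_norm C ε hε
  have hpos : 0 < 1 + |C| * (b * b : ℝ) := by positivity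
  refine ⟨δ₀ / (1 + |C| * (b * b)), by positivity, fun α B _ _ _ _ hB x Q hx hxx hQ hc => ?_⟩
  set δ := δ₀ / (1 + |C| * (b * b : ℝ)) with hδ
  have hδpos : 0 < δ := by positivity
  have hδ' : |C| * (b * b * δ) + δ = δ₀ := by
    rw [hδ]; field_simp; ring
  clear_value δ
  apply h _ _ ((norm_tw_le hQ x).trans hx)
  obtain ⟨hD1, hD2⟩ := hQ.dia
  have hDn := hQ.norm_le
  have hcomm := hc.norm_comm_le' hδpos.le hB hB
  have hX := norm_amp_le (B := B) x
  have hXX : ‖amp B x * amp B x - amp B x‖ ≤ δ := by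
    rw [amp_mul, ← amp_sub]
    exact (norm_amp_le _).trans hxx
  unfold tw
  set D := dia Q
  set X := amp B x
  have e : D * X * D * (D * X * D) - D * X * D =
      D * X * (D * X - X * D) * D + D * (X * X - X) * D := by
    have e1 : D * X * D * (D * X * D) = D * X * (D * D) * X * D := by noncomm_ring
    rw [e1, hD2]
    have e2 : D * X * (D * X - X * D) * D = D * X * D * X * D - D * X * X * (D * D) := by
      noncomm_ring
    rw [e2, hD2]
    noncomm_ring
  rw [e]
  have hC0 : 0 ≤ C := (norm_nonneg _).trans hx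
  have hXC : ‖X‖ ≤ |C| := (hX.trans hx).trans (le_abs_self C)
  calc _ ≤ ‖D * X * (D * X - X * D) * D‖ + ‖D * (X * X - X) * D‖ := norm_add_le _ _
    _ ≤ (‖D * X‖ * ‖D * X - X * D‖ * ‖D‖) + (‖D‖ * ‖X * X - X‖ * ‖D‖) :=
        add_le_add (norm_mul3_le _ _ _) (norm_mul3_le _ _ _)
    _ ≤ (‖D‖ * ‖X‖ * ‖D * X - X * D‖ * ‖D‖) + (‖D‖ * ‖X * X - X‖ * ‖D‖) := by
        gcongr
        exact l2_opNorm_mul _ _
    _ ≤ (1 * |C| * (b * b * δ) * 1) + (1 * δ * 1) := by
        rw [norm_sub_rev (D * X)]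
        gcongr
    _ = δ₀ := by rw [← hδ']; ring


theorem dia_partial {Q : α → Matrix B B ℂ} {M : α → Matrix B B' ℂ}
    (h : ∀ a, M a * (M a)ᴴ = Q a) (hQ : IsBun Q) : dia M * (dia M)ᴴ = dia Q ∧
      dia Q * dia M = dia M := by
  have h1 : dia M * (dia M)ᴴ = dia Q := by
    rw [dia_conjTranspose, dia_mul]
    congr 1
    funext a
    exact h a
  refine ⟨h1, ?_⟩
  obtain ⟨hD1, hD2⟩ := hQ.dia
  have h2 : (dia M - dia Q * dia M) * (dia M - dia Q * dia M)ᴴ = 0 := by
    rw [conjTranspose_sub, conjTranspose_mul, hD1]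
    simp only [Matrix.sub_mul, Matrix.mul_sub]
    have e1 : dia M * ((dia M)ᴴ * dia Q) = dia Q := by
      rw [← Matrix.mul_assoc, h1, hD2]
    have e2 : dia Q * dia M * (dia M)ᴴ = dia Q := by
      rw [Matrix.mul_assoc, h1, hD2]
    have e3 : dia Q * dia M * ((dia M)ᴴ * dia Q) = dia Q := by
      rw [Matrix.mul_assoc, e1, hD2]
    rw [h1, e1, e2, e3]
    simp
  have h3 : dia M - dia Q * dia M = 0 := by
    have h4 := l2_opNorm_conjTranspose_mul_self (dia M - dia Q * dia M)ᴴ
    rw [conjTranspose_conjTranspose, h2, norm_zero, l2_opNorm_conjTranspose] at h4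
    exact norm_eq_zero.1 (mul_self_eq_zero.1 h4.symm)
  exact (sub_eq_zero.1 h3).symm

/-- One half of `rk_tw_iso`. -/
theorem rk_tw_le {b : ℕ} {δ : ℝ} (hδ : 0 ≤ δ) (hδb : (b * b : ℝ) * δ ≤ 1 / 8)
    (h1 : Fintype.card B ≤ b) (h2 : Fintype.card B' ≤ b)
    (x : Matrix α α ℂ) (Q : α → Matrix B B ℂ) (Q' : α → Matrix B' B' ℂ)
    (M : α → Matrix B B' ℂ)
    (hM : ∀ a, M a * (M a)ᴴ = Q a) (hM' : ∀ a, (M a)ᴴ * M a = Q' a) (hQ : IsBun Q)
    (hQ' : IsBun Q') (hcM : AlmComm δ x M) (hcQ' : AlmComm δ x Q')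
    (hn : NearId (tw Q x) (1 / 4)) (hn' : NearId (tw Q' x) (1 / 4)) :
    rk (tw Q' x) ≤ rk (tw Q x) := by
  obtain ⟨hp1, hp2⟩ := dia_partial hM hQ
  obtain ⟨hD1, hD2⟩ := hQ.dia
  obtain ⟨hD1', hD2'⟩ := hQ'.dia
  have hp3 : (dia M)ᴴ * dia M = dia Q' := by
    rw [dia_conjTranspose, dia_mul]
    congr 1
    funext a
    exact hM' a
  have hS : ‖dia M‖ ≤ 1 := norm_le_one_of_proj_left (by rw [hp3, hD2'])
  have hS' : ‖(dia M)ᴴ‖ ≤ 1 := by rwa [l2_opNorm_conjTranspose]
  refine rk_le_of_compress (dia M)ᴴ (dia M) hS' hS hn hn' ?_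
  have hc1 := hcM.norm_comm_le' hδ h1 h2
  have hc2 := hcQ'.norm_comm_le' hδ h2 h2
  have hp4 : (dia M)ᴴ * dia Q = (dia M)ᴴ := by
    have := congrArg conjTranspose hp2
    rwa [conjTranspose_mul, hD1] at this
  have e : (dia M)ᴴ * tw Q x * dia M - tw Q' x =
      (dia M)ᴴ * (amp B x * dia M - dia M * amp B' x) -
        dia Q' * (amp B' x * dia Q' - dia Q' * amp B' x) := by
    have e1 : (dia M)ᴴ * tw Q x * dia M = (dia M)ᴴ * (amp B x * dia M) := by
      rw [tw]
      calc (dia M)ᴴ * (dia Q * amp B x * dia Q) * dia M =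
          ((dia M)ᴴ * dia Q) * amp B x * (dia Q * dia M) := by
            simp only [Matrix.mul_assoc]
        _ = _ := by rw [hp4, hp2, Matrix.mul_assoc]
    have e2 : (dia M)ᴴ * (dia M * amp B' x) = dia Q' * amp B' x := by
      rw [← Matrix.mul_assoc, hp3]
    have e3 : dia Q' * (dia Q' * amp B' x) = dia Q' * amp B' x := by
      rw [← Matrix.mul_assoc, hD2']
    rw [e1, Matrix.mul_sub, Matrix.mul_sub, e2, e3, tw, Matrix.mul_assoc (dia Q')]
    abel
  rw [e]
  have hQn := hQ'.norm_le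
  calc _ ≤ ‖(dia M)ᴴ * (amp B x * dia M - dia M * amp B' x)‖ +
        ‖dia Q' * (amp B' x * dia Q' - dia Q' * amp B' x)‖ := norm_sub_le _ _
    _ ≤ ‖(dia M)ᴴ‖ * ‖amp B x * dia M - dia M * amp B' x‖ +
        ‖dia Q'‖ * ‖amp B' x * dia Q' - dia Q' * amp B' x‖ :=
        add_le_add (l2_opNorm_mul _ _) (l2_opNorm_mul _ _)
    _ ≤ 1 * (b * b * δ) + 1 * (b * b * δ) := by gcongr
    _ ≤ 1 / 4 := by linarith only [hδb]

/-- Isomorphic bundles give the same rank. -/
theorem rk_tw_iso (C : ℝ) (b : ℕ) : ∃ δ > 0, ∀ (α B B' : Type) [Fintype α]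
    [DecidableEq α] [Fintype B] [DecidableEq B] [Fintype B'] [DecidableEq B'],
    Fintype.card B ≤ b → Fintype.card B' ≤ b →
    ∀ (x : Matrix α α ℂ) (Q : α → Matrix B B ℂ) (Q' : α → Matrix B' B' ℂ)
      (M : α → Matrix B B' ℂ), ‖x‖ ≤ C → ‖x * x - x‖ ≤ δ →
    (∀ a, M a * (M a)ᴴ = Q a) → (∀ a, (M a)ᴴ * M a = Q' a) → IsBun Q → IsBun Q' →
    AlmComm δ x M → AlmComm δ x Q → AlmComm δ x Q' → rk (tw Q x) = rk (tw Q' x) := by
  obtain ⟨δ₁, hδ₁, h⟩ := nearId_tw C (1 / 4) (by norm_num) b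
  have hb : (0 : ℝ) < b * b + 1 := by positivity
  have hmono : ∀ {α B B' : Type} [Fintype α] [DecidableEq α] [Fintype B] [DecidableEq B]
      [Fintype B'] [DecidableEq B'] {δ δ' : ℝ} {x : Matrix α α ℂ} {M : α → Matrix B B' ℂ},
      δ ≤ δ' → AlmComm δ x M → AlmComm δ' x M := fun hd hc i j =>
    ⟨(hc i j).1.trans hd, (hc i j).2.trans hd⟩
  refine ⟨min δ₁ (1 / (8 * (b * b + 1))), by positivity, ?_⟩
  intro α B B' _ _ _ _ _ _ hB hB' x Q Q' M hx hxx hM hM' hQ hQ' hcM hcQ hcQ'
  set δ := min δ₁ (1 / (8 * (b * b + 1 : ℝ))) with hδ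
  have hδpos : 0 ≤ δ := by positivity
  have hδ1 : δ ≤ δ₁ := min_le_left _ _
  have hδ2 : (b * b : ℝ) * δ ≤ 1 / 8 := by
    have : δ ≤ 1 / (8 * (b * b + 1 : ℝ)) := min_le_right _ _
    calc (b * b : ℝ) * δ ≤ (b * b + 1) * (1 / (8 * (b * b + 1 : ℝ))) := by
          gcongr; linarith
      _ = 1 / 8 := by field_simp
  clear_value δ
  have hn := h α B hB x Q hx (hxx.trans hδ1) hQ (hmono hδ1 hcQ)
  have hn' := h α B' hB' x Q' hx (hxx.trans hδ1) hQ' (hmono hδ1 hcQ')
  refine le_antisymm ?_ (rk_tw_le hδpos hδ2 hB hB' x Q Q' M hM hM' hQ hQ' hcM hcQ' hn hn')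
  refine rk_tw_le hδpos hδ2 hB' hB x Q' Q (fun a => (M a)ᴴ) ?_ ?_ hQ' hQ hcM.conj hcQ hn' hn
  · intro a
    rw [conjTranspose_conjTranspose]
    exact hM' a
  · intro a
    rw [conjTranspose_conjTranspose]
    exact hM a

theorem tw_apply (Q : α → Matrix B B ℂ) (x : Matrix α α ℂ) (i j : α × B) :
    tw Q x i j = x i.1 j.1 * (Q i.1 * Q j.1) i.2 j.2 := by
  obtain ⟨a, c⟩ := i
  obtain ⟨a', c'⟩ := j
  have h1 : ∀ (a'' : α) (d : B), (dia Q * amp B x) (a, c) (a'', d) = Q a c d * x a a'' := by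
    intro a'' d
    simp only [dia, mul_apply, Fintype.sum_prod_type, kroneckerMap_apply]
    rw [Finset.sum_eq_single a, Finset.sum_eq_single d]
    · simp
    · intro e _ he
      simp [he]
    · simp
    · intro e _ he
      simp [he.symm]
    · simp
  rw [tw, mul_apply]
  simp only [Fintype.sum_prod_type, h1, dia]
  rw [Finset.sum_eq_single a']
  · simp only [if_true, mul_apply, Finset.mul_sum]
    refine Finset.sum_congr rfl fun d _ => ?_
    ring
  · intro e _ he
    simp [he]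
  · simp

/-- Direct sums of bundles. -/
theorem rk_tw_sum (C : ℝ) (b : ℕ) : ∃ δ > 0, ∀ (α ι : Type) (B : ι → Type) [Fintype α]
    [DecidableEq α] [Fintype ι] [DecidableEq ι] [∀ i, Fintype (B i)] [∀ i, DecidableEq (B i)],
    Fintype.card (Σ i, B i) ≤ b →
    ∀ (x : Matrix α α ℂ) (Q : ∀ i, α → Matrix (B i) (B i) ℂ), ‖x‖ ≤ C → ‖x * x - x‖ ≤ δ →
    (∀ i, IsBun (Q i)) → (∀ i, AlmComm δ x (Q i)) →
    rk (tw (fun a => Matrix.blockDiagonal' (fun i => Q i a)) x) = ∑ i, rk (tw (Q i) x) := by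
  obtain ⟨δ, hδ, h⟩ := nearId_tw C (1 / 4) (by norm_num) b
  refine ⟨δ, hδ, ?_⟩
  intro α ι B _ _ _ _ _ _ hcard x Q hx hxx hQ hc
  have hn : ∀ i, NearId (tw (Q i) x) (1 / 4) := by
    intro i
    refine h α (B i) ((Fintype.card_le_of_injective (Sigma.mk i) sigma_mk_injective).trans hcard)
      x (Q i) hx hxx (hQ i) (hc i)
  rw [← rk_blockDiagonal' hn]
  let σ : (Σ i, α × B i) ≃ α × (Σ i, B i) :=
    { toFun := fun p => (p.2.1, ⟨p.1, p.2.2⟩)
      invFun := fun q => ⟨q.2.1, (q.1, q.2.2)⟩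
      left_inv := fun p => rfl
      right_inv := fun q => rfl }
  rw [← rk_reindex σ]
  congr 1
  ext ⟨i, a, c⟩ ⟨j, a', c'⟩
  rw [submatrix_apply, tw_apply, ← blockDiagonal'_mul]
  simp only [σ, Equiv.coe_fn_mk]
  by_cases hij : i = j
  · subst hij
    rw [blockDiagonal'_apply_eq, blockDiagonal'_apply_eq, tw_apply]
  · rw [blockDiagonal'_apply_ne _ _ _ hij, blockDiagonal'_apply_ne _ _ _ hij, mul_zero]


theorem tw_sub (Q : α → Matrix B B ℂ) (x y : Matrix α α ℂ) :
    tw Q (x - y) = tw Q x - tw Q y := by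
  rw [tw, tw, tw, amp_sub, Matrix.mul_sub, Matrix.sub_mul]

/-- Decomposition of the index set. -/
theorem rk_tw_split (C : ℝ) (b : ℕ) : ∃ δ > 0, ∀ (α α' B : Type) [Fintype α]
    [DecidableEq α] [Fintype α'] [DecidableEq α'] [Fintype B] [DecidableEq B],
    Fintype.card B ≤ b →
    ∀ (x : Matrix (α ⊕ α') (α ⊕ α') ℂ) (Q : α ⊕ α' → Matrix B B ℂ), ‖x‖ ≤ C →
    ‖x * x - x‖ ≤ δ → IsBun Q → AlmComm δ x Q → ‖x.toBlocks₁₂‖ ≤ δ → ‖x.toBlocks₂₁‖ ≤ δ →
    rk (tw Q x) = rk (tw (fun a => Q (Sum.inl a)) x.toBlocks₁₁) +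
      rk (tw (fun a => Q (Sum.inr a)) x.toBlocks₂₂) := by
  obtain ⟨δ₁, hδ₁, h⟩ := nearId_tw C (1 / 8) (by norm_num) b
  have hmin : 0 < min (δ₁ / 2) (1 / 17) := by positivity
  refine ⟨min (δ₁ / 2) (1 / 17), hmin, ?_⟩
  intro α α' B _ _ _ _ _ _ hB x Q hx hxx hQ hc h12 h21
  set δ := min (δ₁ / 2) (1 / 17 : ℝ) with hδ
  have hd1 : δ ≤ δ₁ / 2 := min_le_left _ _
  have hd2 : δ ≤ 1 / 17 := min_le_right _ _
  clear_value δ
  have hQ1 : IsBun (fun a => Q (Sum.inl a)) := fun a => hQ _
  have hQ2 : IsBun (fun a => Q (Sum.inr a)) := fun a => hQ _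
  have hn : NearId (tw Q x) (1 / 8) := by
    refine h _ _ hB x Q hx (by linarith) hQ (fun i j => ?_)
    exact ⟨(hc i j).1.trans (by linarith), (hc i j).2.trans (by linarith)⟩
  -- the diagonal blocks
  have hb : x = fromBlocks x.toBlocks₁₁ x.toBlocks₁₂ x.toBlocks₂₁ x.toBlocks₂₂ :=
    (fromBlocks_toBlocks x).symm
  set x11 := x.toBlocks₁₁ with hx11
  set x12 := x.toBlocks₁₂ with hx12
  set x21 := x.toBlocks₂₁ with hx21
  set x22 := x.toBlocks₂₂ with hx22
  have n11 : ‖x11‖ ≤ C := by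
    have : x11 = x.submatrix Sum.inl Sum.inl := rfl
    rw [this]
    exact (norm_submatrix_le _ _ _ Sum.inl_injective Sum.inl_injective).trans hx
  have n22 : ‖x22‖ ≤ C := by
    have : x22 = x.submatrix Sum.inr Sum.inr := rfl
    rw [this]
    exact (norm_submatrix_le _ _ _ Sum.inr_injective Sum.inr_injective).trans hx
  have hprod : x12 * x21 = (x * x - x).submatrix Sum.inl Sum.inl - (x11 * x11 - x11) := by
    have e : (x * x - x).submatrix Sum.inl Sum.inl = x11 * x11 + x12 * x21 - x11 := by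
      conv_lhs => rw [hb, fromBlocks_multiply]
      ext i j
      simp
    rw [e]; abel
  have hprod' : x21 * x12 = (x * x - x).submatrix Sum.inr Sum.inr - (x22 * x22 - x22) := by
    have e : (x * x - x).submatrix Sum.inr Sum.inr = x21 * x12 + x22 * x22 - x22 := by
      conv_lhs => rw [hb, fromBlocks_multiply]
      ext i j
      simp
    rw [e]; abel
  have hsq : δ * δ ≤ δ := by (by_contra nlg; linarith only [mul_nonneg (le_of_lt (sub_pos.2 (not_le.1 nlg))) (sub_nonneg.2 hd2), mul_nonneg (le_of_lt (sub_pos.2 (not_le.1 nlg))) (sub_nonneg.2 ((norm_nonneg _).trans h12)), mul_pos (sub_pos.2 hmin) (sub_pos.2 hmin), mul_nonneg (sub_nonneg.2 hd2) (sub_nonneg.2 ((norm_nonneg _).trans h12))])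
  have hδ0 : 0 ≤ δ := (norm_nonneg _).trans h12
  have i11 : ‖x11 * x11 - x11‖ ≤ δ₁ := by
    have e : x11 * x11 - x11 = (x * x - x).submatrix Sum.inl Sum.inl - x12 * x21 := by
      rw [hprod]; abel
    rw [e]
    calc _ ≤ ‖(x * x - x).submatrix Sum.inl Sum.inl‖ + ‖x12 * x21‖ := norm_sub_le _ _
      _ ≤ ‖x * x - x‖ + ‖x12‖ * ‖x21‖ :=
        add_le_add (norm_submatrix_le _ _ _ Sum.inl_injective Sum.inl_injective)
          (l2_opNorm_mul _ _)
      _ ≤ δ + δ * δ := by gcongr
      _ ≤ δ₁ := by linarith only [hsq, hd1]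
  have i22 : ‖x22 * x22 - x22‖ ≤ δ₁ := by
    have e : x22 * x22 - x22 = (x * x - x).submatrix Sum.inr Sum.inr - x21 * x12 := by
      rw [hprod']; abel
    rw [e]
    calc _ ≤ ‖(x * x - x).submatrix Sum.inr Sum.inr‖ + ‖x21 * x12‖ := norm_sub_le _ _
      _ ≤ ‖x * x - x‖ + ‖x21‖ * ‖x12‖ :=
        add_le_add (norm_submatrix_le _ _ _ Sum.inr_injective Sum.inr_injective)
          (l2_opNorm_mul _ _)
      _ ≤ δ + δ * δ := by gcongr
      _ ≤ δ₁ := by linarith only [hsq, hd1]
  have c11 : AlmComm δ₁ x11 (fun a => Q (Sum.inl a)) := by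
    intro i j
    have key : ∀ g : α ⊕ α' → ℂ, x11 * diagonal (fun a => g (Sum.inl a)) -
        diagonal (fun a => g (Sum.inl a)) * x11 =
        (x * diagonal g - diagonal g * x).submatrix Sum.inl Sum.inl := by
      intro g
      ext p q
      simp [hx11, toBlocks₁₁, mul_diagonal, diagonal_mul]
    constructor
    · rw [key (fun a => Q a i j)]
      exact (norm_submatrix_le _ _ _ Sum.inl_injective Sum.inl_injective).trans
        ((hc i j).1.trans (by linarith only [hd1, hmin]))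
    · rw [key (fun a => star (Q a i j))]
      exact (norm_submatrix_le _ _ _ Sum.inl_injective Sum.inl_injective).trans
        ((hc i j).2.trans (by linarith))
  have c22 : AlmComm δ₁ x22 (fun a => Q (Sum.inr a)) := by
    intro i j
    have key : ∀ g : α ⊕ α' → ℂ, x22 * diagonal (fun a => g (Sum.inr a)) -
        diagonal (fun a => g (Sum.inr a)) * x22 =
        (x * diagonal g - diagonal g * x).submatrix Sum.inr Sum.inr := by
      intro g
      ext p q
      simp [hx22, toBlocks₂₂, mul_diagonal, diagonal_mul]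
    constructor
    · rw [key (fun a => Q a i j)]
      exact (norm_submatrix_le _ _ _ Sum.inr_injective Sum.inr_injective).trans
        ((hc i j).1.trans (by linarith))
    · rw [key (fun a => star (Q a i j))]
      exact (norm_submatrix_le _ _ _ Sum.inr_injective Sum.inr_injective).trans
        ((hc i j).2.trans (by linarith))
  have m11 := h _ _ hB x11 _ n11 i11 hQ1 c11
  have m22 := h _ _ hB x22 _ n22 i22 hQ2 c22
  rw [← rk_blocks (m11.mono (by norm_num)) (m22.mono (by norm_num))]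
  set x' : Matrix (α ⊕ α') (α ⊕ α') ℂ := fromBlocks x11 0 0 x22 with hx'
  have hdiff : ‖x - x'‖ ≤ 2 * δ := by
    have e : x - x' = ((1 : Matrix (α ⊕ α') (α ⊕ α') ℂ).submatrix Sum.inl id)ᴴ * x12 *
          (1 : Matrix (α ⊕ α') (α ⊕ α') ℂ).submatrix Sum.inr id +
        ((1 : Matrix (α ⊕ α') (α ⊕ α') ℂ).submatrix Sum.inr id)ᴴ * x21 *
          (1 : Matrix (α ⊕ α') (α ⊕ α') ℂ).submatrix Sum.inl id := by
      rw [hb, hx']
      ext (i | i) (j | j) <;> simp [mul_apply, one_apply]
    rw [e]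
    have a1 := norm_pad_le (m := α ⊕ α') (n := α ⊕ α') x12 Sum.inl Sum.inr
      Sum.inl_injective Sum.inr_injective
    have a2 := norm_pad_le (m := α ⊕ α') (n := α ⊕ α') x21 Sum.inr Sum.inl
      Sum.inr_injective Sum.inl_injective
    exact (norm_add_le _ _).trans (by linarith only [a2, a1, h21, h12])
  have hcl : rk (tw Q x) = rk (tw Q x') := by
    refine rk_eq_of_close hn ?_
    rw [← tw_sub]
    exact (norm_tw_le hQ _).trans_lt (by linarith only [hdiff, hd2, hmin])
  rw [hcl]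
  let σ : (α × B) ⊕ (α' × B) ≃ (α ⊕ α') × B := (Equiv.sumProdDistrib α α' B).symm
  rw [← rk_reindex σ]
  congr 1
  ext (⟨a, c⟩ | ⟨a, c⟩) (⟨a', c'⟩ | ⟨a', c'⟩) <;>
    simp [σ, tw_apply, hx']

theorem rank_amp_conj {β : Type} [Fintype β] [DecidableEq β] {U U' p : Matrix β β ℂ}
    (h1 : U' * U = 1) (hp : p * p = p) :
    (U * p * U') * (U * p * U') = U * p * U' ∧ (U * p * U').rank = p.rank := by
  have e1 : (U * p * U') * (U * p * U') = U * p * U' := by
    calc (U * p * U') * (U * p * U') = U * p * (U' * U) * p * U' := by noncomm_ring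
      _ = U * (p * p) * U' := by rw [h1]; noncomm_ring
      _ = _ := by rw [hp]
  refine ⟨e1, ?_⟩
  have : ((U * p * U').rank : ℂ) = (p.rank : ℂ) := by
    rw [rank_eq_trace e1, rank_eq_trace hp, trace_mul_comm, ← Matrix.mul_assoc, h1,
      Matrix.one_mul]
  exact_mod_cast this

/-- Twisting a conjugate of a scalar projection by a line bundle. -/
theorem rk_tw_conj (C : ℝ) (b : ℕ) : ∃ δ > 0, ∀ (α κ B : Type) [Fintype α]
    [DecidableEq α] [Fintype κ] [DecidableEq κ] [Fintype B] [DecidableEq B],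
    Fintype.card B ≤ b →
    ∀ (U U' : Matrix (α × κ) (α × κ) ℂ) (f : Matrix κ κ ℂ) (Q : α → Matrix B B ℂ),
    ‖U‖ ≤ C → ‖U'‖ ≤ C → U * U' = 1 → U' * U = 1 → f * f = f → IsBun Q →
    (∀ a, (Q a).rank = 1) → AlmComm δ U (fun a : α × κ => Q a.1) →
    AlmComm δ U' (fun a : α × κ => Q a.1) → ‖f‖ ≤ 1 →
    rk (tw (fun a : α × κ => Q a.1) (U * ((1 : Matrix α α ℂ) ⊗ₖ f) * U')) =
      Fintype.card α * f.rank := by
  set δ : ℝ := 1 / (9 * (|C| + 1) * (b * b + 1)) with hδ
  have hδpos : 0 < δ := by positivity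
  refine ⟨δ, hδpos, ?_⟩
  intro α κ B _ _ _ _ _ _ hB U U' f Q hU hU' h1 h2 hf hQ hQr hc hc' hfn
  have hbun : IsBun (fun a : α × κ => Q a.1) := fun a => hQ a.1
  obtain ⟨hD1, hD2⟩ := hbun.dia
  have hDn := hbun.norm_le
  have hc1 := hc.norm_comm_le' hδpos.le hB hB
  have hc2 := hc'.norm_comm_le' hδpos.le hB hB
  set D := dia (fun a : α × κ => Q a.1) with hDdef
  set F := amp B ((1 : Matrix α α ℂ) ⊗ₖ f) with hF
  set V := amp B U with hV
  set V' := amp B U' with hV'
  have hFF : F * F = F := by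
    rw [hF, amp_mul, ← mul_kronecker_mul, Matrix.one_mul, hf]
  have hDF : D * F = F * D := by
    ext ⟨⟨a, k⟩, c⟩ ⟨⟨a', k'⟩, c'⟩
    have e1 : (D * F) ((a, k), c) ((a', k'), c') =
        if a = a' then Q a c c' * f k k' else 0 := by
      simp only [hDdef, hF, dia, mul_apply, Fintype.sum_prod_type, kroneckerMap_apply,
        Prod.mk.injEq]
      rw [Finset.sum_eq_single a, Finset.sum_eq_single k, Finset.sum_eq_single c']
      · by_cases h : a = a'
        · subst h; simp
        · simp [h]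
      · intro e _ he
        simp [he]
      · simp
      · intro e _ he
        simp [he.symm]
      · simp
      · intro e _ he
        simp [he.symm]
      · simp
    have e2 : (F * D) ((a, k), c) ((a', k'), c') =
        if a = a' then Q a c c' * f k k' else 0 := by
      simp only [hDdef, hF, dia, mul_apply, Fintype.sum_prod_type, kroneckerMap_apply,
        Prod.mk.injEq]
      rw [Finset.sum_eq_single a', Finset.sum_eq_single k', Finset.sum_eq_single c]
      · by_cases h : a = a'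
        · subst h; simp [mul_comm]
        · simp [h]
      · intro e _ he
        simp [he.symm]
      · simp
      · intro e _ he
        simp [he]
      · simp
      · intro e _ he
        simp [he]
      · simp
    rw [e1, e2]
  have hV'V : V' * V = 1 := by rw [hV, hV', amp_mul, h2, amp, one_kronecker_one]
  have hp : (D * F) * (D * F) = D * F := by
    calc (D * F) * (D * F) = D * (F * D) * F := by noncomm_ring
      _ = (D * D) * (F * F) := by rw [← hDF]; noncomm_ring
      _ = _ := by rw [hD2, hFF]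
  obtain ⟨hi, hr⟩ := rank_amp_conj hV'V hp
  have hFn : ‖F‖ ≤ 1 := (norm_amp_le _).trans ((norm_one_kron_le f).trans hfn)
  have hVn : ‖V‖ ≤ |C| := (norm_amp_le U).trans (hU.trans (le_abs_self C))
  have hVn' : ‖V'‖ ≤ |C| := (norm_amp_le U').trans (hU'.trans (le_abs_self C))
  have htw : tw (fun a : α × κ => Q a.1) (U * ((1 : Matrix α α ℂ) ⊗ₖ f) * U') =
      D * (V * F * V') * D := by
    rw [tw, hV, hV', hF, amp_mul, amp_mul]
  have hclose : ‖V * (D * F) * V' -
      tw (fun a : α × κ => Q a.1) (U * ((1 : Matrix α α ℂ) ⊗ₖ f) * U')‖ < 1 / 4 := by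
    rw [htw]
    have e : V * (D * F) * V' - D * (V * F * V') * D =
        (V * D - D * V) * F * (V' * D) - V * (D * F) * (V' * D - D * V') := by
      have e1 : V * (D * F) * (V' * D - D * V') =
          V * D * F * V' * D - V * (D * F * D) * V' := by noncomm_ring
      have e2 : D * F * D = D * F := by
        rw [hDF, Matrix.mul_assoc, hD2]
      rw [e1, e2]
      noncomm_ring
    rw [e]
    have hb : (0 : ℝ) ≤ b * b := by (clear * -; positivity)
    calc _ ≤ ‖(V * D - D * V) * F * (V' * D)‖ + ‖V * (D * F) * (V' * D - D * V')‖ :=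
          norm_sub_le _ _
      _ ≤ ‖V * D - D * V‖ * ‖F‖ * (‖V'‖ * ‖D‖) + ‖V‖ * (‖D‖ * ‖F‖) * ‖V' * D - D * V'‖ := by
          refine add_le_add ((norm_mul3_le _ _ _).trans ?_) ((norm_mul3_le _ _ _).trans ?_)
          · gcongr
            exact l2_opNorm_mul _ _
          · gcongr
            exact l2_opNorm_mul _ _
      _ ≤ (b * b * δ) * 1 * (|C| * 1) + |C| * (1 * 1) * (b * b * δ) := by gcongr
      _ = 2 * (|C| * (b * b)) * δ := by ring
      _ ≤ 2 * ((|C| + 1) * (b * b + 1)) * δ := by gcongr <;> linarith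
      _ = 2 / 9 := by rw [hδ]; field_simp
      _ < 1 / 4 := by norm_num
  rw [rk_eq hi hclose, hr]
  have hQt : ∀ a, (Q a).trace = 1 := by
    intro a
    rw [← rank_eq_trace (hQ a).2, hQr a, Nat.cast_one]
  have : ((D * F).rank : ℂ) = ((Fintype.card α * f.rank : ℕ) : ℂ) := by
    rw [rank_eq_trace hp, Nat.cast_mul, rank_eq_trace hf]
    have e1 : ∀ i : (α × κ) × B, (D * F) i i = Q i.1.1 i.2 i.2 * f i.1.2 i.1.2 := by
      rintro ⟨⟨a, k⟩, c⟩
      simp only [hDdef, hF, dia, mul_apply, Fintype.sum_prod_type, kroneckerMap_apply,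
        Prod.mk.injEq]
      rw [Finset.sum_eq_single a, Finset.sum_eq_single k, Finset.sum_eq_single c]
      · simp
      · intro e _ he
        simp [he]
      · simp
      · intro e _ he
        simp [he.symm]
      · simp
      · intro e _ he
        simp [he.symm]
      · simp
    rw [trace]
    simp only [diag_apply, e1, Fintype.sum_prod_type]
    have e2 : ∀ (a : α) (k : κ), ∑ c, Q a c c * f k k = f k k := by
      intro a k
      rw [← Finset.sum_mul]
      have := hQt a
      rw [trace] at this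
      simp only [diag_apply] at this
      rw [this, one_mul]
    simp only [e2, Finset.sum_const, Finset.card_univ, nsmul_eq_mul, trace, diag_apply]
  exact_mod_cast this

end Vale.Agent.P212
end
end

section

section

/-! From a relation in `K_0` to an invertible matrix. -/

namespace Vale.Agent.P212

open Matrix

/-- The direct sum of `N` copies of a matrix. -/
def copies {R : Type} [Zero R] {ι : Type} (N : ℕ) (E : Matrix ι ι R) :
    Matrix (Fin N × ι) (Fin N × ι) R := fun a b => if a.1 = b.1 then E a.2 b.2 else 0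

/-- The idempotent `diag(1, 0)`. -/
def e11 (R : Type) [Ring R] : Matrix (Fin 2) (Fin 2) R := !![1, 0; 0, 0]

/-- The index set of `N E ⊕ 1_k`. -/
abbrev Ix (N k : ℕ) : Type := (Fin N × Fin 2) ⊕ Fin k

/-- The matrix `(N E ⊕ 1_k) ⊕ 0`. -/
def stab {R : Type} [Ring R] (N k : ℕ) (E : Matrix (Fin 2) (Fin 2) R) :
    Matrix (Ix N k ⊕ Ix N k) (Ix N k ⊕ Ix N k) R :=
  fromBlocks (fromBlocks (copies N E) 0 0 1) 0 0 0

theorem copies_idem {R : Type} [Ring R] (N : ℕ) {ι : Type} [Fintype ι] {E : Matrix ι ι R}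
    (hE : E * E = E) : copies N E * copies N E = copies N E := by
  ext ⟨i, a⟩ ⟨j, b⟩
  have h : (E * E) a b = E a b := by rw [hE]
  rw [Matrix.mul_apply] at h
  rw [Matrix.mul_apply, Fintype.sum_prod_type]
  simp only [copies]
  rw [Finset.sum_eq_single i]
  · by_cases hij : i = j
    · simp [hij, h]
    · simp [hij]
  · intro k _ hk
    simp [Ne.symm hk]
  · simp

theorem copies_map {R S : Type} [Ring R] [Ring S] (φ : R →+* S) (N : ℕ) {ι : Type}
    (E : Matrix ι ι R) : (copies N E).map φ = copies N (E.map φ) := by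
  ext ⟨i, a⟩ ⟨j, b⟩
  simp only [copies, Matrix.map_apply]
  split_ifs <;> simp

theorem stab_map {R S : Type} [Ring R] [Ring S] (φ : R →+* S) (N k : ℕ)
    (E : Matrix (Fin 2) (Fin 2) R) : (stab N k E).map φ = stab N k (E.map φ) := by
  simp only [stab, Matrix.fromBlocks_map, copies_map, Matrix.map_zero _ (map_zero φ)]
  rw [Matrix.map_one _ (map_zero φ) (map_one φ)]

theorem e11_map {R S : Type} [Ring R] [Ring S] (φ : R →+* S) : (e11 R).map φ = e11 S := by
  ext i j
  fin_cases i <;> fin_cases j <;> simp [e11]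

theorem stab_idem {R : Type} [Ring R] (N k : ℕ) {E : Matrix (Fin 2) (Fin 2) R}
    (hE : E * E = E) : stab N k E * stab N k E = stab N k E := by
  simp only [stab, Matrix.fromBlocks_multiply, Matrix.mul_zero, Matrix.zero_mul, add_zero,
    zero_add, Matrix.mul_one, copies_idem N hE]

theorem e11_idem (R : Type) [Ring R] : e11 R * e11 R = e11 R := by
  ext i j
  fin_cases i <;> fin_cases j <;> simp [e11, Matrix.mul_apply, Fin.sum_univ_two]

theorem K0.cls_copies {R : Type} [Ring R] (N : ℕ) {E : Matrix (Fin 2) (Fin 2) R}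
    (hE : E * E = E) (h : copies N E * copies N E = copies N E) :
    K0.cls (copies N E) h = N • K0.cls E hE := by
  induction N with
  | zero =>
    rw [zero_smul, ← K0.cls_zero (ι := Fin 0 × Fin 2)]
    apply K0.cls_congr
    ext ⟨i, a⟩
    exact i.elim0
  | succ N ih =>
    have h' := copies_idem N hE
    rw [succ_nsmul, ← ih h', ← K0.cls_blocks h' hE]
    let σ : (Fin N × Fin 2) ⊕ Fin 2 ≃ Fin (N + 1) × Fin 2 :=
      ((Equiv.sumCongr (Equiv.refl _) (Equiv.punitProd.{0, 0} (Fin 2)).symm).trans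
        (Equiv.sumProdDistrib (Fin N) PUnit.{1} (Fin 2)).symm).trans
        (Equiv.prodCongr ((Equiv.optionEquivSumPUnit.{0, 0} (Fin N)).symm.trans
          (finSuccEquivLast (n := N)).symm) (Equiv.refl _))
    rw [← K0.cls_submatrix h σ]
    apply K0.cls_congr
    ext i j
    rcases i with ⟨i, a⟩ | a <;> rcases j with ⟨j, b⟩ | b
    · simp [σ, copies, finSuccEquivLast]
    · simp [σ, copies, finSuccEquivLast]
    · simp [σ, copies, finSuccEquivLast]
      intro h
      exact absurd h (Fin.castSucc_lt_last j).ne'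
    · simp [σ, copies, finSuccEquivLast]

/-- If `x y = e` and `y x = f` then `e ⊕ 0` and `f ⊕ 0` are conjugate. -/
theorem conj_of_mvn {R : Type} [Ring R] {ι : Type} [Fintype ι] [DecidableEq ι]
    {e f : Matrix ι ι R} (he : e * e = e) (hf : f * f = f) (h : MvN e f) :
    ∃ G G' : Matrix (ι ⊕ ι) (ι ⊕ ι) R, G * G' = 1 ∧ G' * G = 1 ∧
      fromBlocks e 0 0 0 * G = G * fromBlocks f 0 0 0 := by
  obtain ⟨x, y, h1, h2⟩ := h
  have hx1 : e * (x * f) = x * f := by
    rw [← h1, ← h2]
    have : x * y * (x * (y * x)) = x * (y * x) * (y * x) := by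
      simp only [Matrix.mul_assoc]
    rw [this, Matrix.mul_assoc x, h2, hf]
  have hx2 : (x * f) * f = x * f := by rw [Matrix.mul_assoc, hf]
  have hy1 : f * (y * e) = y * e := by
    rw [← h1, ← h2]
    have : y * x * (y * (x * y)) = y * (x * y) * (x * y) := by
      simp only [Matrix.mul_assoc]
    rw [this, Matrix.mul_assoc y, h1, he]
  have hy2 : (y * e) * e = y * e := by rw [Matrix.mul_assoc, he]
  have hxy : (x * f) * (y * e) = e := by
    rw [Matrix.mul_assoc, hy1, ← Matrix.mul_assoc, h1, he]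
  have hyx : (y * e) * (x * f) = f := by
    rw [Matrix.mul_assoc, hx1, ← Matrix.mul_assoc, h2, hf]
  generalize x * f = X at *
  generalize y * e = Y at *
  refine ⟨fromBlocks X (1 - e) (1 - f) Y, fromBlocks Y (1 - f) (1 - e) X, ?_, ?_, ?_⟩
  · rw [Matrix.fromBlocks_multiply, ← Matrix.fromBlocks_one]
    congr 1
    · simp [Matrix.sub_mul, Matrix.mul_sub, he, hxy]
    · simp [Matrix.sub_mul, Matrix.mul_sub, hx1, hx2]
    · simp [Matrix.sub_mul, Matrix.mul_sub, hy1, hy2]
    · simp [Matrix.sub_mul, Matrix.mul_sub, hf, hyx]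
  · rw [Matrix.fromBlocks_multiply, ← Matrix.fromBlocks_one]
    congr 1
    · simp [Matrix.sub_mul, Matrix.mul_sub, hf, hyx]
    · simp [Matrix.sub_mul, Matrix.mul_sub, hy1, hy2]
    · simp [Matrix.sub_mul, Matrix.mul_sub, hx1, hx2]
    · simp [Matrix.sub_mul, Matrix.mul_sub, he, hxy]
  · rw [Matrix.fromBlocks_multiply, Matrix.fromBlocks_multiply]
    congr 1
    · simp [hx1, hx2]
    · simp [Matrix.mul_sub, he]
    · simp [Matrix.sub_mul, hf]
    · simp

/-- If `N ([E] - [e11]) = 0` then `N E ⊕ 1_k ⊕ 0` is conjugate to `N e11 ⊕ 1_k ⊕ 0` by an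
invertible matrix with augmentation one. -/
theorem extract {A : Type} [Ring A] [Algebra ℂ A] (aug : A →ₐ[ℂ] ℂ)
    {E : Matrix (Fin 2) (Fin 2) A} (hE : E * E = E) (haug : E.map aug = e11 ℂ) (N : ℕ)
    (h : N • (K0.cls E hE - K0.cls (e11 A) (e11_idem A)) = 0) :
    ∃ (k : ℕ) (G G' : Matrix (Ix N k ⊕ Ix N k) (Ix N k ⊕ Ix N k) A),
      G * G' = 1 ∧ G' * G = 1 ∧ G.map aug = 1 ∧ G'.map aug = 1 ∧
      stab N k E * G = G * stab N k (e11 A) := by
  have h1 : K0.cls (copies N E) (copies_idem N hE) =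
      K0.cls (copies N (e11 A)) (copies_idem N (e11_idem A)) := by
    rw [K0.cls_copies N hE, K0.cls_copies N (e11_idem A)]
    rw [smul_sub, sub_eq_zero] at h
    exact h
  obtain ⟨k, hk⟩ := (K0.cls_eq_iff _ _).1 h1
  obtain ⟨G, G', hG1, hG2, hG3⟩ := conj_of_mvn
    (blocks_idem (copies_idem N hE) (one_mul 1))
    (blocks_idem (copies_idem N (e11_idem A)) (one_mul 1)) hk
  change stab N k E * G = G * stab N k (e11 A) at hG3
  set a : Matrix (Ix N k ⊕ Ix N k) (Ix N k ⊕ Ix N k) ℂ := G.map aug with ha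
  set a' : Matrix (Ix N k ⊕ Ix N k) (Ix N k ⊕ Ix N k) ℂ := G'.map aug with ha'
  have haa' : a * a' = 1 := by
    have : (G * G').map (aug : A →+* ℂ) = (1 : Matrix _ _ A).map (aug : A →+* ℂ) := by
      rw [hG1]
    rw [Matrix.map_mul, Matrix.map_one _ (map_zero _) (map_one _)] at this
    exact this
  have ha'a : a' * a = 1 := by
    have : (G' * G).map (aug : A →+* ℂ) = (1 : Matrix _ _ A).map (aug : A →+* ℂ) := by
      rw [hG2]
    rw [Matrix.map_mul, Matrix.map_one _ (map_zero _) (map_one _)] at this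
    exact this
  set s : Matrix (Ix N k ⊕ Ix N k) (Ix N k ⊕ Ix N k) ℂ := stab N k (e11 ℂ) with hs
  have hsa : s * a = a * s := by
    have : (stab N k E * G).map (aug : A →+* ℂ) =
        (G * stab N k (e11 A)).map (aug : A →+* ℂ) := by
      rw [hG3]
    rw [Matrix.map_mul, Matrix.map_mul, stab_map, stab_map, e11_map] at this
    have h3 : E.map (aug : A →+* ℂ) = e11 ℂ := haug
    rw [h3] at this
    exact this
  have hsa' : s * a' = a' * s := by
    calc s * a' = (a' * a) * (s * a') := by rw [ha'a, Matrix.one_mul]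
      _ = a' * (a * s) * a' := by simp only [Matrix.mul_assoc]
      _ = a' * (s * a) * a' := by rw [hsa]
      _ = a' * s * (a * a') := by simp only [Matrix.mul_assoc]
      _ = a' * s := by rw [haa', Matrix.mul_one]
  have hs' : stab N k (e11 A) = s.map (algebraMap ℂ A) := by
    rw [hs, stab_map, e11_map]
  have hau : ∀ M : Matrix (Ix N k ⊕ Ix N k) (Ix N k ⊕ Ix N k) ℂ,
      (M.map (algebraMap ℂ A)).map (aug : A →+* ℂ) = M := by
    intro M
    ext i j
    simp
  refine ⟨k, G * a'.map (algebraMap ℂ A), a.map (algebraMap ℂ A) * G', ?_, ?_, ?_, ?_, ?_⟩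
  · calc G * a'.map (algebraMap ℂ A) * (a.map (algebraMap ℂ A) * G')
        = G * (a'.map (algebraMap ℂ A) * a.map (algebraMap ℂ A)) * G' := by
          simp only [Matrix.mul_assoc]
      _ = 1 := by
          rw [← Matrix.map_mul, ha'a, Matrix.map_one _ (map_zero _) (map_one _), Matrix.mul_one,
            hG1]
  · calc a.map (algebraMap ℂ A) * G' * (G * a'.map (algebraMap ℂ A))
        = a.map (algebraMap ℂ A) * (G' * G) * a'.map (algebraMap ℂ A) := by
          simp only [Matrix.mul_assoc]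
      _ = 1 := by
          rw [hG2, Matrix.mul_one, ← Matrix.map_mul, haa',
            Matrix.map_one _ (map_zero _) (map_one _)]
  · change (G * a'.map (algebraMap ℂ A)).map (aug : A →+* ℂ) = 1
    rw [Matrix.map_mul, hau]
    exact haa'
  · change (a.map (algebraMap ℂ A) * G').map (aug : A →+* ℂ) = 1
    rw [Matrix.map_mul, hau]
    exact haa'
  · rw [← Matrix.mul_assoc, hG3, Matrix.mul_assoc, Matrix.mul_assoc, hs', ← Matrix.map_mul,
      ← Matrix.map_mul, hsa']

end Vale.Agent.P212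
end
end

section

section

/-! The Bott projection of a pair of commuting unitaries. -/

namespace Vale.Agent.P212

open Matrix ComplexStarModule

/-- The negative part of the imaginary part of an element of a C*-algebra. -/
noncomputable def hneg {A : Type} [CStarAlgebra A] (u : A) : A :=
  cfc (fun x : ℝ => max (-x) 0) (ℑ u : A)

/-- The nilpotent matrix `(1/4) [[h^2, h (1 + y)], [-h (1 - y), -h^2]]`, `y = (u + u*)/2`. -/
noncomputable def bottC {A : Type} [Ring A] [StarRing A] [Algebra ℂ A] (u h : A) :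
    Matrix (Fin 2) (Fin 2) A :=
  (1 / 4 : ℂ) • !![h * h, h * (1 + (1 / 2 : ℂ) • (u + star u));
    -(h * (1 - (1 / 2 : ℂ) • (u + star u))), -(h * h)]

/-- `e11 + C (v - 1) + (C (v - 1))*`. -/
noncomputable def bott {A : Type} [Ring A] [StarRing A] [Algebra ℂ A] (u v h : A) :
    Matrix (Fin 2) (Fin 2) A :=
  e11 A + (bottC u h).map (fun a => a * (v - 1)) + ((bottC u h).map (fun a => a * (v - 1)))ᴴ

/-- The Bott projection of `u` and `v`. -/
noncomputable def bottE {A : Type} [CStarAlgebra A] (u v : A) : Matrix (Fin 2) (Fin 2) A :=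
  bott u v (hneg u)

theorem hneg_commute {A : Type} [CStarAlgebra A] {u a : A} (h : Commute u a)
    (h' : Commute (star u) a) : Commute (hneg u) a := by
  have h1 : Commute (ℑ u : A) a := by
    rw [imaginaryPart_apply_coe]
    refine Commute.smul_left ?_ _
    exact (h.sub_left h').smul_left _
  exact h1.cfc_real _

theorem hneg_relation {A : Type} [CStarAlgebra A] (u : A) (hu : u ∈ unitary A) :
    hneg u * (ℑ u : A) = -(hneg u * hneg u) := by
  have hsa : IsSelfAdjoint (ℑ u : A) := (ℑ u).2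
  have h1 : cfc (fun x : ℝ => x) (ℑ u : A) = (ℑ u : A) := cfc_id' ℝ (ℑ u : A)
  have h2 : hneg u * (ℑ u : A) = cfc (fun x : ℝ => max (-x) 0 * x) (ℑ u : A) := by
    rw [cfc_mul (fun x : ℝ => max (-x) 0) (fun x : ℝ => x) (ℑ u : A), h1]
    rfl
  have h3 : hneg u * hneg u = cfc (fun x : ℝ => max (-x) 0 * max (-x) 0) (ℑ u : A) := by
    unfold hneg
    exact (cfc_mul (fun x : ℝ => max (-x) 0) (fun x : ℝ => max (-x) 0) (ℑ u : A)).symm
  rw [h2, h3, ← cfc_neg]
  congr 1
  funext x
  rcases le_total x 0 with hx | hx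
  · rw [max_eq_left (by linarith)]
    ring
  · rw [max_eq_right (by linarith)]
    ring

theorem star_hneg {A : Type} [CStarAlgebra A] (u : A) : star (hneg u) = hneg u := by
  unfold hneg
  exact (cfc_predicate (fun x : ℝ => max (-x) 0) (ℑ u : A)).star_eq

theorem hneg_one {A : Type} [CStarAlgebra A] : hneg (1 : A) = 0 := by
  unfold hneg
  have h1 : ((ℑ (1 : A) : selfAdjoint A) : A) = 0 := by
    rw [imaginaryPart_apply_coe]
    simp
  rw [h1, cfc_apply_zero]
  simp

open scoped CStarAlgebra in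
theorem hneg_continuous {A B : Type} [CStarAlgebra A] [CStarAlgebra B] (φ : A →⋆ₐ[ℂ] B) :
    Continuous φ := by
  exact map_continuous φ

theorem map_hneg {A B : Type} [CStarAlgebra A] [CStarAlgebra B] (φ : A →⋆ₐ[ℂ] B) (u : A) :
    φ (hneg u) = hneg (φ u) := by
  unfold hneg
  rw [← map_imaginaryPart]
  refine StarAlgHom.map_cfc φ (fun x : ℝ => max (-x) 0) (ℑ u : A) ?_ ?_ ?_ ?_
  · fun_prop
  · exact hneg_continuous φ
  · exact (ℑ u).2
  · exact IsSelfAdjoint.map (ℑ u).2 φ

theorem hneg_spectrum {A : Type} [CStarAlgebra A] (u : A) {x : ℝ}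
    (hx : x ∈ spectrum ℝ (ℑ u : A)) : |x| ≤ ‖u‖ := by
  rcases subsingleton_or_nontrivial A with hA | hA
  · rw [spectrum.of_subsingleton] at hx
    exact absurd hx (Set.notMem_empty _)
  · have h2 := spectrum.norm_le_norm_of_mem hx
    rw [Real.norm_eq_abs] at h2
    exact h2.trans (imaginaryPart.norm_le u)

/-- Polynomial approximation of the negative part, vanishing at zero. -/
theorem hneg_approx {ε : ℝ} (hε : 0 < ε) : ∃ q : Polynomial ℝ, q.coeff 0 = 0 ∧
    ∀ (A : Type) [CStarAlgebra A] (u : A), ‖u‖ ≤ 1 →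
      ‖hneg u - Polynomial.aeval (ℑ u : A) (q.map (algebraMap ℝ ℂ))‖ ≤ ε := by
  obtain ⟨q₀, hq₀⟩ := exists_polynomial_near_of_continuousOn (-1) 1
    (fun x : ℝ => max (-x) 0) (by fun_prop) (ε / 2) (half_pos hε)
  refine ⟨q₀ - Polynomial.C (q₀.eval 0), ?_, ?_⟩
  · rw [Polynomial.coeff_sub, Polynomial.coeff_C_zero, Polynomial.coeff_zero_eq_eval_zero,
      sub_self]
  · intro A _ u hu
    set q := q₀ - Polynomial.C (q₀.eval 0) with hq
    have hsa : IsSelfAdjoint (ℑ u : A) := (ℑ u).2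
    have h1 : Polynomial.aeval (ℑ u : A) (q.map (algebraMap ℝ ℂ)) =
        cfc (q.eval) (ℑ u : A) := by
      rw [Polynomial.aeval_map_algebraMap, cfc_polynomial q (ℑ u : A) hsa]
    rw [h1]
    unfold hneg
    rw [← cfc_sub (fun x : ℝ => max (-x) 0) (fun x => q.eval x) (ℑ u : A) (by fun_prop)
      (by fun_prop)]
    refine norm_cfc_le hε.le fun x hx => ?_
    have hx1 : |x| ≤ 1 := (hneg_spectrum u hx).trans hu
    rw [abs_le] at hx1
    have h4 := hq₀ x ⟨hx1.1, hx1.2⟩
    have h5 := hq₀ 0 ⟨by norm_num, by norm_num⟩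
    simp only [neg_zero, max_self, sub_zero] at h5
    rw [Real.norm_eq_abs]
    have h6 : q.eval x = q₀.eval x - q₀.eval 0 := by
      rw [hq, Polynomial.eval_sub, Polynomial.eval_C]
    rw [h6]
    rw [abs_lt] at h4 h5
    rw [abs_le]
    constructor <;> linarith [h4.1, h4.2, h5.1, h5.2]

theorem norm_hneg_le {A : Type} [CStarAlgebra A] (u : A) : ‖hneg u‖ ≤ ‖u‖ := by
  unfold hneg
  refine norm_cfc_le (norm_nonneg _) fun x hx => ?_
  refine le_trans ?_ (hneg_spectrum u hx)
  rw [Real.norm_eq_abs]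
  rcases le_total x 0 with hx | hx
  · rw [max_eq_left (by linarith), abs_neg]
  · rw [max_eq_right (by linarith), abs_zero]
    exact abs_nonneg x

/-- the algebra behind `bottE_idem`, commutative case -/
theorem bott_key {R : Type} [CommRing R] (q h y w w' : R)
    (r1 : h * h * (1 - y * y) = h * h * (h * h)) (r2 : w * w' = -(w + w')) (r3 : q + q + q + q = 1) :
    ((1 + q * (h * h) * w + w' * (q * (h * h))) * (1 + q * (h * h) * w + w' * (q * (h * h))) +
      (q * (h * (1 + y)) * w + w' * (q * -((1 - y) * h))) *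
        (q * -(h * (1 - y)) * w + w' * (q * ((1 + y) * h))) =
        1 + q * (h * h) * w + w' * (q * (h * h))) ∧
    ((1 + q * (h * h) * w + w' * (q * (h * h))) *
        (q * (h * (1 + y)) * w + w' * (q * -((1 - y) * h))) +
      (q * (h * (1 + y)) * w + w' * (q * -((1 - y) * h))) *
        (q * -(h * h) * w + w' * (q * -(h * h))) =
        q * (h * (1 + y)) * w + w' * (q * -((1 - y) * h))) ∧
    ((q * -(h * (1 - y)) * w + w' * (q * ((1 + y) * h))) *
        (1 + q * (h * h) * w + w' * (q * (h * h))) +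
      (q * -(h * h) * w + w' * (q * -(h * h))) *
        (q * -(h * (1 - y)) * w + w' * (q * ((1 + y) * h))) =
        q * -(h * (1 - y)) * w + w' * (q * ((1 + y) * h))) ∧
    ((q * -(h * (1 - y)) * w + w' * (q * ((1 + y) * h))) *
        (q * (h * (1 + y)) * w + w' * (q * -((1 - y) * h))) +
      (q * -(h * h) * w + w' * (q * -(h * h))) * (q * -(h * h) * w + w' * (q * -(h * h))) =
        q * -(h * h) * w + w' * (q * -(h * h))) := by
  refine ⟨?_, ?_, ?_, ?_⟩
  · linear_combination (-q ^ 2 * (w + w') ^ 2) * r1 + (4 * q ^ 2 * h ^ 2) * r2 -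
      (q * h ^ 2 * (w + w')) * r3
  · ring
  · ring
  · linear_combination (-q ^ 2 * (w + w') ^ 2) * r1 + (4 * q ^ 2 * h ^ 2) * r2 -
      (q * h ^ 2 * (w + w')) * r3

open scoped IsMulCommutative in
theorem bott_key' {A : Type} [Ring A] (q h y w w' : A)
    (hcomm : ∀ a ∈ ({q, h, y, w, w'} : Set A), ∀ b ∈ ({q, h, y, w, w'} : Set A), a * b = b * a)
    (r1 : h * h * (1 - y * y) = h * h * (h * h)) (r2 : w * w' = -(w + w'))
    (r3 : q + q + q + q = 1) :
    ((1 + q * (h * h) * w + w' * (q * (h * h))) * (1 + q * (h * h) * w + w' * (q * (h * h))) +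
      (q * (h * (1 + y)) * w + w' * (q * -((1 - y) * h))) *
        (q * -(h * (1 - y)) * w + w' * (q * ((1 + y) * h))) =
        1 + q * (h * h) * w + w' * (q * (h * h))) ∧
    ((1 + q * (h * h) * w + w' * (q * (h * h))) *
        (q * (h * (1 + y)) * w + w' * (q * -((1 - y) * h))) +
      (q * (h * (1 + y)) * w + w' * (q * -((1 - y) * h))) *
        (q * -(h * h) * w + w' * (q * -(h * h))) =
        q * (h * (1 + y)) * w + w' * (q * -((1 - y) * h))) ∧
    ((q * -(h * (1 - y)) * w + w' * (q * ((1 + y) * h))) *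
        (1 + q * (h * h) * w + w' * (q * (h * h))) +
      (q * -(h * h) * w + w' * (q * -(h * h))) *
        (q * -(h * (1 - y)) * w + w' * (q * ((1 + y) * h))) =
        q * -(h * (1 - y)) * w + w' * (q * ((1 + y) * h))) ∧
    ((q * -(h * (1 - y)) * w + w' * (q * ((1 + y) * h))) *
        (q * (h * (1 + y)) * w + w' * (q * -((1 - y) * h))) +
      (q * -(h * h) * w + w' * (q * -(h * h))) * (q * -(h * h) * w + w' * (q * -(h * h))) =
        q * -(h * h) * w + w' * (q * -(h * h))) := by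
  have hs : ∀ a ∈ ({q, h, y, w, w'} : Set A), a ∈ Subring.closure ({q, h, y, w, w'} : Set A) :=
    fun a ha => Subring.subset_closure ha
  have hc := Subring.isMulCommutative_closure hcomm
  have key := bott_key (R := Subring.closure ({q, h, y, w, w'} : Set A))
    ⟨q, hs q (by simp)⟩ ⟨h, hs h (by simp)⟩ ⟨y, hs y (by simp)⟩ ⟨w, hs w (by simp)⟩
    ⟨w', hs w' (by simp)⟩ (Subtype.ext r1) (Subtype.ext r2) (Subtype.ext r3)
  exact ⟨congrArg Subtype.val key.1, congrArg Subtype.val key.2.1,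
    congrArg Subtype.val key.2.2.1, congrArg Subtype.val key.2.2.2⟩

theorem bott_eq {A : Type} [CStarAlgebra A] (u v h : A) (hh : star h = h) :
    bott u v h = !![1 + algebraMap ℂ A (1 / 4) * (h * h) * (v - 1) +
        star (v - 1) * (algebraMap ℂ A (1 / 4) * (h * h)),
      algebraMap ℂ A (1 / 4) * (h * (1 + (1 / 2 : ℂ) • (u + star u))) * (v - 1) +
        star (v - 1) * (algebraMap ℂ A (1 / 4) * -((1 - (1 / 2 : ℂ) • (u + star u)) * h));
      algebraMap ℂ A (1 / 4) * -(h * (1 - (1 / 2 : ℂ) • (u + star u))) * (v - 1) +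
        star (v - 1) * (algebraMap ℂ A (1 / 4) * ((1 + (1 / 2 : ℂ) • (u + star u)) * h)),
      algebraMap ℂ A (1 / 4) * -(h * h) * (v - 1) +
        star (v - 1) * (algebraMap ℂ A (1 / 4) * -(h * h))] := by
  have h4 : star (1 / 4 : ℂ) = 1 / 4 := by simp
  have h2 : star (1 / 2 : ℂ) = 1 / 2 := by simp
  have hy : star ((1 / 2 : ℂ) • (u + star u)) = (1 / 2 : ℂ) • (u + star u) := by
    rw [star_smul, star_add, star_star, h2, add_comm]
  ext i j
  fin_cases i <;> fin_cases j
  · simp only [bott, bottC, e11, Matrix.add_apply, Matrix.map_apply, Matrix.smul_apply,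
      Matrix.conjTranspose_apply, Matrix.of_apply, Matrix.cons_val', Matrix.cons_val_zero,
      Matrix.cons_val_one, Matrix.cons_val_fin_one, Fin.zero_eta, Fin.mk_one, Fin.isValue,
      star_mul, star_smul, h4, hh, ← Algebra.smul_def]
  · simp only [bott, bottC, e11, Matrix.add_apply, Matrix.map_apply, Matrix.smul_apply,
      Matrix.conjTranspose_apply, Matrix.of_apply, Matrix.cons_val', Matrix.cons_val_zero,
      Matrix.cons_val_one, Matrix.cons_val_fin_one, Fin.zero_eta, Fin.mk_one, Fin.isValue,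
      star_mul, star_smul, star_neg, star_sub, star_one, hy, h4, hh, ← Algebra.smul_def, zero_add]
  · simp only [bott, bottC, e11, Matrix.add_apply, Matrix.map_apply, Matrix.smul_apply,
      Matrix.conjTranspose_apply, Matrix.of_apply, Matrix.cons_val', Matrix.cons_val_zero,
      Matrix.cons_val_one, Matrix.cons_val_fin_one, Fin.zero_eta, Fin.mk_one, Fin.isValue,
      star_mul, star_smul, star_neg, star_add, star_one, hy, h4, hh, ← Algebra.smul_def, zero_add]
  · simp only [bott, bottC, e11, Matrix.add_apply, Matrix.map_apply, Matrix.smul_apply,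
      Matrix.conjTranspose_apply, Matrix.of_apply, Matrix.cons_val', Matrix.cons_val_zero,
      Matrix.cons_val_one, Matrix.cons_val_fin_one, Fin.zero_eta, Fin.mk_one, Fin.isValue,
      star_mul, star_smul, star_neg, h4, hh, ← Algebra.smul_def, zero_add]

theorem commute_star_of_unitary {A : Type} [CStarAlgebra A] {u a : A} (hu : u ∈ unitary A)
    (h : Commute u a) : Commute (star u) a := by
  have h1 : star u * u = 1 := (Unitary.mem_iff.1 hu).1
  have h2 : u * star u = 1 := (Unitary.mem_iff.1 hu).2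
  calc star u * a = star u * a * (u * star u) := by rw [h2, mul_one]
    _ = star u * (a * u) * star u := by noncomm_ring
    _ = star u * (u * a) * star u := by rw [h.eq]
    _ = (star u * u) * a * star u := by noncomm_ring
    _ = a * star u := by rw [h1, one_mul]

/-- The Bott matrix of commuting unitaries is idempotent. -/
theorem bottE_idem {A : Type} [CStarAlgebra A] {u v : A} (hu : u ∈ unitary A)
    (hv : v ∈ unitary A) (h : Commute u v) : bottE u v * bottE u v = bottE u v := by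
  have hu1 : star u * u = 1 := (Unitary.mem_iff.1 hu).1
  have hu2 : u * star u = 1 := (Unitary.mem_iff.1 hu).2
  have hv1 : star v * v = 1 := (Unitary.mem_iff.1 hv).1
  have hv2 : v * star v = 1 := (Unitary.mem_iff.1 hv).2
  have huu : Commute (star u) u := by rw [Commute, SemiconjBy, hu1, hu2]
  have hvv : Commute (star v) v := by rw [Commute, SemiconjBy, hv1, hv2]
  have hsuv : Commute (star u) v := commute_star_of_unitary hu h
  have husv : Commute u (star v) := (commute_star_of_unitary hv h.symm).symm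
  have hsusv : Commute (star u) (star v) := commute_star_of_unitary hu husv
  set y : A := (1 / 2 : ℂ) • (u + star u) with hy
  set g : A := hneg u with hg
  have hyc : ∀ a, Commute u a → Commute (star u) a → Commute y a := fun a h1 h2 =>
    (h1.add_left h2).smul_left _
  have hgc : ∀ a, Commute u a → Commute (star u) a → Commute g a := fun a h1 h2 =>
    hneg_commute h1 h2
  have huw : Commute u (v - 1) := h.sub_right (Commute.one_right _)
  have hsuw : Commute (star u) (v - 1) := hsuv.sub_right (Commute.one_right _)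
  have hw's : star (v - 1) = star v - 1 := by rw [star_sub, star_one]
  have huw' : Commute u (star (v - 1)) := by
    rw [hw's]; exact husv.sub_right (Commute.one_right _)
  have hsuw' : Commute (star u) (star (v - 1)) := by
    rw [hw's]; exact hsusv.sub_right (Commute.one_right _)
  have huy : Commute u y := (hyc u (Commute.refl u) huu).symm
  have hsuy : Commute (star u) y := (hyc (star u) huu.symm (Commute.refl _)).symm
  have c1 : Commute g y := hgc _ huy hsuy
  have c2 : Commute g (v - 1) := hgc _ huw hsuw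
  have c3 : Commute g (star (v - 1)) := hgc _ huw' hsuw'
  have c4 : Commute y (v - 1) := hyc _ huw hsuw
  have c5 : Commute y (star (v - 1)) := hyc _ huw' hsuw'
  have c6 : Commute (v - 1) (star (v - 1)) := by
    rw [hw's]
    exact ((hvv.symm.sub_right (Commute.one_right _)).sub_left (Commute.one_left _))
  have cq : ∀ a : A, algebraMap ℂ A (1 / 4) * a = a * algebraMap ℂ A (1 / 4) := fun a =>
    Algebra.commutes _ _
  have hx : (ℑ u : A) = -Complex.I • (2 : ℝ)⁻¹ • (u - star u) := imaginaryPart_apply_coe u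
  have hxy : (ℑ u : A) * (ℑ u : A) = 1 - y * y := by
    have e1 : ((2 : ℝ)⁻¹ • (u - star u) : A) = (2 : ℂ)⁻¹ • (u - star u) := by
      rw [← Complex.coe_smul]
      norm_num
    rw [hx, e1, hy]
    rw [smul_smul, smul_mul_smul_comm, smul_mul_smul_comm, sub_mul, mul_sub, mul_sub, add_mul,
      mul_add, mul_add, hu1, hu2]
    have e2 : -Complex.I * (2 : ℂ)⁻¹ * (-Complex.I * (2 : ℂ)⁻¹) = -(1 / 4) := by
      have := Complex.I_mul_I
      linear_combination (1 / 4) * this
    rw [e2]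
    have e3 : (1 : A) = (1 : ℂ) • 1 := by rw [one_smul]
    rw [e3]
    module
  have r0 := hneg_relation u hu
  rw [← hg] at r0
  have r1 : g * g * (1 - y * y) = g * g * (g * g) := by
    rw [← hxy]
    calc g * g * ((ℑ u : A) * (ℑ u : A)) = g * (g * (ℑ u : A)) * (ℑ u : A) := by
          noncomm_ring
      _ = g * (-(g * g)) * (ℑ u : A) := by rw [r0]
      _ = -(g * g * (g * (ℑ u : A))) := by noncomm_ring
      _ = -(g * g * (-(g * g))) := by rw [r0]
      _ = g * g * (g * g) := by noncomm_ring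
  have r2 : (v - 1) * star (v - 1) = -((v - 1) + star (v - 1)) := by
    rw [hw's, sub_mul, mul_sub, hv2]
    noncomm_ring
  have r3 : algebraMap ℂ A (1 / 4) + algebraMap ℂ A (1 / 4) + algebraMap ℂ A (1 / 4) +
      algebraMap ℂ A (1 / 4) = 1 := by
    rw [← map_add, ← map_add, ← map_add]
    norm_num
  have key := bott_key' (algebraMap ℂ A (1 / 4)) g y (v - 1) (star (v - 1)) (by
    rintro a (rfl | rfl | rfl | rfl | rfl) b (rfl | rfl | rfl | rfl | rfl)
    all_goals first
      | rfl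
      | exact cq _
      | exact (cq _).symm
      | exact c1.eq | exact c1.eq.symm | exact c2.eq | exact c2.eq.symm
      | exact c3.eq | exact c3.eq.symm | exact c4.eq | exact c4.eq.symm
      | exact c5.eq | exact c5.eq.symm | exact c6.eq | exact c6.eq.symm) r1 r2 r3
  unfold bottE
  rw [bott_eq u v (hneg u) (star_hneg u), ← hg, ← hy]
  ext i j
  fin_cases i <;> fin_cases j
  · simp only [Matrix.mul_apply, Fin.sum_univ_two, Matrix.of_apply, Matrix.cons_val',
      Matrix.cons_val_zero, Matrix.cons_val_one, Matrix.cons_val_fin_one, Fin.zero_eta,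
      Fin.mk_one, Fin.isValue]
    exact key.1
  · simp only [Matrix.mul_apply, Fin.sum_univ_two, Matrix.of_apply, Matrix.cons_val',
      Matrix.cons_val_zero, Matrix.cons_val_one, Matrix.cons_val_fin_one, Fin.zero_eta,
      Fin.mk_one, Fin.isValue]
    exact key.2.1
  · simp only [Matrix.mul_apply, Fin.sum_univ_two, Matrix.of_apply, Matrix.cons_val',
      Matrix.cons_val_zero, Matrix.cons_val_one, Matrix.cons_val_fin_one, Fin.zero_eta,
      Fin.mk_one, Fin.isValue]
    exact key.2.2.1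
  · simp only [Matrix.mul_apply, Fin.sum_univ_two, Matrix.of_apply, Matrix.cons_val',
      Matrix.cons_val_zero, Matrix.cons_val_one, Matrix.cons_val_fin_one, Fin.zero_eta,
      Fin.mk_one, Fin.isValue]
    exact key.2.2.2

theorem bottE_one_left {A : Type} [CStarAlgebra A] (v : A) : bottE 1 v = e11 A := by
  unfold bottE
  rw [hneg_one]
  have h1 : bottC (1 : A) 0 = 0 := by
    ext i j
    fin_cases i <;> fin_cases j <;> simp [bottC]
  have h2 : (bottC (1 : A) 0).map (fun a => a * (v - 1)) = 0 := by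
    rw [h1]
    ext i j
    simp
  unfold bott
  rw [h2]
  simp

theorem map_bottE {A B : Type} [CStarAlgebra A] [CStarAlgebra B] (φ : A →⋆ₐ[ℂ] B) (u v : A) :
    (bottE u v).map φ = bottE (φ u) (φ v) := by
  unfold bottE
  rw [bott_eq u v _ (star_hneg u), bott_eq (φ u) (φ v) _ (star_hneg _)]
  have hq : φ (algebraMap ℂ A (1 / 4)) = algebraMap ℂ B (1 / 4) := AlgHomClass.commutes φ _
  ext i j
  fin_cases i <;> fin_cases j <;>
  simp only [Matrix.map_apply, Matrix.of_apply, Matrix.cons_val', Matrix.cons_val_zero,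
    Matrix.cons_val_one, Matrix.cons_val_fin_one, Fin.zero_eta, Fin.mk_one, Fin.isValue,
    map_add, map_mul, map_sub, map_neg, map_one, map_star, map_smul, map_hneg, hq]

end Vale.Agent.P212
end
end

section

section

/-! Rational points of the Rips complexes. -/

namespace Vale.Agent.P212

/-- Points with rational barycentric coordinates of the full simplex on `X`. -/
def RPt (X : Type) : Type :=
  {p : X →₀ ℚ // (∀ x, 0 ≤ p x) ∧ (p.sum fun _ a => a) = 1}

/-- The `l^1` distance of two points. -/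
noncomputable def RPt.dist {X : Type} (p q : RPt X) : ℝ :=
  (p.1 - q.1).sum fun _ a => |(a : ℝ)|

theorem RPt.dist_eq_sum {X : Type} (p q : RPt X) (F : Finset X) (hp : p.1.support ⊆ F)
    (hq : q.1.support ⊆ F) : p.dist q = ∑ x ∈ F, |(p.1 x : ℝ) - (q.1 x : ℝ)| := by
  classical
  have h1 : (p.1 - q.1).support ⊆ F := by
    intro x hx
    rw [Finsupp.mem_support_iff, Finsupp.sub_apply] at hx
    by_contra hcon
    apply hx
    have e1 : p.1 x = 0 := by
      by_contra h
      exact hcon (hp (Finsupp.mem_support_iff.2 h))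
    have e2 : q.1 x = 0 := by
      by_contra h
      exact hcon (hq (Finsupp.mem_support_iff.2 h))
    rw [e1, e2, sub_zero]
  rw [RPt.dist, Finsupp.sum_of_support_subset _ h1 _ (fun x _ => by simp)]
  refine Finset.sum_congr rfl (fun x _ => ?_)
  rw [Finsupp.sub_apply, Rat.cast_sub]

theorem RPt.dist_self {X : Type} (p : RPt X) : p.dist p = 0 := by
  rw [RPt.dist_eq_sum p p p.1.support subset_rfl subset_rfl]
  simp

theorem RPt.dist_nonneg {X : Type} (p q : RPt X) : 0 ≤ p.dist q := by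
  classical
  rw [RPt.dist_eq_sum p q (p.1.support ∪ q.1.support) Finset.subset_union_left
    Finset.subset_union_right]
  exact Finset.sum_nonneg (fun _ _ => abs_nonneg _)

theorem RPt.dist_comm {X : Type} (p q : RPt X) : p.dist q = q.dist p := by
  classical
  rw [RPt.dist_eq_sum p q (p.1.support ∪ q.1.support) Finset.subset_union_left
    Finset.subset_union_right, RPt.dist_eq_sum q p (p.1.support ∪ q.1.support)
    Finset.subset_union_right Finset.subset_union_left]
  exact Finset.sum_congr rfl (fun x _ => abs_sub_comm _ _)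

theorem RPt.dist_triangle {X : Type} (p q r : RPt X) : p.dist r ≤ p.dist q + q.dist r := by
  classical
  let F := p.1.support ∪ q.1.support ∪ r.1.support
  have hp : p.1.support ⊆ F := fun x hx => by simp only [F, Finset.mem_union]; tauto
  have hq : q.1.support ⊆ F := fun x hx => by simp only [F, Finset.mem_union]; tauto
  have hr : r.1.support ⊆ F := fun x hx => by simp only [F, Finset.mem_union]; tauto
  rw [RPt.dist_eq_sum p r F hp hr, RPt.dist_eq_sum p q F hp hq, RPt.dist_eq_sum q r F hq hr,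
    ← Finset.sum_add_distrib]
  exact Finset.sum_le_sum (fun x _ => abs_sub_le _ _ _)

theorem RPt.sum_coord {X : Type} (p : RPt X) (F : Finset X) (hp : p.1.support ⊆ F) :
    ∑ x ∈ F, (p.1 x : ℝ) = 1 := by
  have h1 : p.1.sum (fun _ a => a) = ∑ x ∈ F, p.1 x :=
    Finsupp.sum_of_support_subset _ hp _ (fun _ _ => rfl)
  rw [← Rat.cast_sum, ← h1, p.2.2, Rat.cast_one]

theorem RPt.dist_le_two {X : Type} (p q : RPt X) : p.dist q ≤ 2 := by
  classical
  let F := p.1.support ∪ q.1.support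
  have hp : p.1.support ⊆ F := Finset.subset_union_left
  have hq : q.1.support ⊆ F := Finset.subset_union_right
  rw [RPt.dist_eq_sum p q F hp hq]
  calc ∑ x ∈ F, |(p.1 x : ℝ) - (q.1 x : ℝ)| ≤ ∑ x ∈ F, ((p.1 x : ℝ) + (q.1 x : ℝ)) := by
        refine Finset.sum_le_sum (fun x _ => ?_)
        have e1 : (0 : ℝ) ≤ (p.1 x : ℝ) := Rat.cast_nonneg.2 (p.2.1 x)
        have e2 : (0 : ℝ) ≤ (q.1 x : ℝ) := Rat.cast_nonneg.2 (q.2.1 x)
        rw [abs_le]
        constructor <;> linarith
    _ = 2 := by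
        rw [Finset.sum_add_distrib, RPt.sum_coord p F hp, RPt.sum_coord q F hq]
        norm_num

/-- The point lies in the Rips complex `P_r(X)`: its vertices have pairwise distance at
most `r`. -/
def InRips {X : Type} [MetricSpace X] (r : ℝ) (p : RPt X) : Prop :=
  ∀ x ∈ p.1.support, ∀ y ∈ p.1.support, Dist.dist x y ≤ r

theorem nonempty_enum {X : Type} [Countable X] (x : X) :
    Nonempty (ℕ ≃ {p : RPt X // x ∈ p.1.support} × ℕ) := by
  classical
  have h1 : Countable (RPt X) := by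
    unfold RPt
    infer_instance
  have h2 : Nonempty {p : RPt X // x ∈ p.1.support} := by
    refine ⟨⟨⟨Finsupp.single x 1, ?_, ?_⟩, ?_⟩⟩
    · intro y
      rw [Finsupp.single_apply]
      split_ifs
      · exact zero_le_one
      · exact le_rfl
    · rw [Finsupp.sum_single_index rfl]
    · simp
  exact nonempty_equiv_of_countable

/-- An enumeration with infinite multiplicity of the rational points having a given vertex. -/
noncomputable def enum {X : Type} [Countable X] (x : X) :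
    ℕ ≃ {p : RPt X // x ∈ p.1.support} × ℕ := Classical.choice (nonempty_enum x)

/-- The position of a basis vector of `l^2(X x N)`: each rational point occurs infinitely
often over each of its vertices. -/
noncomputable def pos {X : Type} [Countable X] (j : X × ℕ) : RPt X := ((enum j.1) j.2).1.1

/-- A basis vector at a given position over a given vertex. -/
noncomputable def idx {X : Type} [Countable X] (p : RPt X) (x : X) (h : x ∈ p.1.support) :
    X × ℕ := (x, (enum x).symm (⟨p, h⟩, 0))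

theorem pos_idx {X : Type} [Countable X] (p : RPt X) (x : X) (h : x ∈ p.1.support) :
    pos (idx p x h) = p := by
  change (((enum x) ((enum x).symm (⟨p, h⟩, 0))).1).1 = p
  rw [Equiv.apply_symm_apply]

theorem fst_mem_support_pos {X : Type} [Countable X] (j : X × ℕ) :
    j.1 ∈ (pos j).1.support := ((enum j.1) j.2).1.2

theorem idx_injective {X : Type} [Countable X] {p p' : RPt X} {x x' : X}
    (h : x ∈ p.1.support) (h' : x' ∈ p'.1.support) (hh : idx p x h = idx p' x' h') :
    p = p' ∧ x = x' := by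
  refine ⟨?_, congrArg Prod.fst hh⟩
  rw [← pos_idx p x h, hh, pos_idx]

end Vale.Agent.P212
end
end

section

section

/-! Cylinder functions on the space of rational points. -/

namespace Vale.Agent.P212

open Filter Topology

/-- Continuous functions of finitely many barycentric coordinates. -/
def Cyl {X : Type} (g : RPt X → ℂ) : Prop :=
  ∃ (B : Finset X) (G : (B → ℝ) → ℂ), Continuous G ∧ ∀ p, g p = G (fun x => (p.1 x : ℝ))

/-- The sum of the barycentric coordinates over a finite set of vertices. -/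
noncomputable def mass {X : Type} (B : Finset X) (p : RPt X) : ℝ := ∑ x ∈ B, (p.1 x : ℝ)

section

variable {X : Type}

theorem RPt.coord_nonneg (p : RPt X) (x : X) : (0 : ℝ) ≤ (p.1 x : ℝ) :=
  Rat.cast_nonneg.2 (p.2.1 x)

theorem RPt.coord_pos {p : RPt X} {x : X} (h : x ∈ p.1.support) : (0 : ℝ) < (p.1 x : ℝ) := by
  refine lt_of_le_of_ne (p.coord_nonneg x) ?_
  intro h0
  exact (Finsupp.mem_support_iff.1 h) (by exact_mod_cast h0.symm)

theorem RPt.sum_support (p : RPt X) : ∑ x ∈ p.1.support, (p.1 x : ℝ) = 1 := by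
  have h := p.2.2
  rw [Finsupp.sum] at h
  exact_mod_cast h

open Classical in
theorem mass_eq (B : Finset X) (p : RPt X) :
    mass B p = ∑ x ∈ p.1.support.filter (fun x => x ∈ B), (p.1 x : ℝ) := by
  have h1 : p.1.support.filter (fun x => x ∈ B) = B.filter (fun x => x ∈ p.1.support) := by
    ext x
    simp only [Finset.mem_filter]
    exact and_comm
  rw [h1, Finset.sum_filter, mass]
  refine Finset.sum_congr rfl fun x _ => ?_
  split_ifs with h
  · rfl
  · rw [Finsupp.notMem_support_iff.1 h, Rat.cast_zero]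

open Classical in
theorem one_sub_mass (B : Finset X) (p : RPt X) :
    1 - mass B p = ∑ x ∈ p.1.support.filter (fun x => x ∉ B), (p.1 x : ℝ) := by
  have h := Finset.sum_filter_add_sum_filter_not p.1.support (fun x => x ∈ B)
    (fun x => (p.1 x : ℝ))
  rw [p.sum_support, ← mass_eq] at h
  linarith

theorem mass_nonneg (B : Finset X) (p : RPt X) : 0 ≤ mass B p :=
  Finset.sum_nonneg fun x _ => p.coord_nonneg x

theorem mass_le_one (B : Finset X) (p : RPt X) : mass B p ≤ 1 := by
  classical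
  have h := one_sub_mass B p
  have h2 : 0 ≤ 1 - mass B p := by
    rw [h]
    exact Finset.sum_nonneg fun x _ => p.coord_nonneg x
  linarith

theorem mass_eq_one_iff (B : Finset X) (p : RPt X) : mass B p = 1 ↔ p.1.support ⊆ B := by
  classical
  have h := one_sub_mass B p
  constructor
  · intro h1 x hx
    rw [h1, sub_self, eq_comm, Finset.sum_eq_zero_iff_of_nonneg
      (fun x _ => p.coord_nonneg x)] at h
    by_contra hxB
    exact (RPt.coord_pos hx).ne' (h x (Finset.mem_filter.2 ⟨hx, hxB⟩))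
  · intro h1
    rw [Finset.filter_false_of_mem (fun x hx hxB => hxB (h1 hx)), Finset.sum_empty] at h
    linarith

theorem mass_pos_iff (B : Finset X) (p : RPt X) : 0 < mass B p ↔ ∃ x ∈ B, x ∈ p.1.support := by
  classical
  constructor
  · intro h
    by_contra hcon
    push Not at hcon
    have : mass B p = 0 := by
      rw [mass]
      refine Finset.sum_eq_zero fun x hx => ?_
      rw [Finsupp.notMem_support_iff.1 (hcon x hx), Rat.cast_zero]
    exact h.ne' this
  · rintro ⟨x, hx, hxp⟩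
    rw [mass]
    exact Finset.sum_pos' (fun x _ => p.coord_nonneg x) ⟨x, hx, RPt.coord_pos hxp⟩

theorem RPt.coord_le_one (p : RPt X) (x : X) : (p.1 x : ℝ) ≤ 1 := by
  have h := mass_le_one {x} p
  rwa [mass, Finset.sum_singleton] at h

theorem RPt.abs_sub_le_dist (p q : RPt X) (x : X) :
    |(p.1 x : ℝ) - (q.1 x : ℝ)| ≤ p.dist q := by
  have h0 : (p.1 x : ℝ) - (q.1 x : ℝ) = (((p.1 - q.1) x : ℚ) : ℝ) := by
    rw [Finsupp.sub_apply, Rat.cast_sub]
  rw [h0, RPt.dist, Finsupp.sum]
  by_cases hx : x ∈ (p.1 - q.1).support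
  · exact Finset.single_le_sum (f := fun x => |(((p.1 - q.1) x : ℚ) : ℝ)|)
      (fun _ _ => abs_nonneg _) hx
  · rw [Finsupp.notMem_support_iff.1 hx, Rat.cast_zero, abs_zero]
    exact Finset.sum_nonneg fun _ _ => abs_nonneg _

theorem RPt.coords_mem (p : RPt X) (B : Finset X) :
    (fun x : B => (p.1 x : ℝ)) ∈ Set.pi Set.univ fun _ : B => Set.Icc (0 : ℝ) 1 :=
  fun x _ => ⟨p.coord_nonneg x, p.coord_le_one x⟩

theorem isCompact_cube (B : Finset X) :
    IsCompact (Set.pi Set.univ fun _ : B => Set.Icc (0 : ℝ) 1) :=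
  isCompact_univ_pi fun _ => isCompact_Icc

theorem Cyl.bdd {g : RPt X → ℂ} (hg : Cyl g) : ∃ C : ℝ, ∀ p, ‖g p‖ ≤ C := by
  obtain ⟨B, G, hG, h⟩ := hg
  obtain ⟨C, hC⟩ := (isCompact_cube B).exists_bound_of_continuousOn hG.continuousOn
  refine ⟨C, fun p => ?_⟩
  rw [h p]
  exact hC _ (p.coords_mem B)

theorem Cyl.unif {g : RPt X → ℂ} (hg : Cyl g) {ε : ℝ} (hε : 0 < ε) :
    ∃ δ > 0, ∀ p q : RPt X, p.dist q ≤ δ → ‖g p - g q‖ ≤ ε := by
  obtain ⟨B, G, hG, h⟩ := hg
  have hu := (isCompact_cube B).uniformContinuousOn_of_continuous hG.continuousOn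
  rw [Metric.uniformContinuousOn_iff] at hu
  obtain ⟨δ, hδ, hu⟩ := hu ε hε
  refine ⟨δ / 2, half_pos hδ, fun p q hpq => ?_⟩
  have h1 : dist (fun x : B => (p.1 x : ℝ)) (fun x : B => (q.1 x : ℝ)) < δ := by
    refine lt_of_le_of_lt ?_ (half_lt_self hδ)
    rw [dist_pi_le_iff (half_pos hδ).le]
    intro x
    rw [Real.dist_eq]
    exact (p.abs_sub_le_dist q x).trans hpq
  have h2 := hu _ (p.coords_mem B) _ (q.coords_mem B) h1
  rw [h p, h q, ← dist_eq_norm]
  exact h2.le

theorem Cyl.const (c : ℂ) : Cyl (fun _ : RPt X => c) :=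
  ⟨∅, fun _ => c, continuous_const, fun _ => rfl⟩

/-- Continuous functions of finitely many cylinder functions are cylinder functions. -/
theorem Cyl.comp {ι : Type} [Finite ι] {g : ι → RPt X → ℂ} (hg : ∀ i, Cyl (g i))
    {Φ : (ι → ℂ) → ℂ} (hΦ : Continuous Φ) : Cyl (fun p => Φ (fun i => g i p)) := by
  classical
  have := Fintype.ofFinite ι
  choose B G hG h using hg
  have hsub : ∀ i, ∀ x ∈ B i, x ∈ Finset.univ.biUnion B := fun i x hx =>
    Finset.mem_biUnion.2 ⟨i, Finset.mem_univ _, hx⟩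
  refine ⟨Finset.univ.biUnion B,
    fun v => Φ (fun i => G i (fun x : B i => v ⟨x.1, hsub i x.1 x.2⟩)), ?_, fun p => ?_⟩
  · refine hΦ.comp (continuous_pi fun i => (hG i).comp (continuous_pi fun x => ?_))
    exact continuous_apply _
  · change Φ (fun i => g i p) = Φ _
    congr 1
    funext i
    exact h i p

theorem Cyl.add {g h : RPt X → ℂ} (hg : Cyl g) (hh : Cyl h) : Cyl (fun p => g p + h p) := by
  have h1 := Cyl.comp (ι := Bool) (g := fun b => if b then g else h)
    (by
      intro b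
      cases b
      · exact hh
      · exact hg) (Φ := fun v => v true + v false)
    ((continuous_apply true).add (continuous_apply false))
  exact h1

theorem Cyl.mul {g h : RPt X → ℂ} (hg : Cyl g) (hh : Cyl h) : Cyl (fun p => g p * h p) := by
  have h1 := Cyl.comp (ι := Bool) (g := fun b => if b then g else h)
    (by
      intro b
      cases b
      · exact hh
      · exact hg) (Φ := fun v => v true * v false)
    ((continuous_apply true).mul (continuous_apply false))
  exact h1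

theorem Cyl.star {g : RPt X → ℂ} (hg : Cyl g) : Cyl (fun p => star (g p)) :=
  Cyl.comp (ι := Unit) (g := fun _ => g) (fun _ => hg) (Φ := fun v => Star.star (v ()))
    (continuous_star.comp (continuous_apply ()))

theorem Cyl.sum {ι : Type} (F : Finset ι) {g : ι → RPt X → ℂ} (hg : ∀ i ∈ F, Cyl (g i)) :
    Cyl (fun p => ∑ i ∈ F, g i p) := by
  classical
  induction F using Finset.induction_on with
  | empty => exact Cyl.const 0
  | insert a F ha ih =>
    have h1 : (fun p => ∑ i ∈ insert a F, g i p) = fun p => g a p + ∑ i ∈ F, g i p := by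
      funext p
      rw [Finset.sum_insert ha]
    rw [h1]
    exact (hg a (Finset.mem_insert_self a F)).add
      (ih fun i hi => hg i (Finset.mem_insert_of_mem hi))

/-- Continuous functions of the mass of a finite set. -/
theorem Cyl.mass (B : Finset X) {φ : ℝ → ℂ} (hφ : Continuous φ) :
    Cyl (fun p => φ (mass B p)) := by
  refine ⟨B, fun v => φ (∑ x, v x), hφ.comp (continuous_finsetSum _ fun x _ =>
    continuous_apply x), fun p => ?_⟩
  change φ (∑ x ∈ B, (p.1 x : ℝ)) = φ (∑ x : B, (p.1 x : ℝ))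
  rw [Finset.sum_coe_sort B (fun x => (p.1 x : ℝ))]

end

end Vale.Agent.P212
end
end

section

section

/-! The index of almost commuting unitaries: exact projection for a permutation model. -/

set_option linter.unusedSectionVars false
set_option linter.unusedSimpArgs false

namespace Vale.Agent.P212.BottCore

open Matrix
open scoped Matrix.Norms.L2Operator

section Rank

variable {n : Type} [Fintype n] [DecidableEq n]

/-- The rank of an idempotent matrix is its trace. -/
theorem rank_eq_trace_of_idem {p : Matrix n n ℂ} (hp : p * p = p) : (p.rank : ℂ) = p.trace := by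
  have h1 : IsIdempotentElem (Matrix.toLin' p) := by
    rw [IsIdempotentElem, Module.End.mul_eq_comp, ← Matrix.toLin'_mul, hp]
  have h2 := (LinearMap.IsIdempotentElem.isProj_range _ h1).trace
  rw [Matrix.trace_toLin'_eq] at h2
  rw [h2]
  rfl

theorem norm_le_one_of_unitary {u : Matrix n n ℂ} (h : uᴴ * u = 1) : ‖u‖ ≤ 1 := by
  have h1 := Matrix.l2_opNorm_conjTranspose_mul_self u
  rw [h] at h1
  have h2 : ‖(1 : Matrix n n ℂ)‖ ≤ 1 := by
    rcases isEmpty_or_nonempty n with hn | hn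
    · have : (1 : Matrix n n ℂ) = 0 := Subsingleton.elim _ _
      rw [this, norm_zero]
      exact zero_le_one
    · have := Matrix.l2_opNorm_diagonal (n := n) (𝕜 := ℂ) (fun _ => 1)
      rw [Matrix.diagonal_one] at this
      rw [this]
      exact (pi_norm_le_iff_of_nonneg zero_le_one).2 (fun i => by simp)
  nlinarith [norm_nonneg u]

theorem norm_diagonal_le {v : n → ℂ} {c : ℝ} (hc : 0 ≤ c) (h : ∀ i, ‖v i‖ ≤ c) :
    ‖(diagonal v : Matrix n n ℂ)‖ ≤ c := by
  rw [Matrix.l2_opNorm_diagonal]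
  exact (pi_norm_le_iff_of_nonneg hc).2 h

end Rank

section Flat

variable {n : Type} [Fintype n] [DecidableEq n]

/-- A two by two matrix of matrices as a matrix. -/
def flat : Matrix (Fin 2) (Fin 2) (Matrix n n ℂ) →+* Matrix (n × Fin 2) (n × Fin 2) ℂ where
  toFun M := Matrix.of fun p q => M p.2 q.2 p.1 q.1
  map_zero' := by ext; simp
  map_one' := by
    ext p q
    obtain ⟨i, a⟩ := p
    obtain ⟨j, b⟩ := q
    simp only [Matrix.of_apply, Matrix.one_apply, Prod.mk.injEq]
    by_cases hab : a = b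
    · simp [hab, Matrix.one_apply]
    · simp [hab]
  map_add' M N := by ext; simp
  map_mul' M N := by
    ext p q
    obtain ⟨i, a⟩ := p
    obtain ⟨j, b⟩ := q
    simp only [Matrix.of_apply, Matrix.mul_apply, Fintype.sum_prod_type, Matrix.sum_apply]
    rw [Finset.sum_comm]

theorem flat_apply (M : Matrix (Fin 2) (Fin 2) (Matrix n n ℂ)) (p q : n × Fin 2) :
    flat M p q = M p.2 q.2 p.1 q.1 := rfl

theorem flat_conjTranspose (M : Matrix (Fin 2) (Fin 2) (Matrix n n ℂ)) :
    flat Mᴴ = (flat M)ᴴ := by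
  ext p q
  rfl

theorem trace_flat (M : Matrix (Fin 2) (Fin 2) (Matrix n n ℂ)) :
    (flat M).trace = (M 0 0).trace + (M 1 1).trace := by
  simp only [Matrix.trace, Matrix.diag_apply, flat_apply, Fintype.sum_prod_type]
  rw [← Finset.sum_add_distrib]
  refine Finset.sum_congr rfl fun i _ => ?_
  rw [Fin.sum_univ_two]

/-- The inclusion of the summand with index `a`. -/
def incl (n : Type) [Fintype n] [DecidableEq n] (a : Fin 2) : Matrix (n × Fin 2) n ℂ :=
  Matrix.of fun p j => if p.1 = j ∧ p.2 = a then 1 else 0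

theorem norm_incl_le (a : Fin 2) : ‖incl n a‖ ≤ 1 := by
  have h1 := Matrix.l2_opNorm_conjTranspose_mul_self (incl n a)
  have h2 : (incl n a)ᴴ * incl n a = 1 := by
    ext i j
    simp only [Matrix.mul_apply, Matrix.conjTranspose_apply, incl, Matrix.of_apply,
      Fintype.sum_prod_type]
    rw [Finset.sum_eq_single i]
    · rw [Finset.sum_eq_single a]
      · by_cases hij : i = j
        · simp [hij, Matrix.one_apply]
        · simp [hij, Matrix.one_apply]
      · intro b _ hb
        simp [hb]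
      · simp
    · intro k _ hk
      simp [hk]
    · simp
  rw [h2] at h1
  have h3 : ‖(1 : Matrix n n ℂ)‖ ≤ 1 := norm_le_one_of_unitary (by simp)
  nlinarith [norm_nonneg (incl n a)]

theorem flat_eq_sum (M : Matrix (Fin 2) (Fin 2) (Matrix n n ℂ)) :
    flat M = ∑ a, ∑ b, incl n a * M a b * (incl n b)ᴴ := by
  ext p q
  obtain ⟨i, a⟩ := p
  obtain ⟨j, b⟩ := q
  simp only [flat_apply, Matrix.sum_apply]
  rw [Finset.sum_eq_single a, Finset.sum_eq_single b]
  · rw [Matrix.mul_apply, Finset.sum_eq_single j]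
    · rw [Matrix.mul_apply, Finset.sum_eq_single i]
      · simp [incl]
      · intro k _ hk
        simp [incl, Ne.symm hk]
      · simp
    · intro k _ hk
      simp [incl, Ne.symm hk]
    · simp
  · intro b' _ hb'
    rw [Matrix.mul_apply]
    refine Finset.sum_eq_zero fun k _ => ?_
    simp [incl, Ne.symm hb']
  · simp
  · intro a' _ ha'
    refine Finset.sum_eq_zero fun b' _ => ?_
    rw [Matrix.mul_apply]
    refine Finset.sum_eq_zero fun k _ => ?_
    rw [Matrix.mul_apply]
    rw [Finset.sum_eq_zero, zero_mul]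
    intro l _
    simp [incl, Ne.symm ha']
  · simp

theorem norm_flat_le (M : Matrix (Fin 2) (Fin 2) (Matrix n n ℂ)) :
    ‖flat M‖ ≤ ‖M 0 0‖ + ‖M 0 1‖ + ‖M 1 0‖ + ‖M 1 1‖ := by
  have key : ∀ a b, ‖incl n a * M a b * (incl n b)ᴴ‖ ≤ ‖M a b‖ := by
    intro a b
    have h1 := Matrix.l2_opNorm_mul (incl n a * M a b) (incl n b)ᴴ
    have h2 := Matrix.l2_opNorm_mul (incl n a) (M a b)
    rw [Matrix.l2_opNorm_conjTranspose] at h1
    have h3 := norm_incl_le (n := n) a
    have h4 := norm_incl_le (n := n) b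
    have h5 := norm_nonneg (M a b)
    calc _ ≤ ‖incl n a * M a b‖ * ‖incl n b‖ := h1
      _ ≤ ‖incl n a * M a b‖ * 1 := by gcongr
      _ ≤ (‖incl n a‖ * ‖M a b‖) * 1 := by gcongr
      _ ≤ (1 * ‖M a b‖) * 1 := by gcongr
      _ = ‖M a b‖ := by ring
  rw [flat_eq_sum]
  simp only [Fin.sum_univ_two]
  have h00 := key 0 0
  have h01 := key 0 1
  have h10 := key 1 0
  have h11 := key 1 1
  calc _ ≤ ‖incl n 0 * M 0 0 * (incl n 0)ᴴ + incl n 0 * M 0 1 * (incl n 1)ᴴ‖ +
        ‖incl n 1 * M 1 0 * (incl n 0)ᴴ + incl n 1 * M 1 1 * (incl n 1)ᴴ‖ := norm_add_le _ _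
    _ ≤ (‖incl n 0 * M 0 0 * (incl n 0)ᴴ‖ + ‖incl n 0 * M 0 1 * (incl n 1)ᴴ‖) +
        (‖incl n 1 * M 1 0 * (incl n 0)ᴴ‖ + ‖incl n 1 * M 1 1 * (incl n 1)ᴴ‖) :=
        add_le_add (norm_add_le _ _) (norm_add_le _ _)
    _ ≤ _ := by linarith

end Flat

/-! ### The Bott-type element -/

section BE

variable {R : Type} [Ring R] [StarRing R] [Algebra ℂ R]

/-- The nilpotent coefficient. -/
noncomputable def CC (u h : R) : Matrix (Fin 2) (Fin 2) R :=
  (1 / 4 : ℂ) • !![h * h, h * (1 + (1 / 2 : ℂ) • (u + star u));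
    -(h * (1 - (1 / 2 : ℂ) • (u + star u))), -(h * h)]

/-- The almost projection associated with a pair of almost commuting unitaries. -/
noncomputable def BE (u v h : R) : Matrix (Fin 2) (Fin 2) R :=
  !![1, 0; 0, 0] + (CC u h).map (· * (v - 1)) + ((CC u h).map (· * (v - 1)))ᴴ

end BE

section Perm

variable {I : Type} [Fintype I] [DecidableEq I]

/-- The permutation matrix. -/
def vm (σ : Equiv.Perm I) : Matrix I I ℂ := Matrix.of fun i i' => if i = σ i' then 1 else 0

/-- Real diagonal matrices. -/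
def dg (φ : I → ℝ) : Matrix I I ℂ := diagonal fun i => (φ i : ℂ)

theorem dg_mul (φ ψ : I → ℝ) : dg φ * dg ψ = dg fun i => φ i * ψ i := by
  simp [dg, Matrix.diagonal_mul_diagonal]

theorem dg_add (φ ψ : I → ℝ) : dg φ + dg ψ = dg fun i => φ i + ψ i := by
  simp [dg, Matrix.diagonal_add]

theorem dg_sub (φ ψ : I → ℝ) : dg φ - dg ψ = dg fun i => φ i - ψ i := by
  simp [dg, Matrix.diagonal_sub]

theorem dg_one : dg (fun _ : I => (1 : ℝ)) = 1 := by simp [dg]

theorem dg_zero : dg (fun _ : I => (0 : ℝ)) = 0 := by simp [dg]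

theorem dg_star (φ : I → ℝ) : (dg φ)ᴴ = dg φ := by
  rw [dg, Matrix.diagonal_conjTranspose]
  congr 1
  funext i
  simp

theorem quarter_dg (φ : I → ℝ) : (1 / 4 : ℂ) • dg φ = dg fun i => φ i / 4 := by
  rw [dg, ← Matrix.diagonal_smul, dg]
  congr 1
  funext i
  simp only [Pi.smul_apply, smul_eq_mul]
  push_cast
  ring

theorem neg_dg (φ : I → ℝ) : -dg φ = dg fun i => -φ i := by
  rw [dg, Matrix.diagonal_neg, dg]
  congr 1
  funext i
  simp

theorem norm_dg_le {φ : I → ℝ} {c : ℝ} (hc : 0 ≤ c) (h : ∀ i, |φ i| ≤ c) : ‖dg φ‖ ≤ c :=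
  norm_diagonal_le hc fun i => by simpa using h i

theorem vm_mul_dg (σ : Equiv.Perm I) (φ : I → ℝ) :
    vm σ * dg φ = dg (fun i => φ (σ.symm i)) * vm σ := by
  ext i j
  rw [dg, dg, Matrix.mul_diagonal, Matrix.diagonal_mul]
  simp only [vm, Matrix.of_apply]
  by_cases h : i = σ j
  · simp [h]
  · simp [h]

theorem star_vm_mul_dg (σ : Equiv.Perm I) (φ : I → ℝ) :
    (vm σ)ᴴ * dg φ = dg (fun i => φ (σ i)) * (vm σ)ᴴ := by
  ext i j
  rw [dg, dg, Matrix.mul_diagonal, Matrix.diagonal_mul]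
  simp only [vm, Matrix.of_apply, Matrix.conjTranspose_apply]
  by_cases h : j = σ i
  · simp [h]
  · simp [h]

theorem star_vm_mul_vm (σ : Equiv.Perm I) : (vm σ)ᴴ * vm σ = 1 := by
  ext i j
  simp only [Matrix.mul_apply, Matrix.conjTranspose_apply, vm, Matrix.of_apply]
  rw [Finset.sum_eq_single (σ i)]
  · by_cases h : i = j
    · simp [h, Matrix.one_apply]
    · simp [h, Matrix.one_apply]
  · intro k _ hk
    simp [hk]
  · simp

theorem vm_mul_star_vm (σ : Equiv.Perm I) : vm σ * (vm σ)ᴴ = 1 :=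
  mul_eq_one_comm.1 (star_vm_mul_vm σ)

theorem norm_vm_le (σ : Equiv.Perm I) : ‖vm σ‖ ≤ 1 := norm_le_one_of_unitary (star_vm_mul_vm σ)

/-- The exact projection. -/
def EX (σ : Equiv.Perm I) (f g h k : I → ℝ) : Matrix (Fin 2) (Fin 2) (Matrix I I ℂ) :=
  !![dg f, dg g + dg h * vm σ; dg g + (vm σ)ᴴ * dg h, dg k]

theorem EX_idem (σ : Equiv.Perm I) {f g h k : I → ℝ}
    (h1 : ∀ i, f i * f i + g i * g i + h i * h i = f i) (h2 : ∀ i, g i * h i = 0)
    (h3 : ∀ i, g i * h (σ i) = 0) (h4 : ∀ i, g i * (f i + k i) = g i)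
    (h5 : ∀ i, h (σ i) * (f (σ i) + k i) = h (σ i))
    (h6 : ∀ i, g i * g i + h (σ i) * h (σ i) + k i * k i = k i) :
    EX σ f g h k * EX σ f g h k = EX σ f g h k := by
  have e1 : dg g * ((vm σ)ᴴ * dg h) = 0 := by
    rw [star_vm_mul_dg, ← Matrix.mul_assoc, dg_mul]
    have : (fun i => g i * h (σ i)) = fun _ => (0 : ℝ) := funext h3
    rw [this, dg_zero, Matrix.zero_mul]
  have e2 : dg h * vm σ * dg g = 0 := by
    rw [Matrix.mul_assoc, vm_mul_dg, ← Matrix.mul_assoc, dg_mul]
    have : (fun i => h i * g (σ.symm i)) = fun _ => (0 : ℝ) := by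
      funext i
      have := h3 (σ.symm i)
      rw [Equiv.apply_symm_apply] at this
      rw [mul_comm]
      exact this
    rw [this, dg_zero, Matrix.zero_mul]
  have e3 : dg h * vm σ * ((vm σ)ᴴ * dg h) = dg fun i => h i * h i := by
    rw [Matrix.mul_assoc, ← Matrix.mul_assoc (vm σ), vm_mul_star_vm, Matrix.one_mul, dg_mul]
  have e4 : dg h * vm σ * dg k = dg (fun i => h i * k (σ.symm i)) * vm σ := by
    rw [Matrix.mul_assoc, vm_mul_dg, ← Matrix.mul_assoc, dg_mul]
  have e5 : dg k * ((vm σ)ᴴ * dg h) = (vm σ)ᴴ * dg (fun i => h i * k (σ.symm i)) := by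
    rw [star_vm_mul_dg, star_vm_mul_dg, ← Matrix.mul_assoc, dg_mul]
    congr 1
    congr 1
    funext i
    rw [Equiv.symm_apply_apply, mul_comm]
  have e6 : (vm σ)ᴴ * dg h * (dg h * vm σ) = dg fun i => h (σ i) * h (σ i) := by
    rw [Matrix.mul_assoc, ← Matrix.mul_assoc (dg h), dg_mul, ← Matrix.mul_assoc, star_vm_mul_dg,
      Matrix.mul_assoc, star_vm_mul_vm, Matrix.mul_one]
  have e7 : (vm σ)ᴴ * dg h * dg g = 0 := by
    rw [Matrix.mul_assoc, dg_mul]
    have : (fun i => h i * g i) = fun _ => (0 : ℝ) := by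
      funext i
      rw [mul_comm]
      exact h2 i
    rw [this, dg_zero, Matrix.mul_zero]
  have e8 : dg g * (dg h * vm σ) = 0 := by
    rw [← Matrix.mul_assoc, dg_mul]
    have : (fun i => g i * h i) = fun _ => (0 : ℝ) := funext h2
    rw [this, dg_zero, Matrix.zero_mul]
  have e9 : (vm σ)ᴴ * dg h * dg f = (vm σ)ᴴ * dg (fun i => h i * f i) := by
    rw [Matrix.mul_assoc, dg_mul]
  have e10 : dg f * (dg h * vm σ) = dg (fun i => h i * f i) * vm σ := by
    rw [← Matrix.mul_assoc, dg_mul]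
    congr 2
    funext i
    rw [mul_comm]
  have h5' : ∀ i, h i * f i + h i * k (σ.symm i) = h i := by
    intro i
    have := h5 (σ.symm i)
    rw [Equiv.apply_symm_apply] at this
    rw [← mul_add]
    exact this
  have a11 : dg f * dg f + (dg g + dg h * vm σ) * (dg g + (vm σ)ᴴ * dg h) = dg f := by
    rw [Matrix.add_mul, Matrix.mul_add, Matrix.mul_add, e1, e2, e3, dg_mul, dg_mul, add_zero,
      zero_add, dg_add, dg_add]
    congr 1
    funext i
    rw [← add_assoc]
    exact h1 i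
  have a12 : dg f * (dg g + dg h * vm σ) + (dg g + dg h * vm σ) * dg k =
      dg g + dg h * vm σ := by
    rw [Matrix.mul_add, Matrix.add_mul, e10, e4, dg_mul, dg_mul]
    have x1 : dg (fun i => f i * g i) + dg (fun i => g i * k i) = dg g := by
      rw [dg_add]
      congr 1
      funext i
      rw [mul_comm (f i), ← mul_add]
      exact h4 i
    have x2 : dg (fun i => h i * f i) * vm σ + dg (fun i => h i * k (σ.symm i)) * vm σ =
        dg h * vm σ := by
      rw [← Matrix.add_mul, dg_add]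
      congr 2
      funext i
      exact h5' i
    calc _ = (dg (fun i => f i * g i) + dg (fun i => g i * k i)) +
        (dg (fun i => h i * f i) * vm σ + dg (fun i => h i * k (σ.symm i)) * vm σ) := by abel
      _ = _ := by rw [x1, x2]
  have a21 : (dg g + (vm σ)ᴴ * dg h) * dg f + dg k * (dg g + (vm σ)ᴴ * dg h) =
      dg g + (vm σ)ᴴ * dg h := by
    rw [Matrix.add_mul, Matrix.mul_add, e9, e5, dg_mul, dg_mul]
    have x1 : dg (fun i => g i * f i) + dg (fun i => k i * g i) = dg g := by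
      rw [dg_add]
      congr 1
      funext i
      rw [mul_comm (k i), ← mul_add]
      exact h4 i
    have x2 : (vm σ)ᴴ * dg (fun i => h i * f i) + (vm σ)ᴴ * dg (fun i => h i * k (σ.symm i)) =
        (vm σ)ᴴ * dg h := by
      rw [← Matrix.mul_add, dg_add]
      congr 2
      funext i
      exact h5' i
    calc _ = (dg (fun i => g i * f i) + dg (fun i => k i * g i)) +
        ((vm σ)ᴴ * dg (fun i => h i * f i) + (vm σ)ᴴ * dg (fun i => h i * k (σ.symm i))) := by
          abel
      _ = _ := by rw [x1, x2]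
  have a22 : (dg g + (vm σ)ᴴ * dg h) * (dg g + dg h * vm σ) + dg k * dg k = dg k := by
    rw [Matrix.add_mul, Matrix.mul_add, Matrix.mul_add, e8, e7, e6, dg_mul, dg_mul, add_zero,
      zero_add, dg_add, dg_add]
    congr 1
    funext i
    exact h6 i
  rw [EX, Matrix.mul_fin_two, a11, a12, a21, a22]

theorem trace_EX (σ : Equiv.Perm I) (f g h k : I → ℝ) :
    (flat (EX σ f g h k)).trace = ∑ i, (f i : ℂ) + ∑ i, (k i : ℂ) := by
  rw [trace_flat]
  simp [EX, dg, Matrix.trace_diagonal]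

end Perm

section Model

variable {I : Type} [Fintype I] [DecidableEq I] (D : I → ℂ) (σ : Equiv.Perm I)

/-- Membership in the lower arc. -/
def lo (i : I) : Prop := (D i).im < 0

/-- The even part `(1 + Re D) / 2`. -/
noncomputable def fo (i : I) : ℝ := (1 + (D i).re) / 2

/-- Half of the positive part of the imaginary part. -/
noncomputable def go (i : I) : ℝ := max (D i).im 0 / 2

/-- Half of the negative part of the imaginary part. -/
noncomputable def ho (i : I) : ℝ := max (-(D i).im) 0 / 2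

/-- The modulus of `(1 + D) / 2`. -/
noncomputable def co' (i : I) : ℝ := ‖1 + D i‖ / 2

/-- The modulus of `(1 - D) / 2`. -/
noncomputable def so' (i : I) : ℝ := ‖1 - D i‖ / 2

open Classical in
/-- Modification of `fo` at the crossings. -/
noncomputable def fm (i : I) : ℝ :=
  if (lo D i ↔ lo D (σ i)) then fo D i else if 0 ≤ (D i).re then 1 else 0

open Classical in
/-- Modification of `go` at the crossings. -/
noncomputable def gm' (i : I) : ℝ := if lo D i ∨ lo D (σ i) then 0 else go D i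

open Classical in
/-- Modification of `ho` at the crossings. -/
noncomputable def hm (i : I) : ℝ := if lo D i ∧ lo D (σ i) then ho D i else 0

open Classical in
/-- The lower right coefficient. -/
noncomputable def km (i : I) : ℝ := if lo D (σ i) then 1 - fm D σ (σ i) else 1 - fm D σ i

variable {D} {σ}

theorem fo_sub (hD : ∀ i, ‖D i‖ = 1) (i : I) :
    fo D i * fo D i + go D i * go D i + ho D i * ho D i = fo D i := by
  have h1 : (D i).re * (D i).re + (D i).im * (D i).im = 1 := by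
    have := Complex.sq_norm (D i)
    rw [hD, Complex.normSq_apply] at this
    linarith
  have h2 : max (D i).im 0 * max (D i).im 0 + max (-(D i).im) 0 * max (-(D i).im) 0 =
      (D i).im * (D i).im := by
    rcases le_total (D i).im 0 with h | h
    · rw [max_eq_right h, max_eq_left (by linarith)]
      ring
    · rw [max_eq_left h, max_eq_right (by linarith)]
      ring
  unfold fo go ho
  nlinarith

theorem go_eq_zero {i : I} (h : lo D i) : go D i = 0 := by
  unfold go lo at *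
  rw [max_eq_right h.le, zero_div]

theorem ho_eq_zero {i : I} (h : ¬ lo D i) : ho D i = 0 := by
  unfold ho lo at *
  rw [max_eq_right (by linarith), zero_div]

theorem fm_rel (hD : ∀ i, ‖D i‖ = 1) (i : I) :
    fm D σ i * fm D σ i + gm' D σ i * gm' D σ i + hm D σ i * hm D σ i = fm D σ i := by
  have h := fo_sub hD i
  unfold fm gm' hm
  by_cases h1 : lo D i <;> by_cases h2 : lo D (σ i)
  · have := go_eq_zero h1
    simp only [h1, h2, and_self, or_self, if_true]
    rw [this] at h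
    linarith
  · simp [h1, h2]
  · simp [h1, h2]
  · have := ho_eq_zero h1
    simp only [h1, h2, and_self, or_self, if_true, if_false]
    rw [this] at h
    linarith

theorem EXm_idem (hD : ∀ i, ‖D i‖ = 1) :
    EX σ (fm D σ) (gm' D σ) (hm D σ) (km D σ) * EX σ (fm D σ) (gm' D σ) (hm D σ) (km D σ) =
      EX σ (fm D σ) (gm' D σ) (hm D σ) (km D σ) := by
  refine EX_idem σ (fm_rel hD) ?_ ?_ ?_ ?_ ?_
  · intro i
    unfold gm' hm
    by_cases h1 : lo D i <;> by_cases h2 : lo D (σ i) <;> simp [h1, h2]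
  · intro i
    unfold gm' hm
    by_cases h1 : lo D i <;> by_cases h2 : lo D (σ i) <;> simp [h1, h2]
  · intro i
    unfold km
    by_cases h2 : lo D (σ i)
    · have : gm' D σ i = 0 := by unfold gm'; simp [h2]
      rw [this]
      ring
    · rw [if_neg h2]
      ring
  · intro i
    unfold km
    by_cases h2 : lo D (σ i)
    · rw [if_pos h2]
      ring
    · have : hm D σ (σ i) = 0 := by unfold hm; simp [h2]
      rw [this]
      ring
  · intro i
    unfold km
    by_cases h2 : lo D (σ i)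
    · rw [if_pos h2]
      have h3 : gm' D σ i = 0 := by unfold gm'; simp [h2]
      have h4 : gm' D σ (σ i) = 0 := by unfold gm'; simp [h2]
      have h5 := fm_rel (σ := σ) hD (σ i)
      rw [h4] at h5
      rw [h3]
      linarith
    · rw [if_neg h2]
      have h3 : hm D σ (σ i) = 0 := by unfold hm; simp [h2]
      have h4 : hm D σ i = 0 := by unfold hm; simp [h2]
      have h5 := fm_rel (σ := σ) hD i
      rw [h4] at h5
      rw [h3]
      linarith

variable (D) (σ) in
open Classical in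
/-- The signed crossings near `1`. -/
noncomputable def cr (i : I) : ℤ :=
  if 0 ≤ (D i).re then (if lo D (σ i) then 1 else 0) - (if lo D i then 1 else 0) else 0

open Classical in
theorem sum_EXm : ∑ i, fm D σ i + ∑ i, km D σ i =
    Fintype.card I + ((∑ i, cr D σ i : ℤ) : ℝ) := by
  have h1 : ∀ i, fm D σ i + km D σ i =
      1 + ((if lo D (σ i) then fm D σ i else 0) - (if lo D (σ i) then fm D σ (σ i) else 0)) := by
    intro i
    unfold km
    by_cases h : lo D (σ i)
    · simp only [h, if_true]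
      ring
    · simp only [h, if_false]
      ring
  have h2 : ∑ i, (if lo D (σ i) then fm D σ (σ i) else 0) = ∑ i, (if lo D i then fm D σ i else 0) :=
    Equiv.sum_comp σ (fun i => if lo D i then fm D σ i else 0)
  have h3 : ∀ i, (if lo D (σ i) then fm D σ i else 0) - (if lo D i then fm D σ i else 0) =
      ((cr D σ i : ℤ) : ℝ) := by
    intro i
    unfold fm cr
    by_cases h1 : lo D i <;> by_cases h2 : lo D (σ i) <;> by_cases h3 : 0 ≤ (D i).re <;>
      simp [h1, h2, h3]
  rw [← Finset.sum_add_distrib, Finset.sum_congr rfl (fun i _ => h1 i), Finset.sum_add_distrib,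
    Finset.sum_sub_distrib, h2, ← Finset.sum_sub_distrib, Finset.sum_congr rfl (fun i _ => h3 i)]
  simp

/-- Real diagonal matrices as a ring homomorphism. -/
def dgH : (I → ℝ) →+* Matrix I I ℂ where
  toFun := dg
  map_zero' := dg_zero
  map_one' := dg_one
  map_add' φ ψ := (dg_add φ ψ).symm
  map_mul' φ ψ := (dg_mul φ ψ).symm

theorem map_dgH_star (A : Matrix (Fin 2) (Fin 2) (I → ℝ)) :
    (A.map dgH)ᴴ = Aᵀ.map (dgH : (I → ℝ) →+* Matrix I I ℂ) := by
  ext a b : 1
  rw [Matrix.conjTranspose_apply, Matrix.map_apply, Matrix.map_apply, Matrix.transpose_apply]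
  exact dg_star _

theorem co_sq (hD : ∀ i, ‖D i‖ = 1) (i : I) : co' D i * co' D i = fo D i := by
  have h1 : (D i).re * (D i).re + (D i).im * (D i).im = 1 := by
    have := Complex.sq_norm (D i)
    rw [hD, Complex.normSq_apply] at this
    linarith
  have h2 := Complex.sq_norm (1 + D i)
  rw [Complex.normSq_apply] at h2
  simp only [Complex.add_re, Complex.one_re, Complex.add_im, Complex.one_im, zero_add] at h2
  unfold co' fo
  nlinarith

theorem so_sq (hD : ∀ i, ‖D i‖ = 1) (i : I) : so' D i * so' D i = 1 - fo D i := by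
  have h1 : (D i).re * (D i).re + (D i).im * (D i).im = 1 := by
    have := Complex.sq_norm (D i)
    rw [hD, Complex.normSq_apply] at this
    linarith
  have h2 := Complex.sq_norm (1 - D i)
  rw [Complex.normSq_apply] at h2
  simp only [Complex.sub_re, Complex.one_re, Complex.sub_im, Complex.one_im, zero_sub] at h2
  unfold so' fo
  nlinarith

theorem go_mul_ho (i : I) : go D i * ho D i = 0 := by
  by_cases h : lo D i
  · rw [go_eq_zero h, zero_mul]
  · rw [ho_eq_zero h, mul_zero]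

theorem go_nonneg (i : I) : 0 ≤ go D i := by unfold go; positivity

theorem ho_nonneg (i : I) : 0 ≤ ho D i := by unfold ho; positivity

theorem co_mul_so (hD : ∀ i, ‖D i‖ = 1) (i : I) : co' D i * so' D i = go D i + ho D i := by
  have h1 : (co' D i * so' D i) ^ 2 = (go D i + ho D i) ^ 2 := by
    have e1 := co_sq hD i
    have e2 := so_sq hD i
    have e3 := fo_sub hD i
    have e4 := go_mul_ho (D := D) i
    calc (co' D i * so' D i) ^ 2 = (co' D i * co' D i) * (so' D i * so' D i) := by ring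
      _ = fo D i * (1 - fo D i) := by rw [e1, e2]
      _ = fo D i - fo D i * fo D i := by ring
      _ = go D i * go D i + ho D i * ho D i := by linarith
      _ = _ := by linear_combination (-2) * e4
  have h2 : 0 ≤ co' D i * so' D i := by unfold co' so'; positivity
  have h3 : 0 ≤ go D i + ho D i := add_nonneg (go_nonneg i) (ho_nonneg i)
  exact (pow_left_inj₀ h2 h3 two_ne_zero).1 h1

variable (D)

/-- The rotation, with function entries. -/
noncomputable def R0 : Matrix (Fin 2) (Fin 2) (I → ℝ) := !![co' D, -so' D; so' D, co' D]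

/-- The rotation. -/
noncomputable def Rm : Matrix (Fin 2) (Fin 2) (Matrix I I ℂ) := (R0 D).map dgH

/-- The coefficient `h` in the upper right corner. -/
noncomputable def N0 : Matrix (Fin 2) (Fin 2) (I → ℝ) := !![0, ho D; 0, 0]

/-- The value of the projection at `v = 1`. -/
noncomputable def E0 : Matrix (Fin 2) (Fin 2) (I → ℝ) :=
  !![fo D, go D + ho D; go D + ho D, 1 - fo D]

variable {D}

theorem R0_transpose : (R0 D)ᵀ = !![co' D, so' D; -so' D, co' D] := by
  ext a b : 2
  fin_cases a <;> fin_cases b <;> rfl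

theorem R0_mul (hD : ∀ i, ‖D i‖ = 1) : (R0 D)ᵀ * R0 D = 1 := by
  rw [R0_transpose, R0, Matrix.mul_fin_two, Matrix.one_fin_two]
  congr 1
  have e1 : co' D * co' D + so' D * so' D = 1 := by
    funext i
    simp only [Pi.add_apply, Pi.mul_apply, Pi.one_apply, co_sq hD i, so_sq hD i]
    ring
  congr 1
  · rw [e1]
    congr 1
    simp only [mul_neg]
    rw [mul_comm (co' D) (so' D), neg_add_cancel]
  · congr 1
    have e2 : -so' D * co' D + co' D * so' D = 0 := by ring
    have e3 : -so' D * -so' D + co' D * co' D = 1 := by rw [← e1]; ring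
    rw [e2, e3]

theorem Rm_star_mul (hD : ∀ i, ‖D i‖ = 1) : (Rm D)ᴴ * Rm D = 1 := by
  rw [Rm, map_dgH_star, ← Matrix.map_mul, R0_mul hD]
  exact Matrix.map_one _ (map_zero _) (map_one _)

theorem Rm_mul_star (hD : ∀ i, ‖D i‖ = 1) : Rm D * (Rm D)ᴴ = 1 := by
  have h1 := Rm_star_mul hD
  have h2 : (flat (Rm D))ᴴ * flat (Rm D) = 1 := by
    rw [← flat_conjTranspose, ← map_mul, h1, map_one]
  have h3 : flat (Rm D) * (flat (Rm D))ᴴ = 1 := mul_eq_one_comm.1 h2
  have h4 : R0 D * (R0 D)ᵀ = 1 := mul_eq_one_comm.1 (R0_mul hD)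
  rw [Rm, map_dgH_star, ← Matrix.map_mul, h4]
  exact Matrix.map_one _ (map_zero _) (map_one _)

theorem CC_eq (hD : ∀ i, ‖D i‖ = 1) : CC (diagonal D) (dg fun i => 2 * ho D i) =
    (Rm D)ᴴ * (N0 D).map dgH * Rm D := by
  have hre : (1 / 2 : ℂ) • (diagonal D + star (diagonal D)) = dg fun i => (D i).re := by
    rw [Matrix.star_eq_conjTranspose, Matrix.diagonal_conjTranspose, Matrix.diagonal_add,
      ← Matrix.diagonal_smul, dg]
    congr 1
    funext i
    simp only [Pi.smul_apply, Pi.star_apply, smul_eq_mul, Complex.star_def, Complex.add_conj]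
    push_cast
    ring
  have hprod : (R0 D)ᵀ * N0 D * R0 D =
      !![ho D * ho D, ho D * fo D; -(ho D * (1 - fo D)), -(ho D * ho D)] := by
    have c1 : co' D * co' D = fo D := funext fun i => co_sq hD i
    have c2 : so' D * so' D = 1 - fo D := funext fun i => so_sq hD i
    have c3 : co' D * so' D = go D + ho D := funext fun i => co_mul_so hD i
    have c4 : go D * ho D = 0 := funext fun i => go_mul_ho i
    rw [R0_transpose, N0, R0, Matrix.mul_fin_two, Matrix.mul_fin_two]
    congr 1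
    congr 1
    · congr 1
      · linear_combination (ho D) * c3 + c4
      · congr 1
        linear_combination (ho D) * c1
    · congr 1
      congr 1
      · linear_combination (-ho D) * c2
      · congr 1
        linear_combination (-ho D) * c3 - c4
  rw [Rm, map_dgH_star, ← Matrix.map_mul, ← Matrix.map_mul, hprod, CC, hre, ← dg_one, dg_add,
    dg_sub, dg_mul, dg_mul, dg_mul]
  ext a b : 1
  fin_cases a <;> fin_cases b
  · change (1 / 4 : ℂ) • dg _ = dg (ho D * ho D)
    rw [quarter_dg]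
    congr 1
    funext i
    simp only [Pi.mul_apply]
    ring
  · change (1 / 4 : ℂ) • dg _ = dg (ho D * fo D)
    rw [quarter_dg]
    congr 1
    funext i
    simp only [Pi.mul_apply, fo]
    ring
  · change (1 / 4 : ℂ) • (-dg _) = dg (-(ho D * (1 - fo D)))
    rw [smul_neg, quarter_dg, neg_dg]
    congr 1
    funext i
    simp only [Pi.mul_apply, Pi.neg_apply, Pi.sub_apply, Pi.one_apply, fo]
    ring
  · change (1 / 4 : ℂ) • (-dg _) = dg (-(ho D * ho D))
    rw [smul_neg, quarter_dg, neg_dg]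
    congr 1
    funext i
    simp only [Pi.mul_apply, Pi.neg_apply]
    ring

theorem E0_conj (hD : ∀ i, ‖D i‖ = 1) :
    (Rm D)ᴴ * (E0 D).map dgH * Rm D = !![1, 0; 0, 0] := by
  have hprod : (R0 D)ᵀ * E0 D * R0 D = !![1, 0; 0, 0] := by
    have c1 : co' D * co' D = fo D := funext fun i => co_sq hD i
    have c2 : so' D * so' D = 1 - fo D := funext fun i => so_sq hD i
    have c3 : co' D * so' D = go D + ho D := funext fun i => co_mul_so hD i
    have r : co' D * co' D + so' D * so' D = 1 := by linear_combination c1 + c2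
    rw [R0_transpose, E0, R0, Matrix.mul_fin_two, Matrix.mul_fin_two, ← c3, ← c1]
    congr 1
    congr 1
    · congr 1
      · linear_combination (co' D * co' D + 1) * r
      · congr 1
        linear_combination (-so' D * co' D) * r
    · congr 1
      congr 1
      · linear_combination (-so' D * co' D) * r
      · congr 1
        linear_combination (-co' D * co' D) * r
  rw [Rm, map_dgH_star, ← Matrix.map_mul, ← Matrix.map_mul, hprod]
  ext a b : 1
  fin_cases a <;> fin_cases b
  · exact map_one dgH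
  · exact map_zero dgH
  · exact map_zero dgH
  · exact map_zero dgH

end Model

section Close

variable {I : Type} [Fintype I] [DecidableEq I]

/-- Block diagonal matrices. -/
def V2 (w : Matrix I I ℂ) : Matrix (Fin 2) (Fin 2) (Matrix I I ℂ) := Matrix.diagonal fun _ => w

theorem map_mul_eq (A : Matrix (Fin 2) (Fin 2) (Matrix I I ℂ)) (w : Matrix I I ℂ) :
    A.map (· * w) = A * V2 w := by
  ext a b : 1
  rw [Matrix.map_apply, V2, Matrix.mul_diagonal]

theorem V2_sub_one (w : Matrix I I ℂ) : V2 (w - 1) = V2 w - 1 := by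
  ext a b : 1
  rw [Matrix.sub_apply, V2, V2, Matrix.diagonal_apply, Matrix.diagonal_apply, Matrix.one_apply]
  split_ifs <;> simp

theorem BE_eq (u v h : Matrix I I ℂ) :
    BE u v h = !![1, 0; 0, 0] + CC u h * (V2 v - 1) + (CC u h * (V2 v - 1))ᴴ := by
  rw [BE, map_mul_eq, V2_sub_one]

variable {D : I → ℂ} {σ : Equiv.Perm I} {δ : ℝ}

theorem abs_im_of_cross
    (hup : ∀ i, ¬ (lo D i ↔ lo D (σ i)) → 0 ≤ (D i).re → ‖D i - 1‖ ≤ δ)
    (hdn : ∀ i, ¬ (lo D i ↔ lo D (σ i)) → (D i).re < 0 → ‖D i + 1‖ ≤ δ) {i : I}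
    (h : ¬ (lo D i ↔ lo D (σ i))) : |(D i).im| ≤ δ := by
  rcases le_or_gt 0 (D i).re with h1 | h1
  · have h3 := hup i h h1
    have h4 := Complex.abs_im_le_norm (D i - 1)
    rw [Complex.sub_im, Complex.one_im, sub_zero] at h4
    linarith
  · have h3 := hdn i h h1
    have h4 := Complex.abs_im_le_norm (D i + 1)
    rw [Complex.add_im, Complex.one_im, add_zero] at h4
    linarith

theorem abs_fm_sub (hδ : 0 ≤ δ)
    (hup : ∀ i, ¬ (lo D i ↔ lo D (σ i)) → 0 ≤ (D i).re → ‖D i - 1‖ ≤ δ)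
    (hdn : ∀ i, ¬ (lo D i ↔ lo D (σ i)) → (D i).re < 0 → ‖D i + 1‖ ≤ δ) (i : I) :
    |fm D σ i - fo D i| ≤ δ / 2 := by
  by_cases h : (lo D i ↔ lo D (σ i))
  · have : fm D σ i = fo D i := by unfold fm; rw [if_pos h]
    rw [this, sub_self, abs_zero]
    positivity
  · rcases le_or_gt 0 (D i).re with h1 | h1
    · have : fm D σ i = 1 := by unfold fm; rw [if_neg h, if_pos h1]
      rw [this]
      have h3 := hup i h h1
      have h4 := Complex.abs_re_le_norm (D i - 1)
      rw [Complex.sub_re, Complex.one_re] at h4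
      have h5 : 1 - fo D i = -((D i).re - 1) / 2 := by unfold fo; ring
      rw [h5, abs_div, abs_two, abs_neg]
      linarith
    · have : fm D σ i = 0 := by unfold fm; rw [if_neg h, if_neg (not_le.2 h1)]
      rw [this, zero_sub, abs_neg]
      have h3 := hdn i h h1
      have h4 := Complex.abs_re_le_norm (D i + 1)
      rw [Complex.add_re, Complex.one_re] at h4
      unfold fo
      rw [abs_div, abs_two, add_comm]
      linarith

theorem abs_gm_sub (hδ : 0 ≤ δ)
    (hup : ∀ i, ¬ (lo D i ↔ lo D (σ i)) → 0 ≤ (D i).re → ‖D i - 1‖ ≤ δ)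
    (hdn : ∀ i, ¬ (lo D i ↔ lo D (σ i)) → (D i).re < 0 → ‖D i + 1‖ ≤ δ) (i : I) :
    |gm' D σ i - go D i| ≤ δ / 2 := by
  by_cases h1 : lo D i
  · have : gm' D σ i = 0 := by unfold gm'; simp [h1]
    rw [this, go_eq_zero h1, sub_self, abs_zero]
    positivity
  · by_cases h2 : lo D (σ i)
    · have : gm' D σ i = 0 := by unfold gm'; simp [h2]
      rw [this, zero_sub, abs_neg]
      have h4 := abs_im_of_cross hup hdn (i := i) (by simp [h1, h2])
      unfold lo at h1
      unfold go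
      rw [max_eq_left (not_lt.1 h1), abs_div, abs_two]
      linarith
    · have : gm' D σ i = go D i := by unfold gm'; simp [h1, h2]
      rw [this, sub_self, abs_zero]
      positivity

theorem abs_hm_sub (hδ : 0 ≤ δ)
    (hup : ∀ i, ¬ (lo D i ↔ lo D (σ i)) → 0 ≤ (D i).re → ‖D i - 1‖ ≤ δ)
    (hdn : ∀ i, ¬ (lo D i ↔ lo D (σ i)) → (D i).re < 0 → ‖D i + 1‖ ≤ δ) (i : I) :
    |hm D σ i - ho D i| ≤ δ / 2 := by
  by_cases h1 : lo D i
  · by_cases h2 : lo D (σ i)
    · have : hm D σ i = ho D i := by unfold hm; simp [h1, h2]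
      rw [this, sub_self, abs_zero]
      positivity
    · have : hm D σ i = 0 := by unfold hm; simp [h2]
      rw [this, zero_sub, abs_neg]
      have h4 := abs_im_of_cross hup hdn (i := i) (by simp [h1, h2])
      unfold lo at h1
      unfold ho
      rw [max_eq_left (by linarith), abs_div, abs_two, abs_neg]
      linarith
  · have : hm D σ i = 0 := by unfold hm; simp [h1]
    rw [this, ho_eq_zero h1, sub_self, abs_zero]
    positivity

theorem abs_fo_sub (hs : ∀ i, ‖D (σ i) - D i‖ ≤ δ) (i : I) :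
    |fo D (σ i) - fo D i| ≤ δ / 2 := by
  have h3 := hs i
  have h4 := Complex.abs_re_le_norm (D (σ i) - D i)
  rw [Complex.sub_re] at h4
  have h5 : fo D (σ i) - fo D i = ((D (σ i)).re - (D i).re) / 2 := by unfold fo; ring
  rw [h5, abs_div, abs_two]
  linarith

theorem abs_km_sub (hδ : 0 ≤ δ) (hs : ∀ i, ‖D (σ i) - D i‖ ≤ δ)
    (hup : ∀ i, ¬ (lo D i ↔ lo D (σ i)) → 0 ≤ (D i).re → ‖D i - 1‖ ≤ δ)
    (hdn : ∀ i, ¬ (lo D i ↔ lo D (σ i)) → (D i).re < 0 → ‖D i + 1‖ ≤ δ) (i : I) :
    |km D σ i - (1 - fo D i)| ≤ δ := by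
  by_cases h2 : lo D (σ i)
  · have : km D σ i = 1 - fm D σ (σ i) := by unfold km; simp [h2]
    have h1 : km D σ i - (1 - fo D i) =
        -((fm D σ (σ i) - fo D (σ i)) + (fo D (σ i) - fo D i)) := by rw [this]; ring
    rw [h1, abs_neg]
    have h3 := abs_fm_sub hδ hup hdn (σ i)
    have h4 := abs_fo_sub hs i
    exact (abs_add_le _ _).trans (by linarith)
  · have : km D σ i = 1 - fm D σ i := by unfold km; simp [h2]
    have h1 : km D σ i - (1 - fo D i) = -(fm D σ i - fo D i) := by rw [this]; ring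
    rw [h1, abs_neg]
    exact (abs_fm_sub hδ hup hdn i).trans (by linarith)

/-- The total modification. -/
noncomputable def DL (D : I → ℂ) (σ : Equiv.Perm I) : Matrix (Fin 2) (Fin 2) (Matrix I I ℂ) :=
  EX σ (fm D σ) (gm' D σ) (hm D σ) (km D σ) - (E0 D).map dgH -
    (N0 D).map dgH * (V2 (vm σ) - 1) - ((N0 D).map dgH * (V2 (vm σ) - 1))ᴴ

theorem N0_mul : (N0 D).map dgH * (V2 (vm σ) - 1) = !![0, dg (ho D) * (vm σ - 1); 0, 0] := by
  rw [← V2_sub_one, ← map_mul_eq]
  ext a b : 1
  fin_cases a <;> fin_cases b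
  · change dg (0 : I → ℝ) * _ = 0
    rw [show dg (0 : I → ℝ) = 0 from dg_zero, zero_mul]
  · rfl
  · change dg (0 : I → ℝ) * _ = 0
    rw [show dg (0 : I → ℝ) = 0 from dg_zero, zero_mul]
  · change dg (0 : I → ℝ) * _ = 0
    rw [show dg (0 : I → ℝ) = 0 from dg_zero, zero_mul]

theorem norm_DL (hδ : 0 ≤ δ) (hs : ∀ i, ‖D (σ i) - D i‖ ≤ δ)
    (hup : ∀ i, ¬ (lo D i ↔ lo D (σ i)) → 0 ≤ (D i).re → ‖D i - 1‖ ≤ δ)
    (hdn : ∀ i, ¬ (lo D i ↔ lo D (σ i)) → (D i).re < 0 → ‖D i + 1‖ ≤ δ) : ‖flat (DL D σ)‖ ≤ 7 / 2 * δ := by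
  have e00 : DL D σ 0 0 = dg fun i => fm D σ i - fo D i := by
    rw [DL, N0_mul]
    change dg (fm D σ) - dg (fo D) - 0 - star (0 : Matrix I I ℂ) = _
    rw [star_zero, sub_zero, sub_zero, dg_sub]
  have e11 : DL D σ 1 1 = dg fun i => km D σ i - (1 - fo D i) := by
    rw [DL, N0_mul]
    change dg (km D σ) - dg (1 - fo D) - 0 - star (0 : Matrix I I ℂ) = _
    rw [star_zero, sub_zero, sub_zero, dg_sub]
    rfl
  have e01 : DL D σ 0 1 = dg (fun i => gm' D σ i - go D i) +
      dg (fun i => hm D σ i - ho D i) * vm σ := by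
    rw [DL, N0_mul]
    change (dg (gm' D σ) + dg (hm D σ) * vm σ) - dg (fun i => go D i + ho D i) -
      dg (ho D) * (vm σ - 1) - star (0 : Matrix I I ℂ) = _
    rw [star_zero, sub_zero, ← dg_sub, ← dg_sub, ← dg_add]
    noncomm_ring
  have e10 : DL D σ 1 0 = (DL D σ 0 1)ᴴ := by
    rw [DL, N0_mul]
    change (dg (gm' D σ) + (vm σ)ᴴ * dg (hm D σ)) - dg (fun i => go D i + ho D i) -
      0 - (dg (ho D) * (vm σ - 1))ᴴ = ((dg (gm' D σ) + dg (hm D σ) * vm σ) -
        dg (fun i => go D i + ho D i) - dg (ho D) * (vm σ - 1) - star (0 : Matrix I I ℂ))ᴴ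
    rw [star_zero, sub_zero, sub_zero, Matrix.conjTranspose_sub, Matrix.conjTranspose_sub,
      Matrix.conjTranspose_add, Matrix.conjTranspose_mul (dg (ho D)),
      Matrix.conjTranspose_mul (dg (hm D σ)), dg_star, dg_star, dg_star, dg_star]
  have hd2 : (0 : ℝ) ≤ δ / 2 := by positivity
  have n00 : ‖DL D σ 0 0‖ ≤ δ / 2 := by
    rw [e00]
    exact norm_dg_le hd2 (abs_fm_sub hδ hup hdn)
  have n11 : ‖DL D σ 1 1‖ ≤ δ := by
    rw [e11]
    exact norm_dg_le hδ (abs_km_sub hδ hs hup hdn)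
  have n01 : ‖DL D σ 0 1‖ ≤ δ := by
    rw [e01]
    have m1 : ‖dg (fun i => gm' D σ i - go D i)‖ ≤ δ / 2 := norm_dg_le hd2
      (abs_gm_sub hδ hup hdn)
    have m2 : ‖dg (fun i => hm D σ i - ho D i)‖ ≤ δ / 2 := norm_dg_le hd2
      (abs_hm_sub hδ hup hdn)
    have m3 := norm_vm_le σ
    calc _ ≤ ‖dg (fun i => gm' D σ i - go D i)‖ + ‖dg (fun i => hm D σ i - ho D i) * vm σ‖ :=
          norm_add_le _ _
      _ ≤ ‖dg (fun i => gm' D σ i - go D i)‖ + ‖dg (fun i => hm D σ i - ho D i)‖ * ‖vm σ‖ := by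
          gcongr
          exact Matrix.l2_opNorm_mul _ _
      _ ≤ δ / 2 + δ / 2 * 1 := by gcongr
      _ = δ := by ring
  have n10 : ‖DL D σ 1 0‖ ≤ δ := by
    rw [e10, Matrix.l2_opNorm_conjTranspose]
    exact n01
  have := norm_flat_le (DL D σ)
  linarith only [this, n10, n01, n11, n00]

theorem norm_comm_le (hs : ∀ i, ‖D (σ i) - D i‖ ≤ δ) (hδ : 0 ≤ δ) :
    ‖flat (Rm D * V2 (vm σ) - V2 (vm σ) * Rm D)‖ ≤ 2 * δ := by
  have key : ∀ φ : I → ℝ, (∀ i, |φ (σ i) - φ i| ≤ δ / 2) →
      ‖dg φ * vm σ - vm σ * dg φ‖ ≤ δ / 2 := by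
    intro φ hφ
    rw [vm_mul_dg, ← sub_mul, dg_sub]
    have m1 : ‖dg (fun i => φ i - φ (σ.symm i))‖ ≤ δ / 2 := by
      refine norm_dg_le (by positivity) fun i => ?_
      have := hφ (σ.symm i)
      rwa [Equiv.apply_symm_apply] at this
    have m3 := norm_vm_le σ
    calc _ ≤ ‖dg (fun i => φ i - φ (σ.symm i))‖ * ‖vm σ‖ := Matrix.l2_opNorm_mul _ _
      _ ≤ δ / 2 * 1 := by gcongr
      _ = δ / 2 := mul_one _
  have hc : ∀ i, |co' D (σ i) - co' D i| ≤ δ / 2 := by
    intro i
    have h1 := abs_norm_sub_norm_le (1 + D (σ i)) (1 + D i)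
    rw [add_sub_add_left_eq_sub] at h1
    have h2 : co' D (σ i) - co' D i = (‖1 + D (σ i)‖ - ‖1 + D i‖) / 2 := by unfold co'; ring
    rw [h2, abs_div, abs_two]
    linarith [hs i]
  have hso : ∀ i, |so' D (σ i) - so' D i| ≤ δ / 2 := by
    intro i
    have h1 := abs_norm_sub_norm_le (1 - D (σ i)) (1 - D i)
    have e : (1 - D (σ i)) - (1 - D i) = -(D (σ i) - D i) := by ring
    rw [e, norm_neg] at h1
    have h2 : so' D (σ i) - so' D i = (‖1 - D (σ i)‖ - ‖1 - D i‖) / 2 := by unfold so'; ring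
    rw [h2, abs_div, abs_two]
    linarith [hs i]
  have hso' : ∀ i, |(-so' D) (σ i) - (-so' D) i| ≤ δ / 2 := by
    intro i
    have := hso i
    rw [Pi.neg_apply, Pi.neg_apply, ← neg_add', abs_neg]
    rw [← sub_eq_add_neg]
    exact this
  have hent : ∀ a b, (Rm D * V2 (vm σ) - V2 (vm σ) * Rm D) a b =
      dg (R0 D a b) * vm σ - vm σ * dg (R0 D a b) := by
    intro a b
    rw [Matrix.sub_apply, V2, Matrix.mul_diagonal, Matrix.diagonal_mul]
    rfl
  have := norm_flat_le (Rm D * V2 (vm σ) - V2 (vm σ) * Rm D)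
  rw [hent, hent, hent, hent] at this
  have k00 := key (R0 D 0 0) hc
  have k01 := key (R0 D 0 1) hso'
  have k10 := key (R0 D 1 0) hso
  have k11 := key (R0 D 1 1) hc
  linarith

theorem norm_N0_le (hD : ∀ i, ‖D i‖ = 1) : ‖flat ((N0 D).map dgH)‖ ≤ 1 / 2 := by
  have h := norm_flat_le ((N0 D).map (dgH : (I → ℝ) →+* Matrix I I ℂ))
  have h0 : dg (0 : I → ℝ) = 0 := dg_zero
  have h1 : ‖((N0 D).map (dgH : (I → ℝ) →+* Matrix I I ℂ)) 0 0‖ = 0 := by
    change ‖dg (0 : I → ℝ)‖ = 0
    rw [h0, norm_zero]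
  have h2 : ‖((N0 D).map (dgH : (I → ℝ) →+* Matrix I I ℂ)) 1 0‖ = 0 := by
    change ‖dg (0 : I → ℝ)‖ = 0
    rw [h0, norm_zero]
  have h3 : ‖((N0 D).map (dgH : (I → ℝ) →+* Matrix I I ℂ)) 1 1‖ = 0 := by
    change ‖dg (0 : I → ℝ)‖ = 0
    rw [h0, norm_zero]
  have h4 : ‖((N0 D).map (dgH : (I → ℝ) →+* Matrix I I ℂ)) 0 1‖ ≤ 1 / 2 := by
    change ‖dg (ho D)‖ ≤ 1 / 2
    refine norm_dg_le (by norm_num) fun i => ?_
    rw [abs_of_nonneg (ho_nonneg i)]
    have h5 := Complex.abs_im_le_norm (D i)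
    rw [hD i] at h5
    have h6 := abs_le.1 h5
    unfold ho
    have : max (-(D i).im) 0 ≤ 1 := max_le (by linarith) (by norm_num)
    linarith
  linarith

theorem norm_flat_Rm (hD : ∀ i, ‖D i‖ = 1) : ‖flat (Rm D)‖ ≤ 1 :=
  norm_le_one_of_unitary (by rw [← flat_conjTranspose, ← map_mul, Rm_star_mul hD, map_one])

theorem norm_close (hD : ∀ i, ‖D i‖ = 1) (hδ : 0 ≤ δ) (hs : ∀ i, ‖D (σ i) - D i‖ ≤ δ)
    (hup : ∀ i, ¬ (lo D i ↔ lo D (σ i)) → 0 ≤ (D i).re → ‖D i - 1‖ ≤ δ)
    (hdn : ∀ i, ¬ (lo D i ↔ lo D (σ i)) → (D i).re < 0 → ‖D i + 1‖ ≤ δ) :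
    ‖flat (BE (diagonal D) (vm σ) (dg fun i => 2 * ho D i)) - flat ((Rm D)ᴴ *
      EX σ (fm D σ) (gm' D σ) (hm D σ) (km D σ) * Rm D)‖ ≤ 6 * δ := by
  set A := Rm D with hA
  set V : Matrix (Fin 2) (Fin 2) (Matrix I I ℂ) := V2 (vm σ) with hV
  set N : Matrix (Fin 2) (Fin 2) (Matrix I I ℂ) := (N0 D).map dgH with hN
  have h1 : BE (diagonal D) (vm σ) (dg fun i => 2 * ho D i) - Aᴴ *
      EX σ (fm D σ) (gm' D σ) (hm D σ) (km D σ) * A =
      Aᴴ * N * (A * V - V * A) + (Aᴴ * N * (A * V - V * A))ᴴ - Aᴴ * DL D σ * A := by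
    have hE : EX σ (fm D σ) (gm' D σ) (hm D σ) (km D σ) = (E0 D).map dgH + N * (V - 1) +
        (N * (V - 1))ᴴ + DL D σ := by
      rw [DL]
      abel
    rw [BE_eq, CC_eq hD, ← E0_conj hD, hE]
    simp only [Matrix.conjTranspose_mul, Matrix.conjTranspose_sub, Matrix.conjTranspose_one,
      Matrix.conjTranspose_conjTranspose]
    noncomm_ring
  rw [← map_sub, h1, map_sub, map_add]
  have hAn := norm_flat_Rm hD
  have hAn' : ‖flat Aᴴ‖ ≤ 1 := by
    rw [flat_conjTranspose, Matrix.l2_opNorm_conjTranspose]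
    exact hAn
  have hNn := norm_N0_le hD
  have hC : ‖flat (A * V - V * A)‖ ≤ 2 * δ := norm_comm_le hs hδ
  have hDn := norm_DL hδ hs hup hdn
  have t1 : ‖flat (Aᴴ * N * (A * V - V * A))‖ ≤ δ := by
    rw [map_mul, map_mul]
    calc _ ≤ ‖flat Aᴴ * flat N‖ * ‖flat (A * V - V * A)‖ := Matrix.l2_opNorm_mul _ _
      _ ≤ (‖flat Aᴴ‖ * ‖flat N‖) * ‖flat (A * V - V * A)‖ := by
          gcongr
          exact Matrix.l2_opNorm_mul _ _
      _ ≤ (1 * (1 / 2)) * (2 * δ) := by gcongr
      _ = δ := by ring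
  have t2 : ‖flat (Aᴴ * N * (A * V - V * A))ᴴ‖ ≤ δ := by
    rw [flat_conjTranspose, Matrix.l2_opNorm_conjTranspose]
    exact t1
  have t3 : ‖flat (Aᴴ * DL D σ * A)‖ ≤ 7 / 2 * δ := by
    rw [map_mul, map_mul]
    calc _ ≤ ‖flat Aᴴ * flat (DL D σ)‖ * ‖flat A‖ := Matrix.l2_opNorm_mul _ _
      _ ≤ (‖flat Aᴴ‖ * ‖flat (DL D σ)‖) * ‖flat A‖ := by
          gcongr
          exact Matrix.l2_opNorm_mul _ _
      _ ≤ (1 * (7 / 2 * δ)) * 1 := by gcongr
      _ = 7 / 2 * δ := by ring
  calc _ ≤ ‖flat (Aᴴ * N * (A * V - V * A)) + flat (Aᴴ * N * (A * V - V * A))ᴴ‖ +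
        ‖flat (Aᴴ * DL D σ * A)‖ := norm_sub_le _ _
    _ ≤ (‖flat (Aᴴ * N * (A * V - V * A))‖ + ‖flat (Aᴴ * N * (A * V - V * A))ᴴ‖) +
        ‖flat (Aᴴ * DL D σ * A)‖ := by
          gcongr
          exact norm_add_le _ _
    _ ≤ (δ + δ) + 7 / 2 * δ := by gcongr
    _ ≤ 6 * δ := by linarith only [hδ]

theorem abs_im_cross' (hs : ∀ i, ‖D (σ i) - D i‖ ≤ δ) {i : I}
    (h : ¬ (lo D i ↔ lo D (σ i))) : |(D i).im| ≤ δ := by
  have h1 := Complex.abs_im_le_norm (D (σ i) - D i)
  rw [Complex.sub_im] at h1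
  have h2 := h1.trans (hs i)
  rw [abs_le] at h2
  unfold lo at h
  rw [abs_le]
  rcases lt_or_ge (D i).im 0 with h3 | h3
  · have h4 : 0 ≤ (D (σ i)).im := by
      by_contra hcon
      exact h ⟨fun _ => not_le.1 hcon, fun _ => h3⟩
    constructor <;> linarith
  · have h4 : (D (σ i)).im < 0 := by
      by_contra hcon
      exact h ⟨fun h5 => absurd h5 (not_lt.2 h3), fun h5 => absurd h5 hcon⟩
    constructor <;> linarith

theorem norm_sub_one_of_im {z : ℂ} (hz : ‖z‖ = 1) (hr : 0 ≤ z.re) (hδ : |z.im| ≤ δ) :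
    ‖z - 1‖ ≤ 2 * δ := by
  have hδ0 : 0 ≤ δ := (abs_nonneg _).trans hδ
  have h1 : z.re * z.re + z.im * z.im = 1 := by
    have := Complex.sq_norm z
    rw [hz, Complex.normSq_apply] at this
    linarith
  have h2 : z.im * z.im ≤ δ * δ := by
    rw [← abs_mul_abs_self z.im]
    gcongr
  have h3 : ‖z - 1‖ ^ 2 ≤ (2 * δ) ^ 2 := by
    rw [Complex.sq_norm, Complex.normSq_apply, Complex.sub_re, Complex.sub_im, Complex.one_re,
      Complex.one_im]
    have h4 : z.re ≤ 1 := by (by_contra nlg; linarith only [nlg, mul_nonneg (sub_nonneg.2 hr) (mul_self_nonneg z.im), mul_eq_zero_of_left (sub_eq_zero.2 h1) (z.re - (0)), mul_nonneg (le_of_lt (sub_pos.2 (not_le.1 nlg))) (mul_self_nonneg z.im), mul_eq_zero_of_left (sub_eq_zero.2 h1) (z.re - (1)), mul_pos (sub_pos.2 (not_le.1 nlg)) (sub_pos.2 (not_le.1 nlg)), mul_nonneg (mul_self_nonneg (z.re : ℝ)) (le_of_lt (sub_pos.2 (not_le.1 nlg)))])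
    (by_contra nlg; linarith [mul_nonneg (mul_self_nonneg (z.im - 0 : ℝ)) (le_of_lt (sub_pos.2 (not_le.1 nlg))), mul_pos (sub_pos.2 (not_le.1 nlg)) (sub_pos.2 (not_le.1 nlg)), mul_nonneg (le_of_lt (sub_pos.2 (not_le.1 nlg))) (sub_nonneg.2 hr), mul_eq_zero_of_left (sub_eq_zero.2 h1) ((z.re - 1) * (z.re - 1) + (z.im - 0) * (z.im - 0) - ((2 * δ) ^ 2)), mul_nonneg (le_of_lt (sub_pos.2 (not_le.1 nlg))) (sub_nonneg.2 h2), mul_eq_zero_of_left (sub_eq_zero.2 h1) (z.re - (0)), mul_nonneg (sub_nonneg.2 hr) (sub_nonneg.2 h2), mul_nonneg (sub_nonneg.2 hr) (sub_nonneg.2 h4), mul_nonneg (sub_nonneg.2 hδ0) (sub_nonneg.2 hδ0), mul_eq_zero_of_left (sub_eq_zero.2 h1) (1 - (z.re)), mul_nonneg (sub_nonneg.2 h2) (sub_nonneg.2 h4)])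
  exact abs_le_of_sq_le_sq' h3 (by positivity) |>.2

theorem norm_close' (hD : ∀ i, ‖D i‖ = 1) (hδ : 0 ≤ δ) (hs : ∀ i, ‖D (σ i) - D i‖ ≤ δ) :
    ‖flat (BE (diagonal D) (vm σ) (dg fun i => 2 * ho D i)) - flat ((Rm D)ᴴ *
      EX σ (fm D σ) (gm' D σ) (hm D σ) (km D σ) * Rm D)‖ ≤ 12 * δ := by
  refine (norm_close (δ := 2 * δ) hD (by positivity) (fun i => (hs i).trans (by linarith)) ?_
    ?_).trans (by linarith)
  · intro i h h1
    exact norm_sub_one_of_im (hD i) h1 (abs_im_cross' hs h)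
  · intro i h h1
    have h2 := norm_sub_one_of_im (z := -D i) (δ := δ) (by rw [norm_neg, hD i])
      (by rw [Complex.neg_re]; linarith) (by rw [Complex.neg_im, abs_neg]; exact abs_im_cross' hs h)
    rw [← norm_neg] at h2
    have e : -(-D i - 1) = D i + 1 := by ring
    rwa [e] at h2

end Close

end Vale.Agent.P212.BottCore
end
end

section

section

/-! The torus model. -/

set_option linter.unusedSectionVars false
set_option linter.unusedSimpArgs false

namespace Vale.Agent.P212.BottCore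

open Matrix
open scoped Matrix.Norms.L2Operator

section Torus

variable (M : ℕ) [NeZero M] (j : ℤ) (τ : ℕ → ℝ)

/-- The angles. -/
noncomputable def th (i : ZMod M × ZMod M) : ℝ := ((i.1.val : ℝ) - j * τ i.2.val) / M

/-- The eigenvalues. -/
noncomputable def Dt (i : ZMod M × ZMod M) : ℂ := Complex.exp (2 * Real.pi * Complex.I * th M j τ i)

/-- The drift of the angles. -/
noncomputable def dr (i : ZMod M × ZMod M) : ℝ := j * (τ (i.2.val + 1) - τ i.2.val) / M

/-- The permutation. -/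
def st : Equiv.Perm (ZMod M × ZMod M) where
  toFun i := (if i.2 + 1 = 0 then i.1 - j else i.1, i.2 + 1)
  invFun i := (if i.2 = 0 then i.1 + j else i.1, i.2 - 1)
  left_inv i := by
    obtain ⟨k, y⟩ := i
    by_cases h : y + 1 = 0
    · simp [h]
      exact (eq_neg_of_add_eq_zero_left h).symm
    · simp [h]
  right_inv i := by
    obtain ⟨k, y⟩ := i
    by_cases h : y = 0
    · simp [h]
    · simp [h]

variable {M j τ}

theorem norm_Dt (i : ZMod M × ZMod M) : ‖Dt M j τ i‖ = 1 := by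
  unfold Dt
  have : (2 * Real.pi * Complex.I * th M j τ i : ℂ) = ((2 * Real.pi * th M j τ i : ℝ) : ℂ) *
      Complex.I := by push_cast; ring
  rw [this, Complex.norm_exp_ofReal_mul_I]

theorem Dt_im (i : ZMod M × ZMod M) : (Dt M j τ i).im = Real.sin (2 * Real.pi * th M j τ i) := by
  unfold Dt
  have : (2 * Real.pi * Complex.I * th M j τ i : ℂ) = ((2 * Real.pi * th M j τ i : ℝ) : ℂ) *
      Complex.I := by push_cast; ring
  rw [this, Complex.exp_ofReal_mul_I_im]

theorem Dt_re (i : ZMod M × ZMod M) : (Dt M j τ i).re = Real.cos (2 * Real.pi * th M j τ i) := by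
  unfold Dt
  have : (2 * Real.pi * Complex.I * th M j τ i : ℂ) = ((2 * Real.pi * th M j τ i : ℝ) : ℂ) *
      Complex.I := by push_cast; ring
  rw [this, Complex.exp_ofReal_mul_I_re]

theorem val_succ_of_ne {y : ZMod M} (h : y + 1 ≠ 0) : (y + 1).val = y.val + 1 := by
  have h1 : y.val + 1 < M := by
    have h2 := ZMod.val_lt y
    by_contra hcon
    have h3 : y.val + 1 = M := by omega
    apply h
    have h4 : ((y.val + 1 : ℕ) : ZMod M) = 0 := by rw [h3]; exact ZMod.natCast_self M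
    rw [Nat.cast_add, ZMod.natCast_val, ZMod.cast_id', Nat.cast_one] at h4
    exact h4
  rw [ZMod.val_add_of_lt]
  · have : (1 : ZMod M).val = 1 := by
      have : Fact (1 < M) := ⟨by omega⟩
      exact ZMod.val_one M
    rw [this]
  · have : (1 : ZMod M).val ≤ 1 := by
      have : Fact (1 < M) := ⟨by omega⟩
      rw [ZMod.val_one M]
    omega

theorem val_succ_of_eq {y : ZMod M} (h : y + 1 = 0) : y.val + 1 = M := by
  have h2 := ZMod.val_lt y
  by_contra hcon
  have h3 : y.val + 1 < M := by omega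
  have h4 : ((y.val + 1 : ℕ) : ZMod M) = 0 := by
    rw [Nat.cast_add, ZMod.natCast_val, ZMod.cast_id', Nat.cast_one]
    exact h
  rw [ZMod.natCast_eq_zero_iff] at h4
  exact absurd (Nat.le_of_dvd (Nat.succ_pos _) h4) (by omega)

theorem val_sub_int (k : ZMod M) (j : ℤ) :
    ∃ m : ℤ, ((k - j : ZMod M).val : ℤ) = k.val - j + m * M := by
  have h4 : (((k - j : ZMod M).val : ℤ) : ZMod M) = ((k.val - j : ℤ) : ZMod M) := by
    push_cast
    rw [ZMod.natCast_val, ZMod.natCast_val, ZMod.cast_id']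
    rfl
  rw [ZMod.intCast_eq_intCast_iff_dvd_sub] at h4
  obtain ⟨m, hm⟩ := h4
  exact ⟨-m, by linear_combination -hm⟩

theorem th_st (h0 : τ 0 = 0) (h1 : τ M = 1) (i : ZMod M × ZMod M) :
    ∃ m : ℤ, th M j τ (st M j i) = th M j τ i - dr M j τ i + m := by
  obtain ⟨k, y⟩ := i
  have hM : (M : ℝ) ≠ 0 := Nat.cast_ne_zero.2 (NeZero.ne M)
  by_cases h : y + 1 = 0
  · have h2 := val_succ_of_eq h
    obtain ⟨m, hm⟩ := val_sub_int k j
    refine ⟨m, ?_⟩
    have hm' : ((k - j : ZMod M).val : ℝ) = k.val - j + m * M := by exact_mod_cast hm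
    unfold th dr st
    simp only [Equiv.coe_fn_mk, h, if_true, ZMod.val_zero, h0, h2, h1, hm']
    field_simp
    ring
  · have h2 := val_succ_of_ne h
    refine ⟨0, ?_⟩
    unfold th dr st
    simp only [Equiv.coe_fn_mk, h, if_false, h2]
    push_cast
    field_simp
    ring

theorem Dt_st (h0 : τ 0 = 0) (h1 : τ M = 1) (i : ZMod M × ZMod M) :
    Dt M j τ (st M j i) = Complex.exp (2 * Real.pi * Complex.I * (th M j τ i - dr M j τ i : ℝ)) := by
  obtain ⟨m, hm⟩ := th_st (j := j) h0 h1 i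
  unfold Dt
  rw [hm, Complex.exp_eq_exp_iff_exists_int]
  refine ⟨m, ?_⟩
  push_cast
  ring

theorem norm_exp_sub_one (x : ℝ) : ‖Complex.exp (2 * Real.pi * Complex.I * (x : ℂ)) - 1‖ ≤
    2 * Real.pi * |x| := by
  have : (2 * Real.pi * Complex.I * x : ℂ) = Complex.I * ((2 * Real.pi * x : ℝ) : ℂ) := by
    push_cast; ring
  rw [this]
  refine (Real.norm_exp_I_mul_ofReal_sub_one_le).trans (le_of_eq ?_)
  rw [Real.norm_eq_abs, abs_mul, abs_mul, abs_two, abs_of_pos Real.pi_pos]

theorem sin_neg_iff (x : ℝ) : Real.sin (2 * Real.pi * x) < 0 ↔ 1 / 2 < Int.fract x := by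
  have h1 : Real.sin (2 * Real.pi * x) = Real.sin (2 * Real.pi * Int.fract x) := by
    have : 2 * Real.pi * x = 2 * Real.pi * Int.fract x + ⌊x⌋ * (2 * Real.pi) := by
      have := Int.floor_add_fract x
      linear_combination (-2 * Real.pi) * this
    rw [this, Real.sin_add_int_mul_two_pi]
  rw [h1]
  have h2 := Int.fract_nonneg x
  have h3 := Int.fract_lt_one x
  have hpi := Real.pi_pos
  constructor
  · intro h
    by_contra hcon
    have : 0 ≤ Real.sin (2 * Real.pi * Int.fract x) :=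
      Real.sin_nonneg_of_nonneg_of_le_pi (by positivity) (by (by_contra nlg; linarith only [mul_nonneg (le_of_lt (sub_pos.2 (not_le.1 nlg))) (sub_nonneg.2 h2), mul_pos (sub_pos.2 (not_le.1 nlg)) (sub_pos.2 h3), mul_nonneg (le_of_lt (sub_pos.2 hpi)) (sub_nonneg.2 (not_lt.1 hcon))]))
    linarith
  · intro h
    rw [← Real.sin_sub_two_pi]
    exact Real.sin_neg_of_neg_of_neg_pi_lt (by (by_contra nlg; linarith [mul_pos (sub_pos.2 h3) (sub_pos.2 hpi), mul_nonneg (sub_nonneg.2 (not_lt.1 nlg)) (le_of_lt (sub_pos.2 h)), mul_nonneg (sub_nonneg.2 (not_lt.1 nlg)) (le_of_lt (sub_pos.2 h3))])) (by nlinarith)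

theorem cos_nonneg_iff (x : ℝ) : 0 ≤ Real.cos (2 * Real.pi * x) ↔
    (Int.fract x ≤ 1 / 4 ∨ 3 / 4 ≤ Int.fract x) := by
  have h1 : Real.cos (2 * Real.pi * x) = Real.cos (2 * Real.pi * Int.fract x) := by
    have : 2 * Real.pi * x = 2 * Real.pi * Int.fract x + ⌊x⌋ * (2 * Real.pi) := by
      have := Int.floor_add_fract x
      linear_combination (-2 * Real.pi) * this
    rw [this, Real.cos_add_int_mul_two_pi]
  rw [h1]
  have h2 := Int.fract_nonneg x
  have h3 := Int.fract_lt_one x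
  have hpi := Real.pi_pos
  constructor
  · intro h
    by_contra hcon
    rw [not_or, not_le, not_le] at hcon
    have : Real.cos (2 * Real.pi * Int.fract x) < 0 :=
      Real.cos_neg_of_pi_div_two_lt_of_lt (by (by_contra nlg; linarith only [mul_nonneg (sub_nonneg.2 (not_lt.1 nlg)) (le_of_lt (sub_pos.2 h3)), mul_nonneg (sub_nonneg.2 (not_lt.1 nlg)) (le_of_lt (sub_pos.2 hcon.1)), mul_pos (sub_pos.2 hpi) (sub_pos.2 hcon.1)])) (by (by_contra nlg; linarith only [mul_nonneg (sub_nonneg.2 (not_lt.1 nlg)) (sub_nonneg.2 h2), mul_nonneg (sub_nonneg.2 (not_lt.1 nlg)) (le_of_lt (sub_pos.2 h3)), mul_pos (sub_pos.2 hpi) (sub_pos.2 hcon.2)]))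
    linarith
  · rintro (h | h)
    · exact Real.cos_nonneg_of_neg_pi_div_two_le_of_le (by nlinarith) (by nlinarith)
    · rw [← Real.cos_sub_two_pi]
      exact Real.cos_nonneg_of_neg_pi_div_two_le_of_le (by nlinarith) (by nlinarith)

theorem lo_iff (i : ZMod M × ZMod M) : lo (Dt M j τ) i ↔ 1 / 2 < Int.fract (th M j τ i) := by
  unfold lo
  rw [Dt_im, sin_neg_iff]

theorem re_iff (i : ZMod M × ZMod M) : 0 ≤ (Dt M j τ i).re ↔
    (Int.fract (th M j τ i) ≤ 1 / 4 ∨ 3 / 4 ≤ Int.fract (th M j τ i)) := by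
  rw [Dt_re, cos_nonneg_iff]

theorem Dt_st_im (h0 : τ 0 = 0) (h1 : τ M = 1) (i : ZMod M × ZMod M) :
    (Dt M j τ (st M j i)).im = Real.sin (2 * Real.pi * (th M j τ i - dr M j τ i)) := by
  rw [Dt_st h0 h1]
  have : (2 * Real.pi * Complex.I * (th M j τ i - dr M j τ i : ℝ) : ℂ) =
      ((2 * Real.pi * (th M j τ i - dr M j τ i) : ℝ) : ℂ) * Complex.I := by push_cast; ring
  rw [this, Complex.exp_ofReal_mul_I_im]

theorem lo_st_iff (h0 : τ 0 = 0) (h1 : τ M = 1) (i : ZMod M × ZMod M) :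
    lo (Dt M j τ) (st M j i) ↔ 1 / 2 < Int.fract (th M j τ i - dr M j τ i) := by
  unfold lo
  rw [Dt_st_im h0 h1, sin_neg_iff]

open Classical in
theorem cross_real {x δ : ℝ} (h : |δ| < 1 / 4) :
    (if (Int.fract x ≤ 1 / 4 ∨ 3 / 4 ≤ Int.fract x) then
      ((if 1 / 2 < Int.fract (x - δ) then (1 : ℤ) else 0) - (if 1 / 2 < Int.fract x then 1 else 0))
      else 0) = ⌊x⌋ - ⌊x - δ⌋ := by
  rw [abs_lt] at h
  have e1 := Int.floor_add_fract x
  have e2 := Int.floor_add_fract (x - δ)
  have e3 := Int.fract_nonneg x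
  have e4 := Int.fract_lt_one x
  rcases lt_or_ge (Int.fract x - δ) 0 with h1 | h1
  · have h2 : ⌊x - δ⌋ = ⌊x⌋ - 1 := by
      rw [Int.floor_eq_iff]
      push_cast
      constructor <;> linarith
    rw [h2] at e2 ⊢
    push_cast at e2
    rw [if_pos (Or.inl (by linarith)), if_pos (by linarith), if_neg (by linarith)]
    ring
  · rcases lt_or_ge (Int.fract x - δ) 1 with h3 | h3
    · have h2 : ⌊x - δ⌋ = ⌊x⌋ := by
        rw [Int.floor_eq_iff]
        constructor <;> linarith
      rw [h2] at e2 ⊢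
      rw [sub_self]
      split_ifs with c1 c2 c3 c3
      · rfl
      · exfalso
        rcases c1 with c1 | c1 <;> linarith
      · exfalso
        rcases c1 with c1 | c1 <;> linarith
      · rfl
      · rfl
    · have h2 : ⌊x - δ⌋ = ⌊x⌋ + 1 := by
        rw [Int.floor_eq_iff]
        push_cast
        constructor <;> linarith
      rw [h2] at e2 ⊢
      push_cast at e2
      rw [if_pos (Or.inr (by linarith)), if_neg (by linarith), if_pos (by linarith)]
      ring

open Classical in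
theorem cr_eq (h0 : τ 0 = 0) (h1 : τ M = 1) (hd : ∀ i, |dr M j τ i| < 1 / 4)
    (i : ZMod M × ZMod M) :
    cr (Dt M j τ) (st M j) i = ⌊th M j τ i⌋ - ⌊th M j τ i - dr M j τ i⌋ := by
  rw [← cross_real (hd i)]
  unfold cr
  refine if_congr (re_iff i) ?_ rfl
  congr 1
  · exact if_congr (lo_st_iff h0 h1 i) rfl rfl
  · exact if_congr (lo_iff i) rfl rfl

theorem norm_Dt_st_sub (h0 : τ 0 = 0) (h1 : τ M = 1) (i : ZMod M × ZMod M) :
    ‖Dt M j τ (st M j i) - Dt M j τ i‖ ≤ 2 * Real.pi * |dr M j τ i| := by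
  rw [Dt_st h0 h1]
  have h2 : Complex.exp (2 * Real.pi * Complex.I * (th M j τ i - dr M j τ i : ℝ)) - Dt M j τ i =
      Dt M j τ i * (Complex.exp (2 * Real.pi * Complex.I * ((-dr M j τ i : ℝ) : ℂ)) - 1) := by
    rw [mul_sub, mul_one, Dt, ← Complex.exp_add]
    congr 2
    push_cast
    ring
  rw [h2, norm_mul, norm_Dt, one_mul]
  refine (norm_exp_sub_one _).trans ?_
  rw [abs_neg]

theorem sum_zmod {A : Type} [AddCommMonoid A] (F : ℕ → A) :
    ∑ y : ZMod M, F y.val = ∑ y ∈ Finset.range M, F y := by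
  refine Finset.sum_nbij (fun y => y.val) ?_ ?_ ?_ ?_
  · intro y _
    exact Finset.mem_range.2 (ZMod.val_lt y)
  · intro a _ b _ h
    exact ZMod.val_injective M h
  · intro y hy
    have hy' : y < M := by simpa using hy
    exact ⟨(y : ZMod M), by simp, ZMod.val_cast_of_lt hy'⟩
  · intro y _
    rfl

/-- The sum of the integer parts. -/
theorem sum_floor (j : ℤ) (hj : |j| ≤ M) :
    ∑ k ∈ Finset.range M, ⌊((k : ℝ) - j) / M⌋ = -j := by
  have hM : (0 : ℝ) < M := Nat.cast_pos.2 (Nat.pos_of_ne_zero (NeZero.ne M))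
  rcases le_total 0 j with h | h
  · rw [abs_of_nonneg h] at hj
    obtain ⟨n, rfl⟩ := Int.eq_ofNat_of_zero_le h
    have hn : n ≤ M := by exact_mod_cast hj
    have e : ∀ k ∈ Finset.range M, ⌊((k : ℝ) - ((n : ℤ) : ℝ)) / M⌋ = if k < n then (-1 : ℤ) else 0 := by
      intro k hk
      rw [Finset.mem_range] at hk
      have hk' : (k : ℝ) < M := by exact_mod_cast hk
      have hn' : (n : ℝ) ≤ M := by exact_mod_cast hn
      have hk0 : (0 : ℝ) ≤ k := Nat.cast_nonneg _
      have hn0 : (0 : ℝ) ≤ n := Nat.cast_nonneg _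
      split_ifs with h
      · have h' : (k : ℝ) < n := by exact_mod_cast h
        rw [Int.floor_eq_iff]
        push_cast
        constructor
        · rw [le_div_iff₀ hM]; linarith
        · rw [div_lt_iff₀ hM]; linarith
      · have h' : (n : ℝ) ≤ k := by exact_mod_cast not_lt.1 h
        rw [Int.floor_eq_iff]
        push_cast
        constructor
        · rw [le_div_iff₀ hM]; linarith
        · rw [div_lt_iff₀ hM]; linarith
    rw [Finset.sum_congr rfl e, ← Finset.sum_filter]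
    have : Finset.filter (fun k => k < n) (Finset.range M) = Finset.range n := by
      ext k
      simp only [Finset.mem_filter, Finset.mem_range]
      omega
    rw [this]
    simp
  · rw [abs_of_nonpos h] at hj
    obtain ⟨n, hn⟩ := Int.eq_ofNat_of_zero_le (neg_nonneg.2 h)
    obtain rfl : j = -(n : ℤ) := by
      rw [← neg_neg j, hn]
    have hn : n ≤ M := by
      rw [neg_neg] at hj
      exact_mod_cast hj
    have e : ∀ k ∈ Finset.range M, ⌊((k : ℝ) - ((-(n : ℤ) : ℤ) : ℝ)) / M⌋ =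
        if M - n ≤ k then (1 : ℤ) else 0 := by
      intro k hk
      rw [Finset.mem_range] at hk
      have hk' : (k : ℝ) < M := by exact_mod_cast hk
      have hn' : (n : ℝ) ≤ M := by exact_mod_cast hn
      have hk0 : (0 : ℝ) ≤ k := Nat.cast_nonneg _
      have hn0 : (0 : ℝ) ≤ n := Nat.cast_nonneg _
      split_ifs with h
      · have h' : (M : ℝ) ≤ k + n := by
          have : M ≤ k + n := by omega
          exact_mod_cast this
        rw [Int.floor_eq_iff]
        push_cast
        constructor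
        · rw [le_div_iff₀ hM]; linarith only [h']
        · rw [div_lt_iff₀ hM]; linarith
      · have h' : (k : ℝ) + n < M := by
          have : k + n < M := by omega
          exact_mod_cast this
        rw [Int.floor_eq_iff]
        push_cast
        constructor
        · rw [le_div_iff₀ hM]; linarith only [h']
        · rw [div_lt_iff₀ hM]; linarith
    rw [Finset.sum_congr rfl e, ← Finset.sum_filter]
    have : Finset.filter (fun k => M - n ≤ k) (Finset.range M) = Finset.Ico (M - n) M := by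
      ext k
      simp only [Finset.mem_filter, Finset.mem_range, Finset.mem_Ico]
      omega
    rw [this]
    simp only [Finset.sum_const, Nat.card_Ico, neg_neg]
    have : M - (M - n) = n := by omega
    rw [this]
    simp

/-- The signed count of crossings. -/
theorem sum_cr (h0 : τ 0 = 0) (h1 : τ M = 1) (hd : ∀ i, |dr M j τ i| < 1 / 4) (hj : |j| ≤ M) :
    ∑ i, cr (Dt M j τ) (st M j) i = j := by
  have hM : (0 : ℝ) < M := Nat.cast_pos.2 (Nat.pos_of_ne_zero (NeZero.ne M))
  have e2 : ∀ k : ZMod M, ∑ y : ZMod M, (⌊th M j τ (k, y)⌋ - ⌊th M j τ (k, y) - dr M j τ (k, y)⌋) =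
      -⌊((k.val : ℝ) - j) / M⌋ := by
    intro k
    have e3 : ∀ y : ZMod M, (⌊th M j τ (k, y)⌋ - ⌊th M j τ (k, y) - dr M j τ (k, y)⌋) =
        (fun y : ℕ => ⌊((k.val : ℝ) - j * τ y) / M⌋ - ⌊((k.val : ℝ) - j * τ (y + 1)) / M⌋) y.val := by
      intro y
      have : th M j τ (k, y) - dr M j τ (k, y) = ((k.val : ℝ) - j * τ (y.val + 1)) / M := by
        unfold th dr
        field_simp
        ring
      rw [this]
      rfl
    rw [Finset.sum_congr rfl fun y _ => e3 y,
      sum_zmod (fun y : ℕ => ⌊((k.val : ℝ) - j * τ y) / M⌋ - ⌊((k.val : ℝ) - j * τ (y + 1)) / M⌋),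
      Finset.sum_range_sub' (fun y : ℕ => ⌊((k.val : ℝ) - j * τ y) / M⌋), h0, h1]
    have hk := ZMod.val_lt k
    have hk' : (k.val : ℝ) < M := by exact_mod_cast hk
    have hk0 : (0 : ℝ) ≤ k.val := Nat.cast_nonneg _
    have e4 : ⌊((k.val : ℝ) - j * 0) / M⌋ = 0 := by
      rw [Int.floor_eq_iff]
      simp only [mul_zero, sub_zero, Int.cast_zero, zero_add]
      exact ⟨by positivity, by rw [div_lt_one hM]; exact hk'⟩
    rw [e4, mul_one, zero_sub]
  rw [Finset.sum_congr rfl fun i _ => cr_eq h0 h1 hd i, Fintype.sum_prod_type,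
    Finset.sum_congr rfl fun k _ => e2 k, Finset.sum_neg_distrib,
    sum_zmod (fun k : ℕ => ⌊((k : ℝ) - j) / M⌋), sum_floor j hj, neg_neg]

end Torus

end Vale.Agent.P212.BottCore
end
end

section

section

/-! The rank of the Bott projection of magnetic translations on a finite torus. -/

set_option linter.unusedSectionVars false

namespace Vale.Agent.P212

open Matrix
open scoped Matrix.Norms.L2Operator

/-- The finite torus. -/
abbrev Grid (M : ℕ) : Type := ZMod M × ZMod M

/-- The translation in the first direction, with a phase depending on the second coordinate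
when crossing the seam. -/
noncomputable def shX (M : ℕ) (w : ZMod M → ℂ) : Matrix (Grid M) (Grid M) ℂ := fun p q =>
  if p.2 = q.2 ∧ p.1 = q.1 + 1 then (if q.1.val + 1 = M then w q.2 else 1) else 0

/-- The translation in the second direction. -/
noncomputable def shY (M : ℕ) : Matrix (Grid M) (Grid M) ℂ := fun p q =>
  if p.1 = q.1 ∧ p.2 = q.2 + 1 then 1 else 0

/-- A matrix of matrices as a matrix. -/
def flat {ι κ : Type} (E : Matrix κ κ (Matrix ι ι ℂ)) : Matrix (ι × κ) (ι × κ) ℂ :=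
  fun a b => E a.2 b.2 a.1 b.1

/-- The phase function winding `-j` times. -/
noncomputable def wph (M : ℕ) (j : ℤ) (θ : ℕ → ℝ) (y : ZMod M) : ℂ :=
  Complex.exp (-(2 * Real.pi * Complex.I * j * θ y.val))

/-! ### Proof of `rk_bott`

The matrix `VV` diagonalizes the translation in the first direction. -/

namespace BottCore

section Fourier

variable (M : ℕ) [NeZero M] (j : ℤ) (τ : ℕ → ℝ)

/-- The eigenvectors of the translation in the first direction. -/
noncomputable def VV : Matrix (Grid M) (Grid M) ℂ := fun p i =>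
  if p.2 = i.2 then (((Real.sqrt M)⁻¹ : ℝ) : ℂ) *
    Complex.exp (-(2 * Real.pi * Complex.I * th M j τ i * p.1.val)) else 0

/-- The phase correction. -/
noncomputable def mm (p : Grid M) : ℂ :=
  Complex.exp (2 * Real.pi * Complex.I * ((-(j * (τ ((p.2 - 1).val + 1) - τ (p.2 - 1).val) *
    (p.1.val / M)) : ℝ) : ℂ))

variable {M j τ}

theorem sum_exp (a b : ZMod M) : ∑ x : ZMod M,
    Complex.exp (2 * Real.pi * Complex.I * (((a.val : ℝ) - b.val) / M : ℝ) * x.val) =
      if a = b then (M : ℂ) else 0 := by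
  have hM : (0 : ℝ) < M := Nat.cast_pos.2 (Nat.pos_of_ne_zero (NeZero.ne M))
  have hM' : (M : ℂ) ≠ 0 := Nat.cast_ne_zero.2 (NeZero.ne M)
  set z := Complex.exp (2 * Real.pi * Complex.I * (((a.val : ℝ) - b.val) / M : ℝ)) with hz
  have e1 : ∀ x : ZMod M, Complex.exp (2 * Real.pi * Complex.I *
      (((a.val : ℝ) - b.val) / M : ℝ) * x.val) = (fun n : ℕ => z ^ n) x.val := by
    intro x
    simp only
    rw [hz, ← Complex.exp_nat_mul]
    congr 1
    ring
  rw [Finset.sum_congr rfl fun x _ => e1 x, sum_zmod (fun n : ℕ => z ^ n)]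
  split_ifs with h
  · subst h
    have : z = 1 := by rw [hz]; simp
    rw [this]
    simp
  · have hz1 : z ≠ 1 := by
      intro h1
      rw [hz, Complex.exp_eq_one_iff] at h1
      obtain ⟨n, hn⟩ := h1
      have h2 : ((((a.val : ℝ) - b.val) / M : ℝ) : ℂ) = (n : ℂ) := by
        have h3 : (2 * Real.pi * Complex.I : ℂ) ≠ 0 := Complex.two_pi_I_ne_zero
        apply mul_left_cancel₀ h3
        rw [hn]
        ring
      have h3 : ((a.val : ℝ) - b.val) / M = n := by exact_mod_cast h2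
      rw [div_eq_iff hM.ne'] at h3
      have h4 : (a.val : ℤ) - b.val = n * M := by exact_mod_cast h3
      have ha := ZMod.val_lt a
      have hb := ZMod.val_lt b
      have h5 : n = 0 := by
        by_contra hn0
        rcases lt_or_gt_of_ne hn0 with h6 | h6
        · have : n * M ≤ -1 * M := by
            apply mul_le_mul_of_nonneg_right (by omega) (by positivity)
          omega
        · have : 1 * (M : ℤ) ≤ n * M := by
            apply mul_le_mul_of_nonneg_right (by omega) (by positivity)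
          omega
      rw [h5, zero_mul] at h4
      exact h (ZMod.val_injective M (by omega))
    have hzM : z ^ M = 1 := by
      rw [hz, ← Complex.exp_nat_mul, Complex.exp_eq_one_iff]
      refine ⟨(a.val : ℤ) - b.val, ?_⟩
      push_cast
      field_simp
    rw [geom_sum_eq hz1, hzM, sub_self, zero_div]

theorem VV_star_mul : (VV M j τ)ᴴ * VV M j τ = 1 := by
  have hM : (0 : ℝ) < M := Nat.cast_pos.2 (Nat.pos_of_ne_zero (NeZero.ne M))
  have hM' : (M : ℂ) ≠ 0 := Nat.cast_ne_zero.2 (NeZero.ne M)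
  ext i i'
  rw [Matrix.mul_apply, Fintype.sum_prod_type]
  have e1 : ∀ x : ZMod M, ∑ y : ZMod M, (VV M j τ)ᴴ i (x, y) * VV M j τ (x, y) i' =
      if i.2 = i'.2 then (M : ℂ)⁻¹ * Complex.exp (2 * Real.pi * Complex.I *
        (((i.1.val : ℝ) - i'.1.val) / M : ℝ) * x.val) else 0 := by
    intro x
    rw [Finset.sum_eq_single i.2]
    · rw [Matrix.conjTranspose_apply]
      unfold VV
      simp only [if_true]
      split_ifs with h
      · rw [star_mul', Complex.star_def, Complex.conj_ofReal, ← Complex.exp_conj]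
        have e2 : (starRingEnd ℂ) (-(2 * Real.pi * Complex.I * th M j τ i * x.val)) =
            2 * Real.pi * Complex.I * th M j τ i * x.val := by
          rw [map_neg, map_mul, map_mul, map_mul, map_mul, Complex.conj_I, Complex.conj_ofReal,
            Complex.conj_ofReal, map_natCast, map_ofNat]
          ring
        rw [e2]
        have e3 : ∀ a b c d : ℂ, a * b * (c * d) = (a * c) * (b * d) := fun a b c d => by ring
        rw [e3, ← Complex.exp_add, ← Complex.ofReal_mul, ← mul_inv,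
          Real.mul_self_sqrt hM.le]
        have e4 : 2 * Real.pi * Complex.I * th M j τ i * x.val +
            -(2 * Real.pi * Complex.I * th M j τ i' * x.val) =
            2 * Real.pi * Complex.I * (((i.1.val : ℝ) - i'.1.val) / M : ℝ) * x.val := by
          unfold th
          rw [h]
          push_cast
          field_simp
          ring
        rw [e4]
        push_cast
        rfl
      · rw [mul_zero]
    · intro y _ hy
      rw [Matrix.conjTranspose_apply]
      unfold VV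
      simp only [hy, if_false, star_zero, zero_mul]
    · intro h
      exact absurd (Finset.mem_univ _) h
  rw [Finset.sum_congr rfl fun x _ => e1 x]
  by_cases h : i.2 = i'.2
  · simp only [h, if_true]
    rw [← Finset.mul_sum, sum_exp]
    by_cases h' : i.1 = i'.1
    · rw [if_pos h', inv_mul_cancel₀ hM', Matrix.one_apply, if_pos (Prod.ext h' h)]
    · rw [if_neg h', mul_zero, Matrix.one_apply, if_neg (fun h2 => h' (congrArg Prod.fst h2))]
  · simp only [h, if_false, Finset.sum_const_zero]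
    rw [Matrix.one_apply, if_neg (fun h2 => h (congrArg Prod.snd h2))]

theorem VV_mul_star : VV M j τ * (VV M j τ)ᴴ = 1 := mul_eq_one_comm.1 VV_star_mul

theorem shX_mul_VV : shX M (wph M j τ) * VV M j τ = VV M j τ * diagonal (Dt M j τ) := by
  have hM' : (M : ℂ) ≠ 0 := Nat.cast_ne_zero.2 (NeZero.ne M)
  ext p i
  rw [Matrix.mul_apply, Matrix.mul_diagonal]
  rw [Finset.sum_eq_single (p.1 - 1, p.2)]
  · by_cases h : p.2 = i.2
    · unfold shX VV
      simp only [h, sub_add_cancel, and_self, if_true]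
      by_cases h0 : p.1 = 0
      · have h1 := val_succ_of_eq (y := p.1 - 1) (by rw [h0]; ring)
        rw [if_pos h1, h0]
        unfold wph Dt
        rw [ZMod.val_zero]
        have e3 : ∀ a b c : ℂ, a * (b * c) = b * (a * c) := fun a b c => by ring
        rw [e3, mul_assoc (((Real.sqrt M)⁻¹ : ℝ) : ℂ), ← Complex.exp_add, ← Complex.exp_add]
        congr 1
        rw [Complex.exp_eq_exp_iff_exists_int]
        refine ⟨-i.1.val, ?_⟩
        have h2 : (((0 : ZMod M) - 1).val : ℂ) = M - 1 := by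
          rw [h0] at h1
          have : ((((0 : ZMod M) - 1).val + 1 : ℕ) : ℂ) = M := by rw [h1]
          push_cast at this
          linear_combination this
        rw [h2]
        unfold th
        push_cast
        field_simp
        ring
      · have h1 := val_succ_of_ne (y := p.1 - 1) (by rw [sub_add_cancel]; exact h0)
        rw [sub_add_cancel] at h1
        have h2 := ZMod.val_lt p.1
        rw [if_neg (by omega), one_mul, h1]
        unfold Dt
        rw [mul_assoc (((Real.sqrt M)⁻¹ : ℝ) : ℂ), ← Complex.exp_add]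
        congr 2
        push_cast
        ring
    · unfold VV
      simp only [h, if_false, mul_zero, zero_mul]
  · rintro ⟨x, y⟩ _ hxy
    unfold shX
    rw [if_neg, zero_mul]
    rintro ⟨h1, h2⟩
    apply hxy
    simp only at h1 h2
    rw [h2, add_sub_cancel_right, h1]
  · intro h
    exact absurd (Finset.mem_univ _) h

theorem shY_mul_VV (h0 : τ 0 = 0) (h1 : τ M = 1) : shY M * VV M j τ =
    diagonal (mm M j τ) * VV M j τ * vm (st M j) := by
  have hM' : (M : ℂ) ≠ 0 := Nat.cast_ne_zero.2 (NeZero.ne M)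
  ext p i
  rw [Matrix.mul_assoc, Matrix.diagonal_mul, Matrix.mul_apply, Matrix.mul_apply]
  rw [Finset.sum_eq_single (p.1, p.2 - 1), Finset.sum_eq_single (st M j i)]
  · have hst : (st M j i).2 = i.2 + 1 := rfl
    unfold shY VV vm
    simp only [sub_add_cancel, and_self, if_true, Matrix.of_apply, mul_one, one_mul, hst]
    by_cases h : p.2 = i.2 + 1
    · have h' : p.2 - 1 = i.2 := by rw [h, add_sub_cancel_right]
      rw [if_pos h, if_pos h']
      unfold mm
      have e3 : ∀ a b c : ℂ, a * (b * c) = b * (a * c) := fun a b c => by ring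
      rw [h', e3, ← Complex.exp_add]
      congr 1
      obtain ⟨m, hm⟩ := th_st (j := j) h0 h1 i
      rw [hm, Complex.exp_eq_exp_iff_exists_int]
      refine ⟨m * p.1.val, ?_⟩
      unfold dr
      push_cast
      field_simp
      ring
    · have h' : p.2 - 1 ≠ i.2 := fun h2 => h (by rw [← h2, sub_add_cancel])
      rw [if_neg h, if_neg h', mul_zero]
  · intro b _ hb
    unfold vm
    rw [Matrix.of_apply, if_neg hb, mul_zero]
  · intro h
    exact absurd (Finset.mem_univ _) h
  · rintro ⟨x, y⟩ _ hxy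
    unfold shY
    rw [if_neg, zero_mul]
    rintro ⟨h1, h2⟩
    apply hxy
    simp only at h1 h2
    rw [h2, add_sub_cancel_right, h1]
  · intro h
    exact absurd (Finset.mem_univ _) h

theorem norm_mm_sub {ε : ℝ} (hτ : Monotone τ) (hε : ∀ y < M, τ (y + 1) - τ y ≤ ε) (p : Grid M) :
    ‖mm M j τ p - 1‖ ≤ 2 * Real.pi * (|(j : ℝ)| * ε) := by
  have hM : (0 : ℝ) < M := Nat.cast_pos.2 (Nat.pos_of_ne_zero (NeZero.ne M))
  unfold mm
  refine (norm_exp_sub_one _).trans ?_
  have hpi := Real.pi_pos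
  gcongr
  rw [abs_neg, abs_mul, abs_mul, mul_assoc]
  have h1 := hτ (Nat.le_succ (p.2 - 1).val)
  rw [Nat.succ_eq_add_one] at h1
  have h2 := hε _ (ZMod.val_lt (p.2 - 1))
  have h3 : (p.1.val : ℝ) / M ≤ 1 := by
    rw [div_le_one hM]
    exact_mod_cast (ZMod.val_lt p.1).le
  rw [abs_of_nonneg (sub_nonneg.2 h1), abs_of_nonneg (by positivity : 0 ≤ (p.1.val : ℝ) / M)]
  gcongr
  calc _ ≤ ε * 1 := by
        apply mul_le_mul h2 h3 (by positivity) (by linarith)
    _ = ε := mul_one _

theorem abs_dr_le {ε : ℝ} (hτ : Monotone τ) (hε : ∀ y < M, τ (y + 1) - τ y ≤ ε) (p : Grid M) :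
    |dr M j τ p| ≤ |(j : ℝ)| * ε := by
  have hM : (1 : ℝ) ≤ M := by exact_mod_cast Nat.pos_of_ne_zero (NeZero.ne M)
  unfold dr
  have h1 := hτ (Nat.le_succ p.2.val)
  rw [Nat.succ_eq_add_one] at h1
  have h2 := hε _ (ZMod.val_lt p.2)
  rw [abs_div, abs_mul, abs_of_nonneg (sub_nonneg.2 h1), abs_of_nonneg (by linarith : (0 : ℝ) ≤ M)]
  calc _ ≤ |(j : ℝ)| * ε / M := by gcongr
    _ ≤ |(j : ℝ)| * ε / 1 := by
        have : 0 ≤ |(j : ℝ)| * ε := by
          have : 0 ≤ ε := by linarith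
          positivity
        gcongr
    _ = _ := div_one _

end Fourier

section Hneg

variable {I : Type} [Fintype I] [DecidableEq I]

/-- Diagonal matrices as a star homomorphism. -/
def dH : (I → ℂ) →⋆ₐ[ℂ] Matrix I I ℂ :=
  { Matrix.diagonalAlgHom ℂ with
    map_star' := fun v => by
      change diagonal (star v) = (diagonal v)ᴴ
      rw [Matrix.diagonal_conjTranspose] }

open ComplexStarModule in
theorem hneg_complex (z : ℂ) : hneg z = ((max (-z.im) 0 : ℝ) : ℂ) := by
  unfold hneg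
  have h : ((ℑ z : selfAdjoint ℂ) : ℂ) = algebraMap ℝ ℂ z.im := by
    rw [imaginaryPart_apply_coe, Complex.star_def, Complex.sub_conj]
    simp only [Complex.coe_algebraMap]
    rw [Complex.real_smul, smul_eq_mul]
    push_cast
    have := Complex.I_mul_I
    linear_combination (-z.im : ℂ) * this
  rw [h, cfc_algebraMap]
  rfl

theorem hneg_diagonal (D : I → ℂ) : hneg (diagonal D : Matrix I I ℂ) = dg fun i => 2 * ho D i := by
  have h1 : (diagonal D : Matrix I I ℂ) = dH D := rfl
  rw [h1, ← map_hneg]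
  have h2 : hneg D = fun i => ((2 * ho D i : ℝ) : ℂ) := by
    funext i
    have h3 : hneg D i = Pi.evalStarAlgHom ℂ (fun _ : I => ℂ) i (hneg D) := rfl
    rw [h3, map_hneg]
    have h4 : Pi.evalStarAlgHom ℂ (fun _ : I => ℂ) i D = D i := rfl
    rw [h4, hneg_complex]
    unfold ho
    congr 1
    ring
  rw [h2]
  rfl

/-- Conjugation by a unitary. -/
def cj (V : Matrix I I ℂ) (h : V * Vᴴ = 1) (h' : Vᴴ * V = 1) :
    Matrix I I ℂ →⋆ₐ[ℂ] Matrix I I ℂ where
  toFun A := Vᴴ * A * V
  map_one' := by rw [Matrix.mul_one, h']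
  map_mul' A B := by
    calc Vᴴ * (A * B) * V = Vᴴ * A * 1 * B * V := by simp only [Matrix.mul_one, Matrix.mul_assoc]
      _ = Vᴴ * A * (V * Vᴴ) * B * V := by rw [h]
      _ = _ := by simp only [Matrix.mul_assoc]
  map_zero' := by rw [Matrix.mul_zero, Matrix.zero_mul]
  map_add' A B := by rw [Matrix.mul_add, Matrix.add_mul]
  commutes' c := by
    rw [← Algebra.commutes, Matrix.mul_assoc, h', Matrix.mul_one]
  map_star' A := by
    change Vᴴ * Aᴴ * V = (Vᴴ * A * V)ᴴ
    rw [Matrix.conjTranspose_mul, Matrix.conjTranspose_mul, Matrix.conjTranspose_conjTranspose,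
      Matrix.mul_assoc]

theorem cj_apply (V : Matrix I I ℂ) (h : V * Vᴴ = 1) (h' : Vᴴ * V = 1) (A : Matrix I I ℂ) :
    cj V h h' A = Vᴴ * A * V := rfl

theorem map_cj (V : Matrix I I ℂ) (h : V * Vᴴ = 1) (h' : Vᴴ * V = 1)
    (E : Matrix (Fin 2) (Fin 2) (Matrix I I ℂ)) : E.map (cj V h h') = (V2 V)ᴴ * E * V2 V := by
  ext a b : 1
  rw [Matrix.map_apply, cj_apply, V2, Matrix.mul_diagonal, Matrix.diagonal_conjTranspose,
    Matrix.diagonal_mul]
  rfl

theorem bott_eq_BE (u v h : Matrix I I ℂ) : bott u v h = BE u v h := rfl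

theorem flat_eq (E : Matrix (Fin 2) (Fin 2) (Matrix I I ℂ)) :
    Vale.Agent.P212.flat E = BottCore.flat E := rfl

theorem V2_mul (v w : Matrix I I ℂ) : V2 v * V2 w = V2 (v * w) := by
  rw [V2, V2, V2, Matrix.diagonal_mul_diagonal]

theorem V2_star (v : Matrix I I ℂ) : (V2 v)ᴴ = V2 vᴴ := by
  rw [V2, V2, Matrix.diagonal_conjTranspose]
  rfl

theorem V2_one : V2 (1 : Matrix I I ℂ) = 1 := by
  rw [V2, Matrix.diagonal_one]

theorem norm_flat_V2 (w : Matrix I I ℂ) : ‖BottCore.flat (V2 w)‖ ≤ 2 * ‖w‖ := by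
  have h := norm_flat_le (V2 w)
  have h1 : V2 w 0 0 = w := by rw [V2, Matrix.diagonal_apply_eq]
  have h2 : V2 w 1 1 = w := by rw [V2, Matrix.diagonal_apply_eq]
  have h3 : V2 w 0 1 = 0 := by rw [V2, Matrix.diagonal_apply_ne _ (by decide)]
  have h4 : V2 w 1 0 = 0 := by rw [V2, Matrix.diagonal_apply_ne _ (by decide)]
  rw [h1, h2, h3, h4, norm_zero] at h
  linarith

theorem norm_mul_mul_le (a b c : Matrix I I ℂ) (ha : ‖a‖ ≤ 1) (hc : ‖c‖ ≤ 1) :
    ‖a * b * c‖ ≤ ‖b‖ := by
  calc _ ≤ ‖a * b‖ * ‖c‖ := Matrix.l2_opNorm_mul _ _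
    _ ≤ (‖a‖ * ‖b‖) * ‖c‖ := by
        gcongr
        exact Matrix.l2_opNorm_mul _ _
    _ ≤ (1 * ‖b‖) * 1 := by gcongr
    _ = ‖b‖ := by ring

theorem norm_CC {D : I → ℂ} (hD : ∀ i, ‖D i‖ = 1) :
    ‖BottCore.flat (CC (diagonal D) (dg fun i => 2 * ho D i))‖ ≤ 1 / 2 := by
  rw [CC_eq hD, map_mul, map_mul]
  have h1 := norm_flat_Rm hD
  refine (norm_mul_mul_le _ _ _ ?_ h1).trans (norm_N0_le hD)
  rw [flat_conjTranspose, Matrix.l2_opNorm_conjTranspose]
  exact h1

theorem norm_BE_sub {D : I → ℂ} (hD : ∀ i, ‖D i‖ = 1) (v w : Matrix I I ℂ) {δ : ℝ}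
    (hw : ‖w - v‖ ≤ δ) :
    ‖BottCore.flat (BE (diagonal D) v (dg fun i => 2 * ho D i)) -
      BottCore.flat (BE (diagonal D) w (dg fun i => 2 * ho D i))‖ ≤ 2 * δ := by
  set h : Matrix I I ℂ := dg fun i => 2 * ho D i with hh
  have e : BE (diagonal D) v h - BE (diagonal D) w h =
      -(CC (diagonal D) h * V2 (w - v)) - (CC (diagonal D) h * V2 (w - v))ᴴ := by
    have e1 : V2 (w - v) = V2 w - V2 v := by
      ext a b : 1
      rw [Matrix.sub_apply, V2, V2, V2, Matrix.diagonal_apply, Matrix.diagonal_apply,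
        Matrix.diagonal_apply]
      split_ifs <;> simp
    rw [BE_eq, BE_eq, e1]
    simp only [Matrix.conjTranspose_mul, Matrix.conjTranspose_sub, Matrix.conjTranspose_one]
    noncomm_ring
  rw [← map_sub, e, map_sub, map_neg]
  have n1 : ‖BottCore.flat (CC (diagonal D) h * V2 (w - v))‖ ≤ δ := by
    rw [map_mul]
    have n2 := norm_CC hD
    have n3 := norm_flat_V2 (w - v)
    calc _ ≤ ‖BottCore.flat (CC (diagonal D) h)‖ * ‖BottCore.flat (V2 (w - v))‖ :=
          Matrix.l2_opNorm_mul _ _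
      _ ≤ 1 / 2 * (2 * ‖w - v‖) := by gcongr
      _ ≤ 1 / 2 * (2 * δ) := by gcongr
      _ = δ := by ring
  have n1' : ‖BottCore.flat (CC (diagonal D) h * V2 (w - v))ᴴ‖ ≤ δ := by
    rw [flat_conjTranspose, Matrix.l2_opNorm_conjTranspose]
    exact n1
  calc _ ≤ ‖-BottCore.flat (CC (diagonal D) h * V2 (w - v))‖ +
        ‖BottCore.flat (CC (diagonal D) h * V2 (w - v))ᴴ‖ := norm_sub_le _ _
    _ ≤ 2 * δ := by rw [norm_neg]; linarith

theorem conj_idem {R : Type} [Ring R] {W W' Z : R} (h : W' * W = 1) (hZ : Z * Z = Z) :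
    (W * Z * W') * (W * Z * W') = W * Z * W' := by
  calc (W * Z * W') * (W * Z * W') = W * Z * (W' * W) * Z * W' := by simp only [mul_assoc]
    _ = W * (Z * Z) * W' := by rw [h, mul_one]; simp only [mul_assoc]
    _ = _ := by rw [hZ]

theorem norm_conj_sub (V m : Matrix I I ℂ) (σ : Equiv.Perm I) {δ : ℝ}
    (hV' : Vᴴ * V = 1) (hm : ‖m - 1‖ ≤ δ) :
    ‖Vᴴ * (m * V * vm σ) - vm σ‖ ≤ δ := by
  have e : Vᴴ * (m * V * vm σ) - vm σ = Vᴴ * (m - 1) * (V * vm σ) := by
    rw [Matrix.mul_sub, Matrix.sub_mul, Matrix.mul_one, ← Matrix.mul_assoc Vᴴ V, hV',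
      Matrix.one_mul]
    simp only [Matrix.mul_assoc]
  rw [e]
  refine (norm_mul_mul_le _ _ _ ?_ ?_).trans hm
  · rw [Matrix.l2_opNorm_conjTranspose]
    exact norm_le_one_of_unitary hV'
  · refine norm_le_one_of_unitary ?_
    rw [Matrix.conjTranspose_mul, Matrix.mul_assoc, ← Matrix.mul_assoc Vᴴ V, hV', Matrix.one_mul,
      star_vm_mul_vm]

/-- The exact projection of the model. -/
noncomputable def ZZ (D : I → ℂ) (σ : Equiv.Perm I) : Matrix (Fin 2) (Fin 2) (Matrix I I ℂ) :=
  (Rm D)ᴴ * EX σ (fm D σ) (gm' D σ) (hm D σ) (km D σ) * Rm D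

theorem ZZ_idem {D : I → ℂ} {σ : Equiv.Perm I} (hD : ∀ i, ‖D i‖ = 1) : ZZ D σ * ZZ D σ = ZZ D σ :=
  conj_idem (Rm_mul_star hD) (EXm_idem hD)

theorem trace_ZZ {D : I → ℂ} {σ : Equiv.Perm I} (hD : ∀ i, ‖D i‖ = 1) :
    (BottCore.flat (ZZ D σ)).trace =
      ((Fintype.card I + ((∑ i, cr D σ i : ℤ) : ℝ) : ℝ) : ℂ) := by
  rw [ZZ, map_mul, Matrix.trace_mul_comm, ← map_mul, ← Matrix.mul_assoc, Rm_mul_star hD,
    Matrix.one_mul, trace_EX, ← sum_EXm]
  push_cast
  rfl

theorem norm_ZZ {D : I → ℂ} {σ : Equiv.Perm I} (hD : ∀ i, ‖D i‖ = 1) {δ : ℝ} (hδ : 0 ≤ δ)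
    (hs : ∀ i, ‖D (σ i) - D i‖ ≤ δ) :
    ‖BottCore.flat (BE (diagonal D) (vm σ) (dg fun i => 2 * ho D i)) -
      BottCore.flat (ZZ D σ)‖ ≤ 12 * δ := norm_close' hD hδ hs

theorem norm_ZZ' {D : I → ℂ} {σ : Equiv.Perm I} (hD : ∀ i, ‖D i‖ = 1) {δ : ℝ} (hδ : 0 ≤ δ)
    (hs : ∀ i, ‖D (σ i) - D i‖ ≤ δ) (w : Matrix I I ℂ) (hw : ‖w - vm σ‖ ≤ δ) :
    ‖BottCore.flat (ZZ D σ) - BottCore.flat (BE (diagonal D) w (dg fun i => 2 * ho D i))‖ ≤
      14 * δ := by
  have h1 := norm_ZZ hD hδ hs
  have h2 := norm_BE_sub hD (vm σ) w hw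
  have e : BottCore.flat (ZZ D σ) - BottCore.flat (BE (diagonal D) w (dg fun i => 2 * ho D i)) =
      -(BottCore.flat (BE (diagonal D) (vm σ) (dg fun i => 2 * ho D i)) - BottCore.flat (ZZ D σ)) +
      (BottCore.flat (BE (diagonal D) (vm σ) (dg fun i => 2 * ho D i)) -
        BottCore.flat (BE (diagonal D) w (dg fun i => 2 * ho D i))) := by
    abel
  rw [e]
  refine (norm_add_le _ _).trans ?_
  rw [norm_neg]
  linarith

theorem bottE_conj {D : I → ℂ} (V u v T : Matrix I I ℂ) (hV : V * Vᴴ = 1) (hV' : Vᴴ * V = 1)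
    (hu : u * V = V * diagonal D) (hv : v * V = T) :
    BottCore.flat (bottE u v) = BottCore.flat (V2 V) *
      BottCore.flat (BE (diagonal D) (Vᴴ * T) (dg fun i => 2 * ho D i)) *
      (BottCore.flat (V2 V))ᴴ := by
  have hE : (V2 V)ᴴ * bottE u v * V2 V = BE (diagonal D) (Vᴴ * T) (dg fun i => 2 * ho D i) := by
    rw [← map_cj V hV hV', map_bottE, cj_apply, cj_apply, Matrix.mul_assoc Vᴴ u, hu,
      Matrix.mul_assoc Vᴴ v, hv, ← Matrix.mul_assoc, hV', Matrix.one_mul]
    unfold bottE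
    rw [hneg_diagonal, bott_eq_BE]
  have hWW : V2 V * (V2 V)ᴴ = 1 := by
    rw [V2_star, V2_mul, hV, V2_one]
  rw [← flat_conjTranspose, ← map_mul, ← map_mul, ← hE]
  congr 1
  calc bottE u v = 1 * bottE u v * 1 := by rw [Matrix.one_mul, Matrix.mul_one]
    _ = (V2 V * (V2 V)ᴴ) * bottE u v * (V2 V * (V2 V)ᴴ) := by rw [hWW]
    _ = _ := by simp only [Matrix.mul_assoc]

/-- The rank computation for the model. -/
theorem assemble (D : I → ℂ) (σ : Equiv.Perm I) (V u v : Matrix I I ℂ) (m : I → ℂ) (δ : ℝ)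
    (hδ : 0 ≤ δ) (hV : V * Vᴴ = 1) (hV' : Vᴴ * V = 1) (hu : u * V = V * diagonal D)
    (hv : v * V = diagonal m * V * vm σ) (hm : ∀ i, ‖m i - 1‖ ≤ δ) (hD : ∀ i, ‖D i‖ = 1)
    (hs : ∀ i, ‖D (σ i) - D i‖ ≤ δ) :
    ∃ z, z * z = z ∧ ‖z - Vale.Agent.P212.flat (bottE u v)‖ ≤ 14 * δ ∧
      (z.rank : ℝ) = Fintype.card I + ((∑ i, cr D σ i : ℤ) : ℝ) := by
  have hm' : ‖(diagonal m : Matrix I I ℂ) - 1‖ ≤ δ := by
    have e1 : (diagonal m : Matrix I I ℂ) - 1 = diagonal fun i => m i - 1 := by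
      rw [← Matrix.diagonal_one, Matrix.diagonal_sub]
    rw [e1]
    exact norm_diagonal_le hδ hm
  have hTn := norm_conj_sub V (diagonal m) σ hV' hm'
  have hE := bottE_conj V u v _ hV hV' hu hv
  have hZn := norm_ZZ' hD hδ hs _ hTn
  set W := BottCore.flat (V2 V) with hW
  have hWW' : Wᴴ * W = 1 := by
    rw [hW, ← flat_conjTranspose, ← map_mul, V2_star, V2_mul, hV', V2_one, map_one]
  have hWn : ‖W‖ ≤ 1 := norm_le_one_of_unitary hWW'
  have hWn' : ‖Wᴴ‖ ≤ 1 := by rw [Matrix.l2_opNorm_conjTranspose]; exact hWn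
  have hZi : BottCore.flat (ZZ D σ) * BottCore.flat (ZZ D σ) = BottCore.flat (ZZ D σ) := by
    rw [← map_mul, ZZ_idem hD]
  have hzi := conj_idem (W := W) hWW' hZi
  refine ⟨W * BottCore.flat (ZZ D σ) * Wᴴ, hzi, ?_, ?_⟩
  · rw [flat_eq, hE, ← Matrix.sub_mul, ← Matrix.mul_sub]
    exact (norm_mul_mul_le _ _ _ hWn hWn').trans hZn
  · have e1 := rank_eq_trace_of_idem hzi
    have e2 : (W * BottCore.flat (ZZ D σ) * Wᴴ).trace = (BottCore.flat (ZZ D σ)).trace := by
      rw [Matrix.trace_mul_comm, ← Matrix.mul_assoc, hWW', Matrix.one_mul]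
    rw [e2, trace_ZZ hD] at e1
    exact_mod_cast e1

end Hneg

end BottCore

/-- The rank of the Bott projection of the pair of almost commuting translations. -/
theorem rk_bott : ∃ sgn : ℤ, (sgn = 1 ∨ sgn = -1) ∧ ∀ (j : ℤ) (ε' : ℝ), 0 < ε' →
    ∃ ε > 0, ∃ M₀ : ℕ, ∀ (M : ℕ) [NeZero M], M₀ ≤ M →
    ∀ θ : ℕ → ℝ, Monotone θ → θ 0 = 0 → θ M = 1 → (∀ y < M, θ (y + 1) - θ y ≤ ε) →
      NearId (flat (bottE (shX M (wph M j θ)) (shY M))) ε' ∧
      (rk (flat (bottE (shX M (wph M j θ)) (shY M))) : ℤ) = (M : ℤ) ^ 2 + sgn * j := by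
  refine ⟨1, Or.inl rfl, fun j ε' hε' => ?_⟩
  set η := min ε' (1 / 4) with hη
  have hη0 : 0 < η := lt_min hε' (by norm_num)
  have hη1 : η ≤ ε' := min_le_left _ _
  have hη2 : η ≤ 1 / 4 := min_le_right _ _
  have hj0 : (0 : ℝ) ≤ |(j : ℝ)| := abs_nonneg _
  have hε0 : 0 < η / (100 * (|(j : ℝ)| + 1)) := by positivity
  have hjε : |(j : ℝ)| * (η / (100 * (|(j : ℝ)| + 1))) ≤ η / 100 := by
    rw [mul_div_assoc', div_le_div_iff₀ (by positivity) (by norm_num)]
    linarith only [hη0]
  refine ⟨η / (100 * (|(j : ℝ)| + 1)), hε0, j.natAbs, ?_⟩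
  intro M _ hM θ hθ h0 h1 hstep
  set ε := η / (100 * (|(j : ℝ)| + 1)) with hε
  have hpi := Real.pi_pos
  have hpi' := Real.pi_lt_d2
  have hδ : 0 ≤ 2 * Real.pi * (|(j : ℝ)| * ε) := by (clear * - hε'; positivity)
  have h14 : 14 * (2 * Real.pi * (|(j : ℝ)| * ε)) < η := by
    calc _ ≤ 14 * (2 * Real.pi * (η / 100)) := by gcongr
      _ < η := by (by_contra nlg; linarith only [mul_nonneg (sub_nonneg.2 (not_lt.1 nlg)) (le_of_lt (sub_pos.2 hpi)), mul_nonneg (sub_nonneg.2 (not_lt.1 nlg)) (le_of_lt (sub_pos.2 hpi')), mul_pos (sub_pos.2 hη0) (sub_pos.2 hη0), mul_nonneg (le_of_lt (sub_pos.2 hη0)) (sub_nonneg.2 hη2), mul_pos (sub_pos.2 hη0) (sub_pos.2 hpi')])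
  have hdr : ∀ i, |BottCore.dr M j θ i| ≤ |(j : ℝ)| * ε := BottCore.abs_dr_le hθ hstep
  obtain ⟨z, hz, hz1, hz2⟩ := BottCore.assemble (BottCore.Dt M j θ) (BottCore.st M j)
    (BottCore.VV M j θ) (shX M (wph M j θ)) (shY M) (BottCore.mm M j θ)
    (2 * Real.pi * (|(j : ℝ)| * ε)) hδ BottCore.VV_mul_star BottCore.VV_star_mul
    BottCore.shX_mul_VV (BottCore.shY_mul_VV h0 h1) (BottCore.norm_mm_sub hθ hstep)
    BottCore.norm_Dt (fun i => (BottCore.norm_Dt_st_sub h0 h1 i).trans (by
      have := hdr i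
      gcongr))
  have hz3 : ‖z - flat (bottE (shX M (wph M j θ)) (shY M))‖ < η := lt_of_le_of_lt hz1 h14
  refine ⟨⟨z, hz, hz3.trans_le hη1⟩, ?_⟩
  rw [rk_eq hz (hz3.trans_le hη2)]
  have hcr := BottCore.sum_cr (j := j) h0 h1
    (fun i => lt_of_le_of_lt ((hdr i).trans hjε) (by linarith only [hη2])) (by
      rw [Int.abs_eq_natAbs]; exact_mod_cast hM)
  rw [hcr, Fintype.card_prod, ZMod.card] at hz2
  have : ((z.rank : ℤ) : ℝ) = (((M : ℤ) ^ 2 + 1 * j : ℤ) : ℝ) := by
    push_cast at hz2 ⊢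
    rw [hz2]
    ring
  exact_mod_cast this

end Vale.Agent.P212
end
end

section

section

/-! Reduction of `K_0` of an ideal with an approximate unit of idempotents to idempotent
matrices over the ideal. -/

namespace Vale.Agent.P212

open Matrix

section MatNorm

attribute [local instance] Matrix.linftyOpNormedRing

variable {A : Type} [NormedRing A] {ι : Type} [Fintype ι] [DecidableEq ι]

theorem mat_norm_entry_le (M : Matrix ι ι A) (i j : ι) : ‖M i j‖ ≤ ‖M‖ := by
  have h : ‖M‖ = ((Finset.univ : Finset ι).sup fun i : ι => ∑ j : ι, ‖M i j‖₊ : NNReal) :=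
    linfty_opNorm_def M
  rw [h, ← coe_nnnorm, NNReal.coe_le_coe]
  refine le_trans ?_ (Finset.le_sup (f := fun i : ι => ∑ j : ι, ‖M i j‖₊) (Finset.mem_univ i))
  exact Finset.single_le_sum (f := fun j => ‖M i j‖₊) (fun _ _ => zero_le)
    (Finset.mem_univ j)

theorem mat_norm_le_sum (M : Matrix ι ι A) : ‖M‖ ≤ ∑ i, ∑ j, ‖M i j‖ := by
  have h : ‖M‖ = ((Finset.univ : Finset ι).sup fun i : ι => ∑ j : ι, ‖M i j‖₊ : NNReal) :=
    linfty_opNorm_def M
  have h2 : ((Finset.univ : Finset ι).sup fun i : ι => ∑ j : ι, ‖M i j‖₊ : NNReal) ≤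
      ∑ i, ∑ j, ‖M i j‖₊ := by
    refine Finset.sup_le fun i _ => ?_
    exact Finset.single_le_sum (f := fun i => ∑ j : ι, ‖M i j‖₊) (fun _ _ => zero_le)
      (Finset.mem_univ i)
  rw [h]
  calc (((Finset.univ : Finset ι).sup fun i : ι => ∑ j : ι, ‖M i j‖₊ : NNReal) : ℝ)
      ≤ ((∑ i, ∑ j, ‖M i j‖₊ : NNReal) : ℝ) := NNReal.coe_le_coe.2 h2
    _ = ∑ i, ∑ j, ‖M i j‖ := by push_cast; rfl

theorem mat_complete [CompleteSpace A] : @CompleteSpace (Matrix ι ι A)
    (@PseudoMetricSpace.toUniformSpace _ SeminormedRing.toPseudoMetricSpace) := by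
  refine Metric.complete_of_cauchySeq_tendsto fun u hu => ?_
  have h : ∀ i j, ∃ a, Filter.Tendsto (fun n => u n i j) Filter.atTop (nhds a) := by
    intro i j
    apply cauchySeq_tendsto_of_complete
    rw [Metric.cauchySeq_iff] at hu ⊢
    intro ε hε
    obtain ⟨N, hN⟩ := hu ε hε
    refine ⟨N, fun m hm n hn => ?_⟩
    refine lt_of_le_of_lt ?_ (hN m hm n hn)
    rw [dist_eq_norm, dist_eq_norm]
    exact mat_norm_entry_le (u m - u n) i j
  choose a ha using h
  refine ⟨Matrix.of a, ?_⟩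
  rw [tendsto_iff_norm_sub_tendsto_zero]
  have h1 : Filter.Tendsto (fun n => ∑ i, ∑ j, ‖u n i j - a i j‖) Filter.atTop (nhds 0) := by
    have h2 : (0 : ℝ) = ∑ _i : ι, ∑ _j : ι, 0 := by simp
    rw [h2]
    refine tendsto_finsetSum _ fun i _ => tendsto_finsetSum _ fun j _ => ?_
    exact tendsto_iff_norm_sub_tendsto_zero.1 (ha i j)
  refine squeeze_zero (fun _ => norm_nonneg _) (fun n => ?_) h1
  exact mat_norm_le_sum (u n - Matrix.of a)

theorem mat_exists_idem [CompleteSpace A] (M ε₂ : ℝ) (hM : 0 < M) (hε : 0 < ε₂) :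
    ∃ δ > 0, ∀ (N : Set (Matrix ι ι A)), IsClosed N → (∀ z ∈ N, newton z ∈ N) → ∀ x ∈ N,
      ‖x‖ ≤ M → ‖x * x - x‖ < δ → ∃ f ∈ N, f * f = f ∧ ‖f - x‖ < ε₂ := by
  have hcomplete := mat_complete (A := A) (ι := ι)
  exact exists_idem_near_set M ε₂ hM hε

/-- One step: compress an idempotent matrix by a scalar idempotent. -/
theorem compress_idem [CompleteSpace A] {e E0 Q : Matrix ι ι A} {η ε₂ δ M : ℝ}
    (he : e * e = e) (hE0 : E0 * E0 = E0) (hQ : Q * Q = Q) (hQE : Q * E0 = E0 * Q)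
    (hη : 0 ≤ η) (hη1 : η ≤ 1) (hM : ‖e‖ + 1 ≤ M) (hC : ‖2 * e - 1‖ * (η + ε₂) < 1)
    (hδ : ∀ (N : Set (Matrix ι ι A)), IsClosed N → (∀ z ∈ N, newton z ∈ N) → ∀ x ∈ N, ‖x‖ ≤ M →
      ‖x * x - x‖ < δ → ∃ f ∈ N, f * f = f ∧ ‖f - x‖ < ε₂)
    (hδη : η * (2 * M) < δ)
    (hb : ‖Q * (e - E0) * Q - (e - E0)‖ ≤ η) :
    ∃ f : Matrix ι ι A, (f * f = f) ∧ Q * f = f * Q ∧ (1 - Q) * f = (1 - Q) * E0 ∧
      MvN e f := by
  have hcomplete := mat_complete (A := A) (ι := ι)
  set a : Matrix ι ι A := E0 + Q * (e - E0) * Q with ha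
  set S : Set (Matrix ι ι A) := {z | Q * z = z * Q ∧ (1 - Q) * z = (1 - Q) * E0} with hS
  have hclosed : IsClosed S := by
    rw [hS, Set.ofPred_and]
    refine IsClosed.inter ?_ ?_
    · exact isClosed_eq (continuous_const.mul continuous_id)
        (continuous_id.mul continuous_const)
    · exact isClosed_eq (continuous_const.mul continuous_id) continuous_const
  have hnewt : ∀ z ∈ S, newton z ∈ S := by
    rintro z ⟨h1, h2⟩
    have hzz : Q * (z * z) = z * z * Q := by
      rw [← mul_assoc, h1, mul_assoc, h1, ← mul_assoc]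
    have hzzz : Q * (z * z * z) = z * z * z * Q := by
      rw [← mul_assoc, hzz, mul_assoc, h1, ← mul_assoc]
    have hcom : (1 - Q) * E0 = E0 * (1 - Q) := by
      rw [sub_mul, mul_sub, one_mul, mul_one, hQE]
    have h3 : (1 - Q) * (z * z) = (1 - Q) * E0 := by
      rw [← mul_assoc, h2, hcom, mul_assoc, h2, hcom, ← mul_assoc, hE0]
    have h4 : (1 - Q) * (z * z * z) = (1 - Q) * E0 := by
      rw [← mul_assoc, h3, hcom, mul_assoc, h2, hcom, ← mul_assoc, hE0]
    constructor
    · unfold newton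
      simp only [mul_sub, mul_add, sub_mul, add_mul, hzz, hzzz]
    · unfold newton
      rw [mul_sub, mul_sub, mul_add, mul_add, h3, h4]
      abel
  have haS : a ∈ S := by
    constructor
    · rw [ha, mul_add, add_mul, hQE]
      congr 1
      rw [← mul_assoc, ← mul_assoc, hQ, mul_assoc, mul_assoc, mul_assoc, hQ]
    · rw [ha, mul_add, ← mul_assoc, ← mul_assoc, sub_mul 1 Q Q, one_mul, hQ, sub_self, zero_mul,
        zero_mul, add_zero]
  have hae : ‖a - e‖ ≤ η := by
    have : a - e = Q * (e - E0) * Q - (e - E0) := by rw [ha]; abel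
    rw [this]
    exact hb
  have haM : ‖a‖ ≤ M := by
    have := norm_add_le (a - e) e
    rw [sub_add_cancel] at this
    linarith
  have haa : ‖a * a - a‖ < δ := by
    have h1 : a * a - a = (a - e) * a + e * (a - e) - (a - e) := by
      have : (a - e) * a + e * (a - e) - (a - e) = a * a - e * e - a + e := by noncomm_ring
      rw [this, he]
      abel
    rw [h1]
    have h2 := norm_sub_le ((a - e) * a + e * (a - e)) (a - e)
    have h3 := norm_add_le ((a - e) * a) (e * (a - e))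
    have h4 := norm_mul_le (a - e) a
    have h5 := norm_mul_le e (a - e)
    have h6 : ‖a - e‖ * ‖a‖ ≤ η * M := mul_le_mul hae haM (norm_nonneg _) hη
    have h7 : ‖e‖ * ‖a - e‖ ≤ (M - 1) * η :=
      mul_le_mul (by linarith) hae (norm_nonneg _) (by linarith [norm_nonneg e])
    linarith only [h7, h6, h5, h4, h3, h2, hae, hδη]
  obtain ⟨f, ⟨hf1, hf2⟩, hff, hfa⟩ := hδ S hclosed hnewt a haS haM haa
  refine ⟨f, hff, hf1, hf2, ?_⟩
  have hef : ‖e - f‖ ≤ η + ε₂ := by
    have h1 := norm_sub_le (e - a) (f - a)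
    have h2 : (e - a) - (f - a) = e - f := by abel
    rw [h2, norm_sub_rev e a] at h1
    linarith
  exact mvn_of_close he hff (lt_of_le_of_lt (mul_le_mul_of_nonneg_left hef (norm_nonneg _)) hC)

end MatNorm

section Main

attribute [local instance] Matrix.linftyOpNormedRing

theorem corner_idem {A : Type} [Ring A] {Q f : A} (hQ : Q * Q = Q) (hf : f * f = f)
    (h : Q * f = f * Q) : (Q * f) * (Q * f) = Q * f := by
  rw [mul_assoc, ← mul_assoc f, ← h, mul_assoc Q f f, hf, ← mul_assoc, hQ]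

theorem one_sub_idem {A : Type} [Ring A] {Q : A} (hQ : Q * Q = Q) :
    (1 - Q) * (1 - Q) = 1 - Q := by
  rw [mul_sub, sub_mul, sub_mul, hQ, one_mul, mul_one, one_mul, sub_self, sub_zero]

theorem cls_corner {A : Type} [Ring A] {ι : Type} [Fintype ι] [DecidableEq ι]
    {Q f E0 : Matrix ι ι A} (hQ : Q * Q = Q) (hf : f * f = f)
    (h : Q * f = f * Q) (hE0 : E0 * E0 = E0) (hQE : Q * E0 = E0 * Q)
    (hfE : (1 - Q) * f = (1 - Q) * E0) :
    K0.cls f hf = K0.cls (Q * f) (corner_idem hQ hf h) +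
      K0.cls ((1 - Q) * E0) (corner_idem (one_sub_idem hQ) hE0
        (by rw [sub_mul, mul_sub, one_mul, mul_one, hQE])) := by
  have h1 : f = Q * f + (1 - Q) * E0 := by
    rw [← hfE, sub_mul, one_mul, add_sub_cancel]
  have h2 : (Q * f) * ((1 - Q) * E0) = 0 := by
    rw [h, mul_assoc, ← mul_assoc Q, mul_sub, hQ, mul_one, sub_self, zero_mul, mul_zero]
  have h3 : ((1 - Q) * E0) * (Q * f) = 0 := by
    rw [← hfE, mul_assoc, ← mul_assoc f, ← h, mul_assoc Q f f, hf, ← mul_assoc, sub_mul, hQ,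
      one_mul, sub_self, zero_mul]
  have h4 : (Q * f + (1 - Q) * E0) * (Q * f + (1 - Q) * E0) = Q * f + (1 - Q) * E0 := by
    rw [← h1, hf]
  rw [← K0.cls_add _ _ h2 h3 h4]
  exact K0.cls_congr hf h1

/-- Idempotent matrices with the same scalar part. -/
theorem K00_same {A : Type} [CStarAlgebra A] (χ : A →⋆ₐ[ℂ] ℂ)
    (h : ∀ (F : Finset A) (ε : ℝ), 0 < ε → (∀ b ∈ F, χ b = 0) →
      ∃ P : A, χ P = 0 ∧ P * P = P ∧ ∀ b ∈ F, ‖b - P * b * P‖ < ε)
    {ι : Type} [Fintype ι] [DecidableEq ι] {e f : Matrix ι ι A} (he : e * e = e)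
    (hf : f * f = f) (hef : e.map χ = f.map χ) :
    ∃ (e1 f1 : Matrix ι ι A) (he1 : e1 * e1 = e1) (hf1 : f1 * f1 = f1),
      (∀ i j, χ (e1 i j) = 0) ∧ (∀ i j, χ (f1 i j) = 0) ∧
      K0.cls e he - K0.cls f hf = K0.cls e1 he1 - K0.cls f1 hf1 := by
  classical
  set E0 : Matrix ι ι A := (e.map χ).map (algebraMap ℂ A) with hE0def
  have hE0 : E0 * E0 = E0 := by
    rw [hE0def]
    have h1 : e.map χ * e.map χ = e.map χ := mapMat_idem (χ : A →+* ℂ) he
    exact mapMat_idem (algebraMap ℂ A) h1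
  have hχE0 : ∀ i j, χ (E0 i j) = χ (e i j) := by
    intro i j
    change χ (algebraMap ℂ A (χ (e i j))) = χ (e i j)
    exact AlgHomClass.commutes χ _
  have hχe : ∀ i j, χ ((e - E0) i j) = 0 := by
    intro i j
    rw [Matrix.sub_apply, map_sub, hχE0, sub_self]
  have hχf : ∀ i j, χ ((f - E0) i j) = 0 := by
    intro i j
    have h1 : χ (e i j) = χ (f i j) := congrFun (congrFun hef i) j
    rw [Matrix.sub_apply, map_sub, hχE0, h1, sub_self]
  set M : ℝ := ‖e‖ + ‖f‖ + 1 with hM
  have hMpos : 0 < M := by positivity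
  set ε₂ : ℝ := 1 / (2 * (‖2 * e - 1‖ + ‖2 * f - 1‖ + 1)) with hε₂
  have hε₂pos : 0 < ε₂ := by positivity
  obtain ⟨δ, hδ, hδ'⟩ := mat_exists_idem (A := A) (ι := ι) M ε₂ hMpos hε₂pos
  set η : ℝ := min (min 1 ε₂) (δ / (4 * M)) with hη
  have hηpos : 0 < η := lt_min (lt_min one_pos hε₂pos) (by (clear * - hδ; positivity))
  have hη1 : η ≤ 1 := (min_le_left _ _).trans (min_le_left _ _)
  have hηε : η ≤ ε₂ := (min_le_left _ _).trans (min_le_right _ _)
  have hηδ : η * (2 * M) < δ := by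
    have h1 : η ≤ δ / (4 * M) := min_le_right _ _
    rw [le_div_iff₀ (by positivity)] at h1
    linarith only [h1, hδ]
  have hCe : ‖2 * e - 1‖ * (η + ε₂) < 1 := by
    have h1 : ‖2 * e - 1‖ * (η + ε₂) ≤ ‖2 * e - 1‖ * (2 * ε₂) :=
      mul_le_mul_of_nonneg_left (by linarith) (norm_nonneg _)
    refine h1.trans_lt ?_
    rw [hε₂]
    have h2 : ‖2 * e - 1‖ * (2 * (1 / (2 * (‖2 * e - 1‖ + ‖2 * f - 1‖ + 1)))) =
        ‖2 * e - 1‖ / (‖2 * e - 1‖ + ‖2 * f - 1‖ + 1) := by field_simp
    rw [h2, div_lt_one (by positivity)]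
    linarith only [norm_nonneg (2 * f - 1)]
  have hCf : ‖2 * f - 1‖ * (η + ε₂) < 1 := by
    have h1 : ‖2 * f - 1‖ * (η + ε₂) ≤ ‖2 * f - 1‖ * (2 * ε₂) :=
      mul_le_mul_of_nonneg_left (by linarith) (norm_nonneg _)
    refine h1.trans_lt ?_
    rw [hε₂]
    have h2 : ‖2 * f - 1‖ * (2 * (1 / (2 * (‖2 * e - 1‖ + ‖2 * f - 1‖ + 1)))) =
        ‖2 * f - 1‖ / (‖2 * e - 1‖ + ‖2 * f - 1‖ + 1) := by field_simp
    rw [h2, div_lt_one (by positivity)]
    linarith [norm_nonneg (2 * e - 1)]
  set c : ℝ := (Fintype.card ι : ℝ) * (Fintype.card ι : ℝ) + 1 with hc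
  have hcpos : 0 < c := by positivity
  set F : Finset A := (Finset.univ.image fun k : ι × ι => (e - E0) k.1 k.2) ∪
    (Finset.univ.image fun k : ι × ι => (f - E0) k.1 k.2) with hF
  obtain ⟨P, hχP, hPP, hP⟩ := h F (η / c) (by (clear * - hδ; positivity)) (by
    intro b hb
    rw [hF, Finset.mem_union, Finset.mem_image, Finset.mem_image] at hb
    rcases hb with ⟨k, _, rfl⟩ | ⟨k, _, rfl⟩
    · exact hχe _ _
    · exact hχf _ _)
  set Q : Matrix ι ι A := Matrix.diagonal fun _ => P with hQdef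
  have hQ : Q * Q = Q := by
    rw [hQdef, Matrix.diagonal_mul_diagonal, hPP]
  have hQE : Q * E0 = E0 * Q := by
    ext i j
    rw [hQdef, Matrix.diagonal_mul, Matrix.mul_diagonal]
    exact (Algebra.commutes (χ (e i j)) P).symm
  have hbound : ∀ b : Matrix ι ι A, (∀ i j, ‖b i j - P * b i j * P‖ < η / c) →
      ‖Q * b * Q - b‖ ≤ η := by
    intro b hb
    refine (mat_norm_le_sum _).trans ?_
    have h1 : ∀ i j, ‖(Q * b * Q - b) i j‖ ≤ η / c := by
      intro i j
      have h2 : (Q * b * Q - b) i j = -(b i j - P * b i j * P) := by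
        rw [Matrix.sub_apply, hQdef, Matrix.mul_diagonal, Matrix.diagonal_mul]
        abel
      rw [h2, norm_neg]
      exact (hb i j).le
    calc ∑ i, ∑ j, ‖(Q * b * Q - b) i j‖ ≤ ∑ _i : ι, ∑ _j : ι, η / c :=
          Finset.sum_le_sum fun i _ => Finset.sum_le_sum fun j _ => h1 i j
      _ = (Fintype.card ι : ℝ) * (Fintype.card ι : ℝ) * (η / c) := by
          simp [Finset.sum_const, mul_assoc]
      _ ≤ c * (η / c) := by
          refine mul_le_mul_of_nonneg_right ?_ (by (clear * - hδ; positivity))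
          rw [hc]
          linarith
      _ = η := by field_simp
  have hbe : ‖Q * (e - E0) * Q - (e - E0)‖ ≤ η := hbound _ fun i j => hP _ (by
    rw [hF]
    exact Finset.mem_union_left _ (Finset.mem_image.2 ⟨(i, j), Finset.mem_univ _, rfl⟩))
  have hbf : ‖Q * (f - E0) * Q - (f - E0)‖ ≤ η := hbound _ fun i j => hP _ (by
    rw [hF]
    exact Finset.mem_union_right _ (Finset.mem_image.2 ⟨(i, j), Finset.mem_univ _, rfl⟩))
  obtain ⟨e', he', hQe, hEe, hmve⟩ := compress_idem he hE0 hQ hQE hηpos.le hη1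
    (by rw [hM]; linarith [norm_nonneg f]) hCe hδ' hηδ hbe
  obtain ⟨f', hf', hQf, hEf, hmvf⟩ := compress_idem hf hE0 hQ hQE hηpos.le hη1
    (by rw [hM]; linarith [norm_nonneg e]) hCf hδ' hηδ hbf
  refine ⟨Q * e', Q * f', corner_idem hQ he' hQe, corner_idem hQ hf' hQf, ?_, ?_, ?_⟩
  · intro i j
    rw [hQdef, Matrix.diagonal_mul, map_mul, hχP, zero_mul]
  · intro i j
    rw [hQdef, Matrix.diagonal_mul, map_mul, hχP, zero_mul]
  · rw [K0.cls_eq_of_mvn he he' hmve, K0.cls_eq_of_mvn hf hf' hmvf,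
      cls_corner hQ he' hQe hE0 hQE hEe, cls_corner hQ hf' hQf hE0 hQE hEf,
      add_sub_add_right_eq_sub]

end Main

section Reduce

theorem scal_idem {κ : Type} [Fintype κ] [DecidableEq κ] {e f x y : Matrix κ κ ℂ}
    (he : e * e = e) (hf : f * f = f) (hxy : x * y = e) (hyx : y * x = f) :
    ∃ (W W' : Matrix (κ ⊕ κ) (κ ⊕ κ) ℂ), W * W' = 1 ∧ W' * W = 1 ∧
      W * Matrix.fromBlocks f 0 0 0 * W' = Matrix.fromBlocks e 0 0 0 := by
  -- normalise
  set a : Matrix κ κ ℂ := e * x * f with ha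
  set b : Matrix κ κ ℂ := f * y * e with hb
  have hab : a * b = e := by
    have h1 : a * b = e * x * (f * f) * y * e := by rw [ha, hb]; simp only [Matrix.mul_assoc]
    rw [h1, hf, ← hyx]
    have h2 : e * x * (y * x) * y * e = e * ((x * y) * (x * y)) * e := by
      simp only [Matrix.mul_assoc]
    rw [h2, hxy, he, he, he]
  have hba : b * a = f := by
    have h1 : b * a = f * y * (e * e) * x * f := by rw [ha, hb]; simp only [Matrix.mul_assoc]
    rw [h1, he, ← hxy]
    have h2 : f * y * (x * y) * x * f = f * ((y * x) * (y * x)) * f := by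
      simp only [Matrix.mul_assoc]
    rw [h2, hyx, hf, hf, hf]
  have hea : (1 - e) * a = 0 := by
    rw [ha, ← Matrix.mul_assoc, ← Matrix.mul_assoc, Matrix.sub_mul, Matrix.one_mul, he, sub_self,
      Matrix.zero_mul, Matrix.zero_mul]
  have haf : a * (1 - f) = 0 := by
    rw [ha, Matrix.mul_assoc, Matrix.mul_sub, Matrix.mul_one, hf, sub_self, Matrix.mul_zero]
  have haf' : a * f = a := by rw [ha, Matrix.mul_assoc, hf]
  have hfb : (1 - f) * b = 0 := by
    rw [hb, ← Matrix.mul_assoc, ← Matrix.mul_assoc, Matrix.sub_mul, Matrix.one_mul, hf, sub_self,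
      Matrix.zero_mul, Matrix.zero_mul]
  have hbe : b * (1 - e) = 0 := by
    rw [hb, Matrix.mul_assoc, Matrix.mul_sub, Matrix.mul_one, he, sub_self, Matrix.mul_zero]
  have h1e : (1 - e) * (1 - e) = 1 - e := one_sub_idem he
  have h1f : (1 - f) * (1 - f) = 1 - f := one_sub_idem hf
  refine ⟨Matrix.fromBlocks a (1 - e) (1 - f) b, Matrix.fromBlocks b (1 - f) (1 - e) a,
    ?_, ?_, ?_⟩
  · rw [Matrix.fromBlocks_multiply, hab, haf, hea, hba, hbe, hfb, h1e, h1f, add_zero,
      add_sub_cancel, sub_add_cancel, ← Matrix.fromBlocks_one]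
  · rw [Matrix.fromBlocks_multiply, hab, haf, hea, hba, hbe, hfb, h1e, h1f, add_zero,
      add_sub_cancel, sub_add_cancel, ← Matrix.fromBlocks_one]
  · rw [Matrix.fromBlocks_multiply, Matrix.fromBlocks_multiply]
    simp only [Matrix.mul_zero, add_zero, Matrix.zero_mul, haf']
    have h3 : (1 - f) * f = 0 := by rw [Matrix.sub_mul, Matrix.one_mul, hf, sub_self]
    rw [h3, hab, haf, Matrix.zero_mul, Matrix.zero_mul]

/-- Reduction to idempotent matrices over the ideal. -/
theorem K00_of_approx {A : Type} [CStarAlgebra A] (χ : A →⋆ₐ[ℂ] ℂ)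
    (h : ∀ (F : Finset A) (ε : ℝ), 0 < ε → (∀ b ∈ F, χ b = 0) →
      ∃ P : A, χ P = 0 ∧ P * P = P ∧ ∀ b ∈ F, ‖b - P * b * P‖ < ε)
    (x : K0 A) (hx : K0.map (χ : A →+* ℂ) x = 0) :
    ∃ (n : ℕ) (e f : Matrix (Fin n) (Fin n) A) (he : e * e = e) (hf : f * f = f),
      (∀ i j, χ (e i j) = 0) ∧ (∀ i j, χ (f i j) = 0) ∧ x = K0.cls e he - K0.cls f hf := by
  obtain ⟨n, e, f, he, hf, rfl⟩ := K0.exists_rep x
  rw [map_sub, sub_eq_zero, K0.map_cls, K0.map_cls, K0.cls_eq_iff] at hx
  obtain ⟨k, X, Y, hXY, hYX⟩ := hx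
  set κ := Fin n ⊕ Fin k with hκ
  have h11 : (1 : Matrix (Fin k) (Fin k) A) * 1 = 1 := one_mul 1
  set E : Matrix κ κ A := Matrix.fromBlocks e 0 0 1 with hE
  set F : Matrix κ κ A := Matrix.fromBlocks f 0 0 1 with hF
  have hEE : E * E = E := blocks_idem he h11
  have hFF : F * F = F := blocks_idem hf h11
  have hχE : E.map χ = Matrix.fromBlocks (e.map (χ : A →+* ℂ)) 0 0 1 := by
    rw [hE, Matrix.fromBlocks_map]
    congr 1
    · exact Matrix.map_zero _ (map_zero χ)
    · exact Matrix.map_zero _ (map_zero χ)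
    · exact Matrix.map_one _ (map_zero χ) (map_one χ)
  have hχF : F.map χ = Matrix.fromBlocks (f.map (χ : A →+* ℂ)) 0 0 1 := by
    rw [hF, Matrix.fromBlocks_map]
    congr 1
    · exact Matrix.map_zero _ (map_zero χ)
    · exact Matrix.map_zero _ (map_zero χ)
    · exact Matrix.map_one _ (map_zero χ) (map_one χ)
  have hEχ : E.map χ * E.map χ = E.map χ := mapMat_idem (χ : A →+* ℂ) hEE
  have hFχ : F.map χ * F.map χ = F.map χ := mapMat_idem (χ : A →+* ℂ) hFF
  rw [← hχE] at hXY
  rw [← hχF] at hYX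
  obtain ⟨W, W', hWW', hW'W, hWF⟩ := scal_idem hEχ hFχ hXY hYX
  set s : ℂ →+* A := algebraMap ℂ A with hs
  have hχs : ∀ z : ℂ, χ (s z) = z := fun z => AlgHomClass.commutes χ z
  have h00 : (0 : Matrix κ κ A) * 0 = 0 := Matrix.mul_zero _
  set E2 : Matrix (κ ⊕ κ) (κ ⊕ κ) A := Matrix.fromBlocks E 0 0 0 with hE2
  have hE2i : E2 * E2 = E2 := blocks_idem hEE h00
  set F1 : Matrix (κ ⊕ κ) (κ ⊕ κ) A := Matrix.fromBlocks F 0 0 0 with hF1
  have hF1i : F1 * F1 = F1 := blocks_idem hFF h00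
  have hs1 : W.map s * W'.map s = 1 := by
    rw [← Matrix.map_mul, hWW', Matrix.map_one _ (map_zero s) (map_one s)]
  have hs2 : W'.map s * W.map s = 1 := by
    rw [← Matrix.map_mul, hW'W, Matrix.map_one _ (map_zero s) (map_one s)]
  set F2 : Matrix (κ ⊕ κ) (κ ⊕ κ) A := W.map s * F1 * W'.map s with hF2
  have hF2i : F2 * F2 = F2 := by
    have h1 : F2 * F2 = W.map s * F1 * (W'.map s * W.map s) * F1 * W'.map s := by
      rw [hF2]; simp only [Matrix.mul_assoc]
    rw [h1, hs2, Matrix.mul_one, Matrix.mul_assoc (W.map s), hF1i]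
  have hclsF : K0.cls F1 hF1i = K0.cls F2 hF2i :=
    K0.cls_conj hF1i hF2i (W.map s) (W'.map s) hs1 hs2 rfl
  have hmapW : (W.map s).map χ = W := by
    ext i j
    exact hχs _
  have hmapW' : (W'.map s).map χ = W' := by
    ext i j
    exact hχs _
  have hsame : E2.map χ = F2.map χ := by
    have h1 : F2.map χ = (W.map s).map χ * F1.map χ * (W'.map s).map χ := by
      rw [hF2]
      have h2 := Matrix.map_mul (L := W.map s * F1) (M := W'.map s) (f := (χ : A →+* ℂ))
      have h3 := Matrix.map_mul (L := W.map s) (M := F1) (f := (χ : A →+* ℂ))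
      rw [h3] at h2
      exact h2
    have h4 : F1.map χ = Matrix.fromBlocks (F.map χ) 0 0 0 := by
      rw [hF1, Matrix.fromBlocks_map]
      congr 1 <;> exact Matrix.map_zero _ (map_zero χ)
    have h5 : E2.map χ = Matrix.fromBlocks (E.map χ) 0 0 0 := by
      rw [hE2, Matrix.fromBlocks_map]
      congr 1 <;> exact Matrix.map_zero _ (map_zero χ)
    rw [h1, hmapW, hmapW', h4, h5, hWF]
  obtain ⟨e1, f1, he1, hf1, hχe1, hχf1, heq⟩ := K00_same χ h hE2i hF2i hsame
  have hcls : K0.cls e he - K0.cls f hf = K0.cls e1 he1 - K0.cls f1 hf1 := by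
    rw [← heq, ← hclsF]
    have hA : K0.cls E2 hE2i = K0.cls e he + K0.cls (1 : Matrix (Fin k) (Fin k) A) h11 := by
      have h6 : K0.cls E2 hE2i = K0.cls E hEE + K0.cls (0 : Matrix κ κ A) h00 :=
        K0.cls_blocks hEE h00
      have h7 : K0.cls E hEE = K0.cls e he + K0.cls (1 : Matrix (Fin k) (Fin k) A) h11 :=
        K0.cls_blocks he h11
      rw [h6, h7, K0.cls_zero, add_zero]
    have hB : K0.cls F1 hF1i = K0.cls f hf + K0.cls (1 : Matrix (Fin k) (Fin k) A) h11 := by
      have h6 : K0.cls F1 hF1i = K0.cls F hFF + K0.cls (0 : Matrix κ κ A) h00 :=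
        K0.cls_blocks hFF h00
      have h7 : K0.cls F hFF = K0.cls f hf + K0.cls (1 : Matrix (Fin k) (Fin k) A) h11 :=
        K0.cls_blocks hf h11
      rw [h6, h7, K0.cls_zero, add_zero]
    rw [hA, hB, add_sub_add_right_eq_sub]
  set σ := (Fintype.equivFin (κ ⊕ κ)).symm with hσ
  refine ⟨Fintype.card (κ ⊕ κ), e1.submatrix σ σ, f1.submatrix σ σ,
    by rw [submatrix_mul_equiv, he1], by rw [submatrix_mul_equiv, hf1],
    fun i j => hχe1 _ _, fun i j => hχf1 _ _, ?_⟩
  rw [K0.cls_submatrix he1, K0.cls_submatrix hf1, hcls]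

end Reduce

end Vale.Agent.P212
end
end

section

section

namespace Vale.Agent.P212

/-- `K_0(A)` for a C*-algebra `A`, possibly without unit: the kernel of `K_0(A^+) → K_0(ℂ)`. -/
noncomputable def K0N (A : Type) [NonUnitalCStarAlgebra A] : AddSubgroup (K0 (Unitization ℂ A)) :=
  (K0.map (Unitization.fstHom ℂ A : Unitization ℂ A →+* ℂ)).ker

end Vale.Agent.P212
end
end

section

section

/-! Elements of infinite order survive tensoring with the rationals. -/

namespace Vale.Agent.P212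

open TensorProduct

end Vale.Agent.P212
end
end

section

section

/-! Line bundles on Rips complexes given by integral cocycles. -/

namespace Vale.Agent.P212

open Matrix

variable {X : Type}

/-- The transition functions of the line bundle of the cochain `c`. -/
noncomputable def ph (B : Finset X) (c : X → X → X → ℤ) (p : RPt X) (x y : X) : ℂ :=
  Complex.exp (2 * Real.pi * Complex.I * ∑ w ∈ B, (c x y w : ℂ) * (p.1 w : ℂ))

theorem RPt.sqrt_zero (p : RPt X) {x : X} (hx : x ∉ p.1.support) :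
    Real.sqrt (p.1 x : ℝ) = 0 := by
  rw [Finsupp.notMem_support_iff.1 hx]
  simp

theorem RPt.sum_eq_one (p : RPt X) {B : Finset X} (hB : p.1.support ⊆ B) :
    ∑ w ∈ B, (p.1 w : ℂ) = 1 := by
  have h1 : (p.1.sum fun _ a => a) = ∑ w ∈ B, p.1 w :=
    Finsupp.sum_of_support_subset _ hB _ (fun _ _ => rfl)
  have h2 := p.2.2
  rw [h1] at h2
  have h3 : ((∑ w ∈ B, p.1 w : ℚ) : ℂ) = 1 := by rw [h2]; simp
  rw [← h3]
  push_cast
  rfl

theorem RPt.sqrt_mul_self (p : RPt X) (x : X) :
    (Real.sqrt (p.1 x) : ℂ) * (Real.sqrt (p.1 x) : ℂ) = (p.1 x : ℂ) := by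
  rw [← Complex.ofReal_mul, Real.mul_self_sqrt (by exact_mod_cast p.2.1 x)]
  simp

/-- Phases given by integral functions. -/
noncomputable def eph (B : Finset X) (a : X → ℤ) (p : RPt X) : ℂ :=
  Complex.exp (2 * Real.pi * Complex.I * ∑ w ∈ B, (a w : ℂ) * (p.1 w : ℂ))

theorem Cyl.eph (B : Finset X) (a : X → ℤ) : Cyl (fun p => P212.eph B a p) := by
  refine ⟨B, fun v => Complex.exp (2 * Real.pi * Complex.I * ∑ w : B, (a w : ℂ) * (v w : ℂ)),
    ?_, ?_⟩
  · fun_prop
  · intro p
    change Complex.exp (2 * Real.pi * Complex.I * ∑ w ∈ B, (a w : ℂ) * (p.1 w : ℂ)) =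
      Complex.exp (2 * Real.pi * Complex.I * ∑ w : B, (a w : ℂ) * (((p.1 w : ℚ) : ℝ) : ℂ))
    have : ∑ w ∈ B, (a w : ℂ) * (p.1 w : ℂ) =
        ∑ w : B, (a w : ℂ) * (((p.1 w : ℚ) : ℝ) : ℂ) := by
      rw [Finset.sum_coe_sort B (fun w => (a w : ℂ) * (((p.1 w : ℚ) : ℝ) : ℂ))]
      simp
    rw [this]

theorem eph_add (B : Finset X) (a b : X → ℤ) (p : RPt X) :
    eph B (fun w => a w + b w) p = eph B a p * eph B b p := by
  unfold eph
  rw [← Complex.exp_add, ← mul_add, ← Finset.sum_add_distrib]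
  congr 2
  refine Finset.sum_congr rfl fun w _ => ?_
  push_cast
  ring

theorem eph_const {B : Finset X} (n : ℤ) {p : RPt X} (hB : p.1.support ⊆ B) :
    eph B (fun _ => n) p = 1 := by
  unfold eph
  rw [← Finset.mul_sum, p.sum_eq_one hB, mul_one, mul_comm]
  exact Complex.exp_int_mul_two_pi_mul_I n

theorem eph_congr {B : Finset X} {a b : X → ℤ} {p : RPt X}
    (h : ∀ w ∈ p.1.support, a w = b w) : eph B a p = eph B b p := by
  unfold eph
  congr 2
  refine Finset.sum_congr rfl fun w _ => ?_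
  by_cases hw : w ∈ p.1.support
  · rw [h w hw]
  · rw [Finsupp.notMem_support_iff.1 hw]
    simp

theorem star_eph_mul (B : Finset X) (a : X → ℤ) (p : RPt X) :
    star (eph B a p) * eph B a p = 1 := by
  unfold eph
  rw [Complex.star_def, ← Complex.exp_conj, ← Complex.exp_add, ← Complex.exp_zero]
  congr 1
  simp [map_ofNat]

theorem eph_ne_zero (B : Finset X) (a : X → ℤ) (p : RPt X) : eph B a p ≠ 0 :=
  Complex.exp_ne_zero _

theorem ph_eq_eph (B : Finset X) (c : X → X → X → ℤ) (p : RPt X) (x y : X) :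
    ph B c p x y = eph B (c x y) p := rfl

/-- The projection onto the line bundle of the cochain `c`. -/
noncomputable def Qb (B : Finset X) (c : X → X → X → ℤ) (p : RPt X) : Matrix B B ℂ :=
  fun x y => (Real.sqrt (p.1 x) : ℂ) * (Real.sqrt (p.1 y) : ℂ) * ph B c p x y

/-- The cocycle identity on the vertices of `p`. -/
def CocAt (c : X → X → X → ℤ) (p : RPt X) : Prop :=
  ∀ x ∈ p.1.support, ∀ y ∈ p.1.support, ∀ z ∈ p.1.support, ∀ w ∈ p.1.support,
    c y z w - c x z w + c x y w - c x y z = 0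

theorem Cyl.ph (B : Finset X) (c : X → X → X → ℤ) (x y : X) :
    Cyl (fun p => ph B c p x y) := Cyl.eph B (c x y)

theorem Cyl.sqrt (x : X) : Cyl (fun p : RPt X => ((Real.sqrt (p.1 x) : ℝ) : ℂ)) := by
  refine ⟨{x}, fun v => ((Real.sqrt (v ⟨x, by simp⟩) : ℝ) : ℂ), ?_, fun p => rfl⟩
  exact Complex.continuous_ofReal.comp (Real.continuous_sqrt.comp (continuous_apply _))

theorem Cyl.Qb (B : Finset X) (c : X → X → X → ℤ) (x y : B) :
    Cyl (fun p => Qb B c p x y) :=
  ((Cyl.sqrt (x : X)).mul (Cyl.sqrt (y : X))).mul (Cyl.ph B c x y)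

theorem ph_mul {B : Finset X} {c : X → X → X → ℤ} {p : RPt X} (hB : p.1.support ⊆ B)
    (hc : CocAt c p) {x y z : X} (hx : x ∈ p.1.support) (hy : y ∈ p.1.support)
    (hz : z ∈ p.1.support) : ph B c p x y * ph B c p y z = ph B c p x z := by
  rw [ph_eq_eph, ph_eq_eph, ph_eq_eph, ← eph_add]
  have h1 : eph B (fun w => c x y w + c y z w) p = eph B (fun w => c x z w + c x y z) p :=
    eph_congr fun w hw => by
      have := hc x hx y hy z hz w hw
      show c x y w + c y z w = c x z w + c x y z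
      linarith
  rw [h1, eph_add, eph_const _ hB, mul_one]

theorem ph_self {B : Finset X} {c : X → X → X → ℤ} {p : RPt X} (hB : p.1.support ⊆ B)
    (hc : CocAt c p) {x : X} (hx : x ∈ p.1.support) : ph B c p x x = 1 := by
  have h := ph_mul hB hc hx hx hx
  exact mul_left_cancel₀ (eph_ne_zero B (c x x) p) (by rw [mul_one]; exact h)

theorem star_ph {B : Finset X} {c : X → X → X → ℤ} {p : RPt X} (hB : p.1.support ⊆ B)
    (hc : CocAt c p) {x y : X} (hx : x ∈ p.1.support) (hy : y ∈ p.1.support) :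
    star (ph B c p x y) = ph B c p y x := by
  have h1 : ph B c p x y * ph B c p y x = 1 := by rw [ph_mul hB hc hx hy hx, ph_self hB hc hx]
  have h2 : ph B c p x y * star (ph B c p x y) = 1 := by
    rw [mul_comm]; exact star_eph_mul B (c x y) p
  exact mul_left_cancel₀ (eph_ne_zero B (c x y) p) (h2.trans h1.symm)

theorem Qb_bun {B : Finset X} {c : X → X → X → ℤ} {p : RPt X} (hB : p.1.support ⊆ B)
    (hc : CocAt c p) : (Qb B c p)ᴴ = Qb B c p ∧ Qb B c p * Qb B c p = Qb B c p := by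
  constructor
  · ext x y
    rw [Matrix.conjTranspose_apply]
    unfold Qb
    by_cases hx : (x : X) ∈ p.1.support
    · by_cases hy : (y : X) ∈ p.1.support
      · rw [star_mul', star_mul', star_ph hB hc hy hx]
        simp only [Complex.star_def, Complex.conj_ofReal]
        ring
      · rw [p.sqrt_zero hy]; simp
    · rw [p.sqrt_zero hx]; simp
  · ext x y
    rw [Matrix.mul_apply]
    by_cases hx : (x : X) ∈ p.1.support
    · by_cases hy : (y : X) ∈ p.1.support
      · have h1 : ∀ z : B, Qb B c p x z * Qb B c p z y = Qb B c p x y * (p.1 z : ℂ) := by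
          intro z
          unfold Qb
          by_cases hz : (z : X) ∈ p.1.support
          · rw [← ph_mul hB hc hx hz hy, ← p.sqrt_mul_self z]
            ring
          · rw [p.sqrt_zero hz, Finsupp.notMem_support_iff.1 hz]
            simp
        rw [Finset.sum_congr rfl fun z _ => h1 z, ← Finset.mul_sum,
          Finset.sum_coe_sort B (fun z => (p.1 z : ℂ)), p.sum_eq_one hB, mul_one]
      · unfold Qb
        rw [p.sqrt_zero hy]; simp
    · unfold Qb
      rw [p.sqrt_zero hx]; simp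

theorem Qb_rank {B : Finset X} {c : X → X → X → ℤ} {p : RPt X} (hB : p.1.support ⊆ B)
    (hc : CocAt c p) : (Qb B c p).rank = 1 := by
  obtain ⟨z, hz⟩ : p.1.support.Nonempty := by
    rw [Finset.nonempty_iff_ne_empty]
    intro h
    have h2 := p.2.2
    rw [Finsupp.support_eq_empty.1 h] at h2
    simp at h2
  have h1 : Qb B c p = Matrix.vecMulVec
      (fun x : B => (Real.sqrt (p.1 x) : ℂ) * ph B c p x z)
      (fun y : B => (Real.sqrt (p.1 y) : ℂ) * ph B c p z y) := by
    ext x y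
    rw [Matrix.vecMulVec_apply]
    unfold Qb
    by_cases hx : (x : X) ∈ p.1.support
    · by_cases hy : (y : X) ∈ p.1.support
      · rw [← ph_mul hB hc hx hz hy]
        ring
      · rw [p.sqrt_zero hy]; simp
    · rw [p.sqrt_zero hx]; simp
  have h2 : (Qb B c p).rank ≤ 1 := by
    rw [h1]
    exact Matrix.rank_vecMulVec_le _ _
  have h3 : (Qb B c p).rank ≠ 0 := by
    classical
    intro h
    have h5 : (Qb B c p).mulVecLin = 0 := by
      rw [Matrix.rank] at h
      exact LinearMap.range_eq_bot.1 (Submodule.finrank_eq_zero.1 h)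
    have h4 : Qb B c p ⟨z, hB hz⟩ ⟨z, hB hz⟩ = 0 := by
      have h6 := congrFun (LinearMap.congr_fun h5 (Pi.single ⟨z, hB hz⟩ 1)) ⟨z, hB hz⟩
      simpa using h6
    unfold Qb at h4
    rw [p.sqrt_mul_self, ph_self hB hc hz, mul_one] at h4
    exact (Finsupp.mem_support_iff.1 hz) (by exact_mod_cast h4)
  omega

/-- The isomorphism of the line bundles of cohomologous cocycles. -/
noncomputable def Mb (B : Finset X) (c : X → X → X → ℤ) (b : X → X → ℤ) (p : RPt X) :
    Matrix B B ℂ := fun x y => Qb B c p x y *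
      Complex.exp (2 * Real.pi * Complex.I * ∑ w ∈ B, (b y w : ℂ) * (p.1 w : ℂ))

theorem Cyl.Mb (B : Finset X) (c : X → X → X → ℤ) (b : X → X → ℤ) (x y : B) :
    Cyl (fun p => Mb B c b p x y) :=
  (Cyl.Qb B c x y).mul (Cyl.eph B (b y))

theorem Mb_apply (B : Finset X) (c : X → X → X → ℤ) (b : X → X → ℤ) (p : RPt X) (x y : B) :
    Mb B c b p x y = Qb B c p x y * eph B (b y) p := rfl

theorem ph_cob {B : Finset X} {c c' : X → X → X → ℤ} {b : X → X → ℤ} {p : RPt X}
    (hB : p.1.support ⊆ B)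
    (h : ∀ x ∈ p.1.support, ∀ y ∈ p.1.support, ∀ z ∈ p.1.support,
      c' x y z = c x y z + (b y z - b x z + b x y))
    {x y : X} (hx : x ∈ p.1.support) (hy : y ∈ p.1.support) :
    star (eph B (b x) p) * eph B (b y) p * ph B c p x y = ph B c' p x y := by
  have h1 : eph B (fun w => c' x y w + b x w) p =
      eph B (fun w => (c x y w + b y w) + b x y) p :=
    eph_congr fun w hw => by
      have := h x hx y hy w hw
      show c' x y w + b x w = (c x y w + b y w) + b x y
      linarith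
  rw [eph_add, eph_add, eph_const _ hB, mul_one, eph_add, ← ph_eq_eph, ← ph_eq_eph] at h1
  have h2 := star_eph_mul B (b x) p
  calc star (eph B (b x) p) * eph B (b y) p * ph B c p x y
      = star (eph B (b x) p) * (ph B c p x y * eph B (b y) p) := by ring
    _ = star (eph B (b x) p) * (ph B c' p x y * eph B (b x) p) := by rw [h1]
    _ = (star (eph B (b x) p) * eph B (b x) p) * ph B c' p x y := by ring
    _ = ph B c' p x y := by rw [h2, one_mul]

theorem Mb_iso {B : Finset X} {c c' : X → X → X → ℤ} {b : X → X → ℤ} {p : RPt X}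
    (hB : p.1.support ⊆ B) (hc : CocAt c p)
    (h : ∀ x ∈ p.1.support, ∀ y ∈ p.1.support, ∀ z ∈ p.1.support,
      c' x y z = c x y z + (b y z - b x z + b x y)) :
    Mb B c b p * (Mb B c b p)ᴴ = Qb B c p ∧ (Mb B c b p)ᴴ * Mb B c b p = Qb B c' p := by
  obtain ⟨hs, hm⟩ := Qb_bun hB hc
  constructor
  · conv_rhs => rw [← hm]
    ext x y
    rw [Matrix.mul_apply, Matrix.mul_apply]
    refine Finset.sum_congr rfl fun z _ => ?_
    rw [Matrix.conjTranspose_apply, Mb_apply, Mb_apply, star_mul']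
    have h1 : star (Qb B c p y z) = Qb B c p z y := by
      rw [← Matrix.conjTranspose_apply, hs]
    rw [h1]
    calc Qb B c p x z * eph B (b z) p * (Qb B c p z y * star (eph B (b z) p))
        = Qb B c p x z * Qb B c p z y * (star (eph B (b z) p) * eph B (b z) p) := by ring
      _ = Qb B c p x z * Qb B c p z y := by rw [star_eph_mul, mul_one]
  · ext x y
    have h0 : ((Mb B c b p)ᴴ * Mb B c b p) x y =
        star (eph B (b x) p) * eph B (b y) p * Qb B c p x y := by
      conv_rhs => rw [← hm]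
      rw [Matrix.mul_apply, Matrix.mul_apply, Finset.mul_sum]
      refine Finset.sum_congr rfl fun z _ => ?_
      rw [Matrix.conjTranspose_apply, Mb_apply, Mb_apply, star_mul']
      have h1 : star (Qb B c p z x) = Qb B c p x z := by
        rw [← Matrix.conjTranspose_apply, hs]
      rw [h1]
      ring
    rw [h0]
    unfold Qb
    by_cases hx : (x : X) ∈ p.1.support
    · by_cases hy : (y : X) ∈ p.1.support
      · rw [← ph_cob hB h hx hy]
        ring
      · rw [p.sqrt_zero hy]; simp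
    · rw [p.sqrt_zero hx]; simp

/-- Even and odd sets of colours. -/
abbrev Ev (D : ℕ) : Type := {S : Finset (Fin D) // Even S.card}
abbrev Od (D : ℕ) : Type := {S : Finset (Fin D) // ¬ Even S.card}

end Vale.Agent.P212
end
end

section

section

/-! Approximate intertwiners of Bott projections. -/

set_option linter.unusedSectionVars false
set_option linter.unusedSimpArgs false

namespace Vale.Agent.P212

open Matrix ComplexStarModule
open scoped Matrix.Norms.L2Operator Kronecker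

section Itw

variable {α β : Type} [Fintype α] [DecidableEq α] [Fintype β] [DecidableEq β]

/-- `W` approximately intertwines `a` and `b`. -/
def Itw (C ε : ℝ) (W : Matrix β α ℂ) (a : Matrix β β ℂ) (b : Matrix α α ℂ) : Prop :=
  ‖a‖ ≤ C ∧ ‖b‖ ≤ C ∧ ‖a * W - W * b‖ ≤ ε

theorem norm_mul2_le {m n k : Type} [Fintype m] [Fintype n] [Fintype k]
    [DecidableEq n] [DecidableEq k] (a : Matrix m n ℂ) (b : Matrix n k ℂ) {A B : ℝ} (ha : ‖a‖ ≤ A) (hb : ‖b‖ ≤ B) :
    ‖a * b‖ ≤ A * B :=
  (l2_opNorm_mul a b).trans (mul_le_mul ha hb (norm_nonneg _) ((norm_nonneg _).trans ha))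

theorem Itw.mul {C C' ε ε' : ℝ} {W : Matrix β α ℂ} {a a' : Matrix β β ℂ} {b b' : Matrix α α ℂ}
    (h : Itw C ε W a b) (h' : Itw C' ε' W a' b') :
    Itw (C * C') (C * ε' + ε * C') W (a * a') (b * b') := by
  refine ⟨norm_mul2_le _ _ h.1 h'.1, norm_mul2_le _ _ h.2.1 h'.2.1, ?_⟩
  have e : a * a' * W - W * (b * b') = a * (a' * W - W * b') + (a * W - W * b) * b' := by
    simp only [Matrix.mul_sub, Matrix.sub_mul, Matrix.mul_assoc]
    abel
  rw [e]
  refine (norm_add_le _ _).trans (add_le_add ?_ ?_)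
  · exact norm_mul2_le _ _ h.1 h'.2.2
  · exact norm_mul2_le _ _ h.2.2 h'.2.1

theorem Itw.add {C C' ε ε' : ℝ} {W : Matrix β α ℂ} {a a' : Matrix β β ℂ} {b b' : Matrix α α ℂ}
    (h : Itw C ε W a b) (h' : Itw C' ε' W a' b') :
    Itw (C + C') (ε + ε') W (a + a') (b + b') := by
  refine ⟨(norm_add_le _ _).trans (add_le_add h.1 h'.1),
    (norm_add_le _ _).trans (add_le_add h.2.1 h'.2.1), ?_⟩
  have e : (a + a') * W - W * (b + b') = (a * W - W * b) + (a' * W - W * b') := by
    simp only [Matrix.mul_add, Matrix.add_mul]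
    abel
  rw [e]
  exact (norm_add_le _ _).trans (add_le_add h.2.2 h'.2.2)

theorem Itw.neg {C ε : ℝ} {W : Matrix β α ℂ} {a : Matrix β β ℂ} {b : Matrix α α ℂ}
    (h : Itw C ε W a b) : Itw C ε W (-a) (-b) := by
  refine ⟨by rw [norm_neg]; exact h.1, by rw [norm_neg]; exact h.2.1, ?_⟩
  have e : -a * W - W * -b = -(a * W - W * b) := by
    simp only [Matrix.neg_mul, Matrix.mul_neg]
    abel
  rw [e, norm_neg]
  exact h.2.2

theorem Itw.sub {C C' ε ε' : ℝ} {W : Matrix β α ℂ} {a a' : Matrix β β ℂ} {b b' : Matrix α α ℂ}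
    (h : Itw C ε W a b) (h' : Itw C' ε' W a' b') :
    Itw (C + C') (ε + ε') W (a - a') (b - b') := by
  rw [sub_eq_add_neg, sub_eq_add_neg]
  exact h.add h'.neg

theorem Itw.smul {C ε : ℝ} {W : Matrix β α ℂ} {a : Matrix β β ℂ} {b : Matrix α α ℂ} (c : ℂ)
    (h : Itw C ε W a b) : Itw (‖c‖ * C) (‖c‖ * ε) W (c • a) (c • b) := by
  refine ⟨?_, ?_, ?_⟩
  · rw [norm_smul]
    exact mul_le_mul_of_nonneg_left h.1 (norm_nonneg _)
  · rw [norm_smul]
    exact mul_le_mul_of_nonneg_left h.2.1 (norm_nonneg _)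
  · have e : c • a * W - W * c • b = c • (a * W - W * b) := by
      rw [Matrix.smul_mul, Matrix.mul_smul, smul_sub]
    rw [e, norm_smul]
    exact mul_le_mul_of_nonneg_left h.2.2 (norm_nonneg _)

theorem Itw.mono {C C' ε ε' : ℝ} {W : Matrix β α ℂ} {a : Matrix β β ℂ} {b : Matrix α α ℂ}
    (h : Itw C ε W a b) (hC : C ≤ C') (hε : ε ≤ ε') : Itw C' ε' W a b :=
  ⟨h.1.trans hC, h.2.1.trans hC, h.2.2.trans hε⟩

theorem Itw.one (W : Matrix β α ℂ) : Itw 1 0 W 1 1 := by
  refine ⟨norm_one_le', norm_one_le', ?_⟩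
  simp

theorem Itw.pow {ε : ℝ} {W : Matrix β α ℂ} {a : Matrix β β ℂ} {b : Matrix α α ℂ}
    (h : Itw 1 ε W a b) (k : ℕ) : Itw 1 (k * ε) W (a ^ k) (b ^ k) := by
  induction k with
  | zero => simpa using Itw.one W
  | succ k ih =>
    rw [pow_succ, pow_succ]
    refine (ih.mul h).mono (by norm_num) ?_
    push_cast
    linarith

theorem Itw.aeval (q : Polynomial ℂ) : ∃ C K : ℝ, 0 ≤ K ∧ ∀ (α β : Type) [Fintype α]
    [DecidableEq α] [Fintype β] [DecidableEq β] (ε : ℝ) (W : Matrix β α ℂ) (a : Matrix β β ℂ)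
    (b : Matrix α α ℂ), Itw 1 ε W a b → Itw C (K * ε) W (Polynomial.aeval a q)
      (Polynomial.aeval b q) := by
  induction q using Polynomial.induction_on' with
  | add p q hp hq =>
    obtain ⟨C, K, hK, hp⟩ := hp
    obtain ⟨C', K', hK', hq⟩ := hq
    refine ⟨C + C', K + K', add_nonneg hK hK', ?_⟩
    intro α β _ _ _ _ ε W a b h
    rw [map_add, map_add, add_mul]
    exact (hp α β ε W a b h).add (hq α β ε W a b h)
  | monomial k c =>
    refine ⟨‖c‖ * 1, ‖c‖ * k, by positivity, ?_⟩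
    intro α β _ _ _ _ ε W a b h
    rw [Polynomial.aeval_monomial, Polynomial.aeval_monomial, ← Algebra.smul_def,
      ← Algebra.smul_def]
    refine ((h.pow k).smul c).mono le_rfl ?_
    rw [mul_assoc]

theorem Itw.imag {ε : ℝ} {W : Matrix β α ℂ} {a : Matrix β β ℂ} {b : Matrix α α ℂ}
    (h : Itw 1 ε W a b) (h' : Itw 1 ε W (star a) (star b)) :
    Itw 1 ε W ((ℑ a : selfAdjoint _) : Matrix β β ℂ) ((ℑ b : selfAdjoint _) : Matrix α α ℂ) := by
  have e1 : ∀ (γ : Type) [Fintype γ] [DecidableEq γ] (x : Matrix γ γ ℂ),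
      ((ℑ x : selfAdjoint _) : Matrix γ γ ℂ) = (-Complex.I * (1 / 2)) • (x - star x) := by
    intro γ _ _ x
    rw [imaginaryPart_apply_coe, mul_smul]
    congr 1
    rw [← Complex.coe_smul]
    norm_num
  rw [e1, e1]
  refine ((h.sub h').smul _).mono ?_ ?_
  · rw [norm_mul, norm_neg, Complex.norm_I]
    norm_num
  · rw [norm_mul, norm_neg, Complex.norm_I]
    norm_num
    linarith

/-- Approximate intertwiners intertwine the negative parts. -/
theorem Itw.hneg {ε : ℝ} (hε : 0 < ε) : ∃ δ > 0, ∀ (α β : Type) [Fintype α]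
    [DecidableEq α] [Fintype β] [DecidableEq β] (W : Matrix β α ℂ) (a : Matrix β β ℂ)
    (b : Matrix α α ℂ), ‖W‖ ≤ 1 → Itw 1 δ W a b → Itw 1 δ W (star a) (star b) →
      Itw 1 ε W (P212.hneg a) (P212.hneg b) := by
  obtain ⟨q, -, hq⟩ := hneg_approx (ε := ε / 3) (by linarith)
  obtain ⟨C, K, hK, hCK⟩ := Itw.aeval (q.map (algebraMap ℝ ℂ))
  refine ⟨ε / 3 / (K + 1), by positivity, ?_⟩
  intro α β _ _ _ _ W a b hW h h'
  have h1 := hq (Matrix β β ℂ) a h.1
  have h2 := hq (Matrix α α ℂ) b h.2.1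
  have h3 := (hCK α β _ W _ _ (h.imag h')).2.2
  have h4 : K * (ε / 3 / (K + 1)) ≤ ε / 3 := by
    rw [mul_div_assoc', div_le_iff₀ (by linarith)]
    linarith only [hε]
  refine ⟨(norm_hneg_le a).trans h.1, (norm_hneg_le b).trans h.2.1, ?_⟩
  set A := Polynomial.aeval ((ℑ a : selfAdjoint _) : Matrix β β ℂ) (q.map (algebraMap ℝ ℂ))
  set B := Polynomial.aeval ((ℑ b : selfAdjoint _) : Matrix α α ℂ) (q.map (algebraMap ℝ ℂ))
  have e : P212.hneg a * W - W * P212.hneg b =
      (P212.hneg a - A) * W + (A * W - W * B) - W * (P212.hneg b - B) := by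
    simp only [Matrix.sub_mul, Matrix.mul_sub]
    abel
  rw [e]
  have h5 := norm_mul2_le _ _ h1 hW
  have h6 := norm_mul2_le _ _ hW h2
  have h7 := norm_sub_le ((P212.hneg a - A) * W + (A * W - W * B)) (W * (P212.hneg b - B))
  have h8 := norm_add_le ((P212.hneg a - A) * W) (A * W - W * B)
  linarith only [h8, h7, h6, h5, h3, h4]

/-- Approximate intertwiners of unitaries. -/
theorem Itw.adj {ε : ℝ} {W : Matrix β α ℂ} {a : Matrix β β ℂ} {b : Matrix α α ℂ}
    (h : Itw 1 ε W a b) (ha : star a * a = 1) (hb : b * star b = 1) :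
    Itw 1 ε W (star a) (star b) := by
  refine ⟨by rw [norm_star]; exact h.1, by rw [norm_star]; exact h.2.1, ?_⟩
  have e : star a * W - W * star b = -(star a * (a * W - W * b) * star b) := by
    have e1 : star a * (a * W - W * b) * star b =
        (star a * a) * W * star b - star a * W * (b * star b) := by
      simp only [Matrix.mul_sub, Matrix.sub_mul, Matrix.mul_assoc]
    rw [e1, ha, hb, Matrix.one_mul, Matrix.mul_one]
    abel
  rw [e, norm_neg]
  have h1 : ‖star a‖ ≤ 1 := by rw [norm_star]; exact h.1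
  have h2 : ‖star b‖ ≤ 1 := by rw [norm_star]; exact h.2.1
  have h3 := norm_mul2_le _ _ (norm_mul2_le _ _ h1 h.2.2) h2
  linarith

/-- Approximate intertwiners of pairs of unitaries intertwine the Bott projections. -/
theorem Itw.bottE {ε : ℝ} (hε : 0 < ε) : ∃ δ > 0, ∀ (α β : Type) [Fintype α]
    [DecidableEq α] [Fintype β] [DecidableEq β] (W : Matrix β α ℂ) (a a' : Matrix β β ℂ)
    (b b' : Matrix α α ℂ), ‖W‖ ≤ 1 → Itw 1 δ W a b → Itw 1 δ W a' b' →
      star a * a = 1 → b * star b = 1 → star a' * a' = 1 → b' * star b' = 1 →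
      ∀ i j, Itw 20 ε W (P212.bottE a a' i j) (P212.bottE b b' i j) := by
  obtain ⟨δ₁, hδ₁, h₁⟩ := Itw.hneg (ε := ε / 100) (by linarith)
  refine ⟨min δ₁ (ε / 100), lt_min hδ₁ (by linarith), ?_⟩
  intro α β _ _ _ _ W a a' b b' hW ha ha' ua ub ua' ub'
  have as := ha.adj ua ub
  have as' := ha'.adj ua' ub'
  have hh := h₁ α β W a b hW (ha.mono le_rfl (min_le_left _ _))
    (as.mono le_rfl (min_le_left _ _))
  have hu := ha.mono le_rfl (min_le_right _ _)
  have hus := as.mono le_rfl (min_le_right _ _)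
  have hv := ha'.mono le_rfl (min_le_right _ _)
  have hvs := as'.mono le_rfl (min_le_right _ _)
  have h1 := Itw.one W
  have hq : ∀ (γ : Type) [Fintype γ] [DecidableEq γ] (x : Matrix γ γ ℂ),
      algebraMap ℂ (Matrix γ γ ℂ) (1 / 4) * x = (1 / 4 : ℂ) • x := by
    intro γ _ _ x
    rw [← Algebra.smul_def]
  have hw : Itw 2 (ε / 100) W (a' - 1) (b' - 1) := (hv.sub h1).mono (by norm_num) (by linarith)
  have hws : Itw 2 (ε / 100) W (star (a' - 1)) (star (b' - 1)) := by
    rw [star_sub, star_sub, star_one, star_one]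
    exact (hvs.sub h1).mono (by norm_num) (by linarith)
  have h22 : Itw 1 (2 * (ε / 100)) W (P212.hneg a * P212.hneg a) (P212.hneg b * P212.hneg b) :=
    (hh.mul hh).mono (by norm_num) (by linarith)
  have hy : Itw 1 (ε / 100) W ((1 / 2 : ℂ) • (a + star a)) ((1 / 2 : ℂ) • (b + star b)) := by
    refine ((hu.add hus).smul (1 / 2)).mono ?_ ?_
    · norm_num
    · norm_num
      linarith
  have hyp : Itw 2 (ε / 100) W (1 + (1 / 2 : ℂ) • (a + star a)) (1 + (1 / 2 : ℂ) • (b + star b)) :=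
    (h1.add hy).mono (by norm_num) (by linarith)
  have hym : Itw 2 (ε / 100) W (1 - (1 / 2 : ℂ) • (a + star a)) (1 - (1 / 2 : ℂ) • (b + star b)) :=
    (h1.sub hy).mono (by norm_num) (by linarith)
  have h4 : ‖(1 / 4 : ℂ)‖ = 1 / 4 := by norm_num
  unfold P212.bottE
  rw [bott_eq a a' _ (star_hneg a), bott_eq b b' _ (star_hneg b)]
  intro i j
  fin_cases i <;> fin_cases j
  · simp only [Matrix.of_apply, Matrix.cons_val', Matrix.cons_val_zero,
      Matrix.cons_val_one, Matrix.cons_val_fin_one, Fin.zero_eta, Fin.mk_one, Fin.isValue, hq]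
    refine ((h1.add ((h22.smul _).mul hw)).add (hws.mul (h22.smul _))).mono ?_ ?_
    · rw [h4]; norm_num
    · rw [h4]; linarith only [hε]
  · simp only [Matrix.of_apply, Matrix.cons_val', Matrix.cons_val_zero,
      Matrix.cons_val_one, Matrix.cons_val_fin_one, Fin.zero_eta, Fin.mk_one, Fin.isValue, hq]
    refine ((((hh.mul hyp).smul _).mul hw).add (hws.mul (((hym.mul hh).neg).smul _))).mono ?_ ?_
    · rw [h4]; norm_num
    · rw [h4]; linarith
  · simp only [Matrix.of_apply, Matrix.cons_val', Matrix.cons_val_zero,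
      Matrix.cons_val_one, Matrix.cons_val_fin_one, Fin.zero_eta, Fin.mk_one, Fin.isValue, hq]
    refine (((((hh.mul hym).neg).smul _).mul hw).add (hws.mul ((hyp.mul hh).smul _))).mono ?_ ?_
    · rw [h4]; norm_num
    · rw [h4]; linarith only [hε]
  · simp only [Matrix.of_apply, Matrix.cons_val', Matrix.cons_val_zero,
      Matrix.cons_val_one, Matrix.cons_val_fin_one, Fin.zero_eta, Fin.mk_one, Fin.isValue, hq]
    refine (((h22.neg.smul _).mul hw).add (hws.mul (h22.neg.smul _))).mono ?_ ?_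
    · rw [h4]; norm_num
    · rw [h4]; linarith only [hε]

end Itw

section Vec

variable {α κ B : Type} [Fintype α] [DecidableEq α] [Fintype κ] [DecidableEq κ] [Fintype B]
  [DecidableEq B]

/-- A family of vectors placed at the points `s a`. -/
def vecM (s : α → α) (η : α → B → ℂ) : Matrix (α × B) α ℂ :=
  fun p a => if p.1 = s a then η a p.2 else 0

theorem vecM_adj_mul (s : α → α) (hs : Function.Injective s) (η η' : α → B → ℂ) :
    (vecM s η)ᴴ * vecM s η' = diagonal fun a => ∑ b, star (η a b) * η' a b := by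
  ext a a'
  rw [mul_apply, diagonal_apply, Fintype.sum_prod_type]
  by_cases h : a = a'
  · subst h
    rw [if_pos rfl, Finset.sum_eq_single (s a)]
    · simp [vecM]
    · intro c _ hc
      simp [vecM, hc]
    · simp
  · rw [if_neg h]
    refine Finset.sum_eq_zero fun c _ => Finset.sum_eq_zero fun b _ => ?_
    by_cases h1 : c = s a
    · have h2 : c ≠ s a' := fun h2 => h (hs (h1.symm.trans h2))
      simp [vecM, h2]
    · simp [vecM, h1]

theorem norm_vecM_le (s : α → α) (hs : Function.Injective s) (η : α → B → ℂ) {ε : ℝ}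
    (hε : 0 ≤ ε) (h : ∀ a, ∑ b, ‖η a b‖ ^ 2 ≤ ε ^ 2) : ‖vecM s η‖ ≤ ε := by
  have h1 := norm_sq_eq (vecM s η)
  rw [vecM_adj_mul s hs, l2_opNorm_diagonal] at h1
  have h2 : ‖fun a => ∑ b, star (η a b) * η a b‖ ≤ ε ^ 2 := by
    rw [pi_norm_le_iff_of_nonneg (by positivity)]
    intro a
    refine (norm_sum_le _ _).trans (le_trans (le_of_eq ?_) (h a))
    refine Finset.sum_congr rfl fun b _ => ?_
    rw [norm_mul, norm_star, sq]
  rw [← h1] at h2
  exact le_of_sq_le_sq h2 hε

end Vec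

end Vale.Agent.P212
end
end

section

section

/-! Twisting the Bott projection of two permutations by a line bundle which is almost
equivariant. -/

set_option linter.unusedSectionVars false
set_option linter.unusedSimpArgs false

namespace Vale.Agent.P212

open Matrix
open scoped Matrix.Norms.L2Operator Kronecker

section Vec

variable {α κ B : Type} [Fintype α] [DecidableEq α] [Fintype κ] [DecidableEq κ] [Fintype B]
  [DecidableEq B]

theorem mul_vecM {γ : Type} (A : Matrix γ (α × B) ℂ) (s : α → α) (η : α → B → ℂ) (x : γ) (a : α) :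
    (A * vecM s η) x a = ∑ b, A x (s a, b) * η a b := by
  rw [mul_apply, Fintype.sum_prod_type, Finset.sum_eq_single (s a)]
  · simp [vecM]
  · intro c _ hc
    simp [vecM, hc]
  · simp

theorem vecM_mul (F : Matrix α α ℂ) (η : α → B → ℂ) (p : α × B) (a : α) :
    (vecM id η * F) p a = η p.1 p.2 * F p.1 a := by
  rw [mul_apply, Finset.sum_eq_single p.1]
  · simp [vecM]
  · intro c _ hc
    simp [vecM, hc.symm]
  · simp

theorem amp_mul_vecM (E : Matrix α α ℂ) (s : α → α) (η : α → B → ℂ) (p : α × B) (a : α) :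
    (amp B E * vecM s η) p a = E p.1 (s a) * η a p.2 := by
  rw [mul_vecM, Finset.sum_eq_single p.2]
  · simp [kroneckerMap_apply]
  · intro c _ hc
    simp [kroneckerMap_apply, Matrix.one_apply, hc.symm]
  · simp

/-- The amplification commutes with vector families up to the blocks. -/
theorem norm_amp_flat_le (E F : Matrix κ κ (Matrix α α ℂ)) (ξ : α → B → ℂ) :
    ‖amp B (flat E) * vecM id (fun a : α × κ => ξ a.1) -
        vecM id (fun a : α × κ => ξ a.1) * flat F‖ ≤
      ∑ k, ∑ k', ‖amp B (E k k') * vecM id ξ - vecM id ξ * F k k'‖ := by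
  have hf : ∀ k : κ, Function.Injective (fun p : α × B => (((p.1, k), p.2) : (α × κ) × B)) := by
    rintro k ⟨a, b⟩ ⟨a', b'⟩ h
    simp only [Prod.mk.injEq, and_true] at h
    exact Prod.ext h.1 h.2
  have hg : ∀ k : κ, Function.Injective (fun p : α => ((p, k) : α × κ)) := by
    intro k a a' h
    simp only [Prod.mk.injEq, and_true] at h
    exact h
  have e : amp B (flat E) * vecM id (fun a : α × κ => ξ a.1) -
        vecM id (fun a : α × κ => ξ a.1) * flat F =
      ∑ k, ∑ k', ((1 : Matrix ((α × κ) × B) ((α × κ) × B) ℂ).submatrix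
        (fun p : α × B => (((p.1, k), p.2) : (α × κ) × B)) id)ᴴ *
          (amp B (E k k') * vecM id ξ - vecM id ξ * F k k') *
        (1 : Matrix (α × κ) (α × κ) ℂ).submatrix (fun p : α => ((p, k') : α × κ)) id := by
    ext x y
    obtain ⟨⟨a, l⟩, b⟩ := x
    obtain ⟨a', l'⟩ := y
    rw [Matrix.sub_apply, amp_mul_vecM, vecM_mul, Matrix.sum_apply, Finset.sum_eq_single l]
    · rw [Matrix.sum_apply, Finset.sum_eq_single l']
      · rw [Matrix.mul_apply, Finset.sum_eq_single a']
        · rw [Matrix.mul_apply, Finset.sum_eq_single (a, b)]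
          · rw [Matrix.sub_apply, amp_mul_vecM, vecM_mul]
            simp [flat, Matrix.one_apply]
          · rintro ⟨c, b'⟩ _ hc
            have : ((a, l), b) ≠ ((c, l), b') := by
              intro h
              simp only [Prod.mk.injEq, and_true] at h
              exact hc (Prod.ext h.1.symm h.2.symm)
            simp [Matrix.one_apply, this, this.symm]
          · simp
        · intro c _ hc
          simp [Matrix.one_apply, hc]
        · simp
      · intro k' _ hk'
        rw [Matrix.mul_apply]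
        refine Finset.sum_eq_zero fun c _ => ?_
        simp [Matrix.one_apply, hk']
      · simp
    · intro k _ hk
      rw [Matrix.sum_apply]
      refine Finset.sum_eq_zero fun k' _ => ?_
      rw [Matrix.mul_apply]
      refine Finset.sum_eq_zero fun c _ => ?_
      rw [Matrix.mul_apply]
      have : ∑ x : α × B, ((1 : Matrix ((α × κ) × B) ((α × κ) × B) ℂ).submatrix
        (fun p : α × B => (((p.1, k), p.2) : (α × κ) × B)) id)ᴴ ((a, l), b) x *
          (amp B (E k k') * vecM id ξ - vecM id ξ * F k k') x c = 0 := by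
        refine Finset.sum_eq_zero fun x _ => ?_
        simp [Matrix.one_apply, hk]
      rw [this, zero_mul]
    · simp
  rw [e]
  refine (norm_sum_le _ _).trans (Finset.sum_le_sum fun k _ => ?_)
  refine (norm_sum_le _ _).trans (Finset.sum_le_sum fun k' _ => ?_)
  exact norm_pad_le _ _ _ (hf k) (hg k')

/-- Permutation matrices with phases. -/
def pp (s : α → α) (ω : α → ℂ) : Matrix α α ℂ := fun a a' => if a = s a' then ω a' else 0

theorem pp_star_mul (s : α → α) (hs : Function.Injective s) (ω : α → ℂ)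
    (hω : ∀ a, star (ω a) * ω a = 1) : star (pp s ω) * pp s ω = 1 := by
  ext a a'
  rw [star_eq_conjTranspose, mul_apply, one_apply, Finset.sum_eq_single (s a)]
  · by_cases h : a = a'
    · subst h
      simp only [pp, conjTranspose_apply, if_true]
      exact hω a
    · have h2 : s a ≠ s a' := fun h2 => h (hs h2)
      simp [pp, h, h2]
  · intro c _ hc
    simp [pp, hc]
  · simp

theorem pp_mul_star (s : α → α) (hs : Function.Injective s) (ω : α → ℂ)
    (hω : ∀ a, star (ω a) * ω a = 1) : pp s ω * star (pp s ω) = 1 :=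
  mul_eq_one_comm.1 (pp_star_mul s hs ω hω)

theorem norm_pp_le (s : α → α) (hs : Function.Injective s) (ω : α → ℂ)
    (hω : ∀ a, star (ω a) * ω a = 1) : ‖pp s ω‖ ≤ 1 := by
  apply norm_le_one_of_proj_left
  have := pp_star_mul s hs ω hω
  rw [star_eq_conjTranspose] at this
  rw [this, one_mul]

/-- The amplification as a unital star homomorphism. -/
noncomputable def ampS (α B : Type) [Fintype α] [DecidableEq α] [Fintype B] [DecidableEq B] :
    Matrix α α ℂ →⋆ₐ[ℂ] Matrix (α × B) (α × B) ℂ where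
  toFun x := amp B x
  map_one' := by simp
  map_zero' := by simp
  map_add' x y := by simp [add_kronecker]
  map_mul' x y := by
    change (x * y) ⊗ₖ (1 : Matrix B B ℂ) = (x ⊗ₖ (1 : Matrix B B ℂ)) * (y ⊗ₖ (1 : Matrix B B ℂ))
    rw [← mul_kronecker_mul, one_mul]
  commutes' c := by
    rw [Algebra.algebraMap_eq_smul_one, Algebra.algebraMap_eq_smul_one]
    simp [smul_kronecker]
  map_star' x := by
    simp only [star_eq_conjTranspose, conjTranspose_kronecker, conjTranspose_one]

theorem itw_pp {δ : ℝ} (hδ : 0 ≤ δ) (ξ : α → B → ℂ) (s : α → α) (hs : Function.Injective s)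
    (ω : α → ℂ) (hω : ∀ a, star (ω a) * ω a = 1)
    (h : ∀ a, ∑ b, ‖ξ a b - ω a * ξ (s a) b‖ ^ 2 ≤ δ ^ 2) :
    Itw 1 δ (vecM id ξ) (amp B (pp s (fun _ => 1))) (pp s ω) := by
  refine ⟨(norm_kron_one_le _).trans (norm_pp_le s hs _ (by simp)), norm_pp_le s hs ω hω, ?_⟩
  have e : amp B (pp s (fun _ => 1)) * vecM id ξ - vecM id ξ * pp s ω =
      vecM s (fun a b => ξ a b - ω a * ξ (s a) b) := by
    ext ⟨a, b⟩ a'
    rw [Matrix.sub_apply, amp_mul_vecM, vecM_mul]
    by_cases h1 : a = s a'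
    · simp only [pp, id, vecM, h1, if_true]
      ring
    · simp [pp, vecM, h1]
  rw [e]
  exact norm_vecM_le s hs _ hδ h

/-- The rank of the Bott projection of two permutations twisted by an almost equivariant
line bundle. -/
theorem rk_tw_vec (ε' : ℝ) (hε' : 0 < ε') : ∃ ε > 0, ∃ δ > 0, ∀ (α B : Type) [Fintype α]
    [DecidableEq α] [Fintype B] [DecidableEq B] (ξ : α → B → ℂ) (s s' : α → α)
    (ω ω' : α → ℂ) (Q : α × Fin 2 → Matrix B B ℂ),
    (∀ a, ∑ b, star (ξ a b) * ξ a b = 1) → (∀ a, Q a = fun b b' => ξ a.1 b * star (ξ a.1 b')) →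
    Function.Injective s → Function.Injective s' →
    (∀ a, star (ω a) * ω a = 1) → (∀ a, star (ω' a) * ω' a = 1) →
    (∀ a, ∑ b, ‖ξ a b - ω a * ξ (s a) b‖ ^ 2 ≤ δ ^ 2) →
    (∀ a, ∑ b, ‖ξ a b - ω' a * ξ (s' a) b‖ ^ 2 ≤ δ ^ 2) →
    NearId (flat (bottE (pp s ω) (pp s' ω'))) ε →
    NearId (tw Q (flat (bottE (pp s (fun _ => 1)) (pp s' (fun _ => 1))))) ε' ∧
      rk (tw Q (flat (bottE (pp s (fun _ => 1)) (pp s' (fun _ => 1))))) =
        rk (flat (bottE (pp s ω) (pp s' ω'))) := by
  set ε₁ := min ε' (1 / 4) / 2 with hε₁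
  have hε₁0 : 0 < ε₁ := by
    rw [hε₁]
    have : 0 < min ε' (1 / 4) := lt_min hε' (by norm_num)
    linarith
  have hε₁1 : 2 * ε₁ ≤ ε' := by
    have := min_le_left ε' (1 / 4)
    rw [hε₁]
    linarith
  have hε₁2 : 2 * ε₁ ≤ 1 / 4 := by
    have := min_le_right ε' (1 / 4)
    rw [hε₁]
    linarith
  obtain ⟨δ, hδ, H⟩ := Itw.bottE (ε := ε₁ / 4) (by linarith)
  refine ⟨ε₁, hε₁0, δ, hδ, ?_⟩
  intro α B _ _ _ _ ξ s s' ω ω' Q hξ hQ hs hs' hω hω' h h' ⟨z, hz, hzF⟩
  set E := bottE (pp s (fun _ => 1)) (pp s' (fun _ => 1)) with hE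
  set F := bottE (pp s ω) (pp s' ω') with hF
  set W := vecM id ξ with hW
  set V := vecM id (fun a : α × Fin 2 => ξ a.1) with hV
  have h1 : ∀ a : α, star (1 : ℂ) * 1 = 1 := fun _ => by simp
  have hWW : ‖W‖ ≤ 1 := by
    apply norm_le_one_of_proj_left
    rw [hW, vecM_adj_mul id Function.injective_id]
    simp only [hξ]
    rw [diagonal_one, one_mul]
  have hVV : Vᴴ * V = 1 := by
    rw [hV, vecM_adj_mul id Function.injective_id]
    simp only [hξ]
    rw [diagonal_one]
  have hVn : ‖V‖ ≤ 1 := by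
    apply norm_le_one_of_proj_left
    rw [hVV, one_mul]
  have hVn' : ‖Vᴴ‖ ≤ 1 := by rw [l2_opNorm_conjTranspose]; exact hVn
  have hdia : dia Q = V * Vᴴ := by
    ext ⟨a, b⟩ ⟨a', b'⟩
    rw [Matrix.mul_apply, Finset.sum_eq_single a]
    · rw [conjTranspose_apply]
      by_cases haa : a = a'
      · subst haa
        simp [dia, hV, vecM, hQ]
      · have : a' ≠ a := fun h => haa h.symm
        simp [dia, hV, vecM, haa, this]
    · intro c _ hc
      simp [hV, vecM, hc.symm]
    · simp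
  have hampu : ∀ x : Matrix α α ℂ, star x * x = 1 → star (amp B x) * amp B x = 1 := by
    intro x hx
    have := congrArg (ampS α B) hx
    rw [map_mul, map_star, map_one] at this
    exact this
  have hent := H α (α × B) W (amp B (pp s (fun _ => 1))) (amp B (pp s' (fun _ => 1)))
    (pp s ω) (pp s' ω') hWW (itw_pp hδ.le ξ s hs ω hω h) (itw_pp hδ.le ξ s' hs' ω' hω' h')
    (hampu _ (pp_star_mul s hs _ h1)) (pp_mul_star s hs ω hω)
    (hampu _ (pp_star_mul s' hs' _ h1)) (pp_mul_star s' hs' ω' hω')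
  have hEE : ∀ k k', amp B (E k k') =
      bottE (amp B (pp s (fun _ => 1))) (amp B (pp s' (fun _ => 1))) k k' := by
    intro k k'
    have := map_bottE (ampS α B) (pp s (fun _ => 1)) (pp s' (fun _ => 1))
    have h2 := congrFun (congrFun this k) k'
    exact h2
  have hbd : ‖amp B (flat E) * V - V * flat F‖ ≤ ε₁ := by
    refine (norm_amp_flat_le E F ξ).trans ?_
    have : ∀ k k', ‖amp B (E k k') * vecM id ξ - vecM id ξ * F k k'‖ ≤ ε₁ / 4 := by
      intro k k'
      rw [hEE]
      exact (hent k k').2.2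
    calc ∑ k : Fin 2, ∑ k' : Fin 2, ‖amp B (E k k') * vecM id ξ - vecM id ξ * F k k'‖
        ≤ ∑ k : Fin 2, ∑ k' : Fin 2, ε₁ / 4 :=
          Finset.sum_le_sum fun k _ => Finset.sum_le_sum fun k' _ => this k k'
      _ = ε₁ := by simp; ring
  set y := tw Q (flat E) with hy
  have hy1 : y = V * (Vᴴ * (amp B (flat E) * V)) * Vᴴ := by
    rw [hy, tw, hdia]
    simp only [Matrix.mul_assoc]
  have hid : (V * z * Vᴴ) * (V * z * Vᴴ) = V * z * Vᴴ := by
    calc (V * z * Vᴴ) * (V * z * Vᴴ) = V * (z * (Vᴴ * V) * z) * Vᴴ := by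
          simp only [Matrix.mul_assoc]
      _ = V * z * Vᴴ := by rw [hVV, Matrix.mul_one, hz]
  have hclose : ‖V * z * Vᴴ - y‖ < 2 * ε₁ := by
    have e1 : V * z * Vᴴ - y = V * (z - flat F) * Vᴴ -
        V * (Vᴴ * (amp B (flat E) * V - V * flat F)) * Vᴴ := by
      rw [hy1]
      have e2 : V * (Vᴴ * (amp B (flat E) * V - V * flat F)) * Vᴴ =
          V * (Vᴴ * (amp B (flat E) * V)) * Vᴴ - V * ((Vᴴ * V) * flat F) * Vᴴ := by
        simp only [Matrix.mul_sub, Matrix.sub_mul, Matrix.mul_assoc]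
      rw [e2, hVV, Matrix.one_mul, Matrix.mul_sub, Matrix.sub_mul]
      abel
    rw [e1]
    have n1 : ‖V * (z - flat F) * Vᴴ‖ ≤ 1 * ‖z - flat F‖ * 1 :=
      norm_mul2_le _ _ (norm_mul2_le _ _ hVn le_rfl) hVn'
    have n2 : ‖V * (Vᴴ * (amp B (flat E) * V - V * flat F)) * Vᴴ‖ ≤ 1 * (1 * ε₁) * 1 :=
      norm_mul2_le _ _ (norm_mul2_le _ _ hVn (norm_mul2_le _ _ hVn' hbd)) hVn'
    have n3 := norm_sub_le (V * (z - flat F) * Vᴴ)
      (V * (Vᴴ * (amp B (flat E) * V - V * flat F)) * Vᴴ)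
    linarith only [n3, n2, n1, hzF]
  refine ⟨⟨_, hid, hclose.trans_le hε₁1⟩, ?_⟩
  rw [rk_eq hid (hclose.trans_le hε₁2), rk_eq hz (by linarith only [hzF, hε₁2, hε₁0] : ‖z - flat F‖ < 1 / 4)]
  apply le_antisymm
  · exact (rank_mul_le_left _ _).trans (rank_mul_le_right _ _)
  · have e3 : z = Vᴴ * (V * z * Vᴴ) * V := by
      calc z = (Vᴴ * V) * z * (Vᴴ * V) := by rw [hVV, Matrix.one_mul, Matrix.mul_one]
        _ = Vᴴ * (V * z * Vᴴ) * V := by simp only [Matrix.mul_assoc]
    conv_lhs => rw [e3]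
    exact (rank_mul_le_left _ _).trans (rank_mul_le_right _ _)

end Vec

end Vale.Agent.P212
end
end

section

section

/-! Splitting an idempotent along a cut where it is scalar. -/

namespace Vale.Agent.P212

open Matrix
open scoped Matrix.Norms.L2Operator

/-- A bump function: one on `[1/4, 3/4]`, zero outside `[1/8, 7/8]`. -/
noncomputable def kap0 (t : ℝ) : ℝ := max 0 (min 1 (min (8 * t - 1) (7 - 8 * t)))

/-- A ramp: zero below `1/16`, one above `1/8`. -/
noncomputable def kap1 (t : ℝ) : ℝ := max 0 (min 1 (16 * t - 1))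

/-- The part of `1 - kap0` below `1/2`. -/
noncomputable def kapm (t : ℝ) : ℝ := min 1 (max 0 (2 - 8 * t))

/-- The part of `1 - kap0` above `1/2`. -/
noncomputable def kapp (t : ℝ) : ℝ := min 1 (max 0 (8 * t - 6))

theorem kap1_continuous : Continuous kap1 := by
  unfold kap1
  fun_prop

theorem kapm_continuous : Continuous kapm := by
  unfold kapm
  fun_prop

theorem kapp_continuous : Continuous kapp := by
  unfold kapp
  fun_prop

theorem kap_add (t : ℝ) : kap0 t + kapm t + kapp t = 1 := by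
  unfold kap0 kapm kapp
  rcases le_total t (1 / 8) with h | h
  · rw [max_eq_left (le_trans (min_le_right _ _) (le_trans (min_le_left _ _) (by linarith))),
      min_eq_left (le_trans (by linarith) (le_max_right _ _)),
      max_eq_left (by linarith : 8 * t - 6 ≤ 0), min_eq_right (by norm_num)]
    norm_num
  · rcases le_total t (1 / 4) with h1 | h1
    · rw [min_eq_left (by linarith : 8 * t - 1 ≤ 7 - 8 * t), min_eq_right (by linarith),
        max_eq_right (by linarith : (0 : ℝ) ≤ 8 * t - 1),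
        max_eq_right (by linarith : (0 : ℝ) ≤ 2 - 8 * t), min_eq_right (by linarith),
        max_eq_left (by linarith : 8 * t - 6 ≤ 0), min_eq_right (by norm_num)]
      ring
    · rw [max_eq_left (by linarith : 2 - 8 * t ≤ 0), min_eq_right (by norm_num : (0 : ℝ) ≤ 1)]
      rcases le_total t (3 / 4) with h2 | h2
      · rw [min_eq_left (le_min (by linarith) (by linarith)), max_eq_right (by norm_num),
          max_eq_left (by linarith : 8 * t - 6 ≤ 0), min_eq_right (by norm_num)]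
        norm_num
      · rcases le_total t (7 / 8) with h3 | h3
        · rw [min_eq_right (by linarith : 7 - 8 * t ≤ 8 * t - 1), min_eq_right (by linarith),
            max_eq_right (by linarith only [h3] : (0 : ℝ) ≤ 7 - 8 * t),
            max_eq_right (by linarith : (0 : ℝ) ≤ 8 * t - 6), min_eq_right (by linarith)]
          ring
        · rw [max_eq_left (le_trans (min_le_right _ _)
            (le_trans (min_le_right _ _) (by linarith))),
            min_eq_left (le_trans (by linarith) (le_max_right _ _))]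
          norm_num

theorem kapm_eq_zero {t : ℝ} (h : 1 / 4 ≤ t) : kapm t = 0 := by
  unfold kapm
  rw [max_eq_left (by linarith : 2 - 8 * t ≤ 0), min_eq_right (by norm_num)]

theorem kapp_eq_zero {t : ℝ} (h : t ≤ 3 / 4) : kapp t = 0 := by
  unfold kapp
  rw [max_eq_left (by linarith : 8 * t - 6 ≤ 0), min_eq_right (by norm_num)]

theorem kap1_eq_one {t : ℝ} (h : 1 / 8 ≤ t) : kap1 t = 1 := by
  unfold kap1
  rw [min_eq_left (by linarith : (1 : ℝ) ≤ 16 * t - 1), max_eq_right (by norm_num)]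

theorem kap_eq_zero {t : ℝ} (h : t ≤ 1 / 8) : kap0 t = 0 := by
  unfold kap0
  rw [max_eq_left (le_trans (min_le_right _ _) (le_trans (min_le_left _ _) (by linarith)))]

theorem kap1_mul_kap (t : ℝ) : kap1 t * kap0 t = kap0 t := by
  rcases le_total t (1 / 8) with h | h
  · rw [kap_eq_zero h, mul_zero]
  · rw [kap1_eq_one h, one_mul]

theorem kap_nonneg (t : ℝ) : 0 ≤ kap0 t := le_max_left _ _

theorem kap_le_one (t : ℝ) : kap0 t ≤ 1 := max_le zero_le_one (min_le_left _ _)

variable {α : Type} [Fintype α] [DecidableEq α]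

/-- Multiplication by a real function. -/
noncomputable def dgr (μ : α → ℝ) (φ : ℝ → ℝ) : Matrix α α ℂ :=
  diagonal (fun a => (φ (μ a) : ℂ))

/-- The decomposition of the index set at `μ = 1/2`. -/
noncomputable def spl (μ : α → ℝ) : {a // 1 / 2 < μ a} ⊕ {a // ¬ 1 / 2 < μ a} ≃ α :=
  open Classical in Equiv.sumCompl _

theorem norm_dgr_kap_le (μ : α → ℝ) : ‖dgr μ kap0‖ ≤ 1 := by
  unfold dgr
  rw [l2_opNorm_diagonal]
  refine (pi_norm_le_iff_of_nonneg zero_le_one).2 fun a => ?_
  rw [Complex.norm_real, Real.norm_eq_abs, abs_of_nonneg (kap_nonneg _)]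
  exact kap_le_one _

/-- If `z` is close to `e` where `μ > 1/16`, if `e` agrees with the block diagonal matrix `f`
where `0 < μ < 1`, and `z` almost commutes with functions of `μ`, then `z` is almost block
diagonal. -/
theorem split_offdiag (z e f : Matrix α α ℂ) (μ : α → ℝ) (δ : ℝ)
    (h1 : ‖(z - e) * dgr μ kap1‖ ≤ δ)
    (h2 : e * dgr μ kap0 = f * dgr μ kap0)
    (h3 : ∀ a b, μ a ≠ μ b → f a b = 0)
    (h4 : ‖z * dgr μ kapm - dgr μ kapm * z‖ ≤ δ)
    (h5 : ‖z * dgr μ kapp - dgr μ kapp * z‖ ≤ δ) :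
    ‖(z.submatrix (spl μ) (spl μ)).toBlocks₁₂‖ ≤ 2 * δ ∧
    ‖(z.submatrix (spl μ) (spl μ)).toBlocks₂₁‖ ≤ 2 * δ ∧
    ‖(z.submatrix (spl μ) (spl μ)).toBlocks₁₁ - (e.submatrix (spl μ) (spl μ)).toBlocks₁₁‖ ≤ δ := by
  have hk : ‖(z - e) * dgr μ kap1 * dgr μ kap0‖ ≤ δ := by
    calc _ ≤ ‖(z - e) * dgr μ kap1‖ * ‖dgr μ kap0‖ := l2_opNorm_mul _ _
      _ ≤ δ * 1 := mul_le_mul h1 (norm_dgr_kap_le μ) (norm_nonneg _) ((norm_nonneg _).trans h1)
      _ = δ := mul_one _
  have hek : ∀ a b, μ a ≠ μ b → e a b * (kap0 (μ b) : ℂ) = 0 := by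
    intro a b hab
    have := congrFun (congrFun h2 a) b
    simp only [dgr, mul_diagonal] at this
    rw [this, h3 a b hab, zero_mul]
  have hS1 : Function.Injective (fun a : {a // 1 / 2 < μ a} => a.1) := Subtype.val_injective
  have hS2 : Function.Injective (fun a : {a // ¬ 1 / 2 < μ a} => a.1) := Subtype.val_injective
  refine ⟨?_, ?_, ?_⟩
  · have e1 : (z.submatrix (spl μ) (spl μ)).toBlocks₁₂ =
        ((z - e) * dgr μ kap1 * dgr μ kap0 + (z * dgr μ kapm - dgr μ kapm * z)).submatrix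
          (fun a : {a // 1 / 2 < μ a} => a.1) (fun a : {a // ¬ 1 / 2 < μ a} => a.1) := by
      ext ⟨a, ha⟩ ⟨b, hb⟩
      have hb' : μ b ≤ 1 / 2 := not_lt.1 hb
      have hne : μ a ≠ μ b := fun h => hb (h ▸ ha)
      have h0 := hek a b hne
      have hk1 : (kap1 (μ b) : ℂ) * (kap0 (μ b) : ℂ) = (kap0 (μ b) : ℂ) := by
        exact_mod_cast kap1_mul_kap (μ b)
      have hs : (kap0 (μ b) : ℂ) + (kapm (μ b) : ℂ) = 1 := by
        have := kap_add (μ b)
        rw [kapp_eq_zero (by linarith only [hb'] : μ b ≤ 3 / 4), add_zero] at this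
        exact_mod_cast this
      have hm : kapm (μ a) = 0 := kapm_eq_zero (by linarith)
      simp only [toBlocks₁₂, of_apply, submatrix_apply, spl, Equiv.sumCompl_apply_inl,
        Equiv.sumCompl_apply_inr, Matrix.add_apply, Matrix.sub_apply, dgr, mul_diagonal,
        diagonal_mul, hm, Complex.ofReal_zero, zero_mul, sub_zero]
      linear_combination (-(z a b)) * hs + h0 - (z a b - e a b) * hk1
    rw [e1]
    refine (norm_submatrix_le _ _ _ hS1 hS2).trans ((norm_add_le _ _).trans ?_)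
    linarith
  · have e1 : (z.submatrix (spl μ) (spl μ)).toBlocks₂₁ =
        ((z - e) * dgr μ kap1 * dgr μ kap0 + (z * dgr μ kapp - dgr μ kapp * z)).submatrix
          (fun a : {a // ¬ 1 / 2 < μ a} => a.1) (fun a : {a // 1 / 2 < μ a} => a.1) := by
      ext ⟨a, ha⟩ ⟨b, hb⟩
      have ha' : μ a ≤ 1 / 2 := not_lt.1 ha
      have hne : μ a ≠ μ b := fun h => ha (h ▸ hb)
      have h0 := hek a b hne
      have hk1 : (kap1 (μ b) : ℂ) * (kap0 (μ b) : ℂ) = (kap0 (μ b) : ℂ) := by
        exact_mod_cast kap1_mul_kap (μ b)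
      have hs : (kap0 (μ b) : ℂ) + (kapp (μ b) : ℂ) = 1 := by
        have := kap_add (μ b)
        rw [kapm_eq_zero (by linarith : 1 / 4 ≤ μ b), add_zero] at this
        exact_mod_cast this
      have hm : kapp (μ a) = 0 := kapp_eq_zero (by linarith)
      simp only [toBlocks₂₁, of_apply, submatrix_apply, spl, Equiv.sumCompl_apply_inl,
        Equiv.sumCompl_apply_inr, Matrix.add_apply, Matrix.sub_apply, dgr, mul_diagonal,
        diagonal_mul, hm, Complex.ofReal_zero, zero_mul, sub_zero]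
      linear_combination (-(z a b)) * hs + h0 - (z a b - e a b) * hk1
    rw [e1]
    refine (norm_submatrix_le _ _ _ hS2 hS1).trans ((norm_add_le _ _).trans ?_)
    linarith
  · have e1 : (z.submatrix (spl μ) (spl μ)).toBlocks₁₁ -
        (e.submatrix (spl μ) (spl μ)).toBlocks₁₁ =
        ((z - e) * dgr μ kap1).submatrix
          (fun a : {a // 1 / 2 < μ a} => a.1) (fun a : {a // 1 / 2 < μ a} => a.1) := by
      ext ⟨a, ha⟩ ⟨b, hb⟩
      have hm : kap1 (μ b) = 1 := kap1_eq_one (by linarith)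
      simp only [toBlocks₁₁, of_apply, submatrix_apply, spl, Equiv.sumCompl_apply_inl,
        Matrix.sub_apply, dgr, mul_diagonal, hm, Complex.ofReal_one, mul_one]
    rw [e1]
    exact (norm_submatrix_le _ _ _ hS1 hS1).trans h1

theorem AlmComm.submatrix {β B B' : Type} [Fintype β] [DecidableEq β] [Fintype B]
    [DecidableEq B] [Fintype B'] [DecidableEq B'] {δ : ℝ} {x : Matrix α α ℂ}
    {M : α → Matrix B B' ℂ} (h : AlmComm δ x M) {u : β → α} (hu : Function.Injective u) :
    AlmComm δ (x.submatrix u u) (fun b => M (u b)) := by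
  intro b b'
  obtain ⟨h1, h2⟩ := h b b'
  constructor
  · have e : x.submatrix u u * diagonal (fun a => M (u a) b b') -
        diagonal (fun a => M (u a) b b') * x.submatrix u u =
        (x * diagonal (fun a => M a b b') - diagonal (fun a => M a b b') * x).submatrix u u := by
      ext i j
      simp only [Matrix.sub_apply, submatrix_apply, mul_diagonal, diagonal_mul]
    rw [e]
    exact (norm_submatrix_le _ _ _ hu hu).trans h1
  · have e : x.submatrix u u * diagonal (fun a => star (M (u a) b b')) -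
        diagonal (fun a => star (M (u a) b b')) * x.submatrix u u =
        (x * diagonal (fun a => star (M a b b')) -
          diagonal (fun a => star (M a b b')) * x).submatrix u u := by
      ext i j
      simp only [Matrix.sub_apply, submatrix_apply, mul_diagonal, diagonal_mul]
    rw [e]
    exact (norm_submatrix_le _ _ _ hu hu).trans h2

/-- The rank of an almost idempotent matrix which is block diagonal for a partition. -/
theorem rk_partition {ι : Type} [Fintype ι] [DecidableEq ι] (π : α → ι) (y : Matrix α α ℂ)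
    (h : ∀ a b, π a ≠ π b → y a b = 0) {ε : ℝ} (hε0 : 0 < ε) (hε : ε ≤ 1 / 4)
    (hn : ∀ i, NearId (y.submatrix (Subtype.val : {a // π a = i} → α) Subtype.val) ε) :
    NearId y ε ∧ rk y =
      ∑ i, rk (y.submatrix (Subtype.val : {a // π a = i} → α) Subtype.val) := by
  have e1 : y.submatrix (Equiv.sigmaFiberEquiv π) (Equiv.sigmaFiberEquiv π) =
      blockDiagonal' (fun i => y.submatrix (Subtype.val : {a // π a = i} → α) Subtype.val) := by
    ext ⟨i, a, ha⟩ ⟨j, b, hb⟩
    by_cases hij : i = j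
    · subst hij
      simp [blockDiagonal'_apply, Equiv.sigmaFiberEquiv]
    · have : y a b = 0 := h a b (by rw [ha, hb]; exact hij)
      simp [blockDiagonal'_apply, Equiv.sigmaFiberEquiv, hij, this]
  constructor
  · choose z hz hzn using hn
    have hb : blockDiagonal' z * blockDiagonal' z = blockDiagonal' z := by
      rw [← blockDiagonal'_mul]
      congr 1
      funext i
      exact hz i
    refine ⟨(blockDiagonal' z).submatrix (Equiv.sigmaFiberEquiv π).symm
      (Equiv.sigmaFiberEquiv π).symm, ?_, ?_⟩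
    · rw [submatrix_mul_equiv, hb]
    · have e2 : (blockDiagonal' z).submatrix (Equiv.sigmaFiberEquiv π).symm
          (Equiv.sigmaFiberEquiv π).symm - y = (blockDiagonal' z - y.submatrix
            (Equiv.sigmaFiberEquiv π) (Equiv.sigmaFiberEquiv π)).submatrix
            (Equiv.sigmaFiberEquiv π).symm (Equiv.sigmaFiberEquiv π).symm := by
        ext i j
        simp only [Matrix.sub_apply, submatrix_apply, Equiv.apply_symm_apply]
      rw [e2, norm_submatrix_equiv, e1, ← blockDiagonal'_sub]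
      refine (norm_blockDiagonal'_le _).trans_lt ?_
      rw [pi_norm_lt_iff hε0]
      exact hzn
  · rw [← rk_reindex (Equiv.sigmaFiberEquiv π) y, e1, rk_blockDiagonal']
    intro i
    exact (hn i).mono hε

theorem tw_submatrix {β B : Type} [Fintype β] [DecidableEq β] [Fintype B] [DecidableEq B]
    (u : β → α) (Q : α → Matrix B B ℂ) (x : Matrix α α ℂ) :
    tw (fun b => Q (u b)) (x.submatrix u u) =
      (tw Q x).submatrix (Prod.map u id) (Prod.map u id) := by
  ext i j
  rw [submatrix_apply, tw_apply, tw_apply]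
  rfl

/-- Reindexing a twisted matrix. -/
theorem rk_tw_reindex {β B : Type} [Fintype β] [DecidableEq β] [Fintype B] [DecidableEq B]
    (σ : β ≃ α) (Q : α → Matrix B B ℂ) (x : Matrix α α ℂ) :
    rk (tw (fun b => Q (σ b)) (x.submatrix σ σ)) = rk (tw Q x) := by
  rw [tw_submatrix]
  exact rk_reindex (Equiv.prodCongr σ (Equiv.refl B)) (tw Q x)

/-- Matrices which are scalar over each point: a projection twisted by a line bundle. -/
theorem rk_tw_scalar {κ B : Type} [Fintype κ] [DecidableEq κ] [Fintype B] [DecidableEq B]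
    (f : Matrix κ κ ℂ) (hf : f * f = f) (hf' : fᴴ = f) (Q : α → Matrix B B ℂ) (hQ : IsBun Q)
    (hQ1 : ∀ a, (Q a).rank = 1) (ε : ℝ) (hε : 0 < ε) :
    NearId (tw (fun a : α × κ => Q a.1) (fun a b => if a.1 = b.1 then f a.2 b.2 else 0)) ε ∧
    rk (tw (fun a : α × κ => Q a.1) (fun a b => if a.1 = b.1 then f a.2 b.2 else 0)) =
      Fintype.card α * f.rank := by
  set y := tw (fun a : α × κ => Q a.1) (fun a b => if a.1 = b.1 then f a.2 b.2 else 0) with hy
  have hya : ∀ i j, y i j = if i.1.1 = j.1.1 then f i.1.2 j.1.2 * Q i.1.1 i.2 j.2 else 0 := by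
    intro i j
    refine (tw_apply (fun a : α × κ => Q a.1)
      (fun a b => if a.1 = b.1 then f a.2 b.2 else 0) i j).trans ?_
    by_cases h : i.1.1 = j.1.1
    · simp only [if_pos h]
      rw [← h, (hQ _).2]
    · simp only [if_neg h, zero_mul]
  have hyy : y * y = y := by
    ext ⟨⟨a, k⟩, c⟩ ⟨⟨a', k'⟩, c'⟩
    rw [mul_apply]
    simp only [hya, Fintype.sum_prod_type]
    rw [Finset.sum_eq_single a]
    · by_cases h : a = a'
      · subst h
        simp only [if_true]
        have e1 : f k k' = ∑ l, f k l * f l k' := by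
          rw [← mul_apply, hf]
        have e2 : Q a c c' = ∑ d, Q a c d * Q a d c' := by
          rw [← mul_apply, (hQ a).2]
        rw [e1, e2, Finset.sum_mul_sum]
        refine Finset.sum_congr rfl fun l _ => Finset.sum_congr rfl fun d _ => ?_
        ring
      · simp [h]
    · intro b _ hb
      simp [hb.symm]
    · simp
  have hn : ‖y - y‖ < ε := by rw [sub_self, norm_zero]; exact hε
  refine ⟨⟨y, hyy, hn⟩, ?_⟩
  rw [rk_eq hyy (by rw [sub_self, norm_zero]; norm_num)]
  have hQt : ∀ a, ∑ c, Q a c c = 1 := by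
    intro a
    have h1 : (Q a).trace = 1 := by rw [← rank_eq_trace (hQ a).2, hQ1 a, Nat.cast_one]
    rw [← h1, trace]
    rfl
  have : (y.rank : ℂ) = ((Fintype.card α * f.rank : ℕ) : ℂ) := by
    rw [rank_eq_trace hyy, Nat.cast_mul, rank_eq_trace hf, trace]
    simp only [diag_apply, hya, if_true, Fintype.sum_prod_type]
    have e2 : ∀ (a : α) (k : κ), ∑ c, f k k * Q a c c = f k k := by
      intro a k
      rw [← Finset.mul_sum, hQt, mul_one]
    simp only [e2, Finset.sum_const, Finset.card_univ, nsmul_eq_mul, trace, diag_apply]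
  exact_mod_cast this

end Vale.Agent.P212
end
end

section

section

/-! Clifford multiplication on the exterior algebra, in coordinates. -/

namespace Vale.Agent.P212

open Matrix Finset

section Cliff

variable {D : ℕ}

/-- The sign of inserting the colour `k` into `S`. -/
def csg (S : Finset (Fin D)) (k : Fin D) : ℂ := (-1) ^ (S.filter (fun l => l < k)).card

/-- Coefficient of the `k`-th Clifford generator on `S`. -/
noncomputable def ccf (a : ℂ) (S : Finset (Fin D)) (k : Fin D) : ℂ :=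
  if k ∈ S then star a else a

/-- The `k`-th Clifford generator scaled by `a`. -/
noncomputable def cgen (a : ℂ) (k : Fin D) : Matrix (Finset (Fin D)) (Finset (Fin D)) ℂ :=
  fun S T => if T = symmDiff S {k} then csg S k * ccf a S k else 0

theorem mem_sd {S : Finset (Fin D)} {k l : Fin D} :
    l ∈ symmDiff S {k} ↔ (if l = k then l ∉ S else l ∈ S) := by
  rw [Finset.mem_symmDiff]
  by_cases h : l = k
  · simp [h]
  · simp [h]

theorem sd_sd (S : Finset (Fin D)) (k : Fin D) : symmDiff (symmDiff S {k}) {k} = S := by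
  rw [symmDiff_assoc, symmDiff_self, symmDiff_bot]

theorem sd_comm (S : Finset (Fin D)) (k l : Fin D) :
    symmDiff (symmDiff S {k}) {l} = symmDiff (symmDiff S {l}) {k} := by
  rw [symmDiff_assoc, symmDiff_assoc, symmDiff_comm ({k} : Finset (Fin D)) {l}]

theorem mem_sd_self {S : Finset (Fin D)} {k : Fin D} : k ∈ symmDiff S {k} ↔ k ∉ S := by
  rw [mem_sd, if_pos rfl]

theorem mem_sd_ne {S : Finset (Fin D)} {k l : Fin D} (h : l ≠ k) :
    l ∈ symmDiff S {k} ↔ l ∈ S := by
  rw [mem_sd, if_neg h]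

theorem csg_mul_self (S : Finset (Fin D)) (k : Fin D) : csg S k * csg S k = 1 := by
  unfold csg
  rw [← pow_add, ← two_mul, pow_mul]
  simp

theorem csg_sd_of_not_lt {S : Finset (Fin D)} {k l : Fin D} (h : ¬ k < l) :
    csg (symmDiff S {k}) l = csg S l := by
  unfold csg
  congr 2
  ext j
  rw [Finset.mem_filter, Finset.mem_filter, mem_sd]
  constructor
  · rintro ⟨h1, h2⟩
    rw [if_neg (by rintro rfl; exact h h2)] at h1
    exact ⟨h1, h2⟩
  · rintro ⟨h1, h2⟩
    rw [if_neg (by rintro rfl; exact h h2)]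
    exact ⟨h1, h2⟩

theorem csg_sd_of_lt {S : Finset (Fin D)} {k l : Fin D} (h : k < l) :
    csg (symmDiff S {k}) l = - csg S l := by
  unfold csg
  by_cases hk : k ∈ S
  · have : S.filter (fun j => j < l) =
        insert k ((symmDiff S {k}).filter (fun j => j < l)) := by
      ext j
      rw [Finset.mem_insert, Finset.mem_filter, Finset.mem_filter, mem_sd]
      by_cases hj : j = k
      · subst hj; simp [hk, h]
      · simp [hj]
    rw [this, Finset.card_insert_of_notMem, pow_succ]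
    · ring
    · rw [Finset.mem_filter, mem_sd]
      simp [hk]
  · have : (symmDiff S {k}).filter (fun j => j < l) =
        insert k (S.filter (fun j => j < l)) := by
      ext j
      rw [Finset.mem_insert, Finset.mem_filter, Finset.mem_filter, mem_sd]
      by_cases hj : j = k
      · subst hj; simp [hk, h]
      · simp [hj]
    rw [this, Finset.card_insert_of_notMem, pow_succ]
    · ring
    · rw [Finset.mem_filter]
      simp [hk]

theorem ccf_sd_self (a : ℂ) (S : Finset (Fin D)) (k : Fin D) :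
    ccf a S k * ccf a (symmDiff S {k}) k = star a * a := by
  unfold ccf
  by_cases h : k ∈ S
  · rw [if_pos h, if_neg (by rw [mem_sd_self]; exact fun h' => h' h)]
  · rw [if_neg h, if_pos (by rw [mem_sd_self]; exact h), mul_comm]

theorem ccf_sd_ne (a : ℂ) (S : Finset (Fin D)) {k l : Fin D} (h : l ≠ k) :
    ccf a (symmDiff S {k}) l = ccf a S l := by
  unfold ccf
  by_cases hS : l ∈ S
  · rw [if_pos hS, if_pos ((mem_sd_ne h).2 hS)]
  · rw [if_neg hS, if_neg (fun h' => hS ((mem_sd_ne h).1 h'))]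

theorem cgen_mul (a b : ℂ) (k l : Fin D) (S T : Finset (Fin D)) :
    (cgen a k * cgen b l) S T = if T = symmDiff (symmDiff S {k}) {l} then
      csg S k * ccf a S k * (csg (symmDiff S {k}) l * ccf b (symmDiff S {k}) l) else 0 := by
  rw [Matrix.mul_apply, Finset.sum_eq_single (symmDiff S {k})]
  · unfold cgen
    rw [if_pos rfl]
    by_cases h : T = symmDiff (symmDiff S {k}) {l}
    · rw [if_pos h, if_pos h]
    · rw [if_neg h, if_neg h, mul_zero]
  · intro R _ hR
    unfold cgen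
    rw [if_neg hR, zero_mul]
  · intro h
    exact absurd (Finset.mem_univ _) h

theorem cgen_sq (a : ℂ) (k : Fin D) :
    (cgen a k * cgen a k : Matrix (Finset (Fin D)) (Finset (Fin D)) ℂ) =
      (star a * a) • (1 : Matrix (Finset (Fin D)) (Finset (Fin D)) ℂ) := by
  ext S T
  rw [cgen_mul, sd_sd, Matrix.smul_apply, Matrix.one_apply, csg_sd_of_not_lt (lt_irrefl k)]
  by_cases h : T = S
  · subst h
    rw [if_pos rfl, if_pos rfl, smul_eq_mul, mul_one, ← ccf_sd_self a T k]
    have := csg_mul_self T k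
    linear_combination (ccf a T k * ccf a (symmDiff T {k}) k) * this
  · rw [if_neg h, if_neg (fun h' => h h'.symm), smul_zero]

theorem cgen_anti (a b : ℂ) {k l : Fin D} (h : k ≠ l) :
    (cgen a k * cgen b l + cgen b l * cgen a k : Matrix (Finset (Fin D)) (Finset (Fin D)) ℂ) =
      0 := by
  ext S T
  rw [Matrix.add_apply, cgen_mul, cgen_mul, sd_comm S l k, ccf_sd_ne b S h.symm, ccf_sd_ne a S h,
    Matrix.zero_apply]
  by_cases hT : T = symmDiff (symmDiff S {k}) {l}
  · rw [if_pos hT, if_pos hT]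
    rcases lt_or_gt_of_ne h with h' | h'
    · rw [csg_sd_of_lt h', csg_sd_of_not_lt (not_lt.2 h'.le)]
      ring
    · rw [csg_sd_of_lt h', csg_sd_of_not_lt (not_lt.2 h'.le)]
      ring
  · rw [if_neg hT, if_neg hT, add_zero]

/-- Clifford multiplication by the vector `m`. -/
noncomputable def clif (m : Fin D → ℂ) : Matrix (Finset (Fin D)) (Finset (Fin D)) ℂ :=
  ∑ k, cgen (m k) k

theorem clif_apply (m : Fin D → ℂ) (S T : Finset (Fin D)) :
    clif m S T = ∑ k, if T = symmDiff S {k} then csg S k * ccf (m k) S k else 0 := by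
  unfold clif
  rw [Matrix.sum_apply]
  rfl

theorem clif_sq (m : Fin D → ℂ) :
    clif m * clif m = (∑ k, star (m k) * m k) • (1 : Matrix (Finset (Fin D)) (Finset (Fin D)) ℂ)
    := by
  have h2 : (2 : ℂ) • (clif m * clif m) =
      (2 : ℂ) • ((∑ k, star (m k) * m k) •
        (1 : Matrix (Finset (Fin D)) (Finset (Fin D)) ℂ)) := by
    have e1 : clif m * clif m = ∑ k, ∑ l, cgen (m k) k * cgen (m l) l := by
      unfold clif
      rw [Finset.sum_mul_sum]
    have e2 : clif m * clif m = ∑ k, ∑ l, cgen (m l) l * cgen (m k) k := by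
      rw [e1, Finset.sum_comm]
    rw [two_smul]
    nth_rewrite 1 [e1]
    rw [e2, ← Finset.sum_add_distrib]
    rw [Finset.sum_smul, Finset.smul_sum]
    refine Finset.sum_congr rfl fun k _ => ?_
    rw [← Finset.sum_add_distrib, Finset.sum_eq_single k]
    · rw [cgen_sq, two_smul]
    · intro l _ hl
      exact cgen_anti _ _ hl.symm
    · intro h
      exact absurd (Finset.mem_univ _) h
  have := congrArg (fun A => (2 : ℂ)⁻¹ • A) h2
  simpa [smul_smul] using this

theorem clif_star (m : Fin D → ℂ) (S T : Finset (Fin D)) : star (clif m S T) = clif m T S := by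
  rw [clif_apply, clif_apply, star_sum]
  refine Finset.sum_congr rfl fun k _ => ?_
  by_cases h : T = symmDiff S {k}
  · have h' : S = symmDiff T {k} := by rw [h, sd_sd]
    rw [if_pos h, if_pos h', h, csg_sd_of_not_lt (lt_irrefl k)]
    unfold ccf csg
    by_cases hk : k ∈ S
    · rw [if_pos hk, if_neg (by rw [mem_sd_self]; exact fun h' => h' hk)]
      simp
    · rw [if_neg hk, if_pos (by rw [mem_sd_self]; exact hk)]
      simp
  · have h' : ¬ S = symmDiff T {k} := by
      intro h'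
      apply h
      rw [h', sd_sd]
    rw [if_neg h, if_neg h', star_zero]

theorem even_card_sd (S : Finset (Fin D)) (k : Fin D) :
    Even (symmDiff S {k}).card ↔ ¬ Even S.card := by
  by_cases h : k ∈ S
  · have : S = insert k (symmDiff S {k}) := by
      ext j
      rw [Finset.mem_insert, mem_sd]
      by_cases hj : j = k
      · simp [hj, h]
      · simp [hj]
    have h2 : S.card = (symmDiff S {k}).card + 1 := by
      nth_rewrite 1 [this]
      rw [Finset.card_insert_of_notMem]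
      rw [mem_sd, if_pos rfl]
      simpa using h
    rw [h2, Nat.even_add_one, not_not]
  · have : symmDiff S {k} = insert k S := by
      ext j
      rw [Finset.mem_insert, mem_sd]
      by_cases hj : j = k
      · simp [hj, h]
      · simp [hj]
    rw [this, Finset.card_insert_of_notMem h, Nat.even_add_one]

theorem card_sd_of_mem {S : Finset (Fin D)} {k : Fin D} (h : k ∈ S) :
    S.card = (symmDiff S {k}).card + 1 := by
  have : S = insert k (symmDiff S {k}) := by
    ext j
    rw [Finset.mem_insert, mem_sd]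
    by_cases hj : j = k
    · simp [hj, h]
    · simp [hj]
  nth_rewrite 1 [this]
  rw [Finset.card_insert_of_notMem]
  rw [mem_sd, if_pos rfl]
  simpa using h

theorem card_sd_of_notMem {S : Finset (Fin D)} {k : Fin D} (h : k ∉ S) :
    (symmDiff S {k}).card = S.card + 1 := by
  have : symmDiff S {k} = insert k S := by
    ext j
    rw [Finset.mem_insert, mem_sd]
    by_cases hj : j = k
    · simp [hj, h]
    · simp [hj]
  rw [this, Finset.card_insert_of_notMem h]

theorem clif_eq_zero (m : Fin D → ℂ) {S T : Finset (Fin D)} (h : Even S.card ↔ Even T.card) :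
    clif m S T = 0 := by
  rw [clif_apply]
  refine Finset.sum_eq_zero fun k _ => ?_
  rw [if_neg]
  rintro rfl
  rw [even_card_sd] at h
  tauto

end Cliff

end Vale.Agent.P212
end
end

section

section

/-! Integer valued functions with vanishing differences. -/

namespace Vale.Agent.P212

open Finset

/-- The signed sum over subsets is an iterated forward difference. -/
theorem sum_subsets_eq_diff (D : ℕ) (P : ℕ → ℤ) (i : ℕ) :
    ∑ S : Finset (Fin D), (-1) ^ S.card * P (i + S.card) =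
      (-1) ^ D * (fwdDiff 1)^[D] P i := by
  have h1 := Finset.sum_powerset_apply_card (fun k => (-1 : ℤ) ^ k * P (i + k))
    (x := (univ : Finset (Fin D)))
  rw [Finset.powerset_univ, Finset.card_univ, Fintype.card_fin] at h1
  rw [h1, fwdDiff_iter_eq_sum_shift, Finset.mul_sum]
  refine Finset.sum_congr rfl fun k hk => ?_
  have hk' : k ≤ D := Nat.lt_succ_iff.1 (Finset.mem_range.1 hk)
  have h2 : (-1 : ℤ) ^ D * (-1) ^ (D - k) = (-1) ^ k := by
    rw [← pow_add]
    have : D + (D - k) = 2 * (D - k) + k := by omega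
    rw [this, pow_add, pow_mul]
    norm_num
  simp only [smul_eq_mul, nsmul_eq_mul, mul_one]
  rw [← h2]
  ring

theorem diff_succ_zero (P : ℕ → ℤ) (D m : ℕ)
    (h : ∀ i ≤ m, (fwdDiff 1)^[D] P i = 0) (k : ℕ) (hk : k ≤ m) :
    ∀ i ≤ m - k, (fwdDiff 1)^[D + k] P i = 0 := by
  induction k with
  | zero => exact fun i hi => h i (by omega)
  | succ k ih =>
    intro i hi
    have h1 := ih (by omega) i (by omega)
    have h2 := ih (by omega) (i + 1) (by omega)
    rw [← add_assoc, Function.iterate_succ_apply', fwdDiff, h2, h1, sub_zero]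

/-- Newton interpolation. -/
theorem newton_formula (P : ℕ → ℤ) (D m : ℕ) (h : ∀ i ≤ m, (fwdDiff 1)^[D] P i = 0)
    (n : ℕ) (hn : n ≤ m + D) :
    P n = ∑ k ∈ range D, (n.choose k : ℤ) * (fwdDiff 1)^[k] P 0 := by
  have h1 := shift_eq_sum_fwdDiff_iter (1 : ℕ) P n 0
  simp only [zero_add, smul_eq_mul, mul_one, nsmul_eq_mul] at h1
  rw [h1]
  have hz : ∀ k, D ≤ k → k ≤ m + D → (fwdDiff 1)^[k] P 0 = 0 := by
    intro k hk hk'
    have := diff_succ_zero P D m h (k - D) (by omega) 0 (by omega)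
    rwa [Nat.add_sub_cancel' hk] at this
  rcases le_total D (n + 1) with hD | hD
  · rw [← Finset.sum_subset (Finset.range_subset_range.2 hD)]
    intro k hk hk'
    rw [Finset.mem_range] at hk hk'
    rw [hz k (by omega) (by omega), mul_zero]
  · rw [Finset.sum_subset (Finset.range_subset_range.2 hD)]
    intro k _ hk'
    rw [Finset.mem_range] at hk'
    rw [Nat.choose_eq_zero_of_lt (by omega)]
    simp

open Polynomial in
/-- The binomial coefficient as a polynomial. -/
noncomputable def chooseP (k : ℕ) : ℚ[X] := C ((k.factorial : ℚ)⁻¹) * descPochhammer ℚ k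

theorem chooseP_eval (k n : ℕ) : (chooseP k).eval (n : ℚ) = (n.choose k : ℚ) := by
  rw [chooseP, Polynomial.eval_mul, Polynomial.eval_C, Nat.cast_choose_eq_descPochhammer_div]
  rw [div_eq_inv_mul]

theorem natDegree_C_mul_X_le' (a : ℚ) :
    (Polynomial.C a * Polynomial.X : Polynomial ℚ).natDegree ≤ 1 :=
  (Polynomial.natDegree_C_mul_le _ _).trans Polynomial.natDegree_X_le

theorem chooseP_natDegree (k : ℕ) : (chooseP k).natDegree ≤ k := by
  rw [chooseP]
  refine (Polynomial.natDegree_C_mul_le _ _).trans ?_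
  rw [descPochhammer_natDegree]

open Polynomial in
theorem dvd_of_diff (D q : ℕ) (hD : 1 ≤ D) (hq : 1 ≤ q) (P : ℕ → ℤ) (a N : ℤ)
    (h1 : ∀ i ≤ D * q, ∑ S : Finset (Fin D), (-1) ^ S.card * P (i + S.card) = 0)
    (h2 : ∀ j ≤ D, P (j * q) = a - N * j) : (q : ℤ) ∣ N := by
  have hd : ∀ i ≤ D * q, (fwdDiff 1)^[D] P i = 0 := by
    intro i hi
    have h3 := h1 i hi
    rw [sum_subsets_eq_diff] at h3
    rcases mul_eq_zero.1 h3 with h4 | h4
    · exact absurd h4 (pow_ne_zero _ (by norm_num))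
    · exact h4
  set c : ℕ → ℤ := fun k => (fwdDiff 1)^[k] P 0 with hc
  set Q : ℚ[X] := ∑ k ∈ Finset.range D, Polynomial.C (c k : ℚ) * chooseP k with hQ
  have hQeval : ∀ n : ℕ, n ≤ D * q + D → Q.eval (n : ℚ) = (P n : ℚ) := by
    intro n hn
    rw [newton_formula P D (D * q) hd n hn, hQ, Polynomial.eval_finsetSum]
    push_cast
    refine Finset.sum_congr rfl fun k _ => ?_
    rw [Polynomial.eval_mul, Polynomial.eval_C, chooseP_eval, mul_comm]
  have hQdeg : Q.natDegree ≤ D - 1 := by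
    rw [hQ]
    refine Polynomial.natDegree_sum_le_of_forall_le _ _ fun k hk => ?_
    refine (Polynomial.natDegree_C_mul_le _ _).trans ((chooseP_natDegree k).trans ?_)
    have := Finset.mem_range.1 hk
    omega
  set R : ℚ[X] := Q.comp (Polynomial.C (q : ℚ) * X) - (C (a : ℚ) - C (N : ℚ) * X) with hR
  have hRdeg : R.natDegree ≤ D := by
    rw [hR]
    refine (Polynomial.natDegree_sub_le _ _).trans (max_le ?_ ?_)
    · refine Polynomial.natDegree_comp_le.trans ?_
      have h3 : (Polynomial.C (q : ℚ) * X : ℚ[X]).natDegree ≤ 1 :=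
        natDegree_C_mul_X_le' _
      calc Q.natDegree * (Polynomial.C (q : ℚ) * X : ℚ[X]).natDegree ≤ (D - 1) * 1 :=
            Nat.mul_le_mul hQdeg h3
        _ ≤ D := by omega
    · refine (Polynomial.natDegree_sub_le _ _).trans (max_le ?_ ?_)
      · rw [Polynomial.natDegree_C]
        omega
      · exact (natDegree_C_mul_X_le' _).trans hD
  have hRz : R = 0 := by
    refine Polynomial.eq_zero_of_natDegree_lt_card_of_eval_eq_zero' R
      ((Finset.range (D + 1)).image fun j : ℕ => (j : ℚ)) ?_ ?_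
    · intro x hx
      obtain ⟨j, hj, rfl⟩ := Finset.mem_image.1 hx
      have hj' : j ≤ D := Nat.lt_succ_iff.1 (Finset.mem_range.1 hj)
      rw [hR]
      simp only [Polynomial.eval_sub, Polynomial.eval_comp, Polynomial.eval_mul,
        Polynomial.eval_C, Polynomial.eval_X]
      have h3 := hQeval (j * q) (by nlinarith)
      rw [h2 j hj'] at h3
      push_cast at h3
      rw [mul_comm (q : ℚ), h3, sub_self]
    · rw [Finset.card_image_of_injective _ Nat.cast_injective, Finset.card_range]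
      omega
  have h4 : R.eval ((q : ℚ)⁻¹) = 0 := by rw [hRz, Polynomial.eval_zero]
  rw [hR] at h4
  simp only [Polynomial.eval_sub, Polynomial.eval_comp, Polynomial.eval_mul,
        Polynomial.eval_C, Polynomial.eval_X] at h4
  have hq0 : (q : ℚ) ≠ 0 := by
    have : 0 < q := hq
    exact_mod_cast this.ne'
  have h5 := hQeval 1 (by nlinarith)
  rw [mul_inv_cancel₀ hq0] at h4
  rw [Nat.cast_one] at h5
  rw [h5] at h4
  have h6 : (N : ℚ) = q * (a - P 1 : ℤ) := by
    push_cast
    field_simp at h4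
    linarith
  exact ⟨a - P 1, by exact_mod_cast h6⟩

end Vale.Agent.P212
end
end

section

section

/-! The Koszul isomorphism for line bundles which are trivial over colour stars. -/

namespace Vale.Agent.P212

open Matrix

theorem Cyl.sqrtCoord {X : Type} (x : X) :
    Cyl (fun p : RPt X => ((Real.sqrt (p.1 x) : ℝ) : ℂ)) :=
  ⟨{x}, fun f => ((Real.sqrt (f ⟨x, Finset.mem_singleton_self x⟩) : ℝ) : ℂ),
    Complex.continuous_ofReal.comp
      (Real.continuous_sqrt.comp (continuous_apply _)), fun _ => rfl⟩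

theorem Cyl.pow {X : Type} {g : RPt X → ℂ} (hg : Cyl g) (n : ℕ) : Cyl (fun p => g p ^ n) := by
  induction n with
  | zero => simpa using (Cyl.const (X := X) 1)
  | succ n ih => simpa [pow_succ] using ih.mul hg

variable {X : Type} [DecidableEq X]

/-- The isomorphism between the even and the odd part. -/
noncomputable def kosM (B : Finset X) (c : X → X → X → ℤ) {D : ℕ} (χ : X → Fin D) (i : ℕ)
    (p : RPt X) : Matrix (Σ _ : Ev D, B) (Σ _ : Od D, B) ℂ :=
  fun a b => ∑ k : Fin D, if b.1.1 = symmDiff a.1.1 {k} then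
    csg a.1.1 k * ∑ z ∈ B.filter (fun z => χ z = k),
      ((Real.sqrt (p.1 z) : ℝ) : ℂ) * ((Real.sqrt (p.1 (a.2 : X)) : ℝ) : ℂ) *
        ((Real.sqrt (p.1 (b.2 : X)) : ℝ) : ℂ) *
        (ph B c p a.2 z ^ (i + a.1.1.card) * ph B c p z b.2 ^ (i + b.1.1.card)) else 0

theorem Cyl.kosM (B : Finset X) (c : X → X → X → ℤ) {D : ℕ} (χ : X → Fin D) (i : ℕ)
    (a : Σ _ : Ev D, B) (b : Σ _ : Od D, B) : Cyl (fun p => kosM B c χ i p a b) := by
  unfold Vale.Agent.P212.kosM
  refine Cyl.sum _ fun k _ => ?_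
  by_cases h : b.1.1 = symmDiff a.1.1 {k}
  · simp only [if_pos h]
    refine (Cyl.const _).mul (Cyl.sum _ fun z _ => ?_)
    exact (((Cyl.sqrtCoord z).mul (Cyl.sqrtCoord _)).mul (Cyl.sqrtCoord _)).mul
      (((Cyl.ph B c _ z).pow _).mul ((Cyl.ph B c z _).pow _))
  · simp only [if_neg h]
    exact Cyl.const 0

theorem kph_star_mul (B : Finset X) (c : X → X → X → ℤ) (p : RPt X) (x y : X) :
    star (ph B c p x y) * ph B c p x y = 1 := by
  have h : ph B c p x y =
      Complex.exp (((2 * Real.pi * ∑ w ∈ B, (c x y w : ℝ) * (p.1 w : ℝ) : ℝ) : ℂ) *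
        Complex.I) := by
    unfold ph
    congr 1
    push_cast
    ring
  have hn : ‖ph B c p x y‖ = 1 := by
    rw [h]
    exact Complex.norm_exp_ofReal_mul_I _
  have := Complex.conj_mul' (ph B c p x y)
  rw [hn] at this
  simpa using this

theorem kph_smul (B : Finset X) (c : X → X → X → ℤ) (n : ℕ) (p : RPt X) (x y : X) :
    ph B (n • c) p x y = ph B c p x y ^ n := by
  unfold ph
  rw [← Complex.exp_nat_mul]
  congr 1
  simp only [Pi.smul_apply, nsmul_eq_mul]
  rw [Finset.mul_sum, Finset.mul_sum, Finset.mul_sum]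
  refine Finset.sum_congr rfl fun w _ => ?_
  push_cast
  ring

section Good

variable {B : Finset X} {c : X → X → X → ℤ} {p : RPt X} (hB : p.1.support ⊆ B)
  (hc : CocAt c p)

include hB hc

theorem kph_self {x : X} (hx : x ∈ p.1.support) : ph B c p x x = 1 := by
  have h := ph_mul hB hc hx hx hx
  have h2 := kph_star_mul B c p x x
  calc ph B c p x x = (star (ph B c p x x) * ph B c p x x) * ph B c p x x := by
        rw [h2, one_mul]
    _ = star (ph B c p x x) * (ph B c p x x * ph B c p x x) := by ring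
    _ = 1 := by rw [h, h2]

theorem kph_symm {x y : X} (hx : x ∈ p.1.support) (hy : y ∈ p.1.support) :
    star (ph B c p x y) = ph B c p y x := by
  have h := ph_mul hB hc hx hy hx
  rw [kph_self hB hc hx] at h
  calc star (ph B c p x y) = star (ph B c p x y) * (ph B c p x y * ph B c p y x) := by
        rw [h, mul_one]
    _ = (star (ph B c p x y) * ph B c p x y) * ph B c p y x := by ring
    _ = ph B c p y x := by rw [kph_star_mul, one_mul]

theorem kph_fact {x y z₀ : X} (hx : x ∈ p.1.support) (hy : y ∈ p.1.support)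
    (hz : z₀ ∈ p.1.support) :
    ph B c p x y = ph B c p x z₀ * star (ph B c p y z₀) := by
  rw [kph_symm hB hc hy hz, ph_mul hB hc hx hz hy]

end Good

theorem sqrt_coord_eq_zero {p : RPt X} {x : X} (hx : x ∉ p.1.support) :
    ((Real.sqrt (p.1 x) : ℝ) : ℂ) = 0 := by
  rw [Finsupp.notMem_support_iff] at hx
  simp [hx]

theorem sqrt_coord_sq (p : RPt X) (x : X) :
    ((Real.sqrt (p.1 x) : ℝ) : ℂ) * ((Real.sqrt (p.1 x) : ℝ) : ℂ) = ((p.1 x : ℝ) : ℂ) := by
  rw [← Complex.ofReal_mul, Real.mul_self_sqrt (by exact_mod_cast p.2.1 x)]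

/-- The unit vectors `u_j`. -/
noncomputable def uv (B : Finset X) (c : X → X → X → ℤ) (p : RPt X) (z₀ : X) (j : ℕ) (x : X) :
    ℂ := ((Real.sqrt (p.1 x) : ℝ) : ℂ) * ph B c p x z₀ ^ j

/-- The vector `μ`. -/
noncomputable def muv (B : Finset X) (c : X → X → X → ℤ) (p : RPt X) (z₀ : X) {D : ℕ}
    (χ : X → Fin D) (k : Fin D) : ℂ :=
  ∑ z ∈ B.filter (fun z => χ z = k), ((Real.sqrt (p.1 z) : ℝ) : ℂ) * ph B c p z z₀

theorem sum_coord {B : Finset X} {p : RPt X} (hB : p.1.support ⊆ B) :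
    ∑ x ∈ B, ((p.1 x : ℝ) : ℂ) = 1 := by
  have h : ∑ x ∈ B, p.1 x = 1 := by
    refine Eq.trans ?_ p.2.2
    unfold Finsupp.sum
    symm
    refine Finset.sum_subset hB fun x _ hx => ?_
    rwa [Finsupp.notMem_support_iff] at hx
  have h2 : (((∑ x ∈ B, p.1 x : ℚ) : ℝ) : ℂ) = 1 := by rw [h]; simp
  rw [← h2]
  push_cast
  rfl

theorem star_uv_mul (B : Finset X) (c : X → X → X → ℤ) (p : RPt X) (z₀ : X) (j : ℕ) (x : X) :
    star (uv B c p z₀ j x) * uv B c p z₀ j x = ((p.1 x : ℝ) : ℂ) := by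
  unfold uv
  have h := kph_star_mul B c p x z₀
  have hs : star ((Real.sqrt (p.1 x) : ℝ) : ℂ) = ((Real.sqrt (p.1 x) : ℝ) : ℂ) :=
    Complex.conj_ofReal _
  rw [star_mul', star_pow, hs]
  calc _ = (((Real.sqrt (p.1 x) : ℝ) : ℂ) * ((Real.sqrt (p.1 x) : ℝ) : ℂ)) *
        (star (ph B c p x z₀) * ph B c p x z₀) ^ j := by rw [mul_pow]; ring
    _ = _ := by rw [h, one_pow, mul_one, sqrt_coord_sq]

theorem sum_star_uv {B : Finset X} {c : X → X → X → ℤ} {p : RPt X} (hB : p.1.support ⊆ B)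
    (z₀ : X) (j : ℕ) : ∑ x : B, star (uv B c p z₀ j x) * uv B c p z₀ j x = 1 := by
  simp only [star_uv_mul]
  rw [Finset.sum_coe_sort B (fun x => ((p.1 x : ℝ) : ℂ)), sum_coord hB]

theorem sum_star_muv {B : Finset X} {c : X → X → X → ℤ} {p : RPt X} (hB : p.1.support ⊆ B)
    {D : ℕ} {χ : X → Fin D} (hχ : Set.InjOn χ p.1.support) (z₀ : X) :
    ∑ k, star (muv B c p z₀ χ k) * muv B c p z₀ χ k = 1 := by
  have h1 : ∀ k, star (muv B c p z₀ χ k) * muv B c p z₀ χ k =
      ∑ z ∈ B.filter (fun z => χ z = k), ((p.1 z : ℝ) : ℂ) := by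
    intro k
    unfold muv
    rw [star_sum, Finset.sum_mul_sum]
    refine Finset.sum_congr rfl fun z hz => ?_
    rw [Finset.sum_eq_single z]
    · have := star_uv_mul B c p z₀ 1 z
      unfold uv at this
      rwa [pow_one] at this
    · intro w hw hwz
      rw [Finset.mem_filter] at hz hw
      by_cases h1 : z ∈ p.1.support
      · by_cases h2 : w ∈ p.1.support
        · exact absurd (hχ h2 h1 (hw.2.trans hz.2.symm)) hwz
        · rw [sqrt_coord_eq_zero h2, zero_mul, mul_zero]
      · rw [sqrt_coord_eq_zero h1, zero_mul, star_zero, zero_mul]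
    · intro h
      exact absurd hz h
  simp only [h1]
  rw [Finset.sum_fiberwise B χ (fun z => ((p.1 z : ℝ) : ℂ)), sum_coord hB]

theorem Qb_uv {B : Finset X} {c : X → X → X → ℤ} {p : RPt X} (hB : p.1.support ⊆ B)
    (hc : CocAt c p) {z₀ : X} (hz : z₀ ∈ p.1.support) (n : ℕ) (x y : B) :
    Qb B (n • c) p x y = uv B c p z₀ n x * star (uv B c p z₀ n y) := by
  unfold Qb uv
  rw [kph_smul]
  have hs : star ((Real.sqrt (p.1 (y : X)) : ℝ) : ℂ) = ((Real.sqrt (p.1 (y : X)) : ℝ) : ℂ) :=
    Complex.conj_ofReal _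
  by_cases hx : (x : X) ∈ p.1.support
  · by_cases hy : (y : X) ∈ p.1.support
    · rw [kph_fact hB hc hx hy hz, star_mul', star_pow, hs, mul_pow]
      ring
    · rw [sqrt_coord_eq_zero hy]
      simp
  · rw [sqrt_coord_eq_zero hx]
    simp

theorem kosM_eq {B : Finset X} {c : X → X → X → ℤ} {p : RPt X} (hB : p.1.support ⊆ B)
    (hc : CocAt c p) {z₀ : X} (hz : z₀ ∈ p.1.support) {D : ℕ} (χ : X → Fin D) (i : ℕ)
    (a : Σ _ : Ev D, B) (b : Σ _ : Od D, B) :
    kosM B c χ i p a b = uv B c p z₀ (i + a.1.1.card) a.2 *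
      clif (muv B c p z₀ χ) a.1.1 b.1.1 * star (uv B c p z₀ (i + b.1.1.card) b.2) := by
  obtain ⟨⟨S, hS⟩, x⟩ := a
  obtain ⟨⟨T, hT⟩, y⟩ := b
  simp only [kosM]
  have hs : ∀ w : X, star ((Real.sqrt (p.1 w) : ℝ) : ℂ) = ((Real.sqrt (p.1 w) : ℝ) : ℂ) :=
    fun w => Complex.conj_ofReal _
  by_cases hx : (x : X) ∈ p.1.support
  swap
  · have h0 := sqrt_coord_eq_zero hx
    simp [uv, h0]
  by_cases hy : (y : X) ∈ p.1.support
  swap
  · have h0 := sqrt_coord_eq_zero hy
    simp [uv, h0]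
  rw [clif_apply, Finset.mul_sum, Finset.sum_mul]
  refine Finset.sum_congr rfl fun k _ => ?_
  by_cases h : T = symmDiff S {k}
  swap
  · rw [if_neg h, if_neg h, mul_zero, zero_mul]
  rw [if_pos h, if_pos h]
  have key : ∀ z ∈ B.filter (fun z => χ z = k),
      ((Real.sqrt (p.1 z) : ℝ) : ℂ) * ((Real.sqrt (p.1 (x : X)) : ℝ) : ℂ) *
        ((Real.sqrt (p.1 (y : X)) : ℝ) : ℂ) *
        (ph B c p x z ^ (i + S.card) * ph B c p z y ^ (i + T.card)) =
      uv B c p z₀ (i + S.card) x * star (uv B c p z₀ (i + T.card) y) *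
        ccf (((Real.sqrt (p.1 z) : ℝ) : ℂ) * ph B c p z z₀) S k := by
    intro z _
    by_cases hzs : z ∈ p.1.support
    swap
    · rw [sqrt_coord_eq_zero hzs]
      simp [ccf]
    rw [kph_fact hB hc hx hzs hz, kph_fact hB hc hzs hy hz]
    unfold uv ccf
    have h1 := kph_star_mul B c p z z₀
    by_cases hk : k ∈ S
    · have hcard := card_sd_of_mem hk
      rw [← h] at hcard
      rw [if_pos hk, hcard, star_mul', star_mul', star_pow, hs, hs, mul_pow, mul_pow]
      have h2 : star (ph B c p z z₀) ^ (i + (T.card + 1)) * ph B c p z z₀ ^ (i + T.card) =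
          star (ph B c p z z₀) := by
        rw [← Nat.add_assoc, pow_succ]
        calc _ = (star (ph B c p z z₀) * ph B c p z z₀) ^ (i + T.card) *
              star (ph B c p z z₀) := by rw [mul_pow]; ring
          _ = _ := by rw [h1, one_pow, one_mul]
      linear_combination (((Real.sqrt (p.1 z) : ℝ) : ℂ) * ((Real.sqrt (p.1 (x : X)) : ℝ) : ℂ) *
        ((Real.sqrt (p.1 (y : X)) : ℝ) : ℂ) * ph B c p x z₀ ^ (i + (T.card + 1)) *
        star (ph B c p y z₀) ^ (i + T.card)) * h2
    · have hcard := card_sd_of_notMem hk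
      rw [← h] at hcard
      rw [if_neg hk, hcard, star_mul', star_pow, hs, mul_pow, mul_pow]
      have h2 : star (ph B c p z z₀) ^ (i + S.card) * ph B c p z z₀ ^ (i + (S.card + 1)) =
          ph B c p z z₀ := by
        rw [← Nat.add_assoc, pow_succ]
        calc _ = (star (ph B c p z z₀) * ph B c p z z₀) ^ (i + S.card) *
              ph B c p z z₀ := by rw [mul_pow]; ring
          _ = _ := by rw [h1, one_pow, one_mul]
      linear_combination (((Real.sqrt (p.1 z) : ℝ) : ℂ) * ((Real.sqrt (p.1 (x : X)) : ℝ) : ℂ) *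
        ((Real.sqrt (p.1 (y : X)) : ℝ) : ℂ) * ph B c p x z₀ ^ (i + S.card) *
        star (ph B c p y z₀) ^ (i + (S.card + 1))) * h2
  rw [Finset.sum_congr rfl key, ← Finset.mul_sum]
  have hccf : ∑ z ∈ B.filter (fun z => χ z = k),
      ccf (((Real.sqrt (p.1 z) : ℝ) : ℂ) * ph B c p z z₀) S k =
      ccf (muv B c p z₀ χ k) S k := by
    unfold ccf muv
    by_cases hk : k ∈ S
    · simp only [if_pos hk]
      rw [star_sum]
    · simp only [if_neg hk]
  rw [hccf]
  ring

theorem sum_Od_clif {D : ℕ} (m : Fin D → ℂ) (S T : Ev D) :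
    ∑ R : Od D, clif m S.1 R.1 * clif m R.1 T.1 =
      (∑ k, star (m k) * m k) * (if S = T then 1 else 0) := by
  have h : (clif m * clif m) S.1 T.1 =
      (∑ k, star (m k) * m k) * (if S = T then 1 else 0) := by
    rw [clif_sq, Matrix.smul_apply, smul_eq_mul, Matrix.one_apply]
    by_cases h : S = T
    · rw [if_pos h, if_pos (by rw [h])]
    · rw [if_neg h, if_neg (fun h' => h (Subtype.ext h'))]
  rw [← h, Matrix.mul_apply]
  rw [← Finset.sum_filter_add_sum_filter_not Finset.univ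
    (fun R : Finset (Fin D) => ¬ Even R.card)]
  rw [Finset.sum_eq_zero (s := Finset.univ.filter (fun R : Finset (Fin D) => ¬ ¬ Even R.card)),
    add_zero]
  · symm
    exact Finset.sum_subtype (Finset.univ.filter (fun R : Finset (Fin D) => ¬ Even R.card))
      (by simp) (fun R => clif m S.1 R * clif m R T.1)
  · intro R hR
    rw [Finset.mem_filter, not_not] at hR
    rw [clif_eq_zero m (by simp [S.2, hR.2]), zero_mul]

theorem sum_Ev_clif {D : ℕ} (m : Fin D → ℂ) (S T : Od D) :
    ∑ R : Ev D, clif m S.1 R.1 * clif m R.1 T.1 =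
      (∑ k, star (m k) * m k) * (if S = T then 1 else 0) := by
  have h : (clif m * clif m) S.1 T.1 =
      (∑ k, star (m k) * m k) * (if S = T then 1 else 0) := by
    rw [clif_sq, Matrix.smul_apply, smul_eq_mul, Matrix.one_apply]
    by_cases h : S = T
    · rw [if_pos h, if_pos (by rw [h])]
    · rw [if_neg h, if_neg (fun h' => h (Subtype.ext h'))]
  rw [← h, Matrix.mul_apply]
  rw [← Finset.sum_filter_add_sum_filter_not Finset.univ
    (fun R : Finset (Fin D) => Even R.card)]
  rw [Finset.sum_eq_zero (s := Finset.univ.filter (fun R : Finset (Fin D) => ¬ Even R.card)),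
    add_zero]
  · symm
    exact Finset.sum_subtype (Finset.univ.filter (fun R : Finset (Fin D) => Even R.card))
      (by simp) (fun R => clif m S.1 R * clif m R T.1)
  · intro R hR
    rw [Finset.mem_filter] at hR
    rw [clif_eq_zero m (by simp [S.2, hR.2]), zero_mul]

/-- The isomorphism of the even and the odd part of the Koszul complex of a line bundle which
is trivial over the stars of the vertices of each of `D` colours. -/
theorem koszul (B : Finset X) (c : X → X → X → ℤ) (D : ℕ) (χ : X → Fin D) (i : ℕ) :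
    ∃ M : RPt X → Matrix (Σ _ : Ev D, B) (Σ _ : Od D, B) ℂ,
      (∀ a b, Cyl (fun p => M p a b)) ∧
      ∀ p : RPt X, p.1.support ⊆ B → CocAt c p → Set.InjOn χ p.1.support →
        M p * (M p)ᴴ = Matrix.blockDiagonal' (fun S : Ev D => Qb B ((i + S.1.card) • c) p) ∧
        (M p)ᴴ * M p = Matrix.blockDiagonal' (fun S : Od D => Qb B ((i + S.1.card) • c) p) := by
  refine ⟨kosM B c χ i, fun a b => Cyl.kosM B c χ i a b, ?_⟩
  intro p hB hc hχ
  have hne : p.1.support.Nonempty := by
    rw [Finset.nonempty_iff_ne_empty]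
    intro h
    have h1 := p.2.2
    unfold Finsupp.sum at h1
    rw [h, Finset.sum_empty] at h1
    exact zero_ne_one h1
  obtain ⟨z₀, hz⟩ := hne
  have hM := kosM_eq hB hc hz χ i
  constructor
  · ext ⟨S, x⟩ ⟨T, y⟩
    rw [Matrix.mul_apply, Fintype.sum_sigma]
    have h1 : ∀ R : Od D, ∑ w : B, kosM B c χ i p ⟨S, x⟩ ⟨R, w⟩ *
        (kosM B c χ i p)ᴴ ⟨R, w⟩ ⟨T, y⟩ =
        (uv B c p z₀ (i + S.1.card) x * star (uv B c p z₀ (i + T.1.card) y)) *
          (clif (muv B c p z₀ χ) S.1 R.1 * clif (muv B c p z₀ χ) R.1 T.1) := by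
      intro R
      have h2 : ∀ w : B, kosM B c χ i p ⟨S, x⟩ ⟨R, w⟩ *
          (kosM B c χ i p)ᴴ ⟨R, w⟩ ⟨T, y⟩ =
          ((uv B c p z₀ (i + S.1.card) x * star (uv B c p z₀ (i + T.1.card) y)) *
          (clif (muv B c p z₀ χ) S.1 R.1 * clif (muv B c p z₀ χ) R.1 T.1)) *
          (star (uv B c p z₀ (i + R.1.card) w) * uv B c p z₀ (i + R.1.card) w) := by
        intro w
        rw [Matrix.conjTranspose_apply, hM, hM, star_mul', star_mul', star_star, clif_star]
        ring
      rw [Finset.sum_congr rfl (fun w _ => h2 w), ← Finset.mul_sum, sum_star_uv hB, mul_one]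
    rw [Finset.sum_congr rfl (fun R _ => h1 R), ← Finset.mul_sum, sum_Od_clif,
      sum_star_muv hB hχ, one_mul, Matrix.blockDiagonal'_apply]
    by_cases hST : S = T
    · subst hST
      rw [if_pos rfl, dif_pos rfl, mul_one, Qb_uv hB hc hz]
      rfl
    · rw [if_neg hST, dif_neg hST, mul_zero]
  · ext ⟨S, x⟩ ⟨T, y⟩
    rw [Matrix.mul_apply, Fintype.sum_sigma]
    have h1 : ∀ R : Ev D, ∑ w : B, (kosM B c χ i p)ᴴ ⟨S, x⟩ ⟨R, w⟩ *
        kosM B c χ i p ⟨R, w⟩ ⟨T, y⟩ =
        (uv B c p z₀ (i + S.1.card) x * star (uv B c p z₀ (i + T.1.card) y)) *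
          (clif (muv B c p z₀ χ) S.1 R.1 * clif (muv B c p z₀ χ) R.1 T.1) := by
      intro R
      have h2 : ∀ w : B, (kosM B c χ i p)ᴴ ⟨S, x⟩ ⟨R, w⟩ *
          kosM B c χ i p ⟨R, w⟩ ⟨T, y⟩ =
          ((uv B c p z₀ (i + S.1.card) x * star (uv B c p z₀ (i + T.1.card) y)) *
          (clif (muv B c p z₀ χ) S.1 R.1 * clif (muv B c p z₀ χ) R.1 T.1)) *
          (star (uv B c p z₀ (i + R.1.card) w) * uv B c p z₀ (i + R.1.card) w) := by
        intro w
        rw [Matrix.conjTranspose_apply, hM, hM, star_mul', star_mul', star_star, clif_star]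
        ring
      rw [Finset.sum_congr rfl (fun w _ => h2 w), ← Finset.mul_sum, sum_star_uv hB, mul_one]
    rw [Finset.sum_congr rfl (fun R _ => h1 R), ← Finset.mul_sum, sum_Ev_clif,
      sum_star_muv hB hχ, one_mul, Matrix.blockDiagonal'_apply]
    by_cases hST : S = T
    · subst hST
      rw [if_pos rfl, dif_pos rfl, mul_one, Qb_uv hB hc hz]
      rfl
    · rw [if_neg hST, dif_neg hST, mul_zero]

end Vale.Agent.P212
end
end

section

section

/-! The relation between the ranks given by the Koszul isomorphism. -/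

namespace Vale.Agent.P212

open Matrix
open scoped Matrix.Norms.L2Operator

theorem IsBun.blockDiagonal' {α ι B : Type} [Fintype ι] [DecidableEq ι] [Fintype B]
    [DecidableEq B] {Q : ι → α → Matrix B B ℂ} (h : ∀ i, IsBun (Q i)) :
    IsBun (fun a => Matrix.blockDiagonal' (fun i => Q i a)) := by
  intro a
  constructor
  · rw [Matrix.blockDiagonal'_conjTranspose]
    congr 1
    funext i
    exact (h i a).1
  · rw [← Matrix.blockDiagonal'_mul]
    congr 1
    funext i
    exact (h i a).2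

theorem AlmComm.blockDiagonal' {α ι B : Type} [Fintype α] [DecidableEq α] [Fintype ι]
    [DecidableEq ι] [Fintype B] [DecidableEq B] {Q : ι → α → Matrix B B ℂ} {δ : ℝ}
    (hδ : 0 ≤ δ) {x : Matrix α α ℂ} (h : ∀ i, AlmComm δ x (Q i)) :
    AlmComm δ x (fun a => Matrix.blockDiagonal' (fun i => Q i a)) := by
  rintro ⟨i, b⟩ ⟨i', b'⟩
  by_cases hi : i = i'
  · subst hi
    simp only [Matrix.blockDiagonal'_apply_eq]
    exact h i b b'
  · simp only [Matrix.blockDiagonal'_apply_ne _ _ _ hi, star_zero]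
    simp [hδ]

theorem kos_step (C : ℝ) (b : ℕ) : ∃ δ > 0, ∀ (α B : Type) [Fintype α] [DecidableEq α]
    [Fintype B] [DecidableEq B] (D i : ℕ) (x : Matrix α α ℂ) (Q : ℕ → α → Matrix B B ℂ)
    (M : α → Matrix (Σ _ : Ev D, B) (Σ _ : Od D, B) ℂ),
    Fintype.card (Σ _ : Ev D, B) ≤ b → Fintype.card (Σ _ : Od D, B) ≤ b →
    ‖x‖ ≤ C → ‖x * x - x‖ ≤ δ →
    (∀ a, M a * (M a)ᴴ = Matrix.blockDiagonal' (fun S : Ev D => Q (i + S.1.card) a)) →
    (∀ a, (M a)ᴴ * M a = Matrix.blockDiagonal' (fun S : Od D => Q (i + S.1.card) a)) →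
    (∀ l ≤ i + D, IsBun (Q l)) → (∀ l ≤ i + D, AlmComm δ x (Q l)) → AlmComm δ x M →
    ∑ S : Ev D, rk (tw (Q (i + S.1.card)) x) = ∑ S : Od D, rk (tw (Q (i + S.1.card)) x) := by
  obtain ⟨δ₁, hδ₁, h₁⟩ := rk_tw_iso C b
  obtain ⟨δ₂, hδ₂, h₂⟩ := rk_tw_sum C b
  refine ⟨min δ₁ δ₂, lt_min hδ₁ hδ₂, ?_⟩
  intro α B _ _ _ _ D i x Q M hb1 hb2 hx hxx hM1 hM2 hQ hQc hMc
  have hcard : ∀ S : Finset (Fin D), i + S.card ≤ i + D := fun S =>
    Nat.add_le_add_left ((Finset.card_le_univ S).trans_eq (Fintype.card_fin D)) i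
  have hδ : 0 ≤ min δ₁ δ₂ := (lt_min hδ₁ hδ₂).le
  have hmono : ∀ {B B' : Type} (M : α → Matrix B B' ℂ) {δ δ' : ℝ}, δ ≤ δ' →
      AlmComm δ x M → AlmComm δ' x M := fun M _ _ h h' b b' =>
    ⟨(h' b b').1.trans h, (h' b b').2.trans h⟩
  have e1 := h₂ α (Ev D) (fun _ => B) hb1 x (fun S => Q (i + S.1.card)) hx
    (hxx.trans (min_le_right _ _)) (fun S => hQ _ (hcard S.1))
    (fun S => hmono _ (min_le_right _ _) (hQc _ (hcard S.1)))
  have e2 := h₂ α (Od D) (fun _ => B) hb2 x (fun S => Q (i + S.1.card)) hx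
    (hxx.trans (min_le_right _ _)) (fun S => hQ _ (hcard S.1))
    (fun S => hmono _ (min_le_right _ _) (hQc _ (hcard S.1)))
  rw [← e1, ← e2]
  refine h₁ α (Σ _ : Ev D, B) (Σ _ : Od D, B) hb1 hb2 x _ _ M hx (hxx.trans (min_le_left _ _))
    hM1 hM2 (IsBun.blockDiagonal' fun S => hQ _ (hcard S.1))
    (IsBun.blockDiagonal' fun S => hQ _ (hcard S.1)) (hmono _ (min_le_left _ _) hMc)
    (hmono _ (min_le_left _ _) (AlmComm.blockDiagonal' hδ fun S => hQc _ (hcard S.1)))
    (hmono _ (min_le_left _ _) (AlmComm.blockDiagonal' hδ fun S => hQc _ (hcard S.1)))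

end Vale.Agent.P212
end
end

section

section

/-! The finite dimensional core of the argument. -/

namespace Vale.Agent.P212

open Matrix
open scoped Matrix.Norms.L2Operator

/-- Signed sums over subsets. -/
theorem sum_parity (D : ℕ) (P : ℕ → ℤ) (i : ℕ) :
    ∑ S : Finset (Fin D), (-1) ^ S.card * P (i + S.card) =
      ∑ S : Ev D, P (i + S.1.card) - ∑ S : Od D, P (i + S.1.card) := by
  rw [← Fintype.sum_subtype_add_sum_subtype (fun S : Finset (Fin D) => Even S.card)
    (fun S => (-1) ^ S.card * P (i + S.card)), sub_eq_add_neg, ← Finset.sum_neg_distrib]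
  congr 1
  · refine Finset.sum_congr rfl fun S _ => ?_
    rw [S.2.neg_one_pow, one_mul]
  · refine Finset.sum_congr rfl fun S _ => ?_
    rw [(Nat.not_even_iff_odd.1 S.2).neg_one_pow]
    ring

theorem AlmComm.mono' {α B B' : Type} [Fintype α] [DecidableEq α] {x : Matrix α α ℂ}
    {M : α → Matrix B B' ℂ} {δ δ' : ℝ} (h : δ ≤ δ') (h' : AlmComm δ x M) :
    AlmComm δ' x M := by
  intro b b'
  exact ⟨(h' b b').1.trans h, (h' b b').2.trans h⟩

theorem core_abs (C : ℝ) (bb : ℕ) : ∃ δ > 0, ∀ (α B : Type) [Fintype α] [DecidableEq α]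
    [Fintype B] [DecidableEq B] (D q : ℕ) (z e f : Matrix α α ℂ) (μ : α → ℝ)
    (Q Qc M : ℕ → α → Matrix B B ℂ) (K : ℕ → α → Matrix (Σ _ : Ev D, B) (Σ _ : Od D, B) ℂ)
    (T A s : ℤ), 1 ≤ D → 1 ≤ q →
    Fintype.card B ≤ bb → Fintype.card (Σ _ : Ev D, B) ≤ bb → Fintype.card (Σ _ : Od D, B) ≤ bb →
    z * z = z → ‖z‖ ≤ C →
    (∀ j ≤ D, IsBun (Q j)) → (∀ j ≤ D, AlmComm δ z (Q j)) →
    (∀ j ≤ D, AlmComm δ z (M j)) → (∀ i ≤ D * q + D, AlmComm δ z (Qc i)) →
    (∀ i ≤ D * q, AlmComm δ z (K i)) →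
    (∀ i, ∀ a, ¬ 1 / 2 < μ a → (Qc i a)ᴴ = Qc i a ∧ Qc i a * Qc i a = Qc i a) →
    (∀ j, ∀ a, ¬ 1 / 2 < μ a → M j a * (M j a)ᴴ = Q j a ∧ (M j a)ᴴ * M j a = Qc (j * q) a) →
    (∀ i, ∀ a, ¬ 1 / 2 < μ a →
      K i a * (K i a)ᴴ = Matrix.blockDiagonal' (fun S : Ev D => Qc (i + S.1.card) a) ∧
      (K i a)ᴴ * K i a = Matrix.blockDiagonal' (fun S : Od D => Qc (i + S.1.card) a)) →
    ‖(z - e) * dgr μ kap1‖ ≤ δ → e * dgr μ kap0 = f * dgr μ kap0 →
    (∀ a b, μ a ≠ μ b → f a b = 0) →
    ‖z * dgr μ kapm - dgr μ kapm * z‖ ≤ δ → ‖z * dgr μ kapp - dgr μ kapp * z‖ ≤ δ →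
    (∀ j ≤ D, (rk (tw (Q j) z) : ℤ) = T) →
    (∀ j ≤ D, NearId (tw (fun a : {a // 1 / 2 < μ a} => Q j a)
        (e.submatrix Subtype.val Subtype.val)) (1 / 8) ∧
      (rk (tw (fun a : {a // 1 / 2 < μ a} => Q j a)
        (e.submatrix Subtype.val Subtype.val)) : ℤ) = A + s * j) →
    (q : ℤ) ∣ s := by
  obtain ⟨δ₁, hδ₁, h₁⟩ := kos_step C bb
  obtain ⟨δ₂, hδ₂, h₂⟩ := rk_tw_iso C bb
  obtain ⟨δ₃, hδ₃, h₃⟩ := rk_tw_split C bb
  set δ' := min (min δ₁ δ₂) (min δ₃ (1 / 16)) with hδ'
  have hδ'0 : 0 < δ' := lt_min (lt_min hδ₁ hδ₂) (lt_min hδ₃ (by norm_num))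
  have l1 : δ' ≤ δ₁ := (min_le_left _ _).trans (min_le_left _ _)
  have l2 : δ' ≤ δ₂ := (min_le_left _ _).trans (min_le_right _ _)
  have l3 : δ' ≤ δ₃ := (min_le_right _ _).trans (min_le_left _ _)
  have l4 : δ' ≤ 1 / 16 := (min_le_right _ _).trans (min_le_right _ _)
  refine ⟨δ' / 2, by positivity, ?_⟩
  intro α B _ _ _ _ D q z e f μ Q Qc M K T A s hD hq hB hB1 hB2 hz hzC hQ hQz hMz hQcz hKz
    hQc hM hK s1 s2 s3 s4 s5 htot hlow
  have hδ2 : δ' / 2 ≤ δ' := by linarith only [hδ'0]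
  obtain ⟨o12, o21, o11⟩ := split_offdiag z e f μ (δ' / 2) s1 s2 s3 s4 s5
  set x := z.submatrix (spl μ) (spl μ) with hx
  have hxx : x * x = x := by rw [hx, submatrix_mul_equiv, hz]
  have hxn : ‖x‖ ≤ C := (norm_submatrix_le z _ _ (spl μ).injective (spl μ).injective).trans hzC
  set x₂ := x.toBlocks₂₂ with hx₂
  have hx₂z : x₂ = z.submatrix (Subtype.val : {a // ¬ 1 / 2 < μ a} → α) Subtype.val := rfl
  have hx₂n : ‖x₂‖ ≤ C := by
    rw [hx₂z]
    exact (norm_submatrix_le z _ _ Subtype.val_injective Subtype.val_injective).trans hzC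
  have hoff : ‖x.toBlocks₂₁‖ * ‖x.toBlocks₁₂‖ ≤ δ' := by
    have h1 : ‖x.toBlocks₂₁‖ ≤ δ' := by linarith only [o21]
    have h2 : ‖x.toBlocks₁₂‖ ≤ 1 := by linarith only [o12, l4, hδ'0]
    calc _ ≤ δ' * 1 := mul_le_mul h1 h2 (norm_nonneg _) hδ'0.le
      _ = δ' := mul_one _
  have hx₂x : ‖x₂ * x₂ - x₂‖ ≤ δ' := by
    have h1 : x.toBlocks₂₁ * x.toBlocks₁₂ + x₂ * x₂ = x₂ := by
      have h2 := congrArg toBlocks₂₂ hxx
      rw [← fromBlocks_toBlocks x, fromBlocks_multiply, toBlocks_fromBlocks₂₂] at h2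
      simpa using h2
    have h3 : x₂ * x₂ - x₂ = - (x.toBlocks₂₁ * x.toBlocks₁₂) := by
      rw [sub_eq_iff_eq_add, ← sub_eq_neg_add, eq_sub_iff_add_eq, add_comm, h1]
    rw [h3, norm_neg]
    exact (l2_opNorm_mul _ _).trans hoff
  -- the rank function on the deep part
  set P : ℕ → ℤ := fun i =>
    (rk (tw (fun a : {a // ¬ 1 / 2 < μ a} => Qc i a.1) x₂) : ℤ) with hP
  have hcomm : ∀ {B₁ B₂ : Type} [Fintype B₁] [DecidableEq B₁] [Fintype B₂] [DecidableEq B₂]
      (N : α → Matrix B₁ B₂ ℂ), AlmComm (δ' / 2) z N →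
      AlmComm δ' x₂ (fun a : {a // ¬ 1 / 2 < μ a} => N a.1) := by
    intro B₁ B₂ _ _ _ _ N h
    rw [hx₂z]
    exact AlmComm.mono' hδ2 (AlmComm.submatrix h Subtype.val_injective)
  have hP1 : ∀ i ≤ D * q, ∑ S : Finset (Fin D), (-1) ^ S.card * P (i + S.card) = 0 := by
    intro i hi
    rw [sum_parity, sub_eq_zero, hP]
    have h4 := h₁ {a // ¬ 1 / 2 < μ a} B D i x₂ (fun i a => Qc i a.1) (fun a => K i a.1)
      hB1 hB2 hx₂n (hx₂x.trans l1) (fun a => (hK i a.1 a.2).1) (fun a => (hK i a.1 a.2).2)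
      (fun l _ a => hQc l a.1 a.2)
      (fun l hl => AlmComm.mono' l1 (hcomm (Qc l) (hQcz l (by omega))))
      (AlmComm.mono' l1 (hcomm (K i) (hKz i hi)))
    have h5 := congrArg (Nat.cast : ℕ → ℤ) h4
    push_cast at h5
    exact h5
  have hP2 : ∀ j ≤ D, P (j * q) = (T - A) - s * j := by
    intro j hj
    have hjq : j * q ≤ D * q + D := by nlinarith
    -- total rank
    have e1 := h₃ {a // 1 / 2 < μ a} {a // ¬ 1 / 2 < μ a} B hB x
      (fun a => Q j (spl μ a)) hxn (by rw [hxx, sub_self, norm_zero]; exact hδ₃.le)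
      (fun a => hQ j hj _)
      (AlmComm.mono' (hδ2.trans l3) (AlmComm.submatrix (hQz j hj) (spl μ).injective))
      (by linarith only [o12, l3]) (by linarith only [o21, l3])
    rw [hx, rk_tw_reindex (spl μ) (Q j) z, ← hx] at e1
    -- low part
    have e2 : rk (tw (fun a : {a // 1 / 2 < μ a} => Q j a)
        (e.submatrix Subtype.val Subtype.val)) =
        rk (tw (fun a : {a // 1 / 2 < μ a} => Q j a) x.toBlocks₁₁) := by
      refine rk_eq_of_close (hlow j hj).1 ?_
      rw [← tw_sub]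
      refine (norm_tw_le (fun a => hQ j hj a.1) _).trans_lt ?_
      rw [← norm_neg, neg_sub]
      exact lt_of_le_of_lt o11 (by linarith only [l4, hδ'0])
    -- deep part
    have e3 : rk (tw (fun a : {a // ¬ 1 / 2 < μ a} => Q j a.1) x₂) =
        rk (tw (fun a : {a // ¬ 1 / 2 < μ a} => Qc (j * q) a.1) x₂) := by
      refine h₂ {a // ¬ 1 / 2 < μ a} B B hB hB x₂ _ _ (fun a => M j a.1) hx₂n
        (hx₂x.trans l2) (fun a => (hM j a.1 a.2).1) (fun a => (hM j a.1 a.2).2)
        (fun a => hQ j hj a.1) (fun a => hQc _ a.1 a.2)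
        (AlmComm.mono' l2 (hcomm (M j) (hMz j hj)))
        (AlmComm.mono' l2 (hcomm (Q j) (hQz j hj)))
        (AlmComm.mono' l2 (hcomm (Qc (j * q)) (hQcz _ hjq)))
    have e4 := htot j hj
    have e5 := (hlow j hj).2
    have e6 : (rk (tw (Q j) z) : ℤ) = rk (tw (fun a : {a // 1 / 2 < μ a} => Q j a)
        x.toBlocks₁₁) + rk (tw (fun a : {a // ¬ 1 / 2 < μ a} => Q j a.1) x₂) := by
      exact_mod_cast e1
    rw [e4, ← e2, e5, e3] at e6
    rw [hP]
    linarith
  have := dvd_of_diff D q hD hq P (T - A) s hP1 hP2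
  exact this

end Vale.Agent.P212
end
end
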