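import Vale.Agent.P212.MathlibUsed
import Vale.Agent.P212.Geo

set_option linter.all false

namespace AFastda8c2ex5a
@[reducible] def a0 : AddMonoidWithOne ENNReal := inferInstance
@[reducible] def a1 : Monoid ℂ := inferInstance
theorem a2 : AddLeftMono ℝ := inferInstance
theorem a3 : CharZero ℝ := inferInstance
theorem a4 : RingHomIsometric (RingHom.id ℂ) := inferInstance
theorem a5 : CovariantClass ℝ ℝ (Function.swap fun x1 x2 => x1 + x2) fun x1 x2 => x1 ≤ x2 := inferInstance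
end AFastda8c2ex5a
attribute [local instance] AFastda8c2ex5a.a0 AFastda8c2ex5a.a1 AFastda8c2ex5a.a2 AFastda8c2ex5a.a3
  AFastda8c2ex5a.a4 AFastda8c2ex5a.a5
namespace AFastda8c2ex5b
theorem a0 {x1 : Type} [x2 : SeminormedRing x1] : T2Space (UniformSpace.Completion x1) := inferInstance
end AFastda8c2ex5b
attribute [local instance] AFastda8c2ex5b.a0
section

section

/-! Towers of finite quotients of the free group on three generators. -/

namespace Vale.Agent.P212

/-- The free group on three generators. -/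
abbrev F3 : Type := FreeGroup (Fin 3)

/-- The generators. -/
def gen (i : Fin 3) : F3 := FreeGroup.of i

/-- A tower of finite quotients `F3 / N m` with bounded steps, in which the three generators
have order three and generate pairwise a group of order 21, together with elements
`g n 0`, `g n 1` commuting modulo `N (2 n)` and a function `t` which trivialises the
corresponding class on the torus modulo `11 ^ n`. -/
structure Tower where
  N : ℕ → Subgroup F3
  normal : ∀ m, (N m).Normal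
  anti : Antitone N
  top : N 0 = ⊤
  step : ∃ C : ℕ, ∀ m, (N (m + 1)).relIndex (N m) ≠ 0 ∧ (N (m + 1)).relIndex (N m) ≤ C
  cube : ∀ m i, gen i ^ 3 ∈ N m
  rel : ∀ m i, (gen (i + 1) * gen i * gen (i + 1) * gen i)⁻¹ * (gen i * gen (i + 1)) ∈ N m
  g : ℕ → Fin 2 → F3
  comm : ∀ n, (g n 1 * g n 0)⁻¹ * (g n 0 * g n 1) ∈ N (2 * n)
  short : ∀ R : ℕ, ∃ n₁ : ℕ, ∀ n ≥ n₁, ∀ v : F3, v.toWord.length ≤ R →
    v ∈ N (2 * n) → v ∈ N (3 * n)
  t : ∀ n : ℕ, ℤ → ℤ → F3 → ZMod (11 ^ n)
  t_mul : ∀ (n : ℕ) (i j i' j' : ℤ) (v v' : F3), (g n 0 ^ i * g n 1 ^ j)⁻¹ * v ∈ N (2 * n) →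
    (g n 0 ^ i' * g n 1 ^ j')⁻¹ * v' ∈ N (2 * n) →
    t n (i + i') (j + j') (v * v') = t n i j v + t n i' j' v' + ((i * j' : ℤ) : ZMod (11 ^ n))
  t_N : ∀ (n : ℕ) (v : F3), v ∈ N (3 * n) → t n 0 0 v = 0

namespace Tower

variable (τ : Tower)

instance (m : ℕ) : (τ.N m).Normal := τ.normal m

/-- The finite quotient groups. -/
abbrev G (m : ℕ) : Type := F3 ⧸ τ.N m

/-- The reduction homomorphisms. -/
def red {m m' : ℕ} (h : m ≤ m') : τ.G m' →* τ.G m :=
  QuotientGroup.map (τ.N m') (τ.N m) (MonoidHom.id F3) (by simpa using τ.anti h)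

theorem red_mk {m m' : ℕ} (h : m ≤ m') (v : F3) :
    τ.red h (QuotientGroup.mk v) = QuotientGroup.mk v := rfl

theorem red_surjective {m m' : ℕ} (h : m ≤ m') : Function.Surjective (τ.red h) := by
  intro y
  induction y using QuotientGroup.induction_on with | H v => exact ⟨QuotientGroup.mk v, rfl⟩

theorem red_red {m m' m'' : ℕ} (h : m ≤ m') (h' : m' ≤ m'') (y : τ.G m'') :
    τ.red h (τ.red h' y) = τ.red (h.trans h') y := by
  induction y using QuotientGroup.induction_on with | H v => rfl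

theorem index_ne_zero (m : ℕ) : (τ.N m).index ≠ 0 := by
  induction m with
  | zero => rw [τ.top]; simp
  | succ m ih =>
    obtain ⟨C, hC⟩ := τ.step
    rw [← Subgroup.relIndex_mul_index (τ.anti (Nat.le_succ m))]
    exact mul_ne_zero (hC m).1 ih

instance (m : ℕ) : Finite (τ.G m) := by
  have : (τ.N m).FiniteIndex := ⟨τ.index_ne_zero m⟩
  exact Subgroup.finite_quotient_of_finiteIndex

/-- The image of a generator. -/
def gm (m : ℕ) (i : Fin 3) : τ.G m := QuotientGroup.mk (gen i)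

/-- The two commuting monodromy elements. -/
def mon (n m : ℕ) (k : Fin 2) : τ.G m := QuotientGroup.mk (τ.g n k)

theorem mon_comm (n m : ℕ) (h : m ≤ 2 * n) : Commute (τ.mon n m 0) (τ.mon n m 1) := by
  have := τ.anti h (τ.comm n)
  change τ.mon n m 0 * τ.mon n m 1 = τ.mon n m 1 * τ.mon n m 0
  change (QuotientGroup.mk (τ.g n 0 * τ.g n 1) : τ.G m) = QuotientGroup.mk (τ.g n 1 * τ.g n 0)
  exact (QuotientGroup.eq.2 this).symm

end Tower

/-- The discrete torus of side `n + 1`. -/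
abbrev Torus (n : ℕ) : Type := ZMod (n + 1) × ZMod (n + 1)

/-- The shortest displacement from `i'` to `i`. -/
def disp {n : ℕ} (i i' : ZMod (n + 1)) : ℤ := (i - i').valMinAbs

/-- The number of times the shortest path from `i'` to `i` crosses the seam. -/
def cross {n : ℕ} (i i' : ZMod (n + 1)) : ℤ := ((i'.val : ℤ) + disp i i' - i.val) / (n + 1 : ℕ)

/-- The size of the displacement of two points of the torus. -/
def tdist {n : ℕ} (w w' : Torus n) : ℕ := (disp w.1 w'.1).natAbs + (disp w.2 w'.2).natAbs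

/-- The holonomy of the shortest path from `w'` to `w`. -/
def hol (τ : Tower) {n m : ℕ} (w w' : Torus n) : τ.G m :=
  τ.mon n m 0 ^ (-cross w.1 w'.1) * τ.mon n m 1 ^ (-cross w.2 w'.2)

theorem cast_disp {n : ℕ} (i i' : ZMod (n + 1)) : ((disp i i' : ℤ) : ZMod (n + 1)) = i - i' :=
  ZMod.coe_valMinAbs _

theorem cross_spec {n : ℕ} (i i' : ZMod (n + 1)) :
    (i'.val : ℤ) + disp i i' = i.val + (n + 1 : ℕ) * cross i i' := by
  have hd : ((n + 1 : ℕ) : ℤ) ∣ (i'.val : ℤ) + disp i i' - i.val := by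
    rw [← ZMod.intCast_zmod_eq_zero_iff_dvd]
    push_cast
    rw [cast_disp, ZMod.natCast_zmod_val, ZMod.natCast_zmod_val]
    ring
  have h := Int.mul_ediv_cancel' hd
  have h2 : ((n + 1 : ℕ) : ℤ) * cross i i' = (i'.val : ℤ) + disp i i' - i.val := h
  rw [h2]
  ring

theorem disp_self {n : ℕ} (i : ZMod (n + 1)) : disp i i = 0 := by
  simp [disp]

theorem cross_self {n : ℕ} (i : ZMod (n + 1)) : cross i i = 0 := by
  simp [cross, disp_self]

theorem disp_eq_of {n : ℕ} {i i' : ZMod (n + 1)} {y : ℤ} (h : (y : ZMod (n + 1)) = i - i')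
    (hy : 2 * y.natAbs ≤ n) : disp i i' = y := by
  unfold disp
  rw [ZMod.valMinAbs_spec]
  refine ⟨h.symm, ?_, ?_⟩
  · push_cast; omega
  · push_cast; omega

theorem cross_eq_of {n : ℕ} {i i' : ZMod (n + 1)} {c : ℤ}
    (h : (i'.val : ℤ) + disp i i' = i.val + (n + 1 : ℕ) * c) : cross i i' = c := by
  have h1 := cross_spec i i'
  rw [h] at h1
  have h2 : ((n + 1 : ℕ) : ℤ) * c = (n + 1 : ℕ) * cross i i' := by linarith
  have h3 : ((n + 1 : ℕ) : ℤ) ≠ 0 := by positivity
  exact (mul_left_cancel₀ h3 h2).symm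

theorem disp_add {n : ℕ} {i i' i'' : ZMod (n + 1)}
    (h : 2 * ((disp i i').natAbs + (disp i' i'').natAbs) ≤ n) :
    disp i i'' = disp i i' + disp i' i'' := by
  apply disp_eq_of
  · push_cast
    rw [cast_disp, cast_disp]
    ring
  · have := Int.natAbs_add_le (disp i i') (disp i' i'')
    omega

theorem cross_add {n : ℕ} {i i' i'' : ZMod (n + 1)}
    (h : 2 * ((disp i i').natAbs + (disp i' i'').natAbs) ≤ n) :
    cross i i'' = cross i i' + cross i' i'' := by
  apply cross_eq_of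
  rw [disp_add h]
  have h1 := cross_spec i i'
  have h2 := cross_spec i' i''
  linear_combination h1 + h2

theorem disp_symm {n : ℕ} {i i' : ZMod (n + 1)} (h : 2 * (disp i i').natAbs ≤ n) :
    disp i' i = - disp i i' := by
  apply disp_eq_of
  · push_cast
    rw [cast_disp]
    ring
  · rw [Int.natAbs_neg]; exact h

theorem cross_symm {n : ℕ} {i i' : ZMod (n + 1)} (h : 2 * (disp i i').natAbs ≤ n) :
    cross i' i = - cross i i' := by
  apply cross_eq_of
  rw [disp_symm h]
  have h1 := cross_spec i i'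
  linear_combination -h1

theorem hol_self (τ : Tower) {n m : ℕ} (w : Torus n) : hol τ (m := m) w w = 1 := by
  simp [hol, cross_self]

theorem hol_mul (τ : Tower) {n m : ℕ} (hm : m ≤ 2 * n) {w w' w'' : Torus n}
    (h : 2 * (tdist w w' + tdist w' w'') ≤ n) :
    hol τ (m := m) w w' * hol τ (m := m) w' w'' = hol τ (m := m) w w'' := by
  have hc := τ.mon_comm n m hm
  unfold tdist at h
  have h1 : cross w.1 w''.1 = cross w.1 w'.1 + cross w'.1 w''.1 := cross_add (by omega)
  have h2 : cross w.2 w''.2 = cross w.2 w'.2 + cross w'.2 w''.2 := cross_add (by omega)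
  unfold hol
  rw [h1, h2, neg_add, neg_add, zpow_add, zpow_add]
  have hc2 := (hc.zpow_zpow (-cross w'.1 w''.1) (-cross w.2 w'.2)).eq
  generalize τ.mon n m 0 ^ (-cross w.1 w'.1) = a at *
  generalize τ.mon n m 0 ^ (-cross w'.1 w''.1) = b at *
  generalize τ.mon n m 1 ^ (-cross w.2 w'.2) = c at *
  generalize τ.mon n m 1 ^ (-cross w'.2 w''.2) = d at *
  calc a * c * (b * d) = a * (c * b) * d := by simp only [mul_assoc]
    _ = a * (b * c) * d := by rw [hc2]
    _ = a * b * (c * d) := by simp only [mul_assoc]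

theorem hol_symm (τ : Tower) {n m : ℕ} (hm : m ≤ 2 * n) {w w' : Torus n}
    (h : 2 * tdist w w' ≤ n) : hol τ (m := m) w' w = (hol τ (m := m) w w')⁻¹ := by
  have hc := τ.mon_comm n m hm
  unfold tdist at h
  have h1 : cross w'.1 w.1 = - cross w.1 w'.1 := cross_symm (by omega)
  have h2 : cross w'.2 w.2 = - cross w.2 w'.2 := cross_symm (by omega)
  unfold hol
  rw [h1, h2, mul_inv_rev, ← zpow_neg, ← zpow_neg]
  exact (hc.zpow_zpow _ _).eq

theorem red_hol (τ : Tower) {n m m' : ℕ} (h : m ≤ m') (w w' : Torus n) :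
    τ.red h (hol τ w w') = hol τ w w' := by
  simp only [hol, map_mul, map_zpow]
  rfl

end Vale.Agent.P212
end
end
namespace AFastda8c2ex217a
@[reducible] def a0 {x1 : Vale.Agent.P212.Tower} {x2 : ℕ} {x3 : ℕ} : MulOne (x1.G (min x2 (2 * x3))) := inferInstance
@[reducible] def a1 {x1 : Vale.Agent.P212.Tower} {x2 : ℕ} {x3 : ℕ} : MulOneClass (x1.G (min x2 (2 * x3))) := inferInstance
@[reducible] def a2 {x1 : Vale.Agent.P212.Tower} {x2 : ℕ} {x3 : ℕ} : Monoid (x1.G (min x2 (2 * x3))) := inferInstance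
@[reducible] def a3 : Monoid Vale.Agent.P212.F3 := inferInstance
@[reducible] def a4 {x1 : Vale.Agent.P212.Tower} {x2 : ℕ} {x3 : ℕ} : Mul (x1.G (min x2 (2 * x3))) := inferInstance
@[reducible] def a5 : MulOne Vale.Agent.P212.F3 := inferInstance
@[reducible] def a6 : MulOneClass Vale.Agent.P212.F3 := inferInstance
@[reducible] def a7 {x1 : Vale.Agent.P212.Tower} {x2 : ℕ} : Mul (x1.G (2 * x2)) := inferInstance
@[reducible] def a8 {x1 : Vale.Agent.P212.Tower} {x2 : ℕ} : InvOneClass (x1.G (2 * x2)) := inferInstance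
@[reducible] def a9 {x1 : Vale.Agent.P212.Tower} {x2 : ℕ} : DivisionMonoid (x1.G (2 * x2)) := inferInstance
@[reducible] def a10 {x1 : Vale.Agent.P212.Tower} {x2 : ℕ} : DivInvOneMonoid (x1.G (2 * x2)) := inferInstance
@[reducible] def a11 {x1 : Vale.Agent.P212.Tower} {x2 : ℕ} : DivisionMonoid (x1.G x2) := inferInstance
@[reducible] def a12 {x1 : Vale.Agent.P212.Tower} {x2 : ℕ} : MulOne (x1.G (2 * x2)) := inferInstance
@[reducible] def a13 {x1 : Vale.Agent.P212.Tower} {x2 : ℕ} : MulOneClass (x1.G (2 * x2)) := inferInstance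
@[reducible] def a14 {x1 : Vale.Agent.P212.Tower} {x2 : ℕ} : Monoid (x1.G (2 * x2)) := inferInstance
@[reducible] def a15 : Pow Vale.Agent.P212.F3 ℕ := inferInstance
@[reducible] def a16 {x1 : Vale.Agent.P212.Tower} {x2 : ℕ} : MulOne (x1.G x2) := inferInstance
@[reducible] def a17 {x1 : Vale.Agent.P212.Tower} {x2 : ℕ} : MulOneClass (x1.G x2) := inferInstance
@[reducible] def a18 : NPow Vale.Agent.P212.F3 := inferInstance
@[reducible] def a19 {x1 : Vale.Agent.P212.Tower} {x2 : ℕ} : Monoid (x1.G x2) := inferInstance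
@[reducible] def a20 {x1 : Vale.Agent.P212.Tower} {x2 : ℕ} : InvOneClass (x1.G x2) := inferInstance
@[reducible] def a21 {x1 : Vale.Agent.P212.Tower} {x2 : ℕ} : DivInvOneMonoid (x1.G x2) := inferInstance
@[reducible] def a22 {x1 : Vale.Agent.P212.Tower} {x2 : ℕ} {x3 : ℕ} : MulOne (x1.G (min x2.succ (2 * x3))) := inferInstance
@[reducible] def a23 {x1 : Vale.Agent.P212.Tower} {x2 : ℕ} {x3 : ℕ} : MulOneClass (x1.G (min x2.succ (2 * x3))) := inferInstance
@[reducible] def a24 {x1 : Vale.Agent.P212.Tower} {x2 : ℕ} : Mul (x1.G x2) := inferInstance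
end AFastda8c2ex217a
attribute [local instance] AFastda8c2ex217a.a0 AFastda8c2ex217a.a1 AFastda8c2ex217a.a2
  AFastda8c2ex217a.a3 AFastda8c2ex217a.a4 AFastda8c2ex217a.a5 AFastda8c2ex217a.a6
  AFastda8c2ex217a.a7 AFastda8c2ex217a.a8 AFastda8c2ex217a.a9 AFastda8c2ex217a.a10
  AFastda8c2ex217a.a11 AFastda8c2ex217a.a12 AFastda8c2ex217a.a13 AFastda8c2ex217a.a14
  AFastda8c2ex217a.a15 AFastda8c2ex217a.a16 AFastda8c2ex217a.a17 AFastda8c2ex217a.a18
  AFastda8c2ex217a.a19 AFastda8c2ex217a.a20 AFastda8c2ex217a.a21 AFastda8c2ex217a.a22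
  AFastda8c2ex217a.a23 AFastda8c2ex217a.a24
namespace AFastda8c2ex217b
@[reducible] def a0 {x1 : Vale.Agent.P212.Tower} {x2 : ℕ} {x3 : ℕ} : One (x1.G (min x2 (2 * x3))) := inferInstance
@[reducible] def a1 {x1 : Vale.Agent.P212.Tower} {x2 : ℕ} : One (x1.G (2 * x2)) := inferInstance
end AFastda8c2ex217b
attribute [local instance] AFastda8c2ex217b.a0 AFastda8c2ex217b.a1

section

section

namespace Vale.Agent.P212

open UniformSpace

/-- C*-seminorms on a unital complex *-algebra. -/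
class IsCStarSeminorm {R : Type} [Ring R] [StarRing R] [Algebra ℂ R] (p : R → ℝ) : Prop where
  add_le : ∀ a b, p (a + b) ≤ p a + p b
  smul : ∀ (c : ℂ) (a : R), p (c • a) = ‖c‖ * p a
  mul_le : ∀ a b, p (a * b) ≤ p a * p b
  star_mul : ∀ a, p (star a * a) = p a ^ 2

namespace IsCStarSeminorm

variable {R : Type} [Ring R] [StarRing R] [Algebra ℂ R] (p : R → ℝ) [IsCStarSeminorm p]

theorem zero : p 0 = 0 := by
  have := smul (p := p) 0 (0 : R)
  simpa using this

theorem neg (a : R) : p (-a) = p a := by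
  have := smul (p := p) (-1) a
  simpa using this

theorem nonneg (a : R) : 0 ≤ p a := by
  have := add_le (p := p) a (-a)
  rw [add_neg_cancel, zero p, neg p] at this
  linarith

theorem star_eq (a : R) : p (star a) = p a := by
  have key : ∀ b : R, p b ≤ p (star b) := by
    intro b
    have h1 := star_mul (p := p) b
    have h2 := mul_le (p := p) (star b) b
    rw [h1] at h2
    rcases (nonneg p b).eq_or_lt with h | h
    · rw [← h]
      exact nonneg p _
    · rw [sq] at h2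
      exact le_of_mul_le_mul_right h2 h
  refine le_antisymm ?_ (key a)
  simpa using key (star a)

theorem one_le : p 1 ≤ 1 := by
  have h := star_mul (p := p) 1
  rw [star_one, one_mul] at h
  linarith only [sq_nonneg (p 1 - 1), h]

end IsCStarSeminorm

/-- The *-algebra `R`, equipped with the C*-seminorm `p`. -/
def WithSN {R : Type} (_p : R → ℝ) : Type := R

namespace WithSN

variable {R : Type} [Ring R] [StarRing R] [Algebra ℂ R] (p : R → ℝ)

instance : Ring (WithSN p) := inferInstanceAs (Ring R)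
instance : StarRing (WithSN p) := inferInstanceAs (StarRing R)
instance : Algebra ℂ (WithSN p) := inferInstanceAs (Algebra ℂ R)
instance [StarModule ℂ R] : StarModule ℂ (WithSN p) := inferInstanceAs (StarModule ℂ R)

variable [IsCStarSeminorm p]

noncomputable instance : SeminormedRing (WithSN p) :=
  RingSeminorm.toSeminormedRing
    { toFun := p
      map_zero' := IsCStarSeminorm.zero p
      add_le' := IsCStarSeminorm.add_le (p := p)
      neg' := IsCStarSeminorm.neg p
      mul_le' := IsCStarSeminorm.mul_le (p := p) }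

noncomputable instance : NormedAlgebra ℂ (WithSN p) where
  norm_smul_le c a := (IsCStarSeminorm.smul (p := p) c a).le

instance : NormedStarGroup (WithSN p) where
  norm_star_le a := (IsCStarSeminorm.star_eq p a).le

end WithSN

/-- The C*-identity for a seminormed *-ring. -/
class IsCStarSeminormed (A : Type) [SeminormedRing A] [StarRing A] : Prop where
  norm_mul_self_le : ∀ x : A, ‖x‖ * ‖x‖ ≤ ‖star x * x‖

instance {R : Type} [Ring R] [StarRing R] [Algebra ℂ R] (p : R → ℝ) [IsCStarSeminorm p] :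
    IsCStarSeminormed (WithSN p) where
  norm_mul_self_le x := by
    rw [← sq]
    exact (IsCStarSeminorm.star_mul (p := p) x).ge

section Completion

variable (A : Type) [SeminormedRing A] [StarRing A] [NormedStarGroup A]

noncomputable instance instStarCompletion : Star (Completion A) := ⟨Completion.map star⟩

theorem coe_star (a : A) : ((star a : A) : Completion A) = star (a : Completion A) :=
  (Completion.map_coe star_isometry.uniformContinuous a).symm

theorem continuous_star_completion : Continuous (star : Completion A → Completion A) :=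
  Completion.continuous_map

noncomputable instance instStarRingCompletion : StarRing (Completion A) where
  star_involutive a := by
    induction a using Completion.induction_on with
    | hp => exact isClosed_eq ((continuous_star_completion A).comp
        (continuous_star_completion A)) continuous_id
    | ih a => rw [← coe_star, ← coe_star, star_star]
  star_mul a b := by
    induction a, b using Completion.induction_on₂ with
    | hp =>
      have := continuous_star_completion A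
      exact isClosed_eq (by fun_prop) (by fun_prop)
    | ih a b =>
      rw [← Completion.coe_mul, ← coe_star, ← coe_star, ← coe_star, star_mul, Completion.coe_mul]
  star_add a b := by
    induction a, b using Completion.induction_on₂ with
    | hp =>
      have := continuous_star_completion A
      exact isClosed_eq (by fun_prop) (by fun_prop)
    | ih a b =>
      rw [← Completion.coe_add, ← coe_star, ← coe_star, ← coe_star, star_add, Completion.coe_add]

variable [NormedAlgebra ℂ A] [StarModule ℂ A] [IsCStarSeminormed A]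

instance instCStarRingCompletion : CStarRing (Completion A) where
  norm_mul_self_le a := by
    induction a using Completion.induction_on with
    | hp =>
      have := continuous_star_completion A
      exact isClosed_le (by fun_prop) (by fun_prop)
    | ih a =>
      rw [← coe_star, ← Completion.coe_mul, Completion.norm_coe, Completion.norm_coe]
      exact IsCStarSeminormed.norm_mul_self_le a

noncomputable instance instNormedAlgebraCompletion : NormedAlgebra ℂ (Completion A) where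
  norm_smul_le := norm_smul_le

theorem star_smul_completion (c : ℂ) (a : Completion A) :
    star (c • a) = star c • star a := by
  have hs := continuous_star_completion A
  refine Completion.induction_on a (isClosed_eq (hs.comp (continuous_const_smul c))
    ((continuous_const_smul (star c)).comp hs)) (fun a => ?_)
  have h1 : c • (a : Completion A) = ((c • a : A) : Completion A) :=
    (Completion.coe_smul c a).symm
  have h2 : star c • ((star a : A) : Completion A) = ((star c • star a : A) : Completion A) :=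
    (Completion.coe_smul (star c) (star a)).symm
  calc star (c • (a : Completion A)) = star (((c • a : A) : Completion A)) := congrArg star h1
    _ = ((star (c • a) : A) : Completion A) := (coe_star A (c • a)).symm
    _ = ((star c • star a : A) : Completion A) := by rw [star_smul]
    _ = star c • ((star a : A) : Completion A) := h2.symm
    _ = star c • star (a : Completion A) := by rw [coe_star]

instance instStarModuleCompletion : StarModule ℂ (Completion A) where
  star_smul := star_smul_completion A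

/-- The completion of a *-algebra in a C*-seminorm is a C*-algebra. -/
noncomputable instance instCStarAlgebraCompletion : CStarAlgebra (Completion A) where

end Completion

section ToCompletion

variable {R : Type} [Ring R] [StarRing R] [Algebra ℂ R] [StarModule ℂ R] (p : R → ℝ)

/-- The identity map `R → WithSN p`. -/
def WithSN.mk (a : R) : WithSN p := a

variable [IsCStarSeminorm p]

/-- The canonical *-homomorphism from `R` to its completion in the C*-seminorm `p`. -/
noncomputable def toC : R →⋆ₐ[ℂ] Completion (WithSN p) where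
  toFun a := (WithSN.mk p a : Completion (WithSN p))
  map_one' := Completion.coe_one (WithSN p)
  map_mul' a b := Completion.coe_mul (WithSN.mk p a) (WithSN.mk p b)
  map_zero' := Completion.coe_zero
  map_add' a b := Completion.coe_add (WithSN.mk p a) (WithSN.mk p b)
  commutes' _ := rfl
  map_star' a := coe_star (WithSN p) (WithSN.mk p a)

theorem norm_toC (a : R) : ‖toC p a‖ = p a := Completion.norm_coe (WithSN.mk p a)

theorem denseRange_toC : DenseRange (toC p) := Completion.denseRange_coe (α := WithSN p)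

end ToCompletion

end Vale.Agent.P212
end
end

section

section

namespace Vale.Agent.P212

/-- The Hilbert space `l^2(J)`. -/
abbrev L2 (J : Type) : Type := lp (fun _ : J => ℂ) 2

section
variable (J : Type)
noncomputable instance (priority := 2000) l2nacg : NormedAddCommGroup (L2 J) :=
  lp.normedAddCommGroup
noncomputable instance (priority := 2000) l2ips : InnerProductSpace ℂ (L2 J) :=
  lp.instInnerProductSpace
noncomputable instance (priority := 2000) l2ns : NormedSpace ℂ (L2 J) := lp.instNormedSpace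
noncomputable instance (priority := 2000) l2acg : AddCommGroup (L2 J) :=
  (lp (fun _ : J => ℂ) 2).toAddCommGroup
noncomputable instance (priority := 2000) l2acm : AddCommMonoid (L2 J) :=
  (lp (fun _ : J => ℂ) 2).toAddCommGroup.toAddCommMonoid
noncomputable instance (priority := 2000) l2am : AddMonoid (L2 J) :=
  (lp (fun _ : J => ℂ) 2).toAddGroup.toAddMonoid
noncomputable instance (priority := 2000) l2azc : AddZeroClass (L2 J) :=
  (lp (fun _ : J => ℂ) 2).toAddGroup.toAddZeroClass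
noncomputable instance (priority := 2000) l2mod : Module ℂ (L2 J) :=
  lp.instModuleSubtypePreLpMemAddSubgroup
noncomputable instance (priority := 2000) l2dma : DistribMulAction ℂ (L2 J) :=
  (l2mod J).toDistribMulAction
noncomputable instance (priority := 2000) l2dsm : DistribSMul ℂ (L2 J) :=
  (l2mod J).toDistribMulAction.toDistribSMul
noncomputable instance (priority := 2000) l2sm : SMul ℂ (L2 J) :=
  (l2mod J).toDistribMulAction.toDistribSMul.toSMul
noncomputable instance (priority := 2000) l2sncg : SeminormedAddCommGroup (L2 J) :=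
  (l2nacg J).toSeminormedAddCommGroup
noncomputable instance (priority := 2000) l2sng : SeminormedAddGroup (L2 J) :=
  (l2sncg J).toSeminormedAddGroup
noncomputable instance (priority := 2000) l2pms : PseudoMetricSpace (L2 J) :=
  (l2sncg J).toPseudoMetricSpace
noncomputable instance (priority := 2000) l2us : UniformSpace (L2 J) := (l2pms J).toUniformSpace
noncomputable instance (priority := 2000) l2ts : TopologicalSpace (L2 J) :=
  (l2pms J).toUniformSpace.toTopologicalSpace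
instance (priority := 2000) l2t2 : T2Space (L2 J) := inferInstance
instance (priority := 2000) l2cs : CompleteSpace (L2 J) := inferInstance
instance (priority := 2000) l2tag : IsTopologicalAddGroup (L2 J) := inferInstance
instance (priority := 2000) l2ca : ContinuousAdd (L2 J) := inferInstance
instance (priority := 2000) l2csm : ContinuousSMul ℂ (L2 J) := inferInstance
instance (priority := 2000) l2ccsm : ContinuousConstSMul ℂ (L2 J) := inferInstance
instance (priority := 2000) l2uag : IsUniformAddGroup (L2 J) := inferInstance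
end

section
variable (J : Type)
noncomputable instance (priority := 2000) lor : Ring (L2 J →L[ℂ] L2 J) := ContinuousLinearMap.ring
noncomputable instance (priority := 2000) los : Semiring (L2 J →L[ℂ] L2 J) :=
  ContinuousLinearMap.semiring
noncomputable instance (priority := 2000) lons : NonUnitalNonAssocSemiring (L2 J →L[ℂ] L2 J) :=
  (lor J).toNonAssocRing.toNonUnitalNonAssocSemiring
noncomputable instance (priority := 2000) loalg : Algebra ℂ (L2 J →L[ℂ] L2 J) :=
  ContinuousLinearMap.algebra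
noncomputable instance (priority := 2000) loma : MulAction ℂ (L2 J →L[ℂ] L2 J) :=
  ContinuousLinearMap.mulAction
noncomputable instance (priority := 2000) lodma : DistribMulAction ℂ (L2 J →L[ℂ] L2 J) :=
  ContinuousLinearMap.distribMulAction
end
section
variable (J K : Type)
noncomputable instance (priority := 2000) loam : AddMonoid (L2 J →L[ℂ] L2 K) :=
  ContinuousLinearMap.instAddMonoid
noncomputable instance (priority := 2000) loacm : AddCommMonoid (L2 J →L[ℂ] L2 K) :=
  ContinuousLinearMap.addCommMonoid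
noncomputable instance (priority := 2000) loacg : AddCommGroup (L2 J →L[ℂ] L2 K) :=
  ContinuousLinearMap.addCommGroup
noncomputable instance (priority := 2000) losm : SMul ℂ (L2 J →L[ℂ] L2 K) :=
  ContinuousLinearMap.instSMul
end

noncomputable instance (priority := 3000) adjCoe {𝕜 E F : Type*} [RCLike 𝕜]
    [NormedAddCommGroup E] [InnerProductSpace 𝕜 E] [NormedAddCommGroup F]
    [InnerProductSpace 𝕜 F] : CoeFun ((E →L[𝕜] F) ≃ₗᵢ⋆[𝕜] (F →L[𝕜] E))
      (fun _ => (E →L[𝕜] F) → (F →L[𝕜] E)) := ⟨fun f => DFunLike.coe f⟩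

/-- The orthogonal projection of `l^2(J)` onto `l^2(S)`. -/
noncomputable def proj {J : Type} (S : Set J) : L2 J →L[ℂ] L2 J :=
  LinearMap.mkContinuous
    { toFun := fun f => ⟨S.indicator (f : J → ℂ), (lp.memℓp f).mono' (fun j => by
          by_cases h : j ∈ S <;> simp [h])⟩
      map_add' := fun f g => lp.ext (Set.indicator_add S f g)
      map_smul' := fun c f => lp.ext (Set.indicator_const_smul S c f) } 1
    (fun f => by
      rw [one_mul]
      refine lp.norm_mono (by norm_num) (fun j => ?_)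
      by_cases h : j ∈ S <;> simp [h])

variable {X : Type} [MetricSpace X] {J : Type}

/-- The matrix block `T_{xy}` of an operator on `l^2(J)`, where `J` is graded by `s : J → X`
(so that `l^2(J)` is the orthogonal sum over `x` of `l^2(s⁻¹ x)`). -/
noncomputable def blk (s : J → X) (T : L2 J →L[ℂ] L2 J) (x y : X) : L2 J →L[ℂ] L2 J :=
  proj (s ⁻¹' {x}) * T * proj (s ⁻¹' {y})

/-- Operators of finite propagation with compact matrix blocks. -/
structure IsRoe (s : J → X) (T : L2 J →L[ℂ] L2 J) : Prop where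
  propagation : ∃ R : ℝ, ∀ x y, R < dist x y → blk s T x y = 0
  compact : ∀ x y, IsCompactOperator (blk s T x y)

end Vale.Agent.P212
end
end
namespace AFastda8c2ex519b
@[reducible] noncomputable def a0 {x1 : Type} : AddCommMagma (Vale.Agent.P212.L2 x1) := inferInstance
@[reducible] noncomputable def a1 {x1 : Type} : AddCommSemigroup (Vale.Agent.P212.L2 x1) := inferInstance
end AFastda8c2ex519b
attribute [local instance] AFastda8c2ex519b.a0 AFastda8c2ex519b.a1

section

section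

/-! The space: telescopes of flat bundles over growing tori. -/

namespace Vale.Agent.P212

/-- Points `(n, l, w, y)`: level `l` over the torus of index `n`. -/
structure XT (τ : Tower) where
  n : ℕ
  l : ℕ
  w : Torus n
  y : τ.G (min l (2 * n))

/-- Points `(n, w, y)` of the total spaces of the deepest bundles. -/
structure AT (τ : Tower) where
  n : ℕ
  w : Torus n
  y : τ.G (2 * n)

variable {τ : Tower}

/-- The projection of the deepest bundle to level `l`. -/
def lev (a : AT τ) (l : ℕ) : XT τ := ⟨a.n, l, a.w, τ.red (min_le_right l (2 * a.n)) a.y⟩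

/-- Elementary moves: unit steps in the torus (with holonomy), multiplication by a generator,
and descent by one level. -/
inductive Adj : XT τ → XT τ → Prop
  | stepx (n l : ℕ) (w : Torus n) (y : τ.G (min l (2 * n))) :
      Adj ⟨n, l, w, y⟩ ⟨n, l, (w.1 + 1, w.2), hol τ (w.1 + 1, w.2) w * y⟩
  | stepy (n l : ℕ) (w : Torus n) (y : τ.G (min l (2 * n))) :
      Adj ⟨n, l, w, y⟩ ⟨n, l, (w.1, w.2 + 1), hol τ (w.1, w.2 + 1) w * y⟩
  | gen (n l : ℕ) (w : Torus n) (y : τ.G (min l (2 * n))) (i : Fin 3) :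
      Adj ⟨n, l, w, y⟩ ⟨n, l, w, y * τ.gm _ i⟩
  | down (n l : ℕ) (w : Torus n) (y : τ.G (min (l + 1) (2 * n))) :
      Adj ⟨n, l + 1, w, y⟩ ⟨n, l, w, τ.red (min_le_min_right (2 * n) (Nat.le_succ l)) y⟩

/-- Moves of cost at most `k`. -/
def Cost (k : ℕ) (x x' : XT τ) : Prop :=
  (1 ≤ k ∧ (Adj x x' ∨ Adj x' x)) ∨ (x.n ≠ x'.n ∧ x.l = x'.l ∧ max x.n x'.n ≤ k)

/-- Chains of total cost at most `k`. -/
inductive Reach : ℕ → XT τ → XT τ → Prop
  | refl (k : ℕ) (x : XT τ) : Reach k x x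
  | step {k m : ℕ} {x x' x'' : XT τ} : Reach k x x' → Cost m x' x'' → Reach (k + m) x x''

theorem Cost.symm {k : ℕ} {x x' : XT τ} (h : Cost k x x') : Cost k x' x := by
  rcases h with ⟨hk, h | h⟩ | ⟨h1, h2, h3⟩
  · exact Or.inl ⟨hk, Or.inr h⟩
  · exact Or.inl ⟨hk, Or.inl h⟩
  · exact Or.inr ⟨h1.symm, h2.symm, by rwa [max_comm]⟩

theorem Cost.mono {k k' : ℕ} (h : k ≤ k') {x x' : XT τ} (hx : Cost k x x') : Cost k' x x' := by
  rcases hx with ⟨hk, h1⟩ | ⟨h1, h2, h3⟩
  · exact Or.inl ⟨hk.trans h, h1⟩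
  · exact Or.inr ⟨h1, h2, h3.trans h⟩

theorem not_cost_zero {x x' : XT τ} : ¬ Cost 0 x x' := by
  rintro (⟨h, -⟩ | ⟨h1, -, h3⟩)
  · omega
  · have h4 := le_max_left x.n x'.n
    have h5 := le_max_right x.n x'.n
    exact h1 (by omega)

theorem Cost.pos {m : ℕ} {x x' : XT τ} (h : Cost m x x') : 1 ≤ m := by
  rcases Nat.eq_zero_or_pos m with rfl | hm
  · exact absurd h not_cost_zero
  · exact hm

theorem Reach.mono {k k' : ℕ} (h : k ≤ k') {x x' : XT τ} (hx : Reach k x x') :
    Reach k' x x' := by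
  induction hx generalizing k' with
  | refl k x => exact Reach.refl k' x
  | @step k m x x' x'' _ hc ih =>
    have h1 : Reach (k' - m) x x' := ih (by omega)
    have h2 := Reach.step h1 hc
    rwa [Nat.sub_add_cancel (by omega)] at h2

theorem Reach.trans {k k' : ℕ} {x x' x'' : XT τ} (h : Reach k x x') (h' : Reach k' x' x'') :
    Reach (k + k') x x'' := by
  induction h' with
  | refl k' y => exact h.mono (Nat.le_add_right k k')
  | @step k₁ m y y' y'' _ hc ih =>
    have h2 := Reach.step (ih h) hc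
    rwa [Nat.add_assoc] at h2

theorem Cost.reach {m : ℕ} {x x' : XT τ} (h : Cost m x x') : Reach m x x' := by
  have := Reach.step (Reach.refl 0 x) h
  rwa [Nat.zero_add] at this

theorem Reach.symm {k : ℕ} {x x' : XT τ} (h : Reach k x x') : Reach k x' x := by
  induction h with
  | refl k x => exact Reach.refl k x
  | @step k m x x' x'' _ hc ih =>
    have h2 := (hc.symm.reach).trans ih
    rwa [Nat.add_comm] at h2

theorem Reach.eq_or_step {k : ℕ} {x x' : XT τ} (h : Reach k x x') :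
    x = x' ∨ ∃ x'' : XT τ, 1 ≤ k ∧ Reach (k - 1) x x'' ∧ Cost k x'' x' := by
  cases h with
  | refl => exact Or.inl rfl
  | @step k m _ y _ h hc =>
    have h1 := hc.pos
    exact Or.inr ⟨y, by omega, h.mono (by omega), hc.mono (by omega)⟩

theorem Reach.eq_of_zero {x x' : XT τ} (h : Reach 0 x x') : x = x' := by
  rcases h.eq_or_step with h | ⟨x'', h, -⟩
  · exact h
  · omega

theorem exists_reach_down (n l : ℕ) (w : Torus n) (y : τ.G (min l (2 * n))) :
    ∃ y' : τ.G (min 0 (2 * n)), Reach l (⟨n, l, w, y⟩ : XT τ) ⟨n, 0, w, y'⟩ := by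
  induction l with
  | zero => exact ⟨y, Reach.refl 0 _⟩
  | succ l ih =>
    obtain ⟨y', h⟩ := ih (τ.red (min_le_min_right (2 * n) (Nat.le_succ l)) y)
    refine ⟨y', ?_⟩
    have h1 : Cost 1 (⟨n, l + 1, w, y⟩ : XT τ) ⟨n, l, w, _⟩ := Or.inl ⟨le_rfl, Or.inl (Adj.down n l w y)⟩
    have h2 := h1.reach.trans h
    rwa [Nat.add_comm] at h2

theorem exists_reach_zero (n n' : ℕ) (w : Torus n) (w' : Torus n') (y : τ.G (min 0 (2 * n)))
    (y' : τ.G (min 0 (2 * n'))) :
    ∃ k, Reach k (⟨n, 0, w, y⟩ : XT τ) ⟨n', 0, w', y'⟩ := by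
  by_cases h : n = n'
  · subst h
    have h1 : Cost (n + 1) (⟨n, 0, w, y⟩ : XT τ) ⟨n + 1, 0, 0, 1⟩ :=
      Or.inr ⟨by simp, rfl, by simp⟩
    have h2 : Cost (n + 1) (⟨n + 1, 0, 0, 1⟩ : XT τ) ⟨n, 0, w', y'⟩ :=
      Or.inr ⟨by simp, rfl, by simp⟩
    exact ⟨_, h1.reach.trans h2.reach⟩
  · have h1 : Cost (max n n') (⟨n, 0, w, y⟩ : XT τ) ⟨n', 0, w', y'⟩ := Or.inr ⟨h, rfl, le_rfl⟩
    exact ⟨_, h1.reach⟩

theorem exists_reach (x x' : XT τ) : ∃ k, Reach k x x' := by
  obtain ⟨n, l, w, y⟩ := x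
  obtain ⟨n', l', w', y'⟩ := x'
  obtain ⟨z, h⟩ := exists_reach_down n l w y
  obtain ⟨z', h'⟩ := exists_reach_down n' l' w' y'
  obtain ⟨k, hk⟩ := exists_reach_zero n n' w w' z z'
  exact ⟨_, (h.trans hk).trans h'.symm⟩

/-- The distance: the minimal cost of a chain. -/
noncomputable def xdist (x x' : XT τ) : ℕ := sInf {k | Reach k x x'}

theorem xdist_le_iff {x x' : XT τ} {k : ℕ} : xdist x x' ≤ k ↔ Reach k x x' := by
  refine ⟨fun h => ?_, fun h => Nat.sInf_le h⟩
  have h1 : Reach (xdist x x') x x' := Nat.sInf_mem (exists_reach x x')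
  exact h1.mono h

noncomputable instance : MetricSpace (XT τ) where
  dist x x' := xdist x x'
  dist_self x := by
    have h : xdist x x ≤ 0 := xdist_le_iff.2 (Reach.refl 0 x)
    simpa using h
  dist_comm x x' := by
    have h : xdist x x' = xdist x' x :=
      le_antisymm (xdist_le_iff.2 (xdist_le_iff.1 le_rfl).symm)
        (xdist_le_iff.2 (xdist_le_iff.1 le_rfl).symm)
    simp [h]
  dist_triangle x x' x'' := by
    have h : xdist x x'' ≤ xdist x x' + xdist x' x'' :=
      xdist_le_iff.2 ((xdist_le_iff.1 le_rfl).trans (xdist_le_iff.1 le_rfl))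
    exact_mod_cast h
  eq_of_dist_eq_zero {x x'} h := by
    have h1 : xdist x x' ≤ 0 := by exact_mod_cast h.le
    exact (xdist_le_iff.1 h1).eq_of_zero

theorem dist_def (x x' : XT τ) : dist x x' = (xdist x x' : ℝ) := rfl

instance : UnifDiscrete (XT τ) := by
  refine ⟨1, one_pos, fun x y hxy => ?_⟩
  rw [dist_def]
  have h : 1 ≤ xdist x y := by
    by_contra h
    exact hxy (xdist_le_iff.1 (show xdist x y ≤ 0 by omega)).eq_of_zero
  exact_mod_cast h


/-- Descent by one level, as a map. -/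
def downx (x : XT τ) : XT τ :=
  ⟨x.n, x.l - 1, x.w, τ.red (min_le_min_right (2 * x.n) (Nat.sub_le x.l 1)) x.y⟩

def stx (x : XT τ) : XT τ := ⟨x.n, x.l, (x.w.1 + 1, x.w.2), hol τ (x.w.1 + 1, x.w.2) x.w * x.y⟩
def sty (x : XT τ) : XT τ := ⟨x.n, x.l, (x.w.1, x.w.2 + 1), hol τ (x.w.1, x.w.2 + 1) x.w * x.y⟩
def gnx (x : XT τ) (i : Fin 3) : XT τ := ⟨x.n, x.l, x.w, x.y * τ.gm _ i⟩

theorem adj_subset (x : XT τ) :
    {x' | Adj x x'} ⊆ {stx x, sty x, gnx x 0, gnx x 1, gnx x 2, downx x} := by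
  rintro x' (⟨n, l, w, y⟩ | ⟨n, l, w, y⟩ | ⟨n, l, w, y, i⟩ | ⟨n, l, w, y⟩)
  · exact Or.inl rfl
  · exact Or.inr (Or.inl rfl)
  · fin_cases i
    · exact Or.inr (Or.inr (Or.inl rfl))
    · exact Or.inr (Or.inr (Or.inr (Or.inl rfl)))
    · exact Or.inr (Or.inr (Or.inr (Or.inr (Or.inl rfl))))
  · exact Or.inr (Or.inr (Or.inr (Or.inr (Or.inr rfl))))

theorem encard_adj (x : XT τ) : {x' | Adj x x'}.encard ≤ 6 := by
  refine (Set.encard_le_encard (adj_subset x)).trans ?_
  refine (Set.encard_insert_le _ _).trans ?_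
  have h1 := Set.encard_insert_le {gnx x 0, gnx x 1, gnx x 2, downx x} (sty x)
  have h2 := Set.encard_insert_le {gnx x 1, gnx x 2, downx x} (gnx x 0)
  have h3 := Set.encard_insert_le {gnx x 2, downx x} (gnx x 1)
  have h4 := Set.encard_insert_le {downx x} (gnx x 2)
  rw [Set.encard_singleton] at h4
  calc _ ≤ ((((((1 : ℕ∞) + 1) + 1) + 1) + 1) + 1) := by gcongr; exact h1.trans (by gcongr; exact h2.trans (by gcongr; exact h3.trans (by gcongr)))
    _ = 6 := by norm_num

/-- Inverse steps. -/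
def istx (x : XT τ) : XT τ :=
  ⟨x.n, x.l, (x.w.1 - 1, x.w.2), (hol τ (x.w.1, x.w.2) (x.w.1 - 1, x.w.2))⁻¹ * x.y⟩
def isty (x : XT τ) : XT τ :=
  ⟨x.n, x.l, (x.w.1, x.w.2 - 1), (hol τ (x.w.1, x.w.2) (x.w.1, x.w.2 - 1))⁻¹ * x.y⟩
def ignx (x : XT τ) (i : Fin 3) : XT τ := ⟨x.n, x.l, x.w, x.y * (τ.gm _ i)⁻¹⟩

/-- Points one level up. -/
def upx (x : XT τ) : Set (XT τ) :=
  (fun y => ⟨x.n, x.l + 1, x.w, y⟩) ''
    {y : τ.G (min (x.l + 1) (2 * x.n)) |
      τ.red (min_le_min_right (2 * x.n) (Nat.le_succ x.l)) y = x.y}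

theorem adj_subset' (x : XT τ) :
    {x' | Adj x' x} ⊆ {istx x, isty x, ignx x 0, ignx x 1, ignx x 2} ∪ upx x := by
  rintro x' (⟨n, l, w, y⟩ | ⟨n, l, w, y⟩ | ⟨n, l, w, y, i⟩ | ⟨n, l, w, y⟩)
  · refine Or.inl (Or.inl ?_)
    simp [istx]
  · refine Or.inl (Or.inr (Or.inl ?_))
    simp [isty]
  · refine Or.inl ?_
    fin_cases i
    · exact Or.inr (Or.inr (Or.inl (by simp [ignx])))
    · exact Or.inr (Or.inr (Or.inr (Or.inl (by simp [ignx]))))
    · exact Or.inr (Or.inr (Or.inr (Or.inr (by simp [ignx]))))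
  · exact Or.inr ⟨y, rfl, rfl⟩

theorem card_ker_red {m m' : ℕ} (h : m ≤ m') :
    Nat.card (τ.red h).ker = (τ.N m').relIndex (τ.N m) := by
  have h1 : (τ.N m').relIndex (τ.N m) * (τ.N m).index = (τ.N m').index :=
    Subgroup.relIndex_mul_index (τ.anti h)
  have h2 := Subgroup.card_mul_index (τ.red h).ker
  rw [Subgroup.index_ker, MonoidHom.range_eq_top.2 (τ.red_surjective h)] at h2
  have h3 : Nat.card (⊤ : Subgroup (τ.G m)) = (τ.N m).index := by
    rw [Subgroup.card_top]; rfl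
  have h4 : Nat.card (τ.G m') = (τ.N m').index := rfl
  rw [h3, h4, ← h1] at h2
  have h5 : 0 < (τ.N m).index := by
    have : Nat.card (τ.G m) = (τ.N m).index := rfl
    rw [← this]
    exact Nat.card_pos
  exact Nat.eq_of_mul_eq_mul_right h5 h2

theorem encard_fibre {m m' : ℕ} (h : m ≤ m') (y : τ.G m) :
    {y' : τ.G m' | τ.red h y' = y}.encard ≤ ((τ.N m').relIndex (τ.N m) : ℕ) := by
  rw [← card_ker_red h]
  rcases Set.eq_empty_or_nonempty {y' : τ.G m' | τ.red h y' = y} with h0 | ⟨y₀, hy₀⟩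
  · rw [h0]; simp
  · have hsub : {y' : τ.G m' | τ.red h y' = y} ⊆
        (fun z => y₀ * z) '' ((τ.red h).ker : Set (τ.G m')) := by
      intro y' hy'
      refine ⟨y₀⁻¹ * y', ?_, by simp⟩
      have h1 : τ.red h y₀ = y := hy₀
      have h2 : τ.red h y' = y := hy'
      simp [MonoidHom.mem_ker, h1, h2]
    refine (Set.encard_le_encard hsub).trans ((Set.encard_image_le _ _).trans ?_)
    have h3 : ((τ.red h).ker : Set (τ.G m')).encard = (Nat.card (τ.red h).ker : ℕ) := by
      rw [Set.encard, ENat.card_eq_coe_natCard]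
      rfl
    rw [h3]

theorem relIndex_min_le {C : ℕ}
    (hC : ∀ m, (τ.N (m + 1)).relIndex (τ.N m) ≠ 0 ∧ (τ.N (m + 1)).relIndex (τ.N m) ≤ C)
    (l k : ℕ) : (τ.N (min (l + 1) k)).relIndex (τ.N (min l k)) ≤ max C 1 := by
  rcases Nat.lt_or_ge l k with h | h
  · rw [min_eq_left (by omega : l + 1 ≤ k), min_eq_left h.le]
    exact (hC l).2.trans (le_max_left _ _)
  · rw [min_eq_right (by omega : k ≤ l + 1), min_eq_right h, Subgroup.relIndex_self]
    exact le_max_right _ _

theorem encard_adj' {C : ℕ}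
    (hC : ∀ m, (τ.N (m + 1)).relIndex (τ.N m) ≠ 0 ∧ (τ.N (m + 1)).relIndex (τ.N m) ≤ C)
    (x : XT τ) : {x' | Adj x' x}.encard ≤ ((5 + max C 1 : ℕ) : ℕ∞) := by
  refine (Set.encard_le_encard (adj_subset' x)).trans ((Set.encard_union_le _ _).trans ?_)
  have h0 : ({istx x, isty x, ignx x 0, ignx x 1, ignx x 2} : Set (XT τ)).encard ≤ 5 := by
    refine (Set.encard_insert_le _ _).trans ?_
    have h2 := Set.encard_insert_le {ignx x 0, ignx x 1, ignx x 2} (isty x)
    have h3 := Set.encard_insert_le {ignx x 1, ignx x 2} (ignx x 0)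
    have h4 := Set.encard_insert_le {ignx x 2} (ignx x 1)
    rw [Set.encard_singleton] at h4
    calc _ ≤ (((((1 : ℕ∞) + 1) + 1) + 1) + 1) := by gcongr; exact h2.trans (by gcongr; exact h3.trans (by gcongr))
      _ = 5 := by norm_num
  have h1 : (upx x).encard ≤ ((max C 1 : ℕ) : ℕ∞) := by
    refine (Set.encard_image_le _ _).trans ((encard_fibre _ _).trans ?_)
    exact_mod_cast relIndex_min_le hC x.l (2 * x.n)
  push_cast
  exact add_le_add h0 (by exact_mod_cast h1)

/-- A bound for the number of jumps of cost at most `k`. -/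
noncomputable def jumpBound (τ : Tower) (k : ℕ) : ℕ :=
  ∑ m ∈ Finset.range (k + 1), Nat.card (Torus m × τ.G (2 * m))

theorem encard_range_le {α β : Type} [Finite α] (f : α → β) :
    (Set.range f).encard ≤ (Nat.card α : ℕ) := by
  rw [← Set.image_univ]
  refine (Set.encard_image_le _ _).trans ?_
  rw [Set.encard_univ, ENat.card_eq_coe_natCard]

theorem encard_jump (k : ℕ) (x : XT τ) :
    {x' : XT τ | x.n ≠ x'.n ∧ x.l = x'.l ∧ max x.n x'.n ≤ k}.encard ≤ (jumpBound τ k : ℕ) := by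
  have hsub : {x' : XT τ | x.n ≠ x'.n ∧ x.l = x'.l ∧ max x.n x'.n ≤ k} ⊆
      ⋃ m ∈ Finset.range (k + 1), Set.range
        (fun p : Torus m × τ.G (min x.l (2 * m)) => (⟨m, x.l, p.1, p.2⟩ : XT τ)) := by
    rintro ⟨n', l', w', y'⟩ ⟨-, h2, h3⟩
    obtain ⟨n, l, w, y⟩ := x
    dsimp only at h2 h3 ⊢
    subst h2
    have h4 : n' ≤ k := (le_max_right n n').trans h3
    simp only [Set.mem_iUnion]
    exact ⟨n', Finset.mem_range.2 (by omega), ⟨(w', y'), rfl⟩⟩
  refine (Set.encard_le_encard hsub).trans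
    (((Finset.range (k + 1)).set_encard_biUnion_le _).trans ?_)
  rw [jumpBound]
  push_cast
  refine Finset.sum_le_sum fun m _ => (encard_range_le _).trans ?_
  have h5 : Nat.card (Torus m × τ.G (min x.l (2 * m))) ≤ Nat.card (Torus m × τ.G (2 * m)) := by
    rw [Nat.card_prod (Torus m) (τ.G (min x.l (2 * m))), Nat.card_prod (Torus m) (τ.G (2 * m))]
    exact Nat.mul_le_mul_left _
      (Nat.card_le_card_of_surjective _ (τ.red_surjective (min_le_right x.l (2 * m))))
  exact_mod_cast h5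

theorem exists_cost_bound (τ : Tower) (k : ℕ) :
    ∃ N : ℕ, ∀ x : XT τ, {x' | Cost k x x'}.encard ≤ (N : ℕ∞) := by
  obtain ⟨C, hC⟩ := τ.step
  refine ⟨6 + (5 + max C 1) + jumpBound τ k, fun x => ?_⟩
  have hsub : {x' | Cost k x x'} ⊆ ({x' | Adj x x'} ∪ {x' | Adj x' x}) ∪
      {x' : XT τ | x.n ≠ x'.n ∧ x.l = x'.l ∧ max x.n x'.n ≤ k} := by
    rintro x' (⟨-, h | h⟩ | h)
    · exact Or.inl (Or.inl h)
    · exact Or.inl (Or.inr h)
    · exact Or.inr h
  refine (Set.encard_le_encard hsub).trans ((Set.encard_union_le _ _).trans ?_)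
  have h1 := Set.encard_union_le {x' | Adj x x'} {x' | Adj x' x}
  have h2 := encard_adj x
  have h3 := encard_adj' hC x
  have h4 := encard_jump k x
  rw [Nat.cast_add, Nat.cast_add]
  exact add_le_add (h1.trans (add_le_add (by exact_mod_cast h2) h3)) h4

theorem exists_reach_bound (τ : Tower) (k : ℕ) :
    ∃ N : ℕ, ∀ x : XT τ, {x' | Reach k x x'}.encard ≤ (N : ℕ∞) := by
  induction k with
  | zero =>
    refine ⟨1, fun x => ?_⟩
    have hsub : {x' | Reach 0 x x'} ⊆ {x} := fun x' h => (Reach.eq_of_zero h).symm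
    refine (Set.encard_le_encard hsub).trans ?_
    rw [Set.encard_singleton]
    simp
  | succ k ih =>
    obtain ⟨N, hN⟩ := ih
    obtain ⟨M, hM⟩ := exists_cost_bound τ (k + 1)
    refine ⟨1 + N * M, fun x => ?_⟩
    have hfin : {x' | Reach k x x'}.Finite := (Set.encard_le_coe_iff.1 (hN x)).1
    have hsub : {x' | Reach (k + 1) x x'} ⊆ {x} ∪
        ⋃ x'' ∈ hfin.toFinset, {x' | Cost (k + 1) x'' x'} := by
      intro x' h
      rcases Reach.eq_or_step h with h1 | ⟨x'', -, h1, h2⟩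
      · exact Or.inl h1.symm
      · refine Or.inr ?_
        simp only [Set.mem_iUnion]
        exact ⟨x'', by simpa using h1, h2⟩
    refine (Set.encard_le_encard hsub).trans ((Set.encard_union_le _ _).trans ?_)
    rw [Set.encard_singleton]
    push_cast
    refine add_le_add le_rfl ((hfin.toFinset.set_encard_biUnion_le _).trans ?_)
    refine (Finset.sum_le_sum fun x'' _ => hM x'').trans ?_
    rw [Finset.sum_const, nsmul_eq_mul]
    refine mul_le_mul' ?_ le_rfl
    have h5 := hN x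
    rwa [hfin.encard_eq_coe_toFinset_card] at h5

instance : BddGeometry (XT τ) := by
  refine ⟨fun R => ?_⟩
  obtain ⟨N, hN⟩ := exists_reach_bound τ ⌊R⌋₊
  refine ⟨N, fun x => (Set.encard_le_encard ?_).trans (hN x)⟩
  intro x' hx'
  rw [Metric.mem_closedBall, dist_comm, dist_def] at hx'
  exact xdist_le_iff.1 (Nat.le_floor hx')

end Vale.Agent.P212
end
end
namespace AFastda8c2ex912a
@[reducible] noncomputable def a0 {x1 : Vale.Agent.P212.Tower} : Dist (Vale.Agent.P212.XT x1) := inferInstance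
end AFastda8c2ex912a
attribute [local instance] AFastda8c2ex912a.a0

section

section

/-! Distance estimates. -/

namespace Vale.Agent.P212

variable {τ : Tower}

/-- The base: the tori at level zero. -/
def base (τ : Tower) : Set (XT τ) := {x | x.l = 0}

theorem dist_le_iff_reach {x x' : XT τ} {k : ℕ} : dist x x' ≤ k ↔ Reach k x x' := by
  rw [dist_def, Nat.cast_le, xdist_le_iff]

theorem Reach.of_adj {x x' : XT τ} (h : Adj x x') : Reach 1 x x' := by
  have := (Reach.refl 0 x).step (m := 1) (x'' := x') (Or.inl ⟨le_rfl, Or.inl h⟩)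
  simpa using this

theorem Reach.of_jump {x x' : XT τ} (hn : x.n ≠ x'.n) (hl : x.l = x'.l) :
    Reach (max x.n x'.n) x x' := by
  have := (Reach.refl 0 x).step (m := max x.n x'.n) (x'' := x') (Or.inr ⟨hn, hl, le_rfl⟩)
  simpa using this

/-! ### Arithmetic of the torus -/

theorem disp_succ {n : ℕ} (hn : 1 ≤ n) (i : ZMod (n + 1)) : disp (i + 1) i = 1 := by
  unfold disp
  rw [add_sub_cancel_left]
  have h := (ZMod.valMinAbs_spec (n := n + 1) (1 : ZMod (n + 1)) 1).2
  exact h ⟨by simp, by constructor <;> push_cast <;> omega⟩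

instance : Subsingleton (ZMod (0 + 1)) := inferInstanceAs (Subsingleton (ZMod 1))

theorem natAbs_disp_succ_le {n : ℕ} (i : ZMod (n + 1)) : (disp (i + 1) i).natAbs ≤ 1 := by
  rcases Nat.eq_zero_or_pos n with rfl | hn
  · have : disp (i + 1) i = 0 := by
      unfold disp
      have h0 : i + 1 - i = 0 := Subsingleton.elim _ _
      rw [h0]; simp
    rw [this]; simp
  · rw [disp_succ hn]; simp

theorem natAbs_disp_comm {n : ℕ} (i i' : ZMod (n + 1)) :
    (disp i i').natAbs = (disp i' i).natAbs := by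
  unfold disp
  rw [← neg_sub i i', ZMod.natAbs_valMinAbs_neg]

theorem natAbs_disp_triangle {n : ℕ} (i i' i'' : ZMod (n + 1)) :
    (disp i i'').natAbs ≤ (disp i i').natAbs + (disp i' i'').natAbs := by
  unfold disp
  have h : i - i'' = (i - i') + (i' - i'') := by ring
  rw [h]
  exact (ZMod.natAbs_valMinAbs_add_le _ _).trans (Int.natAbs_add_le _ _)

theorem tdist_self {n : ℕ} (w : Torus n) : tdist w w = 0 := by
  simp [tdist, disp_self]

theorem tdist_comm {n : ℕ} (w w' : Torus n) : tdist w w' = tdist w' w := by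
  unfold tdist
  rw [natAbs_disp_comm w.1, natAbs_disp_comm w.2]

theorem tdist_triangle {n : ℕ} (w w' w'' : Torus n) :
    tdist w w'' ≤ tdist w w' + tdist w' w'' := by
  unfold tdist
  have h1 := natAbs_disp_triangle w.1 w'.1 w''.1
  have h2 := natAbs_disp_triangle w.2 w'.2 w''.2
  omega

theorem tdist_stepx_le {n : ℕ} (w : Torus n) : tdist (w.1 + 1, w.2) w ≤ 1 := by
  simpa [tdist, disp_self] using natAbs_disp_succ_le w.1

theorem tdist_stepy_le {n : ℕ} (w : Torus n) : tdist (w.1, w.2 + 1) w ≤ 1 := by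
  simpa [tdist, disp_self] using natAbs_disp_succ_le w.2

/-! ### Transport -/

theorem val_add_natCast {n : ℕ} (i : ZMod (n + 1)) (d : ℕ) :
    ∃ c : ℤ, (i.val : ℤ) + d = (i + d).val + (n + 1 : ℕ) * c := by
  have h : ((((i.val : ℤ) + d - (i + d).val : ℤ)) : ZMod (n + 1)) = 0 := by
    push_cast
    simp
  obtain ⟨c, hc⟩ := (ZMod.intCast_zmod_eq_zero_iff_dvd _ _).1 h
  exact ⟨c, by linarith⟩

theorem reach_pathx {n : ℕ} (hn : 1 ≤ n) (l : ℕ) (i j : ZMod (n + 1))
    (y : τ.G (min l (2 * n))) (d : ℕ) :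
    ∀ c : ℤ, (i.val : ℤ) + d = (i + d).val + (n + 1 : ℕ) * c →
      Reach d (⟨n, l, (i, j), y⟩ : XT τ) ⟨n, l, (i + d, j), τ.mon n _ 0 ^ (-c) * y⟩ := by
  induction d with
  | zero =>
    intro c hc
    have hc0 : c = 0 := by
      have h1 : ((n + 1 : ℕ) : ℤ) * c = 0 := by
        simp at hc ⊢
        tauto
      rcases mul_eq_zero.1 h1 with h | h
      · exact absurd h (by positivity)
      · exact h
    subst hc0
    simpa using Reach.refl 0 (⟨n, l, (i, j), y⟩ : XT τ)
  | succ d ih =>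
    intro c hc
    obtain ⟨c', hc'⟩ := val_add_natCast i d
    have h1 := ih c' hc'
    have h2 := cross_spec (i + (d : ZMod (n + 1)) + 1) (i + (d : ZMod (n + 1)))
    rw [disp_succ hn] at h2
    have e1 : i + ((d + 1 : ℕ) : ZMod (n + 1)) = i + d + 1 := by push_cast; ring
    have hcc : c = c' + cross (i + (d : ZMod (n + 1)) + 1) (i + (d : ZMod (n + 1))) := by
      rw [e1] at hc
      push_cast at hc hc' h2
      have : ((n : ℤ) + 1) * (c - (c' + cross (i + (d : ZMod (n + 1)) + 1) (i + (d : ZMod (n + 1))))) = 0 := by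
        linear_combination hc' + h2 - hc
      rcases mul_eq_zero.1 this with h | h
      · exact absurd h (by positivity)
      · linarith
    have h3 := Reach.of_adj (Adj.stepx n l ((i + d, j) : Torus n) (τ.mon n _ 0 ^ (-c') * y))
    have h4 := h1.trans h3
    rw [e1]
    have e2 : hol τ ((i + d + 1, j) : Torus n) (i + d, j) * (τ.mon n (min l (2 * n)) 0 ^ (-c') * y)
        = τ.mon n _ 0 ^ (-c) * y := by
      rw [hcc]
      simp only [hol, cross_self, neg_zero, zpow_zero, mul_one]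
      rw [← mul_assoc, ← zpow_add]
      congr 2
      ring
    simp only at h4
    rw [e2] at h4
    exact h4

theorem reach_pathy {n : ℕ} (hn : 1 ≤ n) (l : ℕ) (j i : ZMod (n + 1))
    (y : τ.G (min l (2 * n))) (d : ℕ) :
    ∀ c : ℤ, (i.val : ℤ) + d = (i + d).val + (n + 1 : ℕ) * c →
      Reach d (⟨n, l, (j, i), y⟩ : XT τ) ⟨n, l, (j, i + d), τ.mon n _ 1 ^ (-c) * y⟩ := by
  induction d with
  | zero =>
    intro c hc
    have hc0 : c = 0 := by
      have h1 : ((n + 1 : ℕ) : ℤ) * c = 0 := by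
        simp at hc ⊢
        tauto
      rcases mul_eq_zero.1 h1 with h | h
      · exact absurd h (by positivity)
      · exact h
    subst hc0
    simpa using Reach.refl 0 (⟨n, l, (j, i), y⟩ : XT τ)
  | succ d ih =>
    intro c hc
    obtain ⟨c', hc'⟩ := val_add_natCast i d
    have h1 := ih c' hc'
    have h2 := cross_spec (i + (d : ZMod (n + 1)) + 1) (i + (d : ZMod (n + 1)))
    rw [disp_succ hn] at h2
    have e1 : i + ((d + 1 : ℕ) : ZMod (n + 1)) = i + d + 1 := by push_cast; ring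
    have hcc : c = c' + cross (i + (d : ZMod (n + 1)) + 1) (i + (d : ZMod (n + 1))) := by
      rw [e1] at hc
      push_cast at hc hc' h2
      have : ((n : ℤ) + 1) * (c - (c' + cross (i + (d : ZMod (n + 1)) + 1) (i + (d : ZMod (n + 1))))) = 0 := by
        linear_combination hc' + h2 - hc
      rcases mul_eq_zero.1 this with h | h
      · exact absurd h (by positivity)
      · linarith
    have h3 := Reach.of_adj (Adj.stepy n l ((j, i + d) : Torus n) (τ.mon n _ 1 ^ (-c') * y))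
    have h4 := h1.trans h3
    rw [e1]
    have e2 : hol τ ((j, i + d + 1) : Torus n) (j, i + d) * (τ.mon n (min l (2 * n)) 1 ^ (-c') * y)
        = τ.mon n _ 1 ^ (-c) * y := by
      rw [hcc]
      simp only [hol, cross_self, neg_zero, zpow_zero, one_mul]
      rw [← mul_assoc, ← zpow_add]
      congr 2
      ring
    simp only at h4
    rw [e2] at h4
    exact h4

theorem natCast_natAbs_disp {n : ℕ} {i i' : ZMod (n + 1)} (h : 0 ≤ disp i i') :
    i' + ((disp i i').natAbs : ZMod (n + 1)) = i := by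
  have h1 : ((disp i i' : ℤ) : ZMod (n + 1)) = i - i' := by
    unfold disp; exact ZMod.coe_valMinAbs _
  have h2 : (((disp i i').natAbs : ℕ) : ZMod (n + 1)) = ((disp i i' : ℤ) : ZMod (n + 1)) := by
    rw [← Int.cast_natCast, Int.natAbs_of_nonneg h]
  rw [h2, h1]; ring

theorem natCast_natAbs_disp' {n : ℕ} {i i' : ZMod (n + 1)} (h : disp i i' ≤ 0) :
    i + ((disp i i').natAbs : ZMod (n + 1)) = i' := by
  have h1 : ((disp i i' : ℤ) : ZMod (n + 1)) = i - i' := by
    unfold disp; exact ZMod.coe_valMinAbs _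
  have h2 : (((disp i i').natAbs : ℕ) : ZMod (n + 1)) = ((-disp i i' : ℤ) : ZMod (n + 1)) := by
    rw [← Int.cast_natCast, Int.ofNat_natAbs_of_nonpos h]
  rw [h2]; push_cast; rw [h1]; ring

theorem reach_x {n : ℕ} (l : ℕ) (i i' j : ZMod (n + 1)) (y : τ.G (min l (2 * n))) :
    Reach (disp i i').natAbs (⟨n, l, (i', j), y⟩ : XT τ)
      ⟨n, l, (i, j), τ.mon n _ 0 ^ (-cross i i') * y⟩ := by
  rcases Nat.eq_zero_or_pos n with rfl | hn
  · obtain rfl : i = i' := Subsingleton.elim _ _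
    rw [disp_self, cross_self]
    simpa using Reach.refl 0 (⟨0, l, (i, j), y⟩ : XT τ)
  · have hs := cross_spec i i'
    rcases le_total 0 (disp i i') with h | h
    · have e := natCast_natAbs_disp h
      have := reach_pathx (τ := τ) hn l i' j y (disp i i').natAbs (cross i i') (by
        rw [e, Int.natAbs_of_nonneg h]; exact hs)
      rw [e] at this
      exact this
    · have e := natCast_natAbs_disp' h
      have := reach_pathx (τ := τ) hn l i j (τ.mon n _ 0 ^ (-cross i i') * y)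
        (disp i i').natAbs (-cross i i') (by
        rw [e, Int.ofNat_natAbs_of_nonpos h]; linarith)
      rw [e, ← mul_assoc, ← zpow_add] at this
      simpa using this.symm

theorem reach_y {n : ℕ} (l : ℕ) (j i i' : ZMod (n + 1)) (y : τ.G (min l (2 * n))) :
    Reach (disp i i').natAbs (⟨n, l, (j, i'), y⟩ : XT τ)
      ⟨n, l, (j, i), τ.mon n _ 1 ^ (-cross i i') * y⟩ := by
  rcases Nat.eq_zero_or_pos n with rfl | hn
  · obtain rfl : i = i' := Subsingleton.elim _ _
    rw [disp_self, cross_self]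
    simpa using Reach.refl 0 (⟨0, l, (j, i), y⟩ : XT τ)
  · have hs := cross_spec i i'
    rcases le_total 0 (disp i i') with h | h
    · have e := natCast_natAbs_disp h
      have := reach_pathy (τ := τ) hn l j i' y (disp i i').natAbs (cross i i') (by
        rw [e, Int.natAbs_of_nonneg h]; exact hs)
      rw [e] at this
      exact this
    · have e := natCast_natAbs_disp' h
      have := reach_pathy (τ := τ) hn l j i (τ.mon n _ 1 ^ (-cross i i') * y)
        (disp i i').natAbs (-cross i i') (by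
        rw [e, Int.ofNat_natAbs_of_nonpos h]; linarith)
      rw [e, ← mul_assoc, ← zpow_add] at this
      simpa using this.symm

theorem reach_transport {n l : ℕ} (w w' : Torus n) (y : τ.G (min l (2 * n))) :
    Reach (tdist w w') (⟨n, l, w', y⟩ : XT τ) ⟨n, l, w, hol τ w w' * y⟩ := by
  obtain ⟨a, b⟩ := w
  obtain ⟨a', b'⟩ := w'
  have h1 := reach_x (τ := τ) l a a' b' y
  have h2 := reach_y (τ := τ) l a b b' (τ.mon n _ 0 ^ (-cross a a') * y)
  have h3 := h1.trans h2
  have hc := (τ.mon_comm n (min l (2 * n)) (min_le_right _ _)).zpow_zpow (-cross a a')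
    (-cross b b')
  rw [← mul_assoc, ← hc.eq] at h3
  exact h3

/-- Points of the same component reached by transport along the torus. -/
theorem dist_transport {n l : ℕ} (w w' : Torus n) (y : τ.G (min l (2 * n))) :
    dist (⟨n, l, w, hol τ w w' * y⟩ : XT τ) ⟨n, l, w', y⟩ ≤ tdist w w' := by
  rw [dist_le_iff_reach]
  exact (reach_transport w w' y).symm

theorem dist_gen (n l : ℕ) (w : Torus n) (y : τ.G (min l (2 * n))) (i : Fin 3) :
    dist (⟨n, l, w, y * τ.gm _ i⟩ : XT τ) ⟨n, l, w, y⟩ ≤ 1 := by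
  have := dist_le_iff_reach.2 (Reach.of_adj (Adj.gen n l w y i)).symm
  simpa using this

theorem dist_lev_succ (a : AT τ) (l : ℕ) : dist (lev a (l + 1)) (lev a l) ≤ 1 := by
  have h := Adj.down a.n l a.w (τ.red (min_le_right (l + 1) (2 * a.n)) a.y)
  rw [Tower.red_red] at h
  have := dist_le_iff_reach.2 (Reach.of_adj h)
  rw [Nat.cast_one] at this
  exact this

/-- Points of the same component and level are at bounded distance. -/
theorem dist_same_level {x x' : XT τ} (hn : x.n = x'.n) (hl : x.l = x'.l) :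
    dist x x' ≤ 2 * (x.n + 1) := by
  have h1 := Reach.of_jump (x := x) (x' := ⟨x.n + 1, x.l, 0, 1⟩) (by simp) rfl
  have h2 := Reach.of_jump (x := ⟨x.n + 1, x.l, 0, 1⟩) (x' := x') (by simp [hn]) hl
  have h3 := dist_le_iff_reach.2 (h1.trans h2)
  refine h3.trans ?_
  simp only [← hn]
  push_cast
  rw [max_eq_right (by linarith), max_eq_left (by linarith)]
  linarith

/-- Points of different components and the same level. -/
theorem dist_diff_le {x x' : XT τ} (hn : x.n ≠ x'.n) (hl : x.l = x'.l) :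
    dist x x' ≤ max x.n x'.n := by
  have := dist_le_iff_reach.2 (Reach.of_jump hn hl)
  simpa using this

theorem Adj.n_eq {x x' : XT τ} (h : Adj x x') : x.n = x'.n := by
  cases h <;> rfl

theorem Adj.l_le {x x' : XT τ} (h : Adj x x') : x.l ≤ x'.l + 1 ∧ x'.l ≤ x.l + 1 := by
  cases h <;> constructor <;> simp only [] <;> omega

theorem Reach.max_le {k : ℕ} {x x' : XT τ} (h : Reach k x x') :
    x.n = x'.n ∨ max x.n x'.n ≤ k := by
  induction h with
  | refl k x => exact Or.inl rfl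
  | @step k m x x' x'' h hc ih =>
    rcases hc with ⟨_, h1 | h1⟩ | ⟨h1, _, h2⟩
    · rw [← h1.n_eq]; omega
    · rw [h1.n_eq]; omega
    · omega

theorem le_dist_diff {x x' : XT τ} (hn : x.n ≠ x'.n) : (max x.n x'.n : ℝ) ≤ dist x x' := by
  have h := (dist_le_iff_reach (x := x) (x' := x') (k := xdist x x')).1 le_rfl
  have h2 := h.max_le.resolve_left hn
  rw [dist_def]
  exact_mod_cast h2

theorem Reach.level {k : ℕ} {x x' : XT τ} (h : Reach k x x') :
    x.l ≤ x'.l + k ∧ x'.l ≤ x.l + k := by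
  induction h with
  | refl k x => exact ⟨by omega, by omega⟩
  | @step k m x x' x'' h hc ih =>
    rcases hc with ⟨_, h1 | h1⟩ | ⟨h1, h2, h3⟩
    · have := h1.l_le; omega
    · have := h1.l_le; omega
    · omega

theorem level_diff_le (x x' : XT τ) : |(x.l : ℝ) - x'.l| ≤ dist x x' := by
  have h := (dist_le_iff_reach (x := x) (x' := x') (k := xdist x x')).1 le_rfl
  obtain ⟨h1, h2⟩ := h.level
  rw [dist_def, abs_le]
  have h1' : (x.l : ℝ) ≤ x'.l + xdist x x' := by exact_mod_cast h1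
  have h2' : (x'.l : ℝ) ≤ x.l + xdist x x' := by exact_mod_cast h2
  constructor <;> linarith

/-- The data carried by a move or a chain inside a component. -/
def Near (k n l : ℕ) (w : Torus n) (y : τ.G (min l (2 * n))) (x' : XT τ) : Prop :=
  ∃ (l' : ℕ) (w' : Torus n) (y' : τ.G (min l' (2 * n))), x' = ⟨n, l', w', y'⟩ ∧
    tdist w w' ≤ k ∧
    ∀ (h1 : 2 * n ≤ min l (2 * n)) (h2 : 2 * n ≤ min l' (2 * n)),
      ∃ v : F3, v.toWord.length ≤ k ∧
        τ.red h2 y' = hol τ w' w * τ.red h1 y * QuotientGroup.mk v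

theorem Near.of_adj {n l : ℕ} {w : Torus n} {y : τ.G (min l (2 * n))} {x' : XT τ}
    (h : Adj ⟨n, l, w, y⟩ x') : Near 1 n l w y x' := by
  cases h with
  | stepx =>
    refine ⟨_, _, _, rfl, ?_, ?_⟩
    · rw [tdist_comm]; exact tdist_stepx_le w
    · intro h1 h2
      refine ⟨1, by simp, ?_⟩
      rw [map_mul, red_hol]
      simp
  | stepy =>
    refine ⟨_, _, _, rfl, ?_, ?_⟩
    · rw [tdist_comm]; exact tdist_stepy_le w
    · intro h1 h2
      refine ⟨1, by simp, ?_⟩
      rw [map_mul, red_hol]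
      simp
  | gen =>
    rename_i i
    refine ⟨_, _, _, rfl, ?_, ?_⟩
    · rw [tdist_self]; simp
    · intro h1 h2
      refine ⟨gen i, by simp [gen], ?_⟩
      rw [map_mul, hol_self, one_mul]
      rfl
  | down =>
    rename_i l
    refine ⟨_, _, _, rfl, ?_, ?_⟩
    · rw [tdist_self]; simp
    · intro h1 h2
      refine ⟨1, by simp, ?_⟩
      rw [hol_self, one_mul, Tower.red_red]
      simp

theorem Near.of_adj' {n l : ℕ} (hn : 2 ≤ n) {w : Torus n} {y : τ.G (min l (2 * n))} {x' : XT τ}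
    (h : Adj x' ⟨n, l, w, y⟩) : Near 1 n l w y x' := by
  have key : ∀ (x : XT τ), x = ⟨n, l, w, y⟩ → Adj x' x → Near 1 n l w y x' := by
    intro x hx h
    cases h with
    | stepx n₁ l₁ w₁ y₁ =>
      obtain ⟨rfl, h2⟩ := XT.mk.inj hx
      obtain ⟨rfl, h2, h3⟩ := h2
      obtain rfl := eq_of_heq h2
      obtain rfl := eq_of_heq h3
      have ht := tdist_stepx_le w₁
      refine ⟨_, _, _, rfl, ht, ?_⟩
      intro h1 h2
      refine ⟨1, by simp, ?_⟩
      rw [map_mul, red_hol]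
      rw [hol_symm τ le_rfl (w := w₁) (w' := (w₁.1 + 1, w₁.2)) (by rw [tdist_comm]; omega)]
      simp
    | stepy n₁ l₁ w₁ y₁ =>
      obtain ⟨rfl, h2⟩ := XT.mk.inj hx
      obtain ⟨rfl, h2, h3⟩ := h2
      obtain rfl := eq_of_heq h2
      obtain rfl := eq_of_heq h3
      have ht := tdist_stepy_le w₁
      refine ⟨_, _, _, rfl, ht, ?_⟩
      intro h1 h2
      refine ⟨1, by simp, ?_⟩
      rw [map_mul, red_hol]
      rw [hol_symm τ le_rfl (w := w₁) (w' := (w₁.1, w₁.2 + 1)) (by rw [tdist_comm]; omega)]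
      simp
    | gen n₁ l₁ w₁ y₁ i =>
      obtain ⟨rfl, h2⟩ := XT.mk.inj hx
      obtain ⟨rfl, h2, h3⟩ := h2
      obtain rfl := eq_of_heq h2
      obtain rfl := eq_of_heq h3
      refine ⟨_, _, _, rfl, by rw [tdist_self]; simp, ?_⟩
      intro h1 h2
      refine ⟨(gen i)⁻¹, by simp [gen], ?_⟩
      rw [map_mul, hol_self, one_mul]
      have : τ.red h1 (τ.gm _ i) = QuotientGroup.mk (gen i) := rfl
      rw [this, QuotientGroup.mk_inv]
      simp
    | down n₁ l₁ w₁ y₁ =>
      obtain ⟨rfl, h2⟩ := XT.mk.inj hx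
      obtain ⟨rfl, h2, h3⟩ := h2
      obtain rfl := eq_of_heq h2
      obtain rfl := eq_of_heq h3
      refine ⟨_, _, _, rfl, by rw [tdist_self]; simp, ?_⟩
      intro h1 h2
      refine ⟨1, by simp, ?_⟩
      rw [hol_self, one_mul, Tower.red_red]
      simp
  exact key _ rfl h

theorem Near.trans {n k m l : ℕ} {w : Torus n} {y : τ.G (min l (2 * n))} {l' : ℕ}
    {w' : Torus n} {y' : τ.G (min l' (2 * n))} {x'' : XT τ} (hk : 2 * (k + m) ≤ n)
    (hl : 2 * n ≤ min l' (2 * n) ∨ ¬ 2 * n ≤ min l (2 * n))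
    (h : Near k n l w y ⟨n, l', w', y'⟩) (h' : Near m n l' w' y' x'') :
    Near (k + m) n l w y x'' := by
  obtain ⟨l₁, w₁, y₁, he, ht, hv⟩ := h
  obtain ⟨l₂, w₂, y₂, he', ht', hv'⟩ := h'
  obtain ⟨-, h2⟩ := XT.mk.inj he
  obtain ⟨rfl, h2, h3⟩ := h2
  obtain rfl := eq_of_heq h2
  obtain rfl := eq_of_heq h3
  refine ⟨l₂, w₂, y₂, he', (tdist_triangle w w' w₂).trans (by omega), ?_⟩
  intro h1 h2
  have hl' : 2 * n ≤ min l' (2 * n) := hl.resolve_right (fun h => h h1)
  obtain ⟨v, hvl, hv⟩ := hv h1 hl'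
  obtain ⟨v', hvl', hv'⟩ := hv' hl' h2
  refine ⟨v * v', (FreeGroup.norm_mul_le v v').trans (add_le_add hvl hvl'), ?_⟩
  rw [hv', hv, QuotientGroup.mk_mul]
  rw [← hol_mul τ (m := 2 * n) le_rfl (w := w₂) (w' := w') (w'' := w)
    (by rw [tdist_comm w₂ w', tdist_comm w' w]; omega)]
  simp only [mul_assoc]

theorem Near.mono {n k m l : ℕ} {w : Torus n} {y : τ.G (min l (2 * n))} {x' : XT τ}
    (hk : k ≤ m) (h : Near k n l w y x') : Near m n l w y x' := by
  obtain ⟨l₁, w₁, y₁, he, ht, hv⟩ := h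
  refine ⟨l₁, w₁, y₁, he, ht.trans hk, fun h1 h2 => ?_⟩
  obtain ⟨v, hvl, hv⟩ := hv h1 h2
  exact ⟨v, hvl.trans hk, hv⟩

theorem Near.self {n k l : ℕ} {w : Torus n} {y : τ.G (min l (2 * n))} :
    Near k n l w y ⟨n, l, w, y⟩ := by
  refine ⟨l, w, y, rfl, by rw [tdist_self]; omega, fun h1 h2 => ⟨1, by simp, ?_⟩⟩
  rw [hol_self]; simp

/-- Chains stay in the component, do not move far in the torus. -/
theorem Reach.tdist_le {n l : ℕ} {w : Torus n} {y : τ.G (min l (2 * n))} {k : ℕ} {x' : XT τ}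
    (h : Reach k (⟨n, l, w, y⟩ : XT τ) x') (hk : 2 * k ≤ n) :
    ∃ (l' : ℕ) (w' : Torus n) (y' : τ.G (min l' (2 * n))), x' = ⟨n, l', w', y'⟩ ∧
      tdist w w' ≤ k := by
  generalize hx : (⟨n, l, w, y⟩ : XT τ) = x at h
  induction h with
  | refl k x => exact ⟨l, w, y, hx.symm, by rw [tdist_self]; omega⟩
  | @step k m x x' x'' h hc ih =>
    obtain ⟨l', w', y', rfl, ht⟩ := ih (by omega) hx
    rcases hc with ⟨hm, h1 | h1⟩ | ⟨h1, h2, h3⟩
    · obtain ⟨l₂, w₂, y₂, he, ht₂, -⟩ := Near.of_adj h1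
      exact ⟨l₂, w₂, y₂, he, (tdist_triangle w w' w₂).trans (by omega)⟩
    · obtain ⟨l₂, w₂, y₂, he, ht₂, -⟩ := Near.of_adj' (by omega) h1
      exact ⟨l₂, w₂, y₂, he, (tdist_triangle w w' w₂).trans (by omega)⟩
    · simp only at h1 h3
      omega

theorem Reach.near {n l : ℕ} {w : Torus n} {y : τ.G (min l (2 * n))} {k : ℕ} {x' : XT τ}
    (h : Reach k (⟨n, l, w, y⟩ : XT τ) x') (hk : 2 * k ≤ n) (hl : 2 * n + k ≤ l) :
    Near k n l w y x' := by
  generalize hx : (⟨n, l, w, y⟩ : XT τ) = x at h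
  induction h with
  | refl k x => rw [← hx]; exact Near.self
  | @step k m x x' x'' h hc ih =>
    have h0 := ih (by omega) (by omega) hx
    have hlev := h.level
    rw [← hx] at hlev
    obtain ⟨l', w', y', rfl, -⟩ := id h0
    simp only at hlev
    rcases hc with ⟨hm, h1 | h1⟩ | ⟨h1, h2, h3⟩
    · exact Near.trans (by omega) (Or.inl (by omega)) h0 ((Near.of_adj h1).mono hm)
    · exact Near.trans (by omega) (Or.inl (by omega)) h0 ((Near.of_adj' (by omega) h1).mono hm)
    · simp only at h1 h3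
      omega

/-- Close points of a far component are close in the torus. -/
theorem tdist_le {n l l' : ℕ} {w w' : Torus n} {y : τ.G (min l (2 * n))}
    {y' : τ.G (min l' (2 * n))} {k : ℕ} (hk : 2 * k ≤ n)
    (h : dist (⟨n, l, w, y⟩ : XT τ) ⟨n, l', w', y'⟩ ≤ k) : tdist w w' ≤ k := by
  obtain ⟨l₁, w₁, y₁, he, ht⟩ := (dist_le_iff_reach.1 h).tdist_le hk
  obtain ⟨-, h2⟩ := XT.mk.inj he
  obtain ⟨rfl, h2, h3⟩ := h2
  obtain rfl := eq_of_heq h2
  exact ht

/-- Close deep points of a far component differ by transport and a short word. -/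
theorem exists_word {n l l' : ℕ} {w w' : Torus n} {y : τ.G (min l (2 * n))}
    {y' : τ.G (min l' (2 * n))} {k : ℕ} (hk : 2 * k ≤ n) (hl : 2 * n + k ≤ l)
    (h : dist (⟨n, l, w, y⟩ : XT τ) ⟨n, l', w', y'⟩ ≤ k) :
    ∃ v : F3, v.toWord.length ≤ k ∧
      ∃ (h1 : 2 * n ≤ min l (2 * n)) (h2 : 2 * n ≤ min l' (2 * n)),
      τ.red h2 y' = hol τ w' w * τ.red h1 y * QuotientGroup.mk v := by
  have hr := dist_le_iff_reach.1 h
  have hlev := hr.level
  simp only at hlev
  obtain ⟨l₁, w₁, y₁, he, ht, hv⟩ := hr.near hk hl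
  obtain ⟨-, h2⟩ := XT.mk.inj he
  obtain ⟨rfl, h2, h3⟩ := h2
  obtain rfl := eq_of_heq h2
  obtain rfl := eq_of_heq h3
  have h1 : 2 * n ≤ min l (2 * n) := by omega
  have h2 : 2 * n ≤ min l' (2 * n) := by omega
  obtain ⟨v, hvl, hv⟩ := hv h1 h2
  exact ⟨v, hvl, h1, h2, hv⟩

end Vale.Agent.P212
end
end

section

section

/-! The compactly supported cocycle detecting the fundamental cycle. -/

namespace Vale.Agent.P212

section Cocycle

variable {τ : Tower}

/-- The crossing number in the first direction of the shortest path from `x` to `y`. -/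
def cr1 (n : ℕ) (x y : XT τ) : ℤ :=
  cross (n := n) ((y.w.1.val : ℕ) : ZMod (n + 1)) ((x.w.1.val : ℕ) : ZMod (n + 1))

/-- The crossing number in the second direction of the shortest path from `x` to `y`. -/
def cr2 (n : ℕ) (x y : XT τ) : ℤ :=
  cross (n := n) ((y.w.2.val : ℕ) : ZMod (n + 1)) ((x.w.2.val : ℕ) : ZMod (n + 1))

theorem cr1_mk (n l l' : ℕ) (w w' : Torus n) (y : τ.G (min l (2 * n)))
    (y' : τ.G (min l' (2 * n))) :
    cr1 n (⟨n, l, w, y⟩ : XT τ) ⟨n, l', w', y'⟩ = cross w'.1 w.1 := by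
  simp only [cr1, ZMod.natCast_val, ZMod.cast_id', id_eq]

theorem cr2_mk (n l l' : ℕ) (w w' : Torus n) (y : τ.G (min l (2 * n)))
    (y' : τ.G (min l' (2 * n))) :
    cr2 n (⟨n, l, w, y⟩ : XT τ) ⟨n, l', w', y'⟩ = cross w'.2 w.2 := by
  simp only [cr2, ZMod.natCast_val, ZMod.cast_id', id_eq]

theorem natAbs_disp_fst_le {n : ℕ} (w w' : Torus n) :
    (disp w.1 w'.1).natAbs ≤ tdist w w' := Nat.le_add_right _ _

theorem natAbs_disp_snd_le {n : ℕ} (w w' : Torus n) :
    (disp w.2 w'.2).natAbs ≤ tdist w w' := Nat.le_add_left _ _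

/-- Crossing numbers are additive on close triples. -/
theorem cr_add {n R : ℕ} (hR : 4 * R ≤ n) {x y z : XT τ} (hx : x.n = n) (hy : y.n = n)
    (hz : z.n = n) (hxy : dist x y ≤ R) (hyz : dist y z ≤ R) :
    cr1 n x z = cr1 n x y + cr1 n y z ∧ cr2 n x z = cr2 n x y + cr2 n y z := by
  obtain ⟨n0, l, w, g⟩ := x
  obtain ⟨n1, l', w', g'⟩ := y
  obtain ⟨n2, l'', w'', g''⟩ := z
  simp only at hx hy hz
  subst hx
  subst hy
  subst hz
  rw [dist_comm] at hxy hyz
  have h1 := tdist_le (by omega) hxy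
  have h2 := tdist_le (by omega) hyz
  have e1 := natAbs_disp_fst_le w' w
  have e2 := natAbs_disp_snd_le w' w
  have e3 := natAbs_disp_fst_le w'' w'
  have e4 := natAbs_disp_snd_le w'' w'
  rw [cr1_mk, cr1_mk, cr1_mk, cr2_mk, cr2_mk, cr2_mk, add_comm (cross w'.1 w.1),
    add_comm (cross w'.2 w.2)]
  exact ⟨cross_add (by omega), cross_add (by omega)⟩

/-- A representative in the free group of the fibre coordinate. -/
noncomputable def rp (x : XT τ) : F3 := Quotient.out x.y

theorem mk_rp (x : XT τ) :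
    (QuotientGroup.mk (rp x) : τ.G (min x.l (2 * x.n))) = x.y := QuotientGroup.out_eq' x.y

/-- The word `v` leads from `x` to `y` in the deepest quotient. -/
def WR (n : ℕ) (x y : XT τ) (v : F3) : Prop :=
  (QuotientGroup.mk (rp y) : τ.G (2 * n)) =
    τ.mon n (2 * n) 0 ^ (- cr1 n x y) * τ.mon n (2 * n) 1 ^ (- cr2 n x y) *
      QuotientGroup.mk (rp x) * QuotientGroup.mk v

theorem exists_WR {n R : ℕ} (hR : 2 * R ≤ n) {x y : XT τ} (hx : x.n = n) (hy : y.n = n)
    (hl : 2 * n + R ≤ x.l) (hd : dist x y ≤ R) :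
    ∃ v : F3, v.toWord.length ≤ R ∧ WR n x y v := by
  obtain ⟨n0, l, w, g⟩ := x
  obtain ⟨n1, l', w', g'⟩ := y
  simp only at hx hy hl
  subst hx
  subst hy
  obtain ⟨v, hv, h1, h2, he⟩ := exists_word hR hl hd
  refine ⟨v, hv, ?_⟩
  rw [WR, cr1_mk, cr2_mk]
  have e1 : τ.red h2 g' = QuotientGroup.mk (rp (⟨n1, l', w', g'⟩ : XT τ)) :=
    (congrArg (τ.red h2) (mk_rp (⟨n1, l', w', g'⟩ : XT τ))).symm.trans (τ.red_mk h2 _)
  have e2 : τ.red h1 g = QuotientGroup.mk (rp (⟨n1, l, w, g⟩ : XT τ)) :=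
    (congrArg (τ.red h1) (mk_rp (⟨n1, l, w, g⟩ : XT τ))).symm.trans (τ.red_mk h1 _)
  rw [← e1, ← e2, he]
  rfl

open Classical in
/-- A chosen short word from `x` to `y`. -/
noncomputable def wd (n R : ℕ) (x y : XT τ) : F3 :=
  if h : ∃ v : F3, v.toWord.length ≤ R ∧ WR n x y v then h.choose else 1

theorem wd_spec {n R : ℕ} (hR : 2 * R ≤ n) {x y : XT τ} (hx : x.n = n) (hy : y.n = n)
    (hl : 2 * n + R ≤ x.l) (hd : dist x y ≤ R) :
    (wd n R x y).toWord.length ≤ R ∧ WR n x y (wd n R x y) := by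
  have h := exists_WR hR hx hy hl hd
  rw [wd, dif_pos h]
  exact h.choose_spec

/-- The corresponding closed word. -/
noncomputable def gam (n R : ℕ) (x y : XT τ) : F3 := rp x * wd n R x y * (rp y)⁻¹

/-- The primitive of the cup product in the deep part. -/
noncomputable def psi (n R : ℕ) (x y : XT τ) : ZMod (11 ^ n) :=
  τ.t n (cr1 n x y) (cr2 n x y) (gam n R x y)

theorem mk_gam {n R : ℕ} (hR : 2 * R ≤ n) {x y : XT τ} (hx : x.n = n) (hy : y.n = n)
    (hl : 2 * n + R ≤ x.l) (hd : dist x y ≤ R) :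
    (QuotientGroup.mk (gam n R x y) : τ.G (2 * n)) =
      τ.mon n (2 * n) 0 ^ (cr1 n x y) * τ.mon n (2 * n) 1 ^ (cr2 n x y) := by
  have h := (wd_spec hR hx hy hl hd).2
  have hc := (τ.mon_comm n (2 * n) le_rfl).zpow_zpow (cr1 n x y) (cr2 n x y)
  rw [gam, QuotientGroup.mk_mul, QuotientGroup.mk_mul, QuotientGroup.mk_inv, h, hc.eq]
  simp only [zpow_neg]
  group

theorem gam_mem {n R : ℕ} (hR : 2 * R ≤ n) {x y : XT τ} (hx : x.n = n) (hy : y.n = n)
    (hl : 2 * n + R ≤ x.l) (hd : dist x y ≤ R) :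
    (τ.g n 0 ^ (cr1 n x y) * τ.g n 1 ^ (cr2 n x y))⁻¹ * gam n R x y ∈ τ.N (2 * n) := by
  rw [← QuotientGroup.eq, mk_gam hR hx hy hl hd]
  rfl

theorem length_word_mul_le (u v : F3) :
    (u * v).toWord.length ≤ u.toWord.length + v.toWord.length := FreeGroup.norm_mul_le u v

theorem length_word_inv (u : F3) : (u⁻¹).toWord.length = u.toWord.length :=
  FreeGroup.norm_inv_eq

theorem psi_add {n R : ℕ} (hR : 4 * R ≤ n)
    (hshort : ∀ v : F3, v.toWord.length ≤ 3 * R → v ∈ τ.N (2 * n) → v ∈ τ.N (3 * n))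
    {x y z : XT τ} (hx : x.n = n) (hy : y.n = n)
    (hz : z.n = n) (hlx : 2 * n + R ≤ x.l) (hly : 2 * n + R ≤ y.l)
    (hxy : dist x y ≤ R) (hyz : dist y z ≤ R) (hxz : dist x z ≤ R) :
    psi n R x z = psi n R x y + psi n R y z + ((cr1 n x y * cr2 n y z : ℤ) : ZMod (11 ^ n)) := by
  have hR2 : 2 * R ≤ n := by omega
  obtain ⟨lxy, wxy⟩ := wd_spec hR2 hx hy hlx hxy
  obtain ⟨lyz, wyz⟩ := wd_spec hR2 hy hz hly hyz
  obtain ⟨lxz, wxz⟩ := wd_spec hR2 hx hz hlx hxz
  obtain ⟨hc1, hc2⟩ := cr_add hR hx hy hz hxy hyz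
  -- the short word measuring the difference
  set u := wd n R x y * wd n R y z * (wd n R x z)⁻¹ with hu
  have hul : u.toWord.length ≤ 3 * R := by
    have h1 := length_word_mul_le (wd n R x y * wd n R y z) (wd n R x z)⁻¹
    have h2 := length_word_mul_le (wd n R x y) (wd n R y z)
    rw [length_word_inv] at h1
    rw [← hu] at h1
    omega
  have hcomm := τ.mon_comm n (2 * n) le_rfl
  have huN : u ∈ τ.N (2 * n) := by
    rw [← QuotientGroup.eq_one_iff]
    have h1 : τ.mon n (2 * n) 0 ^ (- cr1 n y z) * τ.mon n (2 * n) 1 ^ (- cr2 n y z) *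
        (τ.mon n (2 * n) 0 ^ (- cr1 n x y) * τ.mon n (2 * n) 1 ^ (- cr2 n x y)) =
        τ.mon n (2 * n) 0 ^ (- cr1 n x z) * τ.mon n (2 * n) 1 ^ (- cr2 n x z) := by
      have hcz := (hcomm.zpow_zpow (- cr1 n x y) (- cr2 n y z)).eq
      rw [hc1, hc2, neg_add_rev, neg_add_rev, zpow_add, zpow_add]
      calc _ = τ.mon n (2 * n) 0 ^ (- cr1 n y z) * (τ.mon n (2 * n) 1 ^ (- cr2 n y z) *
            τ.mon n (2 * n) 0 ^ (- cr1 n x y)) * τ.mon n (2 * n) 1 ^ (- cr2 n x y) := by group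
        _ = _ := by
          rw [← hcz]
          group
    have h2 : (QuotientGroup.mk (rp z) : τ.G (2 * n)) =
        τ.mon n (2 * n) 0 ^ (- cr1 n x z) * τ.mon n (2 * n) 1 ^ (- cr2 n x z) *
          QuotientGroup.mk (rp x) * (QuotientGroup.mk (wd n R x y) *
            QuotientGroup.mk (wd n R y z)) := by
      rw [wyz, wxy, ← h1]
      simp only [mul_assoc]
    rw [wxz] at h2
    have h3 := mul_left_cancel h2
    rw [hu, QuotientGroup.mk_mul, QuotientGroup.mk_mul, QuotientGroup.mk_inv, ← h3,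
      mul_inv_cancel]
  have hu3 := hshort u hul huN
  -- conjugate it
  set δ := rp x * u * (rp x)⁻¹ with hδ
  have hδ3 : δ ∈ τ.N (3 * n) := (τ.normal (3 * n)).conj_mem u hu3 (rp x)
  have hδ2 : δ ∈ τ.N (2 * n) := (τ.normal (2 * n)).conj_mem u huN (rp x)
  have hgam : gam n R x y * gam n R y z = δ * gam n R x z := by
    rw [gam, gam, gam, hδ, hu]
    group
  have t1 := τ.t_mul n _ _ _ _ _ _ (gam_mem hR2 hx hy hlx hxy) (gam_mem hR2 hy hz hly hyz)
  have t2 := τ.t_mul n 0 0 _ _ δ _ (by simpa using hδ2) (gam_mem hR2 hx hz hlx hxz)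
  rw [τ.t_N n δ hδ3] at t2
  rw [← hc1, ← hc2, hgam] at t1
  simp only [zero_add, zero_mul, Int.cast_zero, add_zero] at t2
  rw [t2] at t1
  exact t1

/-- The truncated primitive. -/
noncomputable def cpsi (n R : ℕ) (x y : XT τ) : ZMod (11 ^ n) :=
  if 2 * n + R ≤ x.l then psi n R x y else 0

open Classical in
/-- The cocycle. -/
noncomputable def Tht (n R : ℕ) (x y z : XT τ) : ZMod (11 ^ n) :=
  if (x.n = n ∧ y.n = n ∧ z.n = n) ∧ dist x y ≤ R ∧ dist y z ≤ R ∧ dist x z ≤ R then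
    ((cr1 n x y * cr2 n y z : ℤ) : ZMod (11 ^ n)) + cpsi n R y z - cpsi n R x z + cpsi n R x y
  else 0

theorem same_comp {n R : ℕ} (hR : R < n) {x y : XT τ} (hx : x.n = n) (hd : dist x y ≤ R) :
    y.n = n := by
  by_contra hy
  have h1 : x.n ≠ y.n := by
    rw [hx]
    exact fun h => hy h.symm
  have h2 := le_dist_diff h1
  have h3 : (n : ℝ) ≤ max (x.n : ℝ) (y.n : ℝ) := by
    rw [hx]
    exact le_max_left _ _
  have h4 : (R : ℝ) < n := by exact_mod_cast hR
  linarith

theorem Tht_eq_zero_of_deep {n R : ℕ} (hR : 4 * R ≤ n)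
    (hshort : ∀ v : F3, v.toWord.length ≤ 3 * R → v ∈ τ.N (2 * n) → v ∈ τ.N (3 * n))
    {x y z : XT τ} (hlx : 2 * n + R ≤ x.l) (hly : 2 * n + R ≤ y.l) : Tht n R x y z = 0 := by
  rw [Tht]
  split_ifs with h
  · obtain ⟨⟨hx, hy, hz⟩, h1, h2, h3⟩ := h
    simp only [cpsi, if_pos hlx, if_pos hly]
    rw [psi_add hR hshort hx hy hz hlx hly h1 h2 h3]
    ring
  · rfl

theorem coc_finite_low (τ : Tower) (n L : ℕ) : {x : XT τ | x.n = n ∧ x.l < L}.Finite := by
  have h : {x : XT τ | x.n = n ∧ x.l < L} ⊆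
      Set.range (fun p : (l : Fin L) × (Torus n × τ.G (min l (2 * n))) =>
        (⟨n, p.1, p.2.1, p.2.2⟩ : XT τ)) := by
    rintro ⟨n0, l, w, g⟩ ⟨h1, h2⟩
    simp only at h1 h2
    subst h1
    exact ⟨⟨⟨l, h2⟩, (w, g)⟩, rfl⟩
  exact (Set.finite_range _).subset h

theorem coc_subsingleton_G_zero (τ : Tower) (n : ℕ) : Subsingleton (τ.G (min 0 (2 * n))) := by
  rw [Nat.zero_min]
  refine ⟨fun a b => ?_⟩
  induction a using QuotientGroup.induction_on with | H u => ?_
  induction b using QuotientGroup.induction_on with | H v => ?_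
  rw [QuotientGroup.eq, τ.top]
  trivial

theorem dist_base_le (τ : Tower) (n : ℕ) (w w' : Torus n) :
    dist (⟨n, 0, w, 1⟩ : XT τ) ⟨n, 0, w', 1⟩ ≤ tdist w w' := by
  have h := dist_transport (τ := τ) (l := 0) w w' 1
  have h1 : (hol τ w w' * 1 : τ.G (min 0 (2 * n))) = 1 :=
    (coc_subsingleton_G_zero τ n).elim _ _
  rwa [h1] at h

end Cocycle

/-- For each scale `R` and all large `n` there is a finitely supported cocycle at scale `R`
on the component `n` which restricts to the cup product of the crossing cochains. -/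
theorem exists_cocycle (τ : Tower) (R : ℕ) : ∃ n₁ : ℕ, ∀ n ≥ n₁,
    ∃ Θ : XT τ → XT τ → XT τ → ZMod (11 ^ n),
      {p : XT τ × XT τ × XT τ | Θ p.1 p.2.1 p.2.2 ≠ 0}.Finite ∧
      (∀ x y z, Θ x y z ≠ 0 → x.n = n ∧ y.n = n ∧ z.n = n) ∧
      (∀ x : Fin 4 → XT τ, (∀ i j, dist (x i) (x j) ≤ R) →
        Θ (x 1) (x 2) (x 3) - Θ (x 0) (x 2) (x 3) + Θ (x 0) (x 1) (x 3)
          - Θ (x 0) (x 1) (x 2) = 0) ∧
      (∀ w w' w'' : Torus n, tdist w w' ≤ R → tdist w' w'' ≤ R → tdist w w'' ≤ R →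
        Θ ⟨n, 0, w, 1⟩ ⟨n, 0, w', 1⟩ ⟨n, 0, w'', 1⟩ =
          ((cross w'.1 w.1 * cross w''.2 w'.2 : ℤ) : ZMod (11 ^ n))) := by
  obtain ⟨ns, hns⟩ := τ.short (3 * R)
  refine ⟨max ns (4 * R + 1), fun n hn => ⟨Tht n R, ?_, ?_, ?_, ?_⟩⟩
  · have hshort := hns n ((le_max_left _ _).trans hn)
    have hR : 4 * R + 1 ≤ n := (le_max_right _ _).trans hn
    refine Set.Finite.subset ((coc_finite_low τ n (2 * n + 2 * R)).prod
      ((coc_finite_low τ n (2 * n + 2 * R)).prod (coc_finite_low τ n (2 * n + 2 * R)))) ?_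
    rintro ⟨x, y, z⟩ h
    simp only [Set.mem_ofPred_eq] at h
    have h1 : (x.n = n ∧ y.n = n ∧ z.n = n) ∧ dist x y ≤ R ∧ dist y z ≤ R ∧ dist x z ≤ R := by
      by_contra hcon
      exact h (by rw [Tht, if_neg hcon])
    obtain ⟨⟨hx, hy, hz⟩, h1, h2, h3⟩ := h1
    have h4 : ¬ (2 * n + R ≤ x.l ∧ 2 * n + R ≤ y.l) := fun hcon =>
      h (Tht_eq_zero_of_deep (by omega) hshort hcon.1 hcon.2)
    have e1 := (level_diff_le x y).trans h1
    have e2 := (level_diff_le y z).trans h2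
    have e3 := (level_diff_le x z).trans h3
    rw [abs_le] at e1 e2 e3
    have f1 : x.l ≤ y.l + R := by
      have : (x.l : ℝ) ≤ y.l + R := by linarith only [e1.2]
      exact_mod_cast this
    have f2 : y.l ≤ x.l + R := by
      have : (y.l : ℝ) ≤ x.l + R := by linarith only [e1.1]
      exact_mod_cast this
    have f3 : z.l ≤ y.l + R := by
      have : (z.l : ℝ) ≤ y.l + R := by linarith only [e2.1]
      exact_mod_cast this
    have f4 : z.l ≤ x.l + R := by
      have : (z.l : ℝ) ≤ x.l + R := by linarith only [e3.1]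
      exact_mod_cast this
    refine ⟨⟨hx, ?_⟩, ⟨hy, ?_⟩, ⟨hz, ?_⟩⟩ <;> simp only <;> omega
  · intro x y z h
    by_contra hcon
    exact h (by rw [Tht, if_neg fun h' => hcon h'.1])
  · intro x hx
    have hR : 4 * R + 1 ≤ n := (le_max_right _ _).trans hn
    by_cases h0 : (x 0).n = n
    · have hall : ∀ i, (x i).n = n := fun i => same_comp (by omega) h0 (hx 0 i)
      have hT : ∀ i j k : Fin 4, Tht n R (x i) (x j) (x k) =
          ((cr1 n (x i) (x j) * cr2 n (x j) (x k) : ℤ) : ZMod (11 ^ n)) +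
            cpsi n R (x j) (x k) - cpsi n R (x i) (x k) + cpsi n R (x i) (x j) := by
        intro i j k
        rw [Tht, if_pos ⟨⟨hall i, hall j, hall k⟩, hx i j, hx j k, hx i k⟩]
      rw [hT, hT, hT, hT]
      have c1 := (cr_add (by omega) (hall 0) (hall 1) (hall 2) (hx 0 1) (hx 1 2)).1
      have c2 := (cr_add (by omega) (hall 1) (hall 2) (hall 3) (hx 1 2) (hx 2 3)).2
      rw [c1, c2]
      push_cast
      ring
    · have hall : ∀ i, (x i).n ≠ n := fun i hi => h0 (same_comp (by omega) hi (hx i 0))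
      have hT : ∀ i j k : Fin 4, Tht n R (x i) (x j) (x k) = 0 := by
        intro i j k
        rw [Tht, if_neg fun h => hall i h.1.1]
      rw [hT, hT, hT, hT]
      ring
  · intro w w' w'' h1 h2 h3
    have hR : 4 * R + 1 ≤ n := (le_max_right _ _).trans hn
    have d1 : dist (⟨n, 0, w, 1⟩ : XT τ) ⟨n, 0, w', 1⟩ ≤ R :=
      (dist_base_le τ n w w').trans (by exact_mod_cast h1)
    have d2 : dist (⟨n, 0, w', 1⟩ : XT τ) ⟨n, 0, w'', 1⟩ ≤ R :=
      (dist_base_le τ n w' w'').trans (by exact_mod_cast h2)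
    have d3 : dist (⟨n, 0, w, 1⟩ : XT τ) ⟨n, 0, w'', 1⟩ ≤ R :=
      (dist_base_le τ n w w'').trans (by exact_mod_cast h3)
    rw [Tht, if_pos ⟨⟨rfl, rfl, rfl⟩, d1, d2, d3⟩, cr1_mk, cr2_mk]
    have hc : ∀ (w₁ w₂ : Torus n), cpsi n R (⟨n, 0, w₁, 1⟩ : XT τ) ⟨n, 0, w₂, 1⟩ = 0 := by
      intro w₁ w₂
      rw [cpsi, if_neg]
      simp only
      omega
    rw [hc, hc, hc]
    ring

end Vale.Agent.P212
end
end

section

section

namespace Vale.Agent.P212

section Proj

variable {J : Type}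

theorem proj_apply (S : Set J) (f : L2 J) (j : J) :
    (proj S f : J → ℂ) j = S.indicator (f : J → ℂ) j := rfl

theorem proj_apply_mem {S : Set J} (f : L2 J) {j : J} (h : j ∈ S) :
    (proj S f : J → ℂ) j = (f : J → ℂ) j := by
  rw [proj_apply, Set.indicator_of_mem h]

theorem proj_apply_not_mem {S : Set J} (f : L2 J) {j : J} (h : j ∉ S) :
    (proj S f : J → ℂ) j = 0 := by
  rw [proj_apply, Set.indicator_of_notMem h]

theorem proj_norm_le (S : Set J) : ‖proj S‖ ≤ 1 :=
  LinearMap.mkContinuous_norm_le _ zero_le_one _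

theorem norm_proj_apply_le (S : Set J) (f : L2 J) : ‖proj S f‖ ≤ ‖f‖ := by
  simpa using (proj S).le_of_opNorm_le (proj_norm_le S) f

theorem proj_mul_proj (S T : Set J) : proj S * proj T = proj (S ∩ T) := by
  ext f j
  change (proj S (proj T f) : J → ℂ) j = (proj (S ∩ T) f : J → ℂ) j
  by_cases h : j ∈ S <;> by_cases h' : j ∈ T
  · rw [proj_apply_mem _ h, proj_apply_mem _ h', proj_apply_mem _ (Set.mem_inter h h')]
  · rw [proj_apply_mem _ h, proj_apply_not_mem _ h', proj_apply_not_mem _ (fun k => h' k.2)]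
  · rw [proj_apply_not_mem _ h, proj_apply_not_mem _ (fun k => h k.1)]
  · rw [proj_apply_not_mem _ h, proj_apply_not_mem _ (fun k => h k.1)]

theorem proj_idem (S : Set J) : proj S * proj S = proj S := by
  rw [proj_mul_proj, Set.inter_self]

theorem proj_empty : proj (∅ : Set J) = 0 := by
  ext f j
  exact proj_apply_not_mem f (Set.notMem_empty j)

theorem star_proj (S : Set J) : star (proj S) = proj S := by
  rw [ContinuousLinearMap.star_eq_adjoint]
  refine (ContinuousLinearMap.eq_adjoint_iff _ _).2 (fun f g => ?_) |>.symm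
  rw [lp.inner_eq_tsum, lp.inner_eq_tsum]
  refine tsum_congr (fun j => ?_)
  by_cases h : j ∈ S
  · rw [proj_apply_mem _ h, proj_apply_mem _ h]
  · rw [proj_apply_not_mem _ h, proj_apply_not_mem _ h]
    simp

theorem proj_mul_of_subset {S T : Set J} (h : S ⊆ T) : proj S * proj T = proj S := by
  rw [proj_mul_proj, Set.inter_eq_left.2 h]

theorem proj_mul_of_superset {S T : Set J} (h : S ⊆ T) : proj T * proj S = proj S := by
  rw [proj_mul_proj, Set.inter_eq_right.2 h]

theorem proj_mul_of_disjoint {S T : Set J} (h : Disjoint S T) : proj S * proj T = 0 := by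
  rw [proj_mul_proj, Set.disjoint_iff_inter_eq_empty.1 h, proj_empty]

end Proj

section Compact

/-- The adjoint of a compact operator on a Hilbert space is compact. -/
theorem isCompactOperator_star {E : Type*} [NormedAddCommGroup E] [InnerProductSpace ℂ E]
    [CompleteSpace E] {T : E →L[ℂ] E} (hT : IsCompactOperator T) :
    IsCompactOperator (star T : E →L[ℂ] E) := by
  have h1 : IsCompactOperator (T * star T : E →L[ℂ] E) := by
    change IsCompactOperator (T ∘ (star T : E →L[ℂ] E))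
    exact hT.comp_clm (star T)
  change IsCompactOperator ((star T : E →L[ℂ] E) : E →ₗ[ℂ] E)
  rw [isCompactOperator_iff_isCompact_closure_image_closedBall _ zero_lt_one]
  have h2 := h1
  change IsCompactOperator ((T * star T : E →L[ℂ] E) : E →ₗ[ℂ] E) at h2
  rw [isCompactOperator_iff_isCompact_closure_image_closedBall _ zero_lt_one] at h2
  have h3 : TotallyBounded ((T * star T : E →L[ℂ] E) '' Metric.closedBall 0 1) :=
    h2.totallyBounded.subset subset_closure
  suffices h : TotallyBounded ((star T : E →L[ℂ] E) '' Metric.closedBall 0 1) from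
    h.closure.isCompact_of_isClosed isClosed_closure
  rw [Metric.totallyBounded_iff]
  intro ε hε
  -- a finite net in the domain for `T T*` within `δ`
  obtain ⟨t, ht, hcov⟩ := Metric.totallyBounded_iff.1 h3 (ε ^ 2 / 8) (by positivity)
  have hex : ∀ y ∈ t, ∃ w : E, (∃ x ∈ Metric.closedBall (0 : E) 1,
      dist ((T * star T : E →L[ℂ] E) x) y < ε ^ 2 / 8) →
      (w ∈ Metric.closedBall (0 : E) 1 ∧ dist ((T * star T : E →L[ℂ] E) w) y < ε ^ 2 / 8) := by
    intro y _
    by_cases h : ∃ x ∈ Metric.closedBall (0 : E) 1,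
      dist ((T * star T : E →L[ℂ] E) x) y < ε ^ 2 / 8
    · obtain ⟨x, hx, hx'⟩ := h
      exact ⟨x, fun _ => ⟨hx, hx'⟩⟩
    · exact ⟨0, fun h' => absurd h' h⟩
  choose! w hw using hex
  refine ⟨(fun y => (star T : E →L[ℂ] E) (w y)) '' t, ht.image _, ?_⟩
  rintro _ ⟨x, hx, rfl⟩
  have hx' := hcov ⟨x, hx, rfl⟩
  simp only [Set.mem_iUnion, Metric.mem_ball, exists_prop] at hx' ⊢
  obtain ⟨y, hy, hxy⟩ := hx'
  obtain ⟨hw1, hw2⟩ := hw y hy ⟨x, hx, hxy⟩
  refine ⟨_, ⟨y, hy, rfl⟩, ?_⟩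
  have hd : dist ((T * star T : E →L[ℂ] E) x) ((T * star T : E →L[ℂ] E) (w y)) < ε ^ 2 / 4 := by
    calc _ ≤ dist ((T * star T : E →L[ℂ] E) x) y + dist ((T * star T : E →L[ℂ] E) (w y)) y :=
          dist_triangle_right _ _ _
      _ < ε ^ 2 / 8 + ε ^ 2 / 8 := add_lt_add hxy hw2
      _ = ε ^ 2 / 4 := by ring
  have hxw : ‖x - w y‖ ≤ 2 := by
    have := norm_sub_le x (w y)
    rw [mem_closedBall_zero_iff] at hx hw1
    linarith only [this, hw1, hx]
  have key : ‖(star T : E →L[ℂ] E) (x - w y)‖ ^ 2 ≤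
      ‖(T * star T : E →L[ℂ] E) (x - w y)‖ * ‖x - w y‖ := by
    rw [← inner_self_eq_norm_sq (𝕜 := ℂ)]
    rw [ContinuousLinearMap.star_eq_adjoint, ContinuousLinearMap.adjoint_inner_right]
    exact (re_inner_le_norm _ _)
  rw [dist_eq_norm, ← map_sub] at hd ⊢
  have : ‖(star T : E →L[ℂ] E) (x - w y)‖ ^ 2 < ε ^ 2 := by
    calc _ ≤ _ := key
      _ ≤ ‖(T * star T : E →L[ℂ] E) (x - w y)‖ * 2 := by gcongr
      _ < ε ^ 2 / 4 * 2 := by gcongr
      _ ≤ ε ^ 2 := by linarith only [sq_nonneg ε]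
  exact lt_of_pow_lt_pow_left₀ 2 hε.le this

end Compact

end Vale.Agent.P212
end
end

section

section

set_option linter.unusedSectionVars false

namespace Vale.Agent.P212

variable {X : Type} [MetricSpace X] {J : Type} {s : J → X}

theorem finite_ball [BddGeometry X] (x : X) (R : ℝ) : (Metric.closedBall x R).Finite := by
  obtain ⟨N, hN⟩ := BddGeometry.bdd (X := X) R
  exact Set.finite_of_encard_le_coe (hN x)

/-- The ball as a finset. -/
noncomputable def ballF [BddGeometry X] (x : X) (R : ℝ) : Finset X := (finite_ball x R).toFinset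

theorem mem_ballF [BddGeometry X] {x y : X} {R : ℝ} : y ∈ ballF x R ↔ dist y x ≤ R := by
  simp [ballF]

theorem blk_zero (x y : X) : blk s (0 : L2 J →L[ℂ] L2 J) x y = 0 := by
  simp [blk]

theorem blk_add (T S : L2 J →L[ℂ] L2 J) (x y : X) :
    blk s (T + S) x y = blk s T x y + blk s S x y := by
  simp [blk, mul_add, add_mul]

theorem blk_sub (T S : L2 J →L[ℂ] L2 J) (x y : X) :
    blk s (T - S) x y = blk s T x y - blk s S x y := by
  simp [blk, mul_sub, sub_mul]

theorem blk_smul (c : ℂ) (T : L2 J →L[ℂ] L2 J) (x y : X) :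
    blk s (c • T) x y = c • blk s T x y := by
  simp [blk]

theorem blk_star (T : L2 J →L[ℂ] L2 J) (x y : X) :
    blk s (star T) x y = star (blk s T y x) := by
  simp [blk, star_proj, mul_assoc]

theorem blk_one_ne {x y : X} (h : x ≠ y) : blk s (1 : L2 J →L[ℂ] L2 J) x y = 0 := by
  rw [blk, mul_one, proj_mul_of_disjoint]
  exact Set.disjoint_left.2 (fun j hj hj' => h (hj.symm.trans hj'))

theorem blk_mul_proj (T : L2 J →L[ℂ] L2 J) (x y : X) :
    blk s T x y * proj (s ⁻¹' {y}) = blk s T x y := by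
  rw [blk, mul_assoc, mul_assoc, proj_idem, ← mul_assoc]

theorem blk_apply_of_ne (T : L2 J →L[ℂ] L2 J) (x y : X) (f : L2 J) {j : J} (h : s j ≠ x) :
    (blk s T x y f : J → ℂ) j = 0 := by
  have : blk s T x y f = proj (s ⁻¹' {x}) (T (proj (s ⁻¹' {y}) f)) := rfl
  rw [this, proj_apply_not_mem]
  exact h

theorem blk_apply_self (T : L2 J →L[ℂ] L2 J) (y : X) (f : L2 J) (j : J) :
    (blk s T (s j) y f : J → ℂ) j = (T (proj (s ⁻¹' {y}) f) : J → ℂ) j := by
  have : blk s T (s j) y f = proj (s ⁻¹' {s j}) (T (proj (s ⁻¹' {y}) f)) := rfl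
  rw [this, proj_apply_mem]
  rfl

/-- `T` has propagation at most `R`. -/
def PropLE (s : J → X) (T : L2 J →L[ℂ] L2 J) (R : ℝ) : Prop :=
  ∀ x y, R < dist x y → blk s T x y = 0

theorem PropLE.mono {T : L2 J →L[ℂ] L2 J} {R R' : ℝ} (h : PropLE s T R) (hR : R ≤ R') :
    PropLE s T R' := fun x y hxy => h x y (hR.trans_lt hxy)

theorem PropLE.mul_proj [BddGeometry X] {T : L2 J →L[ℂ] L2 J} {R : ℝ} (h : PropLE s T R)
    (y : X) : T * proj (s ⁻¹' {y}) = ∑ w ∈ ballF y R, blk s T w y := by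
  ext f j
  have h1 : ((∑ w ∈ ballF y R, blk s T w y) f : L2 J) = ∑ w ∈ ballF y R, blk s T w y f := by
    simp
  rw [h1, lp.coeFn_sum, Finset.sum_apply]
  change (T (proj (s ⁻¹' {y}) f) : J → ℂ) j = _
  by_cases hj : s j ∈ ballF y R
  · rw [Finset.sum_eq_single_of_mem (s j) hj, blk_apply_self]
    intro w _ hw
    exact blk_apply_of_ne T w y f (Ne.symm hw)
  · rw [Finset.sum_eq_zero, ← blk_apply_self, h (s j) y]
    · rfl
    · rw [mem_ballF] at hj
      exact not_le.1 hj
    · intro w hw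
      exact blk_apply_of_ne T w y f (fun e => hj (e ▸ hw))

theorem PropLE.star {T : L2 J →L[ℂ] L2 J} {R : ℝ} (h : PropLE s T R) :
    PropLE s (Star.star T) R := fun x y hxy => by
  rw [blk_star, h y x (by rwa [dist_comm]), star_zero]

theorem PropLE.proj_mul [BddGeometry X] {T : L2 J →L[ℂ] L2 J} {R : ℝ} (h : PropLE s T R)
    (x : X) : proj (s ⁻¹' {x}) * T = ∑ w ∈ ballF x R, blk s T x w := by
  have := congrArg Star.star (h.star.mul_proj x)
  rw [star_mul, star_proj, star_star, star_sum] at this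
  rw [this]
  refine Finset.sum_congr rfl (fun w _ => ?_)
  rw [blk_star, star_star]

theorem blk_mul [BddGeometry X] {T S : L2 J →L[ℂ] L2 J} {R : ℝ} (h : PropLE s T R) (x y : X) :
    blk s (T * S) x y = ∑ w ∈ ballF x R, blk s T x w * blk s S w y := by
  have : blk s (T * S) x y = (proj (s ⁻¹' {x}) * T) * (S * proj (s ⁻¹' {y})) := by
    simp [blk, mul_assoc]
  rw [this, h.proj_mul, Finset.sum_mul]
  refine Finset.sum_congr rfl (fun w _ => ?_)
  conv_lhs => rw [← blk_mul_proj]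
  simp [blk, mul_assoc]

theorem PropLE.zero (R : ℝ) : PropLE s (0 : L2 J →L[ℂ] L2 J) R := fun x y _ => blk_zero x y

theorem PropLE.add {T S : L2 J →L[ℂ] L2 J} {R : ℝ} (hT : PropLE s T R) (hS : PropLE s S R) :
    PropLE s (T + S) R := fun x y h => by rw [blk_add, hT x y h, hS x y h, add_zero]

theorem PropLE.sub {T S : L2 J →L[ℂ] L2 J} {R : ℝ} (hT : PropLE s T R) (hS : PropLE s S R) :
    PropLE s (T - S) R := fun x y h => by rw [blk_sub, hT x y h, hS x y h, sub_zero]

theorem PropLE.smul {T : L2 J →L[ℂ] L2 J} {R : ℝ} (c : ℂ) (hT : PropLE s T R) :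
    PropLE s (c • T) R := fun x y h => by rw [blk_smul, hT x y h, smul_zero]

theorem PropLE.one {R : ℝ} (hR : 0 ≤ R) : PropLE s (1 : L2 J →L[ℂ] L2 J) R := fun x y h =>
  blk_one_ne (by
    rintro rfl
    rw [dist_self] at h
    exact absurd h (not_lt.2 hR))

theorem PropLE.mul [BddGeometry X] {T S : L2 J →L[ℂ] L2 J} {R R' : ℝ}
    (hT : PropLE s T R) (hS : PropLE s S R') : PropLE s (T * S) (R + R') := by
  intro x y hxy
  rw [blk_mul hT]
  refine Finset.sum_eq_zero (fun w hw => ?_)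
  rw [mem_ballF] at hw
  rw [hS w y, mul_zero]
  have := dist_triangle_left x y w
  rw [dist_comm] at hw
  have h2 := dist_triangle x w y
  linarith

theorem IsRoe.zero : IsRoe s (0 : L2 J →L[ℂ] L2 J) where
  propagation := ⟨0, PropLE.zero 0⟩
  compact := fun x y => by
    rw [blk_zero]
    exact isCompactOperator_zero

theorem IsRoe.add {T S : L2 J →L[ℂ] L2 J} (hT : IsRoe s T) (hS : IsRoe s S) :
    IsRoe s (T + S) := by
  obtain ⟨R, hR⟩ := hT.1
  obtain ⟨R', hR'⟩ := hS.1
  refine ⟨⟨max R R', PropLE.add (PropLE.mono (s := s) hR (le_max_left _ _))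
    (PropLE.mono (s := s) hR' (le_max_right _ _))⟩, fun x y => ?_⟩
  rw [blk_add]
  exact (hT.2 x y).add (hS.2 x y)

theorem IsRoe.smul {T : L2 J →L[ℂ] L2 J} (c : ℂ) (hT : IsRoe s T) : IsRoe s (c • T) := by
  obtain ⟨R, hR⟩ := hT.1
  refine ⟨⟨R, PropLE.smul c hR⟩, fun x y => ?_⟩
  rw [blk_smul]
  exact (hT.2 x y).smul c

theorem IsRoe.star {T : L2 J →L[ℂ] L2 J} (hT : IsRoe s T) : IsRoe s (Star.star T) := by
  obtain ⟨R, hR⟩ := hT.1
  refine ⟨⟨R, PropLE.star hR⟩, fun x y => ?_⟩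
  rw [blk_star]
  exact isCompactOperator_star (hT.2 y x)

theorem isCompactOperator_sum {E : Type*} [NormedAddCommGroup E] [NormedSpace ℂ E]
    {ι : Type*} (F : Finset ι) (T : ι → E →L[ℂ] E) (h : ∀ i ∈ F, IsCompactOperator (T i)) :
    IsCompactOperator (∑ i ∈ F, T i : E →L[ℂ] E) := by
  classical
  induction F using Finset.induction_on with
  | empty =>
    rw [Finset.sum_empty]
    exact isCompactOperator_zero
  | insert a F ha ih =>
    rw [Finset.sum_insert ha]
    exact (h a (Finset.mem_insert_self a F)).add (ih (fun i hi => h i (Finset.mem_insert_of_mem hi)))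

theorem IsRoe.mul [BddGeometry X] {T S : L2 J →L[ℂ] L2 J} (hT : IsRoe s T) (hS : IsRoe s S) :
    IsRoe s (T * S) := by
  obtain ⟨R, hR⟩ := hT.1
  obtain ⟨R', hR'⟩ := hS.1
  refine ⟨⟨R + R', PropLE.mul hR hR'⟩, fun x y => ?_⟩
  rw [blk_mul (R := R) hR]
  refine isCompactOperator_sum _ _ (fun w _ => ?_)
  exact (hT.2 x w).comp_clm (blk s S w y)

theorem IsRoe.sub {T S : L2 J →L[ℂ] L2 J} (hT : IsRoe s T) (hS : IsRoe s S) :
    IsRoe s (T - S) := by
  have := hT.add (hS.smul (-1))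
  rwa [neg_one_smul, ← sub_eq_add_neg] at this

end Vale.Agent.P212
end
end

section

section

set_option linter.unusedSectionVars false

namespace Vale.Agent.P212

variable {X : Type} [MetricSpace X]

theorem countable_of_bddGeometry [BddGeometry X] : Countable X := by
  rcases isEmpty_or_nonempty X with h | ⟨⟨x₀⟩⟩
  · infer_instance
  · rw [← Set.countable_univ_iff]
    have : (Set.univ : Set X) ⊆ ⋃ n : ℕ, Metric.closedBall x₀ n := by
      intro x _
      obtain ⟨n, hn⟩ := exists_nat_ge (dist x x₀)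
      exact Set.mem_iUnion.2 ⟨n, hn⟩
    exact (Set.countable_iUnion (fun n : ℕ => (finite_ball x₀ n).countable)).mono this

/-- The set of colours that are allowed for `x`. -/
def allowed (e : X → ℕ) (R : ℝ) (x : X) (ih : ∀ y, e y < e x → ℕ) : Set ℕ :=
  {k | ∀ y (h : e y < e x), dist y x ≤ R → k ≠ ih y h}

/-- The greedy colouring. -/
noncomputable def greedy (e : X → ℕ) (R : ℝ) : X → ℕ :=
  WellFounded.fix (measure e).wf (fun x ih => sInf (allowed e R x ih))

theorem greedy_eq (e : X → ℕ) (R : ℝ) (x : X) :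
    greedy e R x = sInf (allowed e R x (fun y _ => greedy e R y)) :=
  WellFounded.fix_eq _ _ _

theorem greedy_exists [BddGeometry X] (e : X → ℕ) (R : ℝ) {N : ℕ}
    (hN : ∀ x : X, (ballF x R).card ≤ N) (x : X) :
    ∃ k ≤ N, k ∈ allowed e R x (fun y _ => greedy e R y) := by
  classical
  by_contra hcon
  push Not at hcon
  have hsub : Finset.range (N + 1) ⊆ (ballF x R).image (greedy e R) := by
    intro k hk
    have hk' := hcon k (Nat.lt_succ_iff.1 (Finset.mem_range.1 hk))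
    simp only [allowed, Set.mem_ofPred_eq, not_forall] at hk'
    obtain ⟨y, _, hyx, hky⟩ := hk'
    rw [Finset.mem_image]
    exact ⟨y, mem_ballF.2 hyx, (not_not.1 hky).symm⟩
  have h1 := Finset.card_le_card hsub
  have h2 := (Finset.card_image_le (s := ballF x R) (f := greedy e R)).trans (hN x)
  rw [Finset.card_range] at h1
  omega

theorem greedy_mem [BddGeometry X] (e : X → ℕ) (R : ℝ) {N : ℕ}
    (hN : ∀ x : X, (ballF x R).card ≤ N) (x : X) :
    greedy e R x ∈ allowed e R x (fun y _ => greedy e R y) := by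
  obtain ⟨k, _, hk⟩ := greedy_exists e R hN x
  have h : (allowed e R x (fun y _ => greedy e R y)).Nonempty := ⟨k, hk⟩
  have := Nat.sInf_mem h
  rwa [← greedy_eq] at this

theorem greedy_le [BddGeometry X] (e : X → ℕ) (R : ℝ) {N : ℕ}
    (hN : ∀ x : X, (ballF x R).card ≤ N) (x : X) : greedy e R x ≤ N := by
  obtain ⟨k, hkN, hk⟩ := greedy_exists e R hN x
  rw [greedy_eq]
  exact (Nat.sInf_le hk).trans hkN

theorem card_ballF_le [BddGeometry X] (R : ℝ) : ∃ N : ℕ, ∀ x : X, (ballF x R).card ≤ N := by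
  obtain ⟨N, hN⟩ := BddGeometry.bdd (X := X) R
  refine ⟨N, fun x => ?_⟩
  have := hN x
  rw [(finite_ball x R).encard_eq_coe_toFinset_card] at this
  exact_mod_cast this

/-- A colouring with finitely many colours, distinct on distinct points within distance `R`. -/
theorem exists_colouring [BddGeometry X] (R : ℝ) : ∃ (M : ℕ) (χ : X → Fin M),
    ∀ x y, x ≠ y → dist x y ≤ R → χ x ≠ χ y := by
  have : Countable X := countable_of_bddGeometry
  obtain ⟨e, he⟩ := exists_injective_nat X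
  obtain ⟨N, hN⟩ := card_ballF_le (X := X) R
  refine ⟨N + 1, fun x => ⟨greedy e R x, Nat.lt_succ_of_le (greedy_le e R hN x)⟩, ?_⟩
  have key : ∀ x y, e y < e x → dist y x ≤ R → greedy e R x ≠ greedy e R y :=
    fun x y h1 h2 => greedy_mem e R hN x y h1 h2
  intro x y hxy hd heq
  have heq' : greedy e R x = greedy e R y := congrArg Fin.val heq
  rcases lt_trichotomy (e x) (e y) with h | h | h
  · exact key y x h hd heq'.symm
  · exact hxy (he h)
  · rw [dist_comm] at hd
    exact key x y h hd heq'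

end Vale.Agent.P212
end
end

section

section

set_option linter.unusedSectionVars false

namespace Vale.Agent.P212

variable {X : Type} [MetricSpace X] {J : Type} {s : J → X}

theorem roeU_mul [BddGeometry X] {T S : L2 J →L[ℂ] L2 J}
    (hT : ∃ c : ℂ, IsRoe s (T - c • 1)) (hS : ∃ c : ℂ, IsRoe s (S - c • 1)) :
    ∃ c : ℂ, IsRoe s (T * S - c • 1) := by
  obtain ⟨c, hc⟩ := hT
  obtain ⟨d, hd⟩ := hS
  refine ⟨c * d, ?_⟩
  have h : T * S - (c * d) • (1 : L2 J →L[ℂ] L2 J) =
      (T - c • 1) * (S - d • 1) + c • (S - d • 1) + d • (T - c • 1) := by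
    simp only [sub_mul, mul_sub, smul_sub, mul_smul_comm, smul_mul_assoc, mul_one, one_mul,
      smul_smul]
    rw [mul_comm d c]
    abel
  rw [h]
  exact ((hc.mul hd).add (hd.smul c)).add (hc.smul d)

theorem roeU_add {T S : L2 J →L[ℂ] L2 J}
    (hT : ∃ c : ℂ, IsRoe s (T - c • 1)) (hS : ∃ c : ℂ, IsRoe s (S - c • 1)) :
    ∃ c : ℂ, IsRoe s (T + S - c • 1) := by
  obtain ⟨c, hc⟩ := hT
  obtain ⟨d, hd⟩ := hS
  refine ⟨c + d, ?_⟩
  have h : T + S - (c + d) • (1 : L2 J →L[ℂ] L2 J) = (T - c • 1) + (S - d • 1) := by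
    rw [add_smul]
    abel
  rw [h]
  exact hc.add hd

theorem roeU_algebraMap (c : ℂ) :
    ∃ d : ℂ, IsRoe s (algebraMap ℂ (L2 J →L[ℂ] L2 J) c - d • 1) := by
  refine ⟨c, ?_⟩
  rw [Algebra.algebraMap_eq_smul_one, sub_self]
  exact IsRoe.zero

theorem roeU_star {T : L2 J →L[ℂ] L2 J} (hT : ∃ c : ℂ, IsRoe s (T - c • 1)) :
    ∃ c : ℂ, IsRoe s (star T - c • 1) := by
  obtain ⟨c, hc⟩ := hT
  refine ⟨star c, ?_⟩
  have h : star T - star c • (1 : L2 J →L[ℂ] L2 J) = star (T - c • 1) := by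
    rw [star_sub, star_smul, star_one]
  rw [h]
  exact hc.star

end Vale.Agent.P212
end
end

section

section

namespace Vale.Agent.P212

variable {X : Type} [MetricSpace X] {J : Type}

/-- The unital *-algebra `ℂ 1 + ℂ[X]` of operators on `l^2(J)`, where `ℂ[X]` consists of the
operators of finite propagation with compact matrix blocks. -/
noncomputable def roeU [BddGeometry X] (s : J → X) : StarSubalgebra ℂ (L2 J →L[ℂ] L2 J) where
  carrier := {T | ∃ c : ℂ, IsRoe s (T - c • 1)}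
  mul_mem' := roeU_mul
  add_mem' := roeU_add
  algebraMap_mem' := roeU_algebraMap
  star_mem' := roeU_star

section
variable {X : Type} [MetricSpace X] [BddGeometry X] {J : Type} (s : J → X)
noncomputable instance (priority := 2000) rur : Ring (roeU s) := SubringClass.toRing (roeU s)
noncomputable instance (priority := 2000) rus : Semiring (roeU s) := (rur s).toSemiring
noncomputable instance (priority := 2000) run : NonUnitalNonAssocSemiring (roeU s) :=
  (rur s).toNonAssocRing.toNonUnitalNonAssocSemiring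
noncomputable instance (priority := 2000) rumo : Monoid (roeU s) := (rur s).toMonoid
noncomputable instance (priority := 2000) rumul : Mul (roeU s) := inferInstance
noncomputable instance (priority := 2000) ruadd : Add (roeU s) := inferInstance
noncomputable instance (priority := 2000) ruacm : AddCommMonoid (roeU s) := (rur s).toAddCommMonoid
noncomputable instance (priority := 2000) rualg : Algebra ℂ (roeU s) := (roeU s).algebra
noncomputable instance (priority := 2000) rusm : SMul ℂ (roeU s) := (rualg s).toSMul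
noncomputable instance (priority := 2000) rumod : Module ℂ (roeU s) := (rualg s).toModule
noncomputable instance (priority := 2000) rudma : DistribMulAction ℂ (roeU s) := inferInstance
noncomputable instance (priority := 2000) rusta : Star (roeU s) := StarMemClass.instStar (roeU s)
noncomputable instance (priority := 2000) rustr : StarRing (roeU s) := (roeU s).starRing
end

end Vale.Agent.P212
end
end

section

section

set_option linter.unusedSectionVars false

namespace Vale.Agent.P212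

open UniformSpace

variable {X : Type} [MetricSpace X] [BddGeometry X] {J : Type} {s : J → X}

theorem IsRoe.mem_roeU {T : L2 J →L[ℂ] L2 J} (hT : IsRoe s T) : T ∈ roeU s :=
  ⟨0, by rwa [zero_smul, sub_zero]⟩

/-- Block diagonal operators with compact blocks. -/
noncomputable def diagAlg (s : J → X) : NonUnitalStarSubalgebra ℂ (L2 J →L[ℂ] L2 J) where
  carrier := {T | PropLE s T 0 ∧ ∀ x y, IsCompactOperator (blk s T x y)}
  mul_mem' := fun {T S} hT hS => ⟨by simpa using hT.1.mul hS.1,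
    ((show IsRoe s T from ⟨⟨0, hT.1⟩, hT.2⟩).mul (show IsRoe s S from ⟨⟨0, hS.1⟩, hS.2⟩)).2⟩
  add_mem' := fun {T S} hT hS => ⟨hT.1.add hS.1,
    ((show IsRoe s T from ⟨⟨0, hT.1⟩, hT.2⟩).add (show IsRoe s S from ⟨⟨0, hS.1⟩, hS.2⟩)).2⟩
  zero_mem' := ⟨PropLE.zero 0, IsRoe.zero.2⟩
  smul_mem' := fun c {T} hT => ⟨hT.1.smul c,
    ((show IsRoe s T from ⟨⟨0, hT.1⟩, hT.2⟩).smul c).2⟩
  star_mem' := fun {T} hT => ⟨hT.1.star, (show IsRoe s T from ⟨⟨0, hT.1⟩, hT.2⟩).star.2⟩

section
variable {X : Type} [MetricSpace X] [BddGeometry X] {J : Type} (s : J → X)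
noncomputable instance (priority := 2000) dar : NonUnitalRing (diagAlg s) :=
  (diagAlg s).toNonUnitalRing
noncomputable instance (priority := 2000) dan : NonUnitalNonAssocSemiring (diagAlg s) :=
  (dar s).toNonUnitalNonAssocSemiring
noncomputable instance (priority := 2000) daam : AddMonoid (diagAlg s) :=
  (dar s).toAddMonoid
noncomputable instance (priority := 2000) daacm : AddCommMonoid (diagAlg s) :=
  (dan s).toAddCommMonoid
noncomputable instance (priority := 2000) damod : Module ℂ (diagAlg s) :=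
  (diagAlg s).instModule
noncomputable instance (priority := 2000) dadma : DistribMulAction ℂ (diagAlg s) :=
  (damod s).toDistribMulAction
noncomputable instance (priority := 2000) dasta : Star (diagAlg s) :=
  StarMemClass.instStar (diagAlg s)
end

theorem continuous_blk (x y : X) : Continuous (fun T : L2 J →L[ℂ] L2 J => blk s T x y) := by
  unfold blk
  continuity

theorem isClosed_diagAlg (s : J → X) :
    IsClosed ((diagAlg s : Set (L2 J →L[ℂ] L2 J))) := by
  have h : (diagAlg s : Set (L2 J →L[ℂ] L2 J)) =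
      (⋂ (x : X) (y : X) (_ : 0 < dist x y), {T | blk s T x y = 0}) ∩
      (⋂ (x : X) (y : X), (fun T => blk s T x y) ⁻¹' {T | IsCompactOperator T}) := by
    ext T
    simp only [Set.mem_inter_iff, Set.mem_iInter]
    exact Iff.rfl
  rw [h]
  refine IsClosed.inter ?_ ?_
  · exact isClosed_iInter fun x => isClosed_iInter fun y => isClosed_iInter fun _ =>
      isClosed_eq (continuous_blk x y) continuous_const
  · exact isClosed_iInter fun x => isClosed_iInter fun y =>
      isClosed_setOfPred_isCompactOperator.preimage (continuous_blk x y)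

theorem isRoe_of_mem_diagAlg {T : L2 J →L[ℂ] L2 J} (hT : T ∈ diagAlg s) : IsRoe s T :=
  ⟨⟨0, hT.1⟩, hT.2⟩

/-- The inclusion of the block diagonal algebra into `roeU s`. -/
noncomputable def diagIncl (s : J → X) : diagAlg s →⋆ₙₐ[ℂ] roeU s where
  toFun T := ⟨T.1, (isRoe_of_mem_diagAlg T.2).mem_roeU⟩
  map_smul' _ _ := rfl
  map_zero' := rfl
  map_add' _ _ := rfl
  map_mul' _ _ := rfl
  map_star' _ := rfl

theorem seminorm_le_of_diag (p : roeU s → ℝ) [IsCStarSeminorm p] {T : L2 J →L[ℂ] L2 J}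
    (hT : T ∈ diagAlg s) : p ⟨T, (isRoe_of_mem_diagAlg hT).mem_roeU⟩ ≤ ‖T‖ := by
  let _ : NonUnitalCStarAlgebra (diagAlg s) :=
    NonUnitalStarSubalgebra.nonUnitalCStarAlgebra (diagAlg s) (h_closed := isClosed_diagAlg s)
  have h := NonUnitalStarAlgHom.norm_apply_le
    ((toC p : roeU s →⋆ₙₐ[ℂ] Completion (WithSN p)).comp (diagIncl s)) ⟨T, hT⟩
  have h2 := norm_toC p (diagIncl s ⟨T, hT⟩)
  exact h2.symm.le.trans h

end Vale.Agent.P212
end
end

section

section

set_option linter.unusedSectionVars false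

namespace Vale.Agent.P212

open UniformSpace

variable {X : Type} [MetricSpace X] [BddGeometry X] {J : Type} {s : J → X}

/-- The projection onto the part of `l^2(J)` of colour `a`. -/
noncomputable def colProj {M : ℕ} (s : J → X) (χ : X → Fin M) (a : Fin M) :
    L2 J →L[ℂ] L2 J := proj (s ⁻¹' (χ ⁻¹' {a}))

theorem sum_colProj {M : ℕ} (s : J → X) (χ : X → Fin M) :
    ∑ a, colProj s χ a = 1 := by
  ext f j
  have h1 : ((∑ a, colProj s χ a) f : L2 J) = ∑ a, colProj s χ a f := by simp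
  rw [h1, lp.coeFn_sum, Finset.sum_apply]
  rw [Finset.sum_eq_single_of_mem (χ (s j)) (Finset.mem_univ _)]
  · exact proj_apply_mem _ rfl
  · intro b _ hb
    exact proj_apply_not_mem _ (fun h => hb (Set.mem_singleton_iff.1 h).symm)

theorem proj_fiber_mul_colProj {M : ℕ} (χ : X → Fin M) {a : Fin M} {x : X} (h : χ x = a) :
    proj (s ⁻¹' {x}) * colProj s χ a = proj (s ⁻¹' {x}) :=
  proj_mul_of_subset (fun j hj => by
    have : s j = x := hj
    change χ (s j) = a
    rw [this, h])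

theorem proj_fiber_mul_colProj_ne {M : ℕ} (χ : X → Fin M) {a : Fin M} {x : X} (h : χ x ≠ a) :
    proj (s ⁻¹' {x}) * colProj s χ a = 0 :=
  proj_mul_of_disjoint (Set.disjoint_left.2 (fun j hj hj' => h (by
    have h1 : s j = x := hj
    have h2 : χ (s j) = a := hj'
    rw [← h1, h2])))

theorem colProj_mul_proj_fiber {M : ℕ} (χ : X → Fin M) {a : Fin M} {x : X} (h : χ x = a) :
    colProj s χ a * proj (s ⁻¹' {x}) = proj (s ⁻¹' {x}) :=
  proj_mul_of_superset (fun j hj => by
    have : s j = x := hj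
    change χ (s j) = a
    rw [this, h])

theorem colProj_mul_proj_fiber_ne {M : ℕ} (χ : X → Fin M) {a : Fin M} {x : X} (h : χ x ≠ a) :
    colProj s χ a * proj (s ⁻¹' {x}) = 0 :=
  proj_mul_of_disjoint (Set.disjoint_right.2 (fun j hj hj' => h (by
    have h1 : s j = x := hj
    have h2 : χ (s j) = a := hj'
    rw [← h1, h2])))

/-- The piece of `T` with rows of colour `a` and columns of colour `b`. -/
noncomputable def piece {M : ℕ} (s : J → X) (χ : X → Fin M) (T : L2 J →L[ℂ] L2 J)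
    (a b : Fin M) : L2 J →L[ℂ] L2 J := colProj s χ a * T * colProj s χ b

theorem blk_piece {M : ℕ} (χ : X → Fin M) (T : L2 J →L[ℂ] L2 J) {a b : Fin M} {x y : X}
    (hx : χ x = a) (hy : χ y = b) : blk s (piece s χ T a b) x y = blk s T x y := by
  have : blk s (piece s χ T a b) x y =
      (proj (s ⁻¹' {x}) * colProj s χ a) * T * (colProj s χ b * proj (s ⁻¹' {y})) := by
    simp only [blk, piece, mul_assoc]
  rw [this, proj_fiber_mul_colProj χ hx, colProj_mul_proj_fiber χ hy]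
  rfl

theorem blk_piece_left {M : ℕ} (χ : X → Fin M) (T : L2 J →L[ℂ] L2 J) {a b : Fin M} {x y : X}
    (hx : χ x ≠ a) : blk s (piece s χ T a b) x y = 0 := by
  have : blk s (piece s χ T a b) x y =
      (proj (s ⁻¹' {x}) * colProj s χ a) * T * (colProj s χ b * proj (s ⁻¹' {y})) := by
    simp only [blk, piece, mul_assoc]
  rw [this, proj_fiber_mul_colProj_ne χ hx, zero_mul, zero_mul]

theorem blk_piece_right {M : ℕ} (χ : X → Fin M) (T : L2 J →L[ℂ] L2 J) {a b : Fin M} {x y : X}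
    (hy : χ y ≠ b) : blk s (piece s χ T a b) x y = 0 := by
  have : blk s (piece s χ T a b) x y =
      (proj (s ⁻¹' {x}) * colProj s χ a) * T * (colProj s χ b * proj (s ⁻¹' {y})) := by
    simp only [blk, piece, mul_assoc]
  rw [this, colProj_mul_proj_fiber_ne χ hy, mul_zero]

theorem blk_piece_eq_or {M : ℕ} (χ : X → Fin M) (T : L2 J →L[ℂ] L2 J) (a b : Fin M) (x y : X) :
    blk s (piece s χ T a b) x y = blk s T x y ∨ blk s (piece s χ T a b) x y = 0 := by
  by_cases hx : χ x = a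
  · by_cases hy : χ y = b
    · exact Or.inl (blk_piece χ T hx hy)
    · exact Or.inr (blk_piece_right χ T hy)
  · exact Or.inr (blk_piece_left χ T hx)

theorem PropLE.piece {M : ℕ} (χ : X → Fin M) {T : L2 J →L[ℂ] L2 J} {R : ℝ} (hT : PropLE s T R)
    (a b : Fin M) : PropLE s (piece s χ T a b) R := by
  intro x y hxy
  rcases blk_piece_eq_or (s := s) χ T a b x y with h | h
  · rw [h, hT x y hxy]
  · exact h

theorem IsRoe.piece {M : ℕ} (χ : X → Fin M) {T : L2 J →L[ℂ] L2 J} (hT : IsRoe s T)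
    (a b : Fin M) : IsRoe s (piece s χ T a b) := by
  obtain ⟨R, hR⟩ := hT.1
  refine ⟨⟨R, PropLE.piece (s := s) χ hR a b⟩, fun x y => ?_⟩
  rcases blk_piece_eq_or (s := s) χ T a b x y with h | h
  · rw [h]
    exact hT.2 x y
  · rw [h]
    exact isCompactOperator_zero

theorem sum_piece {M : ℕ} (χ : X → Fin M) (T : L2 J →L[ℂ] L2 J) :
    ∑ a, ∑ b, piece s χ T a b = T := by
  have h1 : ∀ a, ∑ b, piece s χ T a b = colProj s χ a * T := by
    intro a
    simp only [piece]
    rw [← Finset.mul_sum, sum_colProj, mul_one]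
  simp only [h1]
  rw [← Finset.sum_mul, sum_colProj, one_mul]

theorem star_piece_mul_piece_mem {M : ℕ} (χ : X → Fin M) {T : L2 J →L[ℂ] L2 J} {R : ℝ}
    (hT : IsRoe s T) (hR : PropLE s T R) (hχ : ∀ x y, x ≠ y → dist x y ≤ 2 * R → χ x ≠ χ y)
    (a b : Fin M) : star (piece s χ T a b) * piece s χ T a b ∈ diagAlg s := by
  refine ⟨?_, ((hT.piece χ a b).star.mul (hT.piece χ a b)).2⟩
  intro x y hxy
  rw [blk_mul (hR.piece χ a b).star]
  refine Finset.sum_eq_zero (fun w _ => ?_)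
  rw [blk_star]
  by_cases h1 : blk s (piece s χ T a b) w x = 0
  · rw [h1, star_zero, zero_mul]
  by_cases h2 : blk s (piece s χ T a b) w y = 0
  · rw [h2, mul_zero]
  exfalso
  have hx : χ x = b := by
    by_contra h
    exact h1 (blk_piece_right χ T h)
  have hy : χ y = b := by
    by_contra h
    exact h2 (blk_piece_right χ T h)
  have hwx : dist w x ≤ R := by
    by_contra h
    exact h1 ((hR.piece χ a b) w x (not_le.1 h))
  have hwy : dist w y ≤ R := by
    by_contra h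
    exact h2 ((hR.piece χ a b) w y (not_le.1 h))
  have hne : x ≠ y := dist_pos.1 hxy
  refine hχ x y hne ?_ (hx.trans hy.symm)
  have := dist_triangle_left x y w
  linarith

/-- A C*-seminorm of a colour piece is at most its operator norm. -/
theorem seminorm_piece_le {M : ℕ} (χ : X → Fin M) (p : roeU s → ℝ) [IsCStarSeminorm p]
    {T : L2 J →L[ℂ] L2 J} {R : ℝ}
    (hT : IsRoe s T) (hR : PropLE s T R) (hχ : ∀ x y, x ≠ y → dist x y ≤ 2 * R → χ x ≠ χ y)
    (a b : Fin M) : p ⟨piece s χ T a b, (hT.piece χ a b).mem_roeU⟩ ≤ ‖piece s χ T a b‖ := by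
  have hmem := star_piece_mul_piece_mem χ hT hR hχ a b
  have h1 := seminorm_le_of_diag p hmem
  have h2 := IsCStarSeminorm.star_mul (p := p)
    (⟨piece s χ T a b, (hT.piece χ a b).mem_roeU⟩ : roeU s)
  have h3 : ‖star (piece s χ T a b) * piece s χ T a b‖ = ‖piece s χ T a b‖ ^ 2 :=
    (CStarRing.norm_star_mul_self (x := piece s χ T a b)).trans (sq _).symm
  rw [h3] at h1
  have h4 : p ⟨piece s χ T a b, (hT.piece χ a b).mem_roeU⟩ ^ 2 ≤ ‖piece s χ T a b‖ ^ 2 := by
    rw [← h2]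
    exact h1
  exact le_of_sq_le_sq h4 (norm_nonneg _)

theorem norm_piece_le {M : ℕ} (χ : X → Fin M) (T : L2 J →L[ℂ] L2 J) (a b : Fin M) :
    ‖piece s χ T a b‖ ≤ ‖T‖ := by
  calc ‖piece s χ T a b‖ ≤ ‖colProj s χ a * T‖ * ‖colProj s χ b‖ := norm_mul_le _ _
    _ ≤ (‖colProj s χ a‖ * ‖T‖) * ‖colProj s χ b‖ := by gcongr; exact norm_mul_le _ _
    _ ≤ (1 * ‖T‖) * 1 := by
        gcongr
        · exact proj_norm_le _
        · exact proj_norm_le _
    _ = ‖T‖ := by ring

theorem IsCStarSeminorm.sum_le {R : Type} [Ring R] [StarRing R] [Algebra ℂ R] (p : R → ℝ)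
    [IsCStarSeminorm p] {ι : Type*} (F : Finset ι) (f : ι → R) :
    p (∑ i ∈ F, f i) ≤ ∑ i ∈ F, p (f i) := by
  classical
  induction F using Finset.induction_on with
  | empty => simp [IsCStarSeminorm.zero p]
  | insert a F ha ih =>
    rw [Finset.sum_insert ha, Finset.sum_insert ha]
    exact (IsCStarSeminorm.add_le _ _).trans (by gcongr)

/-- Bound of all C*-seminorms on an operator of propagation at most `R` through a colouring. -/
theorem seminorm_le_of_colouring {M : ℕ} (χ : X → Fin M) (p : roeU s → ℝ) [IsCStarSeminorm p]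
    {T : L2 J →L[ℂ] L2 J} {R : ℝ}
    (hT : IsRoe s T) (hR : PropLE s T R) (hχ : ∀ x y, x ≠ y → dist x y ≤ 2 * R → χ x ≠ χ y)
    {c : ℝ} (hc : ∀ a b, ‖piece s χ T a b‖ ≤ c) :
    p ⟨T, hT.mem_roeU⟩ ≤ M * (M * c) := by
  have hsum : (⟨T, hT.mem_roeU⟩ : roeU s) =
      ∑ a, ∑ b, (⟨piece s χ T a b, (hT.piece χ a b).mem_roeU⟩ : roeU s) := by
    apply Subtype.ext
    rw [AddSubmonoidClass.coe_finsetSum]
    simp only [AddSubmonoidClass.coe_finsetSum]
    exact (sum_piece χ T).symm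
  rw [hsum]
  refine (IsCStarSeminorm.sum_le p _ _).trans ?_
  have h1 : ∀ a : Fin M, p (∑ b, (⟨piece s χ T a b, (hT.piece χ a b).mem_roeU⟩ : roeU s)) ≤
      M * c := by
    intro a
    refine (IsCStarSeminorm.sum_le p _ _).trans ?_
    calc _ ≤ ∑ _b : Fin M, c := Finset.sum_le_sum (fun b _ =>
          (seminorm_piece_le χ p hT hR hχ a b).trans (hc a b))
      _ = M * c := by simp
  calc _ ≤ ∑ _a : Fin M, M * c := Finset.sum_le_sum (fun a _ => h1 a)
    _ = M * (M * c) := by simp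

theorem exists_bound_roe {T : L2 J →L[ℂ] L2 J} (hT : IsRoe s T) :
    ∃ C : ℝ, ∀ p : roeU s → ℝ, IsCStarSeminorm p → p ⟨T, hT.mem_roeU⟩ ≤ C := by
  obtain ⟨R, hR⟩ := hT.1
  obtain ⟨M, χ, hχ⟩ := exists_colouring (X := X) (2 * R)
  refine ⟨M * (M * ‖T‖), fun p hp => ?_⟩
  exact seminorm_le_of_colouring χ p hT hR hχ (fun a b => norm_piece_le χ T a b)

/-- The supremum defining the maximal norm is finite. -/
theorem exists_bound (T : roeU s) :
    ∃ C : ℝ, ∀ p : roeU s → ℝ, IsCStarSeminorm p → p T ≤ C := by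
  obtain ⟨c, hc⟩ := T.2
  obtain ⟨C, hC⟩ := exists_bound_roe hc
  refine ⟨‖c‖ * 1 + C, fun p hp => ?_⟩
  have hT : T = c • (1 : roeU s) + ⟨T.1 - c • 1, hc.mem_roeU⟩ := by
    apply Subtype.ext
    change T.1 = c • 1 + (T.1 - c • 1)
    abel
  rw [hT]
  refine (IsCStarSeminorm.add_le _ _).trans (add_le_add ?_ ?_)
  · rw [IsCStarSeminorm.smul (p := p)]
    exact mul_le_mul_of_nonneg_left (IsCStarSeminorm.one_le p) (norm_nonneg c)
  · exact hC p hp

end Vale.Agent.P212
end
end

section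

section

namespace Vale.Agent.P212

open UniformSpace

variable {X : Type} [MetricSpace X] [BddGeometry X] {J : Type}

/-- The maximal C*-norm: the supremum of all C*-seminorms. -/
noncomputable def maxNorm (s : J → X) (T : roeU s) : ℝ :=
  ⨆ p : {p : roeU s → ℝ // IsCStarSeminorm p}, p.1 T

end Vale.Agent.P212
end
end

section

section

set_option linter.unusedSectionVars false

namespace Vale.Agent.P212

open UniformSpace

variable {X : Type} [MetricSpace X] [BddGeometry X] {J : Type} {s : J → X}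

theorem bddAbove_seminorms (T : roeU s) :
    BddAbove (Set.range (fun p : {p : roeU s → ℝ // IsCStarSeminorm p} => p.1 T)) := by
  obtain ⟨C, hC⟩ := exists_bound T
  exact ⟨C, by rintro _ ⟨p, rfl⟩; exact hC p.1 p.2⟩

theorem le_maxNorm (p : roeU s → ℝ) (hp : IsCStarSeminorm p) (T : roeU s) : p T ≤ maxNorm s T :=
  le_ciSup (bddAbove_seminorms T) (⟨p, hp⟩ : {p : roeU s → ℝ // IsCStarSeminorm p})

/-- The operator norm is a C*-seminorm. -/
theorem isCStarSeminorm_norm : IsCStarSeminorm (fun T : roeU s => ‖(T : L2 J →L[ℂ] L2 J)‖) where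
  add_le a b := norm_add_le (a : L2 J →L[ℂ] L2 J) b
  smul c a := norm_smul c (a : L2 J →L[ℂ] L2 J)
  mul_le a b := norm_mul_le (a : L2 J →L[ℂ] L2 J) b
  star_mul a := (CStarRing.norm_star_mul_self (x := (a : L2 J →L[ℂ] L2 J))).trans (sq _).symm

theorem norm_le_maxNorm (T : roeU s) : ‖(T : L2 J →L[ℂ] L2 J)‖ ≤ maxNorm s T :=
  le_maxNorm _ isCStarSeminorm_norm T

theorem maxNorm_le {T : roeU s} {C : ℝ}
    (h : ∀ p : roeU s → ℝ, IsCStarSeminorm p → p T ≤ C) : maxNorm s T ≤ C := by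
  have : Nonempty {p : roeU s → ℝ // IsCStarSeminorm p} := ⟨⟨_, isCStarSeminorm_norm⟩⟩
  exact ciSup_le (fun p => h p.1 p.2)

theorem maxNorm_nonneg (T : roeU s) : 0 ≤ maxNorm s T :=
  (norm_nonneg _).trans (norm_le_maxNorm T)

/-- The maximal norm is a C*-seminorm. -/
theorem isCStarSeminorm_maxNorm : IsCStarSeminorm (maxNorm s) where
  add_le a b := maxNorm_le (fun p hp =>
    (hp.add_le a b).trans (add_le_add (le_maxNorm p hp a) (le_maxNorm p hp b)))
  smul c a := by
    refine le_antisymm (maxNorm_le (fun p hp => ?_)) ?_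
    · rw [hp.smul]
      exact mul_le_mul_of_nonneg_left (le_maxNorm p hp a) (norm_nonneg c)
    · rcases eq_or_ne c 0 with rfl | hc
      · rw [norm_zero, zero_mul]
        exact maxNorm_nonneg _
      · have hc' : 0 < ‖c‖ := norm_pos_iff.2 hc
        rw [← le_div_iff₀' hc']
        refine maxNorm_le (fun p hp => ?_)
        rw [le_div_iff₀' hc', ← hp.smul]
        exact le_maxNorm p hp _
  mul_le a b := maxNorm_le (fun p hp =>
    (hp.mul_le a b).trans (mul_le_mul (le_maxNorm p hp a) (le_maxNorm p hp b)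
      (@IsCStarSeminorm.nonneg _ _ _ _ p hp b) (maxNorm_nonneg a)))
  star_mul a := by
    refine le_antisymm (maxNorm_le (fun p hp => ?_)) ?_
    · rw [hp.star_mul]
      exact pow_le_pow_left₀ (@IsCStarSeminorm.nonneg _ _ _ _ p hp a) (le_maxNorm p hp a) 2
    · have h : maxNorm s a ≤ Real.sqrt (maxNorm s (star a * a)) := by
        refine maxNorm_le (fun p hp => ?_)
        refine Real.le_sqrt_of_sq_le ?_
        rw [← hp.star_mul]
        exact le_maxNorm p hp _
      calc maxNorm s a ^ 2 ≤ Real.sqrt (maxNorm s (star a * a)) ^ 2 :=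
            pow_le_pow_left₀ (maxNorm_nonneg a) h 2
        _ = maxNorm s (star a * a) := Real.sq_sqrt (maxNorm_nonneg _)

end Vale.Agent.P212
end
end

section

section

namespace Vale.Agent.P212

variable {X : Type} [MetricSpace X] [BddGeometry X] {J : Type}

instance (s : J → X) : IsCStarSeminorm (maxNorm s) := isCStarSeminorm_maxNorm

/-- The unitization of the maximal Roe algebra: the completion of `ℂ 1 + ℂ[X]` in the
maximal C*-norm. -/
abbrev CMaxU (s : J → X) : Type := UniformSpace.Completion (WithSN (maxNorm s))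

end Vale.Agent.P212
end
end

section

section

/-! Block calculus for operators between spaces `l^2(P x N)`. -/

namespace Vale.Agent.P212

theorem two_toReal : (2 : ENNReal).toReal = 2 := by norm_num

theorem L2.summable_sq {J : Type} (f : L2 J) : Summable (fun j => ‖(f : J → ℂ) j‖ ^ 2) := by
  have h := (lp.memℓp f).summable (by norm_num : 0 < (2 : ENNReal).toReal)
  simpa [two_toReal, Real.rpow_two] using h

theorem L2.norm_sq {J : Type} (f : L2 J) : ‖f‖ ^ 2 = ∑' j, ‖(f : J → ℂ) j‖ ^ 2 := by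
  have h := lp.norm_rpow_eq_tsum (by norm_num : 0 < (2 : ENNReal).toReal) f
  simpa [two_toReal, Real.rpow_two] using h

theorem L2.mem {J : Type} {f : J → ℂ} (hf : Summable (fun j => ‖f j‖ ^ 2)) :
    Memℓp f 2 := by
  refine memℓp_gen ?_
  simpa [two_toReal, Real.rpow_two] using hf

theorem extend_zero_apply_range {J K : Type} {u : J → K} (hu : Function.Injective u) (f : J → ℂ)
    (j : J) : Function.extend u f 0 (u j) = f j := hu.extend_apply f 0 j

theorem extend_zero_apply_not_mem {J K : Type} {u : J → K} (f : J → ℂ) {k : K}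
    (hk : k ∉ Set.range u) : Function.extend u f 0 k = 0 := by
  have h := Function.extend_apply' f (0 : K → ℂ) k (fun ⟨j, hj⟩ => hk ⟨j, hj⟩)
  rw [h]
  rfl

theorem summable_extend {J K : Type} {u : J → K} (hu : Function.Injective u) {f : J → ℂ}
    (hf : Summable (fun j => ‖f j‖ ^ 2)) :
    Summable (fun k => ‖Function.extend u f 0 k‖ ^ 2) := by
  rw [← hu.summable_iff]
  · refine hf.congr (fun j => ?_)
    simp only [Function.comp_apply]
    rw [extend_zero_apply_range hu]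
  · intro k hk
    rw [extend_zero_apply_not_mem f hk]
    simp

/-- The linear map underlying `pushL2`. -/
noncomputable def pushLin {J K : Type} (u : J → K) (hu : Function.Injective u) :
    L2 J →ₗ[ℂ] L2 K where
  toFun f := ⟨Function.extend u (f : J → ℂ) 0, L2.mem (summable_extend hu (L2.summable_sq f))⟩
  map_add' f g := by
    apply lp.ext
    funext k
    change Function.extend u (((f + g : L2 J)) : J → ℂ) 0 k =
      Function.extend u (f : J → ℂ) 0 k + Function.extend u (g : J → ℂ) 0 k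
    by_cases hk : k ∈ Set.range u
    · obtain ⟨j, rfl⟩ := hk
      rw [extend_zero_apply_range hu, extend_zero_apply_range hu, extend_zero_apply_range hu]
      rfl
    · rw [extend_zero_apply_not_mem _ hk, extend_zero_apply_not_mem _ hk,
        extend_zero_apply_not_mem _ hk, add_zero]
  map_smul' c f := by
    apply lp.ext
    funext k
    change Function.extend u (((c • f : L2 J)) : J → ℂ) 0 k =
      c • Function.extend u (f : J → ℂ) 0 k
    by_cases hk : k ∈ Set.range u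
    · obtain ⟨j, rfl⟩ := hk
      rw [extend_zero_apply_range hu, extend_zero_apply_range hu]
      rfl
    · rw [extend_zero_apply_not_mem _ hk, extend_zero_apply_not_mem _ hk, smul_zero]

theorem norm_pushLin {J K : Type} (u : J → K) (hu : Function.Injective u) (f : L2 J) :
    ‖pushLin u hu f‖ = ‖f‖ := by
  have h : ‖pushLin u hu f‖ ^ 2 = ‖f‖ ^ 2 := by
    rw [L2.norm_sq, L2.norm_sq]
    change ∑' k, ‖Function.extend u (f : J → ℂ) 0 k‖ ^ 2 = _
    rw [← hu.tsum_eq]
    · refine tsum_congr (fun j => ?_)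
      rw [extend_zero_apply_range hu]
    · intro k hk
      by_contra hk'
      apply hk
      simp only
      rw [extend_zero_apply_not_mem _ hk']
      simp
  exact (sq_eq_sq₀ (norm_nonneg _) (norm_nonneg _)).1 h

/-- The isometry `l^2(J) → l^2(K)` induced by an injective map. -/
noncomputable def pushL2 {J K : Type} (u : J → K) (hu : Function.Injective u) :
    L2 J →L[ℂ] L2 K :=
  LinearMap.mkContinuous (pushLin u hu) 1 (fun f => by rw [one_mul, norm_pushLin])

theorem pushL2_apply {J K : Type} {u : J → K} (hu : Function.Injective u) (f : L2 J) (j : J) :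
    (pushL2 u hu f : K → ℂ) (u j) = (f : J → ℂ) j :=
  extend_zero_apply_range hu _ j

theorem pushL2_apply_not_mem {J K : Type} {u : J → K} (hu : Function.Injective u) (f : L2 J)
    {k : K} (hk : k ∉ Set.range u) : (pushL2 u hu f : K → ℂ) k = 0 :=
  extend_zero_apply_not_mem _ hk

theorem norm_pushL2_apply {J K : Type} {u : J → K} (hu : Function.Injective u) (f : L2 J) :
    ‖pushL2 u hu f‖ = ‖f‖ := norm_pushLin u hu f

theorem norm_pushL2_le {J K : Type} {u : J → K} (hu : Function.Injective u) :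
    ‖pushL2 u hu‖ ≤ 1 :=
  LinearMap.mkContinuous_norm_le _ zero_le_one _

/-- The pull back map on functions. -/
theorem L2.mem_comp {J K : Type} {u : J → K} (hu : Function.Injective u) (f : L2 K) :
    Memℓp (fun j => (f : K → ℂ) (u j)) 2 :=
  L2.mem ((L2.summable_sq f).comp_injective hu)

theorem inner_push {J K : Type} {u : J → K} (hu : Function.Injective u) (g : L2 K) (f : L2 J) :
    inner ℂ g (pushL2 u hu f) = inner ℂ (⟨fun j => (g : K → ℂ) (u j), L2.mem_comp hu g⟩ : L2 J) f := by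
  rw [lp.inner_eq_tsum, lp.inner_eq_tsum, ← hu.tsum_eq]
  · refine tsum_congr (fun j => ?_)
    rw [pushL2_apply]
  · intro k hk
    by_contra hk'
    apply hk
    simp only
    rw [pushL2_apply_not_mem hu f hk', inner_zero_right]

theorem adjoint_pushL2_eq {J K : Type} {u : J → K} (hu : Function.Injective u) (f : L2 K) :
    ContinuousLinearMap.adjoint (pushL2 u hu) f =
      (⟨fun j => (f : K → ℂ) (u j), L2.mem_comp hu f⟩ : L2 J) := by
  refine ext_inner_right ℂ (fun g => ?_)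
  rw [ContinuousLinearMap.adjoint_inner_left, inner_push]

theorem adjoint_pushL2_apply {J K : Type} {u : J → K} (hu : Function.Injective u) (f : L2 K)
    (j : J) : (ContinuousLinearMap.adjoint (pushL2 u hu) f : J → ℂ) j = (f : K → ℂ) (u j) := by
  rw [adjoint_pushL2_eq]

theorem adjoint_pushL2_comp {J K : Type} {u : J → K} (hu : Function.Injective u) :
    ContinuousLinearMap.adjoint (pushL2 u hu) ∘L pushL2 u hu = 1 := by
  ext f j
  change (ContinuousLinearMap.adjoint (pushL2 u hu) (pushL2 u hu f) : J → ℂ) j = (f : J → ℂ) j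
  rw [adjoint_pushL2_apply, pushL2_apply]

theorem pushL2_comp_adjoint {J K : Type} {u : J → K} (hu : Function.Injective u) :
    pushL2 u hu ∘L ContinuousLinearMap.adjoint (pushL2 u hu) = proj (Set.range u) := by
  ext f k
  change (pushL2 u hu (ContinuousLinearMap.adjoint (pushL2 u hu) f) : K → ℂ) k =
    (proj (Set.range u) f : K → ℂ) k
  by_cases hk : k ∈ Set.range u
  · rw [proj_apply_mem _ hk]
    obtain ⟨j, rfl⟩ := hk
    rw [pushL2_apply, adjoint_pushL2_apply]
  · rw [proj_apply_not_mem _ hk, pushL2_apply_not_mem _ _ hk]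

/-- The space `l^2(P x N)`. -/
abbrev LP (P : Type) : Type := L2 (P × ℕ)

/-- Operators on `l^2(N)`. -/
abbrev OpN : Type := L2 ℕ →L[ℂ] L2 ℕ

/-- The embedding of the `p`-th summand. -/
noncomputable def inc {P : Type} (p : P) : L2 ℕ →L[ℂ] LP P :=
  pushL2 (fun k => (p, k)) (fun _ _ h => (Prod.mk.inj h).2)

/-- The block of an operator. -/
noncomputable def bl {P Q : Type} (T : LP P →L[ℂ] LP Q) (q : Q) (p : P) : OpN :=
  ContinuousLinearMap.adjoint (inc q) ∘L T ∘L inc p

variable {P Q S : Type}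

theorem inc_apply_self (p : P) (f : L2 ℕ) (k : ℕ) :
    (inc p f : P × ℕ → ℂ) (p, k) = (f : ℕ → ℂ) k :=
  pushL2_apply (u := fun k : ℕ => (p, k)) _ f k

theorem inc_apply_ne {p p' : P} (h : p' ≠ p) (f : L2 ℕ) (k : ℕ) :
    (inc p f : P × ℕ → ℂ) (p', k) = 0 :=
  pushL2_apply_not_mem (u := fun k : ℕ => (p, k)) _ f
    (fun ⟨_, hj⟩ => h (Prod.mk.inj hj).1.symm)

theorem adjoint_inc_apply (p : P) (f : LP P) (k : ℕ) :
    (ContinuousLinearMap.adjoint (inc p) f : ℕ → ℂ) k = (f : P × ℕ → ℂ) (p, k) :=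
  adjoint_pushL2_apply (u := fun k : ℕ => (p, k)) _ f k

theorem norm_inc_le (p : P) : ‖inc p‖ ≤ 1 := norm_pushL2_le _

theorem norm_adjoint_inc_le (p : P) : ‖ContinuousLinearMap.adjoint (inc p)‖ ≤ 1 := by
  rw [LinearIsometryEquiv.norm_map]
  exact norm_inc_le p

theorem adjoint_inc_inc_self (p : P) (f : L2 ℕ) :
    ContinuousLinearMap.adjoint (inc p) (inc p f) = f := by
  apply lp.ext
  funext k
  rw [adjoint_inc_apply, inc_apply_self]

theorem adjoint_inc_inc_ne {p p' : P} (h : p' ≠ p) (f : L2 ℕ) :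
    ContinuousLinearMap.adjoint (inc p') (inc p f) = 0 := by
  apply lp.ext
  funext k
  rw [adjoint_inc_apply, inc_apply_ne h]
  rfl

theorem clm_ext_inc {E : Type*} [NormedAddCommGroup E] [NormedSpace ℂ E]
    {T T' : LP P →L[ℂ] E} (h : ∀ p f, T (inc p f) = T' (inc p f)) : T = T' := by
  classical
  ext f
  have h1 := lp.hasSum_single (E := fun _ : P × ℕ => ℂ) (p := 2) (by norm_num) f
  have h2 := T.hasSum h1
  have h3 := T'.hasSum h1
  have key : ∀ i : P × ℕ, T (lp.single 2 i ((f : P × ℕ → ℂ) i)) =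
      T' (lp.single 2 i ((f : P × ℕ → ℂ) i)) := by
    rintro ⟨p, k⟩
    have e : (lp.single 2 (p, k) ((f : P × ℕ → ℂ) (p, k)) : LP P) =
        inc p (lp.single 2 k ((f : P × ℕ → ℂ) (p, k))) := by
      apply lp.ext
      funext j
      obtain ⟨p', k'⟩ := j
      by_cases hp : p' = p
      · subst hp
        rw [inc_apply_self]
        by_cases hk : k' = k
        · subst hk
          rw [lp.single_apply_self, lp.single_apply_self]
        · rw [lp.single_apply_ne _ _ _ hk, lp.single_apply_ne]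
          intro h'
          exact hk (Prod.mk.inj h').2
      · rw [inc_apply_ne hp, lp.single_apply_ne]
        intro h'
        exact hp (Prod.mk.inj h').1
    rw [e, h]
  have h4 : HasSum (fun i : P × ℕ => T (lp.single 2 i ((f : P × ℕ → ℂ) i))) (T' f) := by
    simp only [key]
    exact h3
  exact h2.unique h4

theorem bl_apply (T : LP P →L[ℂ] LP Q) (q : Q) (p : P) (f : L2 ℕ) (k : ℕ) :
    (bl T q p f : ℕ → ℂ) k = (T (inc p f) : Q × ℕ → ℂ) (q, k) :=
  adjoint_inc_apply q _ k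

theorem bl_ext {T T' : LP P →L[ℂ] LP Q} (h : ∀ q p, bl T q p = bl T' q p) : T = T' := by
  refine clm_ext_inc (fun p f => ?_)
  apply lp.ext
  funext j
  obtain ⟨q, k⟩ := j
  rw [← bl_apply, ← bl_apply, h]

theorem bl_zero (q : Q) (p : P) : bl (0 : LP P →L[ℂ] LP Q) q p = 0 := by
  simp [bl]

theorem bl_add (T T' : LP P →L[ℂ] LP Q) (q : Q) (p : P) :
    bl (T + T') q p = bl T q p + bl T' q p := by
  simp [bl, ContinuousLinearMap.add_comp, ContinuousLinearMap.comp_add]

theorem bl_sub (T T' : LP P →L[ℂ] LP Q) (q : Q) (p : P) :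
    bl (T - T') q p = bl T q p - bl T' q p := by
  simp [bl, ContinuousLinearMap.sub_comp, ContinuousLinearMap.comp_sub]

theorem bl_smul (c : ℂ) (T : LP P →L[ℂ] LP Q) (q : Q) (p : P) :
    bl (c • T) q p = c • bl T q p := by
  simp [bl]

theorem bl_sum {ι : Type*} (F : Finset ι) (T : ι → LP P →L[ℂ] LP Q) (q : Q) (p : P) :
    bl (∑ i ∈ F, T i) q p = ∑ i ∈ F, bl (T i) q p := by
  classical
  induction F using Finset.induction_on with
  | empty => simp [bl_zero]
  | insert a F ha ih => rw [Finset.sum_insert ha, Finset.sum_insert ha, bl_add, ih]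

theorem bl_one [DecidableEq P] (q p : P) :
    bl (1 : LP P →L[ℂ] LP P) q p = if q = p then 1 else 0 := by
  refine ContinuousLinearMap.ext (fun f => ?_)
  change ContinuousLinearMap.adjoint (inc q) (inc p f) = _
  by_cases h : q = p
  · subst h
    rw [adjoint_inc_inc_self, if_pos rfl]
    rfl
  · rw [adjoint_inc_inc_ne h, if_neg h]
    rfl

theorem bl_adjoint (T : LP P →L[ℂ] LP Q) (p : P) (q : Q) :
    bl (ContinuousLinearMap.adjoint T) p q = ContinuousLinearMap.adjoint (bl T q p) := by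
  unfold bl
  rw [ContinuousLinearMap.adjoint_comp, ContinuousLinearMap.adjoint_comp,
    ContinuousLinearMap.adjoint_adjoint]
  rfl

theorem bl_star (T : LP P →L[ℂ] LP P) (p q : P) : bl (star T) p q = star (bl T q p) := by
  rw [ContinuousLinearMap.star_eq_adjoint, ContinuousLinearMap.star_eq_adjoint, bl_adjoint]

theorem norm_bl_le (T : LP P →L[ℂ] LP Q) (q : Q) (p : P) : ‖bl T q p‖ ≤ ‖T‖ := by
  refine ContinuousLinearMap.opNorm_le_bound _ (norm_nonneg _) (fun f => ?_)
  change ‖ContinuousLinearMap.adjoint (inc q) (T (inc p f))‖ ≤ _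
  have h1 := (ContinuousLinearMap.adjoint (inc q)).le_of_opNorm_le (norm_adjoint_inc_le q)
    (T (inc p f))
  have h2 := T.le_opNorm (inc p f)
  have h3 : ‖inc p f‖ = ‖f‖ := norm_pushL2_apply _ f
  rw [h3] at h2
  linarith

theorem apply_inc_eq_sum (T : LP P →L[ℂ] LP Q) (p : P) (F : Finset Q)
    (h : ∀ q, q ∉ F → bl T q p = 0) (f : L2 ℕ) :
    T (inc p f) = ∑ q ∈ F, inc q (bl T q p f) := by
  classical
  apply lp.ext
  funext j
  obtain ⟨q, k⟩ := j
  rw [← bl_apply, lp.coeFn_sum, Finset.sum_apply]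
  by_cases hq : q ∈ F
  · rw [Finset.sum_eq_single q, inc_apply_self]
    · intro q' _ hq'
      rw [inc_apply_ne (Ne.symm hq')]
    · intro hq'
      exact absurd hq hq'
  · rw [h q hq, Finset.sum_eq_zero]
    · rfl
    · intro q' hq'
      rw [inc_apply_ne]
      intro h'
      exact hq (h' ▸ hq')

theorem bl_comp_aux (T : LP Q →L[ℂ] LP S) (T' : LP P →L[ℂ] LP Q) (s : S) (p : P) (F : Finset Q)
    (h : ∀ q, q ∉ F → bl T' q p = 0) :
    bl (T ∘L T') s p = ∑ q ∈ F, bl T s q * bl T' q p := by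
  refine ContinuousLinearMap.ext (fun f => ?_)
  change ContinuousLinearMap.adjoint (inc s) (T (T' (inc p f))) = _
  rw [apply_inc_eq_sum T' p F h f, map_sum, map_sum, sum_apply]
  rfl

/-- Blocks of a composition, when the middle index is confined to a finite set. -/
theorem bl_comp (T : LP Q →L[ℂ] LP S) (T' : LP P →L[ℂ] LP Q) (s : S) (p : P) (F : Finset Q)
    (h : (∀ q, q ∉ F → bl T s q = 0) ∨ (∀ q, q ∉ F → bl T' q p = 0)) :
    bl (T ∘L T') s p = ∑ q ∈ F, bl T s q * bl T' q p := by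
  rcases h with h | h
  · have h1 : bl (ContinuousLinearMap.adjoint T' ∘L ContinuousLinearMap.adjoint T) p s =
        ∑ q ∈ F, bl (ContinuousLinearMap.adjoint T') p q *
          bl (ContinuousLinearMap.adjoint T) q s :=
      bl_comp_aux _ _ p s F (fun q hq => by rw [bl_adjoint, h q hq, map_zero])
    rw [← ContinuousLinearMap.adjoint_comp, bl_adjoint] at h1
    have h2 := congrArg ContinuousLinearMap.adjoint h1
    rw [ContinuousLinearMap.adjoint_adjoint, map_sum] at h2
    rw [h2]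
    refine Finset.sum_congr rfl (fun q _ => ?_)
    rw [bl_adjoint, bl_adjoint]
    change ContinuousLinearMap.adjoint
      (ContinuousLinearMap.adjoint (bl T' q p) ∘L ContinuousLinearMap.adjoint (bl T s q)) = _
    rw [← ContinuousLinearMap.adjoint_comp, ContinuousLinearMap.adjoint_adjoint]
    rfl
  · exact bl_comp_aux T T' s p F h

/-- The slices of a vector. -/
noncomputable def slice (p : P) : LP P →L[ℂ] L2 ℕ := ContinuousLinearMap.adjoint (inc p)

theorem slice_apply (p : P) (f : LP P) (k : ℕ) :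
    (slice p f : ℕ → ℂ) k = (f : P × ℕ → ℂ) (p, k) := adjoint_inc_apply p f k

theorem norm_slice_sq (p : P) (f : LP P) :
    ‖slice p f‖ ^ 2 = ∑' k, ‖(f : P × ℕ → ℂ) (p, k)‖ ^ 2 := by
  rw [L2.norm_sq]
  exact tsum_congr (fun k => by rw [slice_apply])

theorem sum_norm_slice_sq_le (A : Finset P) (f : LP P) :
    ∑ p ∈ A, ‖slice p f‖ ^ 2 ≤ ‖f‖ ^ 2 := by
  have hs := L2.summable_sq f
  have h1 : Summable (fun p => ∑' k, ‖(f : P × ℕ → ℂ) (p, k)‖ ^ 2) := hs.prod
  rw [L2.norm_sq f, hs.tsum_prod]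
  calc ∑ p ∈ A, ‖slice p f‖ ^ 2 = ∑ p ∈ A, ∑' k, ‖(f : P × ℕ → ℂ) (p, k)‖ ^ 2 :=
        Finset.sum_congr rfl (fun p _ => norm_slice_sq p f)
    _ ≤ ∑' p, ∑' k, ‖(f : P × ℕ → ℂ) (p, k)‖ ^ 2 :=
        h1.sum_le_tsum A (fun p _ => tsum_nonneg (fun k => by positivity))

/-- A square summable family of slices assembles to a vector. -/
theorem exists_assemble (g : Q → L2 ℕ) (B : ℝ) (hB : 0 ≤ B)
    (hg : ∀ A : Finset Q, ∑ q ∈ A, ‖g q‖ ^ 2 ≤ B ^ 2) :
    ∃ h : Memℓp (fun j : Q × ℕ => (g j.1 : ℕ → ℂ) j.2) 2,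
      ‖(⟨fun j : Q × ℕ => (g j.1 : ℕ → ℂ) j.2, h⟩ : LP Q)‖ ≤ B := by
  have h1 : Summable (fun q => ‖g q‖ ^ 2) :=
    summable_of_sum_le (fun q => by positivity) hg
  have h2 : ∀ q, ∑' k, ‖(g q : ℕ → ℂ) k‖ ^ 2 = ‖g q‖ ^ 2 := fun q => (L2.norm_sq (g q)).symm
  have hs : Summable (fun j : Q × ℕ => ‖(g j.1 : ℕ → ℂ) j.2‖ ^ 2) := by
    rw [summable_prod_of_nonneg (fun j => by positivity)]
    refine ⟨fun q => L2.summable_sq (g q), ?_⟩
    simp only [h2]
    exact h1
  refine ⟨L2.mem hs, ?_⟩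
  rw [← abs_of_nonneg (norm_nonneg _), ← abs_of_nonneg hB, ← sq_le_sq, L2.norm_sq]
  change ∑' j : Q × ℕ, ‖(g j.1 : ℕ → ℂ) j.2‖ ^ 2 ≤ B ^ 2
  rw [hs.tsum_prod]
  simp only [h2]
  exact Real.tsum_le_of_sum_le (fun q => by positivity) hg

/-- Existence of an operator with prescribed blocks: each row and column has at most `N`
nonzero entries, of norm at most `C`. -/
theorem exists_of_blocks (t : Q → P → OpN) (N : ℕ) (C : ℝ) (hC : 0 ≤ C)
    (hrow : ∀ q, {p | t q p ≠ 0}.encard ≤ N) (hcol : ∀ p, {q | t q p ≠ 0}.encard ≤ N)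
    (hb : ∀ q p, ‖t q p‖ ≤ C) :
    ∃ T : LP P →L[ℂ] LP Q, (∀ q p, bl T q p = t q p) ∧ ‖T‖ ≤ N * C := by
  classical
  have hrf : ∀ q, {p | t q p ≠ 0}.Finite := fun q => Set.finite_of_encard_le_coe (hrow q)
  set row : Q → Finset P := fun q => (hrf q).toFinset with hrowdef
  have hmem : ∀ q p, p ∈ row q ↔ t q p ≠ 0 := by
    intro q p
    rw [hrowdef, Set.Finite.mem_toFinset]
    rfl
  have hrc : ∀ q, (row q).card ≤ N := by
    intro q
    have := hrow q
    rw [(hrf q).encard_eq_coe_toFinset_card] at this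
    exact_mod_cast this
  let g : LP P → Q → L2 ℕ := fun f q => ∑ p ∈ row q, t q p (slice p f)
  have hbound : ∀ (f : LP P) (A : Finset Q), ∑ q ∈ A, ‖g f q‖ ^ 2 ≤ ((N * C) * ‖f‖) ^ 2 := by
    intro f A
    have h1 : ∀ q, ‖g f q‖ ^ 2 ≤ N * C ^ 2 * ∑ p ∈ row q, ‖slice p f‖ ^ 2 := by
      intro q
      have h2 : ‖g f q‖ ≤ ∑ p ∈ row q, C * ‖slice p f‖ := by
        refine (norm_sum_le _ _).trans (Finset.sum_le_sum (fun p _ => ?_))
        exact (t q p).le_of_opNorm_le (hb q p) _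
      have h3 : ‖g f q‖ ^ 2 ≤ (∑ p ∈ row q, C * ‖slice p f‖) ^ 2 := by
        gcongr
      refine h3.trans ?_
      rw [← Finset.mul_sum, mul_pow]
      have h4 : (∑ p ∈ row q, ‖slice p f‖) ^ 2 ≤
          (row q).card * ∑ p ∈ row q, ‖slice p f‖ ^ 2 := sq_sum_le_card_mul_sum_sq
      have h5 : ((row q).card : ℝ) ≤ N := by exact_mod_cast hrc q
      have h6 : 0 ≤ ∑ p ∈ row q, ‖slice p f‖ ^ 2 := Finset.sum_nonneg (fun p _ => by positivity)
      calc C ^ 2 * (∑ p ∈ row q, ‖slice p f‖) ^ 2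
          ≤ C ^ 2 * ((row q).card * ∑ p ∈ row q, ‖slice p f‖ ^ 2) := by gcongr
        _ ≤ C ^ 2 * (N * ∑ p ∈ row q, ‖slice p f‖ ^ 2) := by gcongr
        _ = N * C ^ 2 * ∑ p ∈ row q, ‖slice p f‖ ^ 2 := by ring
    have h7 : ∑ q ∈ A, ∑ p ∈ row q, ‖slice p f‖ ^ 2 ≤ N * ‖f‖ ^ 2 := by
      set U : Finset P := A.biUnion row with hU
      have h8 : ∑ q ∈ A, ∑ p ∈ row q, ‖slice p f‖ ^ 2 =
          ∑ p ∈ U, ∑ q ∈ A.filter (fun q => p ∈ row q), ‖slice p f‖ ^ 2 := by
        refine Finset.sum_comm' ?_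
        intro q p
        rw [Finset.mem_filter, hU, Finset.mem_biUnion]
        constructor
        · rintro ⟨h1, h2⟩
          exact ⟨⟨h1, h2⟩, q, h1, h2⟩
        · rintro ⟨⟨h1, h2⟩, _⟩
          exact ⟨h1, h2⟩
      rw [h8]
      have h9 : ∀ p, ((A.filter (fun q => p ∈ row q)).card : ℝ) ≤ N := by
        intro p
        have h10 : ((A.filter (fun q => p ∈ row q) : Finset Q) : Set Q) ⊆ {q | t q p ≠ 0} := by
          intro q hq
          rw [Finset.mem_coe, Finset.mem_filter] at hq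
          exact (hmem q p).1 hq.2
        have h11 := (Set.encard_le_encard h10).trans (hcol p)
        rw [Set.encard_coe_eq_coe_finsetCard] at h11
        exact_mod_cast h11
      calc ∑ p ∈ U, ∑ q ∈ A.filter (fun q => p ∈ row q), ‖slice p f‖ ^ 2
          = ∑ p ∈ U, ((A.filter (fun q => p ∈ row q)).card : ℝ) * ‖slice p f‖ ^ 2 := by
            refine Finset.sum_congr rfl (fun p _ => ?_)
            rw [Finset.sum_const, nsmul_eq_mul]
        _ ≤ ∑ p ∈ U, (N : ℝ) * ‖slice p f‖ ^ 2 :=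
            Finset.sum_le_sum (fun p _ => mul_le_mul_of_nonneg_right (h9 p) (by positivity))
        _ = N * ∑ p ∈ U, ‖slice p f‖ ^ 2 := by rw [Finset.mul_sum]
        _ ≤ N * ‖f‖ ^ 2 := by
            gcongr
            exact sum_norm_slice_sq_le U f
    calc ∑ q ∈ A, ‖g f q‖ ^ 2 ≤ ∑ q ∈ A, N * C ^ 2 * ∑ p ∈ row q, ‖slice p f‖ ^ 2 :=
          Finset.sum_le_sum (fun q _ => h1 q)
      _ = N * C ^ 2 * ∑ q ∈ A, ∑ p ∈ row q, ‖slice p f‖ ^ 2 := by rw [Finset.mul_sum]
      _ ≤ N * C ^ 2 * (N * ‖f‖ ^ 2) := by gcongr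
      _ = ((N * C) * ‖f‖) ^ 2 := by ring
  have hex := fun f : LP P => exists_assemble (g f) ((N * C) * ‖f‖) (by positivity) (hbound f)
  choose hm hn using hex
  let L : LP P →ₗ[ℂ] LP Q :=
    { toFun := fun f => ⟨fun j : Q × ℕ => (g f j.1 : ℕ → ℂ) j.2, hm f⟩
      map_add' := by
        intro f f'
        apply lp.ext
        funext j
        change (g (f + f') j.1 : ℕ → ℂ) j.2 = (g f j.1 : ℕ → ℂ) j.2 + (g f' j.1 : ℕ → ℂ) j.2
        have : g (f + f') j.1 = g f j.1 + g f' j.1 := by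
          simp only [g, map_add, Finset.sum_add_distrib]
        rw [this]
        rfl
      map_smul' := by
        intro c f
        apply lp.ext
        funext j
        change (g (c • f) j.1 : ℕ → ℂ) j.2 = c • (g f j.1 : ℕ → ℂ) j.2
        have : g (c • f) j.1 = c • g f j.1 := by
          simp only [g, map_smul, Finset.smul_sum]
        rw [this]
        rfl }
  refine ⟨LinearMap.mkContinuous L (N * C) hn, ?_, ?_⟩
  · intro q p
    refine ContinuousLinearMap.ext (fun f => ?_)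
    apply lp.ext
    funext k
    rw [bl_apply]
    change ((∑ p' ∈ row q, t q p' (slice p' (inc p f)) : L2 ℕ) : ℕ → ℂ) k = _
    have h1 : ∑ p' ∈ row q, t q p' (slice p' (inc p f)) = t q p f := by
      by_cases hp : p ∈ row q
      · rw [Finset.sum_eq_single p]
        · change t q p (ContinuousLinearMap.adjoint (inc p) (inc p f)) = _
          rw [adjoint_inc_inc_self]
        · intro p' _ hp'
          change t q p' (ContinuousLinearMap.adjoint (inc p') (inc p f)) = _
          rw [adjoint_inc_inc_ne hp', map_zero]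
        · intro hp'
          exact absurd hp hp'
      · have h2 : t q p = 0 := by
          by_contra hne
          exact hp ((hmem q p).2 hne)
        rw [h2, Finset.sum_eq_zero]
        · rfl
        · intro p' hp'
          change t q p' (ContinuousLinearMap.adjoint (inc p') (inc p f)) = _
          rw [adjoint_inc_inc_ne, map_zero]
          intro h'
          exact hp (h' ▸ hp')
    rw [h1]
  · exact LinearMap.mkContinuous_norm_le _ (by positivity) _

section Roe

variable {X : Type} [MetricSpace X]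

theorem proj_comp_inc_mem (σ : P → X) {x : X} {p : P} (h : σ p = x) (f : L2 ℕ) :
    proj ((fun j : P × ℕ => σ j.1) ⁻¹' {x}) (inc p f) = inc p f := by
  apply lp.ext
  funext j
  obtain ⟨p', k⟩ := j
  by_cases hp : p' = p
  · subst hp
    rw [proj_apply_mem]
    exact h
  · rw [inc_apply_ne hp]
    by_cases hj : ((p', k) : P × ℕ) ∈ ((fun j : P × ℕ => σ j.1) ⁻¹' {x})
    · rw [proj_apply_mem _ hj, inc_apply_ne hp]
    · rw [proj_apply_not_mem _ hj]

theorem proj_comp_inc_not_mem (σ : P → X) {x : X} {p : P} (h : σ p ≠ x) (f : L2 ℕ) :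
    proj ((fun j : P × ℕ => σ j.1) ⁻¹' {x}) (inc p f) = 0 := by
  apply lp.ext
  funext j
  obtain ⟨p', k⟩ := j
  by_cases hj : ((p', k) : P × ℕ) ∈ ((fun j : P × ℕ => σ j.1) ⁻¹' {x})
  · rw [proj_apply_mem _ hj, inc_apply_ne]
    · rfl
    · intro h'
      exact h (h' ▸ hj)
  · rw [proj_apply_not_mem _ hj]
    rfl

theorem bl_blk [DecidableEq X] (σ : P → X) (T : LP P →L[ℂ] LP P) (x y : X) (p q : P) :
    bl (blk (fun j : P × ℕ => σ j.1) T x y) p q =
      if σ p = x ∧ σ q = y then bl T p q else 0 := by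
  refine ContinuousLinearMap.ext (fun f => ?_)
  apply lp.ext
  funext k
  rw [bl_apply]
  have h1 : blk (fun j : P × ℕ => σ j.1) T x y (inc q f) =
      proj ((fun j : P × ℕ => σ j.1) ⁻¹' {x}) (T (proj ((fun j : P × ℕ => σ j.1) ⁻¹' {y})
        (inc q f))) := rfl
  rw [h1]
  by_cases hq : σ q = y
  · rw [proj_comp_inc_mem σ hq]
    by_cases hp : σ p = x
    · rw [if_pos ⟨hp, hq⟩, proj_apply_mem _ (show ((p, k) : P × ℕ) ∈ _ from hp), bl_apply]
    · rw [if_neg (fun h => hp h.1), proj_apply_not_mem _ (show ((p, k) : P × ℕ) ∉ _ from hp)]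
      rfl
  · rw [if_neg (fun h => hq h.2), proj_comp_inc_not_mem σ hq, map_zero, map_zero]
    rfl

theorem propLE_iff_bl (σ : P → X)
    (T : LP P →L[ℂ] LP P) (R : ℝ) : PropLE (fun j : P × ℕ => σ j.1) T R ↔
      ∀ p q, R < dist (σ p) (σ q) → bl T p q = 0 := by
  classical
  constructor
  · intro h p q hpq
    have h1 := bl_blk σ T (σ p) (σ q) p q
    rw [if_pos ⟨rfl, rfl⟩, h _ _ hpq, bl_zero] at h1
    exact h1.symm
  · intro h x y hxy
    refine bl_ext (fun p q => ?_)
    rw [bl_blk, bl_zero]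
    split_ifs with hpq
    · exact h p q (by rw [hpq.1, hpq.2]; exact hxy)
    · rfl

/-- The Roe condition in terms of blocks. -/
theorem isRoe_iff_bl (σ : P → X) (hσ : ∀ x, (σ ⁻¹' {x}).Finite)
    (T : LP P →L[ℂ] LP P) : IsRoe (fun j : P × ℕ => σ j.1) T ↔
      (∃ R : ℝ, ∀ p q, R < dist (σ p) (σ q) → bl T p q = 0) ∧
        ∀ p q, IsCompactOperator (bl T p q) := by
  classical
  constructor
  · intro h
    obtain ⟨R, hR⟩ := h.propagation
    refine ⟨⟨R, (propLE_iff_bl σ T R).1 hR⟩, fun p q => ?_⟩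
    have h1 := bl_blk σ T (σ p) (σ q) p q
    rw [if_pos ⟨rfl, rfl⟩] at h1
    rw [← h1]
    have h2 := h.compact (σ p) (σ q)
    have h3 : IsCompactOperator
        (blk (fun j : P × ℕ => σ j.1) T (σ p) (σ q) ∘L inc q : L2 ℕ →L[ℂ] LP P) :=
      h2.comp_clm (inc q)
    exact h3.clm_comp (ContinuousLinearMap.adjoint (inc p))
  · rintro ⟨⟨R, hR⟩, hc⟩
    refine ⟨⟨R, (propLE_iff_bl σ T R).2 hR⟩, fun x y => ?_⟩
    have h1 : blk (fun j : P × ℕ => σ j.1) T x y =
        ∑ p ∈ (hσ x).toFinset, ∑ q ∈ (hσ y).toFinset,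
          inc p ∘L (bl T p q ∘L ContinuousLinearMap.adjoint (inc q)) := by
      refine bl_ext (fun p q => ?_)
      rw [bl_blk, bl_sum]
      have h2 : ∀ p' q' : P, bl (inc p' ∘L (bl T p' q' ∘L ContinuousLinearMap.adjoint (inc q')))
          p q = if p = p' ∧ q = q' then bl T p' q' else 0 := by
        intro p' q'
        refine ContinuousLinearMap.ext (fun f => ?_)
        change ContinuousLinearMap.adjoint (inc p)
          (inc p' (bl T p' q' (ContinuousLinearMap.adjoint (inc q') (inc q f)))) = _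
        by_cases hp : p = p'
        · subst hp
          rw [adjoint_inc_inc_self]
          by_cases hq : q = q'
          · subst hq
            rw [adjoint_inc_inc_self, if_pos ⟨rfl, rfl⟩]
          · rw [adjoint_inc_inc_ne (Ne.symm hq), map_zero, if_neg (fun h => hq h.2)]
            rfl
        · rw [adjoint_inc_inc_ne hp, if_neg (fun h => hp h.1)]
          rfl
      have h3 : ∀ p' : P, bl (∑ q' ∈ (hσ y).toFinset,
          inc p' ∘L (bl T p' q' ∘L ContinuousLinearMap.adjoint (inc q'))) p q =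
          if p = p' ∧ σ q = y then bl T p' q else 0 := by
        intro p'
        rw [bl_sum]
        simp only [h2]
        by_cases hp : p = p'
        · by_cases hq : σ q = y
          · rw [if_pos ⟨hp, hq⟩, Finset.sum_eq_single q, if_pos ⟨hp, rfl⟩]
            · intro q' _ hq'
              rw [if_neg (fun h => hq' h.2.symm)]
            · intro hq'
              exact absurd ((hσ y).mem_toFinset.2 hq) hq'
          · rw [if_neg (fun h => hq h.2), Finset.sum_eq_zero]
            intro q' hq'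
            rw [if_neg]
            rintro ⟨_, rfl⟩
            exact hq ((hσ y).mem_toFinset.1 hq')
        · rw [if_neg (fun h => hp h.1), Finset.sum_eq_zero]
          intro q' _
          rw [if_neg (fun h => hp h.1)]
      simp only [h3]
      by_cases hp : σ p = x
      · rw [Finset.sum_eq_single p]
        · by_cases hq : σ q = y
          · rw [if_pos ⟨hp, hq⟩, if_pos ⟨rfl, hq⟩]
          · rw [if_neg (fun h => hq h.2), if_neg (fun h => hq h.2)]
        · intro p' _ hp'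
          rw [if_neg (fun h => hp' h.1.symm)]
        · intro hp'
          exact absurd ((hσ x).mem_toFinset.2 hp) hp'
      · rw [if_neg (fun h => hp h.1), Finset.sum_eq_zero]
        intro p' hp'
        rw [if_neg]
        rintro ⟨rfl, _⟩
        exact hp ((hσ x).mem_toFinset.1 hp')
    rw [h1]
    refine isCompactOperator_sum _ _ (fun p _ => isCompactOperator_sum _ _ (fun q _ => ?_))
    have h4 : IsCompactOperator
        (bl T p q ∘L ContinuousLinearMap.adjoint (inc q) : LP P →L[ℂ] L2 ℕ) :=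
      (hc p q).comp_clm _
    exact h4.clm_comp (inc p)

end Roe

end Vale.Agent.P212
end
end

section

section

namespace Vale.Agent.P212

variable {X : Type} [MetricSpace X] [BddGeometry X] {J : Type}

/-- The *-algebra `ℂ[X]`: operators on `l^2(J)` of finite propagation with compact matrix
blocks, for a set `J` graded by `s : J → X`. -/
noncomputable def roeN (s : J → X) : NonUnitalStarSubalgebra ℂ (L2 J →L[ℂ] L2 J) where
  carrier := {T | IsRoe s T}
  mul_mem' hT hS := IsRoe.mul hT hS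
  add_mem' hT hS := IsRoe.add hT hS
  zero_mem' := IsRoe.zero
  smul_mem' c _ hT := IsRoe.smul c hT
  star_mem' hT := IsRoe.star hT

section
variable {X : Type} [MetricSpace X] [BddGeometry X] {J : Type} (s : J → X)
noncomputable instance (priority := 2000) rnr : NonUnitalRing (roeN s) :=
  (roeN s).toNonUnitalRing
noncomputable instance (priority := 2000) rnn : NonUnitalNonAssocSemiring (roeN s) :=
  (rnr s).toNonUnitalNonAssocSemiring
noncomputable instance (priority := 2000) rnam : AddMonoid (roeN s) :=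
  (rnr s).toAddMonoid
noncomputable instance (priority := 2000) rnacm : AddCommMonoid (roeN s) :=
  (rnn s).toAddCommMonoid
noncomputable instance (priority := 2000) rnmul : Mul (roeN s) :=
  (rnn s).toDistrib.toMul
noncomputable instance (priority := 2000) rnadd : Add (roeN s) :=
  (rnn s).toDistrib.toAdd
noncomputable instance (priority := 2000) rnmod : Module ℂ (roeN s) :=
  (roeN s).instModule
noncomputable instance (priority := 2000) rndma : DistribMulAction ℂ (roeN s) :=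
  (rnmod s).toDistribMulAction
noncomputable instance (priority := 2000) rnsm : SMul ℂ (roeN s) :=
  (rnmod s).toDistribMulAction.toDistribSMul.toSMul
noncomputable instance (priority := 2000) rnsta : Star (roeN s) :=
  StarMemClass.instStar (roeN s)
end

/-- `A` with `ι : ℂ[X] → A` is the maximal Roe algebra: the completion of `ℂ[X]` in the
largest norm coming from *-homomorphisms of `ℂ[X]` to C*-algebras. -/
structure IsMaxRoeN (s : J → X) {A : Type} [NonUnitalCStarAlgebra A]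
    (ι : roeN s →⋆ₙₐ[ℂ] A) : Prop where
  dense : DenseRange ι
  max : ∀ (B : Type) [NonUnitalCStarAlgebra B] (φ : roeN s →⋆ₙₐ[ℂ] B) (T : roeN s),
    ‖φ T‖ ≤ ‖ι T‖

end Vale.Agent.P212
end
end

section

section

/-! Matrix coefficients, multiplication operators and commutator estimates on `l^2(J)`. -/

namespace Vale.Agent.P212

open Filter Topology

open Classical in
/-- The matrix coefficients of an operator on `l^2(J)`. -/
noncomputable def ent {J : Type} (T : L2 J →L[ℂ] L2 J) (j k : J) : ℂ :=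
  (T (lp.single 2 k (1 : ℂ)) : J → ℂ) j

theorem memℓp_mul {J : Type} {g : J → ℂ} (h : ∃ C : ℝ, ∀ j, ‖g j‖ ≤ C) (f : L2 J) :
    Memℓp (fun j => g j * (f : J → ℂ) j) 2 := by
  obtain ⟨C, hC⟩ := h
  refine (lp.memℓp ((C : ℂ) • f)).mono' (fun j => ?_)
  rw [lp.coeFn_smul, Pi.smul_apply, norm_mul, smul_eq_mul, norm_mul]
  gcongr
  refine (hC j).trans ?_
  rw [Complex.norm_real]
  exact le_abs_self C

theorem norm_mul_le' {J : Type} {g : J → ℂ} {C : ℝ} (hC : ∀ j, ‖g j‖ ≤ C) (f : L2 J)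
    (hf : Memℓp (fun j => g j * (f : J → ℂ) j) 2) :
    ‖(⟨fun j => g j * (f : J → ℂ) j, hf⟩ : L2 J)‖ ≤ C * ‖f‖ := by
  by_cases hJ : Nonempty J
  · obtain ⟨j₀⟩ := hJ
    have hC0 : 0 ≤ C := (norm_nonneg (g j₀)).trans (hC j₀)
    have h1 : ‖(C : ℂ) • f‖ = C * ‖f‖ := by
      rw [norm_smul, Complex.norm_real, Real.norm_of_nonneg hC0]
    rw [← h1]
    refine lp.norm_mono (by norm_num) (fun j => ?_)
    rw [lp.coeFn_smul, Pi.smul_apply, smul_eq_mul, norm_mul, norm_mul, Complex.norm_real,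
      Real.norm_of_nonneg hC0]
    gcongr
    exact hC j
  · rw [not_nonempty_iff] at hJ
    have h1 : f = 0 := lp.ext (funext fun j => (hJ.false j).elim)
    have h2 : (⟨fun j => g j * (f : J → ℂ) j, hf⟩ : L2 J) = 0 :=
      lp.ext (funext fun j => (hJ.false j).elim)
    rw [h2, h1, norm_zero, mul_zero]

/-- Multiplication by a bounded function on `l^2(J)` (zero for unbounded functions). -/
noncomputable def mulOp {J : Type} (g : J → ℂ) : L2 J →L[ℂ] L2 J :=
  open Classical in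
  if h : ∃ C : ℝ, ∀ j, ‖g j‖ ≤ C then
    LinearMap.mkContinuous
      { toFun := fun f => ⟨fun j => g j * f j, memℓp_mul h f⟩
        map_add' := fun f₁ f₂ => lp.ext (funext fun j => mul_add _ _ _)
        map_smul' := fun c f => lp.ext (funext fun j => mul_left_comm _ _ _) }
      (Classical.choose h)
      (fun f => norm_mul_le' (Classical.choose_spec h) f _)
  else 0

section

variable {J : Type} {g h : J → ℂ}

theorem mulOp_apply (hg : ∃ C : ℝ, ∀ j, ‖g j‖ ≤ C) (f : L2 J) (j : J) :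
    (mulOp g f : J → ℂ) j = g j * f j := by
  rw [mulOp, dif_pos hg]
  rfl

theorem norm_mulOp_le {C : ℝ} (hg : ∀ j, ‖g j‖ ≤ C) (hC : 0 ≤ C) : ‖mulOp g‖ ≤ C := by
  refine ContinuousLinearMap.opNorm_le_bound _ hC fun f => ?_
  have h1 : mulOp g f = ⟨fun j => g j * (f : J → ℂ) j, memℓp_mul ⟨C, hg⟩ f⟩ := by
    apply lp.ext
    funext j
    exact mulOp_apply ⟨C, hg⟩ f j
  rw [h1]
  exact norm_mul_le' hg f _

theorem bdd_mul (hg : ∃ C : ℝ, ∀ j, ‖g j‖ ≤ C) (hh : ∃ C : ℝ, ∀ j, ‖h j‖ ≤ C) :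
    ∃ C : ℝ, ∀ j, ‖g j * h j‖ ≤ C := by
  obtain ⟨C, hC⟩ := hg
  obtain ⟨D, hD⟩ := hh
  refine ⟨C * D, fun j => ?_⟩
  rw [norm_mul]
  exact mul_le_mul (hC j) (hD j) (norm_nonneg _) ((norm_nonneg _).trans (hC j))

theorem bdd_add (hg : ∃ C : ℝ, ∀ j, ‖g j‖ ≤ C) (hh : ∃ C : ℝ, ∀ j, ‖h j‖ ≤ C) :
    ∃ C : ℝ, ∀ j, ‖g j + h j‖ ≤ C := by
  obtain ⟨C, hC⟩ := hg
  obtain ⟨D, hD⟩ := hh
  exact ⟨C + D, fun j => (norm_add_le _ _).trans (add_le_add (hC j) (hD j))⟩

theorem mulOp_mul (hg : ∃ C : ℝ, ∀ j, ‖g j‖ ≤ C) (hh : ∃ C : ℝ, ∀ j, ‖h j‖ ≤ C) :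
    mulOp (fun j => g j * h j) = mulOp g * mulOp h := by
  apply ContinuousLinearMap.ext
  intro f
  apply lp.ext
  funext j
  rw [mulOp_apply (bdd_mul hg hh), ContinuousLinearMap.mul_apply, mulOp_apply hg, mulOp_apply hh,
    mul_assoc]

theorem mulOp_add (hg : ∃ C : ℝ, ∀ j, ‖g j‖ ≤ C) (hh : ∃ C : ℝ, ∀ j, ‖h j‖ ≤ C) :
    mulOp (fun j => g j + h j) = mulOp g + mulOp h := by
  apply ContinuousLinearMap.ext
  intro f
  apply lp.ext
  funext j
  rw [mulOp_apply (bdd_add hg hh), ContinuousLinearMap.add_apply, lp.coeFn_add, Pi.add_apply,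
    mulOp_apply hg, mulOp_apply hh, add_mul]

theorem mulOp_one : mulOp (fun _ : J => (1 : ℂ)) = 1 := by
  apply ContinuousLinearMap.ext
  intro f
  apply lp.ext
  funext j
  rw [mulOp_apply ⟨1, fun _ => by simp⟩, one_mul]
  rfl

open Classical in
theorem ent_eq (T : L2 J →L[ℂ] L2 J) (j k : J) :
    ent T j k = (T (lp.single 2 k (1 : ℂ)) : J → ℂ) j := by
  unfold ent
  congr!

open Classical in
/-- An operator applied to a vector, through its matrix coefficients. -/
theorem hasSum_ent (T : L2 J →L[ℂ] L2 J) (f : L2 J) (j : J) :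
    HasSum (fun k => ent T j k * (f : J → ℂ) k) ((T f : J → ℂ) j) := by
  have h1 : HasSum (fun k => lp.single 2 k ((f : J → ℂ) k)) f :=
    lp.hasSum_single (by norm_num) f
  have h2 := h1.mapL T
  have h3 := h2.mapL (lp.evalCLM ℂ (fun _ : J => ℂ) 2 j)
  have h4 : ∀ k, (lp.evalCLM ℂ (fun _ : J => ℂ) 2 j) (T (lp.single 2 k ((f : J → ℂ) k))) =
      ent T j k * (f : J → ℂ) k := by
    intro k
    have h5 : (lp.single 2 k ((f : J → ℂ) k) : L2 J) = ((f : J → ℂ) k) • lp.single 2 k (1 : ℂ) := by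
      rw [← lp.single_smul, smul_eq_mul, mul_one]
    rw [h5, map_smul, map_smul, smul_eq_mul, mul_comm, ent_eq]
    rfl
  simp only [h4] at h3
  exact h3

theorem ent_mulOp_mul (hg : ∃ C : ℝ, ∀ j, ‖g j‖ ≤ C) (T : L2 J →L[ℂ] L2 J) (j k : J) :
    ent (mulOp g * T) j k = g j * ent T j k := by
  unfold ent
  rw [ContinuousLinearMap.mul_apply, mulOp_apply hg]

theorem ent_mul_mulOp (hg : ∃ C : ℝ, ∀ j, ‖g j‖ ≤ C) (T : L2 J →L[ℂ] L2 J) (j k : J) :
    ent (T * mulOp g) j k = ent T j k * g k := by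
  classical
  rw [ent_eq, ent_eq, ContinuousLinearMap.mul_apply]
  have h1 : mulOp g (lp.single 2 k (1 : ℂ)) = g k • (lp.single 2 k (1 : ℂ) : L2 J) := by
    apply lp.ext
    funext i
    rw [mulOp_apply hg, lp.coeFn_smul, Pi.smul_apply, smul_eq_mul]
    by_cases hi : i = k
    · rw [hi]
    · have : (lp.single 2 k (1 : ℂ) : L2 J) i = 0 := by
        rw [lp.single_apply]
        simp [hi]
      rw [this, mul_zero, mul_zero]
  rw [h1, map_smul, lp.coeFn_smul, Pi.smul_apply, smul_eq_mul, mul_comm]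

theorem ent_add (T S : L2 J →L[ℂ] L2 J) (j k : J) : ent (T + S) j k = ent T j k + ent S j k := by
  unfold ent
  rw [ContinuousLinearMap.add_apply, lp.coeFn_add, Pi.add_apply]

theorem ent_sub (T S : L2 J →L[ℂ] L2 J) (j k : J) : ent (T - S) j k = ent T j k - ent S j k := by
  unfold ent
  rw [ContinuousLinearMap.sub_apply, lp.coeFn_sub, Pi.sub_apply]

theorem ent_smul (c : ℂ) (T : L2 J →L[ℂ] L2 J) (j k : J) : ent (c • T) j k = c * ent T j k := by
  unfold ent
  rw [ContinuousLinearMap.smul_apply, lp.coeFn_smul, Pi.smul_apply, smul_eq_mul]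

theorem ent_zero (j k : J) : ent (0 : L2 J →L[ℂ] L2 J) j k = 0 := by
  unfold ent
  rw [ContinuousLinearMap.zero_apply, lp.coeFn_zero, Pi.zero_apply]

theorem ent_star (T : L2 J →L[ℂ] L2 J) (j k : J) : ent (star T) j k = star (ent T k j) := by
  classical
  rw [ent_eq, ent_eq]
  have h1 : inner ℂ (lp.single 2 j (1 : ℂ) : L2 J) (star T (lp.single 2 k (1 : ℂ))) =
      (star T (lp.single 2 k (1 : ℂ)) : J → ℂ) j := by
    rw [lp.inner_single_left]
    simp
  have h2 : inner ℂ (T (lp.single 2 j (1 : ℂ))) (lp.single 2 k (1 : ℂ) : L2 J) =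
      star ((T (lp.single 2 j (1 : ℂ)) : J → ℂ) k) := by
    rw [lp.inner_single_right]
    simp
  rw [← h1, ← h2, ContinuousLinearMap.star_eq_adjoint, ContinuousLinearMap.adjoint_inner_right]

open Classical in
theorem ent_one (j k : J) : ent (1 : L2 J →L[ℂ] L2 J) j k = if j = k then 1 else 0 := by
  rw [ent_eq, ContinuousLinearMap.one_apply, lp.single_apply]
  split_ifs with h
  · subst h
    simp
  · simp [h]

theorem ext_ent {T S : L2 J →L[ℂ] L2 J} (h : ∀ j k, ent T j k = ent S j k) : T = S := by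
  apply ContinuousLinearMap.ext
  intro f
  apply lp.ext
  funext j
  have h1 := hasSum_ent T f j
  have h2 := hasSum_ent S f j
  simp only [h] at h1
  exact h1.unique h2

theorem norm_ent_le (T : L2 J →L[ℂ] L2 J) (j k : J) : ‖ent T j k‖ ≤ ‖T‖ := by
  classical
  rw [ent_eq]
  refine (lp.norm_apply_le_norm (by norm_num) _ j).trans ?_
  refine (T.le_opNorm _).trans ?_
  rw [lp.norm_single (by norm_num)]
  simp

/-- A nonzero coefficient of a product comes from nonzero coefficients of the factors. -/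
theorem exists_of_ent_mul_ne_zero {T S : L2 J →L[ℂ] L2 J} {j k : J} (h : ent (T * S) j k ≠ 0) :
    ∃ l, ent T j l ≠ 0 ∧ ent S l k ≠ 0 := by
  classical
  by_contra hcon
  push Not at hcon
  apply h
  rw [ent_eq, ContinuousLinearMap.mul_apply]
  have h1 := hasSum_ent T (S (lp.single 2 k (1 : ℂ))) j
  have h2 : ∀ l, ent T j l * (S (lp.single 2 k (1 : ℂ)) : J → ℂ) l = 0 := by
    intro l
    rw [← ent_eq]
    by_cases hl : ent T j l = 0
    · rw [hl, zero_mul]
    · rw [hcon l hl, mul_zero]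
  simp only [h2] at h1
  exact h1.unique hasSum_zero

/-- The commutator of an operator with a real function which varies by at most `ω` along the
nonzero matrix coefficients of the operator. -/
theorem norm_comm_le_real {T : L2 J →L[ℂ] L2 J} {g : J → ℝ} {C ω : ℝ} (hC : ∀ j, |g j| ≤ C)
    (hω : 0 ≤ ω) (h : ∀ j k, ent T j k ≠ 0 → |g j - g k| ≤ ω) :
    ‖T * mulOp (fun j => (g j : ℂ)) - mulOp (fun j => (g j : ℂ)) * T‖ ≤ 8 * ω * ‖T‖ := by
  have hgb : ∃ C : ℝ, ∀ j, ‖((g j : ℝ) : ℂ)‖ ≤ C := ⟨C, fun j => by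
    rw [Complex.norm_real]
    exact hC j⟩
  rcases hω.eq_or_lt with h0 | h0
  · -- the operator commutes with the function
    have h1 : T * mulOp (fun j => (g j : ℂ)) - mulOp (fun j => (g j : ℂ)) * T = 0 := by
      apply ext_ent
      intro j k
      rw [ent_sub, ent_mul_mulOp hgb, ent_mulOp_mul hgb, ent_zero]
      by_cases he : ent T j k = 0
      · rw [he]
        ring
      · have h2 := h j k he
        rw [← h0] at h2
        have h3 : g j = g k := by
          have := abs_nonpos_iff.mp h2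
          linarith
        rw [h3]
        ring
    rw [h1, norm_zero]
    positivity
  · -- the rounded function
    set n : J → ℤ := fun j => ⌊g j / ω⌋ with hn
    set s : J → ℂ := fun j => (ω : ℂ) * (n j : ℂ) with hs
    set u : J → ℂ := fun j => Complex.I ^ (n j) with hu
    set v : J → ℂ := fun j => Complex.I ^ (-(n j)) with hv
    have hround : ∀ j, ‖((g j : ℝ) : ℂ) - s j‖ ≤ ω := by
      intro j
      have h1 : ((g j : ℝ) : ℂ) - s j = ((g j - ω * (n j : ℝ) : ℝ) : ℂ) := by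
        rw [hs]
        push_cast
        ring
      rw [h1, Complex.norm_real, Real.norm_eq_abs, abs_le]
      have h2 := Int.floor_le (g j / ω)
      have h3 := Int.lt_floor_add_one (g j / ω)
      rw [le_div_iff₀ h0] at h2
      rw [div_lt_iff₀ h0] at h3
      constructor
      · have : (n j : ℝ) * ω ≤ g j := h2
        linarith only [this, h3]
      · have : g j < ((n j : ℝ) + 1) * ω := h3
        linarith only [this]
    have hsb : ∃ C : ℝ, ∀ j, ‖s j‖ ≤ C := ⟨C + ω, fun j => by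
      have h1 : s j = ((g j : ℝ) : ℂ) - (((g j : ℝ) : ℂ) - s j) := by ring
      rw [h1]
      refine (norm_sub_le _ _).trans (add_le_add ?_ (hround j))
      rw [Complex.norm_real]
      exact hC j⟩
    have hub1 : ∀ j, ‖u j‖ ≤ 1 := fun j => by
      rw [hu, norm_zpow, Complex.norm_I, one_zpow]
    have hvb1 : ∀ j, ‖v j‖ ≤ 1 := fun j => by
      rw [hv, norm_zpow, Complex.norm_I, one_zpow]
    have hub : ∃ C : ℝ, ∀ j, ‖u j‖ ≤ C := ⟨1, hub1⟩
    have hvb : ∃ C : ℝ, ∀ j, ‖v j‖ ≤ C := ⟨1, hvb1⟩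
    have hdb : ∃ C : ℝ, ∀ j, ‖((g j : ℝ) : ℂ) - s j‖ ≤ C := ⟨ω, hround⟩
    have hband : ∀ j k, ent T j k ≠ 0 → n j - n k = -1 ∨ n j - n k = 0 ∨ n j - n k = 1 := by
      intro j k he
      have h1 := abs_le.mp (h j k he)
      have h2 : n j ≤ n k + 1 := by
        rw [hn]
        have : g j / ω ≤ g k / ω + 1 := by
          rw [div_add_one h0.ne', div_le_div_iff_of_pos_right h0]
          linarith [h1.2]
        calc ⌊g j / ω⌋ ≤ ⌊g k / ω + 1⌋ := Int.floor_le_floor this
          _ = ⌊g k / ω⌋ + 1 := Int.floor_add_one _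
      have h3 : n k ≤ n j + 1 := by
        rw [hn]
        have : g k / ω ≤ g j / ω + 1 := by
          rw [div_add_one h0.ne', div_le_div_iff_of_pos_right h0]
          linarith [h1.1]
        calc ⌊g k / ω⌋ ≤ ⌊g j / ω + 1⌋ := Int.floor_le_floor this
          _ = ⌊g j / ω⌋ + 1 := Int.floor_add_one _
      omega
    -- the commutator with the rounded function
    have key : T * mulOp s - mulOp s * T =
        ((ω : ℂ) * (Complex.I / 2)) • (mulOp u * T * mulOp v - mulOp v * T * mulOp u) := by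
      apply ext_ent
      intro j k
      rw [ent_sub, ent_mul_mulOp hsb, ent_mulOp_mul hsb, ent_smul, ent_sub, ent_mul_mulOp hvb,
        ent_mulOp_mul hub, ent_mul_mulOp hub, ent_mulOp_mul hvb]
      by_cases he : ent T j k = 0
      · rw [he]
        ring
      · have hI : Complex.I ≠ 0 := Complex.I_ne_zero
        have e1 : u j * v k = Complex.I ^ (n j - n k) := by
          rw [hu, hv]
          simp only
          rw [← zpow_add₀ hI, sub_eq_add_neg]
        have e2 : v j * u k = Complex.I ^ (-(n j - n k)) := by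
          rw [hu, hv]
          simp only
          rw [← zpow_add₀ hI]
          congr 1
          ring
        have e3 : ent T j k * s k - s j * ent T j k = -((ω : ℂ) * ((n j - n k : ℤ) : ℂ)) * ent T j k := by
          rw [hs]
          push_cast
          ring
        have e4 : u j * ent T j k * v k - v j * ent T j k * u k =
            (Complex.I ^ (n j - n k) - Complex.I ^ (-(n j - n k))) * ent T j k := by
          rw [← e1, ← e2]
          ring
        rw [e3, e4]
        rcases hband j k he with hd | hd | hd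
        · rw [hd]
          simp only [neg_neg, zpow_neg, zpow_one, Complex.inv_I]
          push_cast
          linear_combination ((ω : ℂ) * ent T j k) * Complex.I_sq
        · rw [hd]
          simp
        · rw [hd]
          simp only [zpow_neg, zpow_one, Complex.inv_I]
          push_cast
          linear_combination (-(ω : ℂ) * ent T j k) * Complex.I_sq
    have hu1 := norm_mulOp_le hub1 zero_le_one
    have hv1 := norm_mulOp_le hvb1 zero_le_one
    have hd1 := norm_mulOp_le hround hω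
    have hT := norm_nonneg T
    have b1 : ‖mulOp u * T * mulOp v‖ ≤ ‖T‖ := by
      refine (norm_mul_le _ _).trans ?_
      refine (mul_le_mul (norm_mul_le _ _) hv1 (norm_nonneg _) (by (clear * -; positivity))).trans ?_
      rw [mul_one]
      calc ‖mulOp u‖ * ‖T‖ ≤ 1 * ‖T‖ := by gcongr
        _ = ‖T‖ := one_mul _
    have b2 : ‖mulOp v * T * mulOp u‖ ≤ ‖T‖ := by
      refine (norm_mul_le _ _).trans ?_
      refine (mul_le_mul (norm_mul_le _ _) hu1 (norm_nonneg _) (by (clear * -; positivity))).trans ?_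
      rw [mul_one]
      calc ‖mulOp v‖ * ‖T‖ ≤ 1 * ‖T‖ := by gcongr
        _ = ‖T‖ := one_mul _
    have b3 : ‖T * mulOp s - mulOp s * T‖ ≤ ω * ‖T‖ := by
      rw [key, norm_smul]
      have h1 : ‖(ω : ℂ) * (Complex.I / 2)‖ = ω / 2 := by
        rw [norm_mul, norm_div, Complex.norm_I, Complex.norm_real, Real.norm_of_nonneg hω]
        norm_num
        ring
      rw [h1]
      have h2 := (norm_sub_le (mulOp u * T * mulOp v) (mulOp v * T * mulOp u)).trans
        (add_le_add b1 b2)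
      calc ω / 2 * ‖mulOp u * T * mulOp v - mulOp v * T * mulOp u‖
          ≤ ω / 2 * (‖T‖ + ‖T‖) := by gcongr
        _ = ω * ‖T‖ := by ring
    have hsplit : mulOp (fun j => ((g j : ℝ) : ℂ)) =
        mulOp (fun j => ((g j : ℝ) : ℂ) - s j) + mulOp s := by
      rw [← mulOp_add hdb hsb]
      congr 1
      funext j
      ring
    have hfin : T * mulOp (fun j => ((g j : ℝ) : ℂ)) - mulOp (fun j => ((g j : ℝ) : ℂ)) * T =
        (T * mulOp (fun j => ((g j : ℝ) : ℂ) - s j) -
          mulOp (fun j => ((g j : ℝ) : ℂ) - s j) * T) + (T * mulOp s - mulOp s * T) := by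
      rw [hsplit, mul_add, add_mul]
      abel
    rw [hfin]
    have b4 : ‖T * mulOp (fun j => ((g j : ℝ) : ℂ) - s j) -
        mulOp (fun j => ((g j : ℝ) : ℂ) - s j) * T‖ ≤ 2 * ω * ‖T‖ := by
      refine (norm_sub_le _ _).trans ?_
      have h1 : ‖T * mulOp (fun j => ((g j : ℝ) : ℂ) - s j)‖ ≤ ‖T‖ * ω :=
        (norm_mul_le _ _).trans (by gcongr)
      have h2 : ‖mulOp (fun j => ((g j : ℝ) : ℂ) - s j) * T‖ ≤ ω * ‖T‖ :=
        (norm_mul_le _ _).trans (by gcongr)
      linarith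
    refine (norm_add_le _ _).trans ?_
    have : 0 ≤ ω * ‖T‖ := by positivity
    linarith

theorem norm_comm_le {T : L2 J →L[ℂ] L2 J} {g : J → ℂ} {C ω : ℝ} (hC : ∀ j, ‖g j‖ ≤ C)
    (hω : 0 ≤ ω) (h : ∀ j k, ent T j k ≠ 0 → ‖g j - g k‖ ≤ ω) :
    ‖T * mulOp g - mulOp g * T‖ ≤ 16 * ω * ‖T‖ := by
  set a : J → ℂ := fun j => (((g j).re : ℝ) : ℂ) with ha
  set b : J → ℂ := fun j => (((g j).im : ℝ) : ℂ) with hb
  have hab : ∃ C : ℝ, ∀ j, ‖a j‖ ≤ C := ⟨C, fun j => by
    rw [ha, Complex.norm_real]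
    exact (Complex.abs_re_le_norm _).trans (hC j)⟩
  have hbb : ∃ C : ℝ, ∀ j, ‖b j‖ ≤ C := ⟨C, fun j => by
    rw [hb, Complex.norm_real]
    exact (Complex.abs_im_le_norm _).trans (hC j)⟩
  have hIb : ∃ C : ℝ, ∀ j : J, ‖(fun _ : J => Complex.I) j‖ ≤ C := ⟨1, fun j => by simp⟩
  have h1 := norm_comm_le_real (T := T) (g := fun j => (g j).re) (C := C) (ω := ω)
    (fun j => (Complex.abs_re_le_norm _).trans (hC j)) hω (fun j k he => by
      have := h j k he
      rw [← Complex.sub_re]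
      exact (Complex.abs_re_le_norm _).trans this)
  have h2 := norm_comm_le_real (T := T) (g := fun j => (g j).im) (C := C) (ω := ω)
    (fun j => (Complex.abs_im_le_norm _).trans (hC j)) hω (fun j k he => by
      have := h j k he
      rw [← Complex.sub_im]
      exact (Complex.abs_im_le_norm _).trans this)
  have hgb : ∃ C : ℝ, ∀ j, ‖g j‖ ≤ C := ⟨C, hC⟩
  have hsplit : T * mulOp g - mulOp g * T = (T * mulOp a - mulOp a * T) +
      Complex.I • (T * mulOp b - mulOp b * T) := by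
    apply ext_ent
    intro j k
    rw [ent_sub, ent_mul_mulOp hgb, ent_mulOp_mul hgb, ent_add, ent_sub, ent_mul_mulOp hab,
      ent_mulOp_mul hab, ent_smul, ent_sub, ent_mul_mulOp hbb, ent_mulOp_mul hbb]
    rw [ha, hb]
    simp only
    have e1 := Complex.re_add_im (g j)
    have e2 := Complex.re_add_im (g k)
    linear_combination (ent T j k) * e1 - (ent T j k) * e2
  rw [hsplit]
  refine (norm_add_le _ _).trans ?_
  rw [norm_smul, Complex.norm_I, one_mul]
  linarith

end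

end Vale.Agent.P212
end
end

section

section

/-! Spectral gap for three unitaries of order three which generate pairwise groups of
order 21, in any unital C*-algebra; the Kazhdan projection. -/

namespace Vale.Agent.P212

section alg

variable {B : Type*} [Ring B] [Algebra ℂ B]

/-- The averaging element of an element of order three. -/
noncomputable def Pp (a : B) : B := (1 / 3 : ℂ) • (1 + a + a ^ 2)

theorem mul_Pp {a : B} (h3 : a ^ 3 = 1) : a * Pp a = Pp a := by
  have h : a * a ^ 2 = 1 := by rw [← pow_succ']; exact h3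
  simp only [Pp, mul_smul_comm, mul_add, mul_one, h, ← pow_two]
  congr 1
  abel

theorem Pp_mul {a : B} (h3 : a ^ 3 = 1) : Pp a * a = Pp a := by
  have h : a ^ 2 * a = 1 := by rw [← pow_succ]; exact h3
  simp only [Pp, smul_mul_assoc, add_mul, one_mul, h, ← pow_two]
  congr 1
  abel

theorem pow_mul_Pp {a : B} (h3 : a ^ 3 = 1) (n : ℕ) : a ^ n * Pp a = Pp a := by
  induction n with
  | zero => simp
  | succ n ih => rw [pow_succ, mul_assoc, mul_Pp h3, ih]

theorem Pp_mul_pow {a : B} (h3 : a ^ 3 = 1) (n : ℕ) : Pp a * a ^ n = Pp a := by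
  induction n with
  | zero => simp
  | succ n ih => rw [pow_succ, ← mul_assoc, ih, Pp_mul h3]

/-- If `a b = b` then `Pp a b = b`. -/
theorem Pp_mul_of_fix {a b : B} (h : a * b = b) : Pp a * b = b := by
  have h2 : a ^ 2 * b = b := by rw [pow_two, mul_assoc, h, h]
  simp only [Pp, smul_mul_assoc, add_mul, one_mul, h, h2]
  module

theorem mul_Pp_of_fix {a b : B} (h : b * a = b) : b * Pp a = b := by
  have h2 : b * a ^ 2 = b := by rw [pow_two, ← mul_assoc, h, h]
  simp only [Pp, mul_smul_comm, mul_add, mul_one, h, h2]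
  module

theorem Pp_idem {a : B} (h3 : a ^ 3 = 1) : Pp a * Pp a = Pp a :=
  Pp_mul_of_fix (mul_Pp h3)

theorem Pp_sq {a : B} (h3 : a ^ 3 = 1) : Pp (a ^ 2) = Pp a := by
  have h : (a ^ 2) ^ 2 = a := by
    rw [← pow_mul]
    calc a ^ (2 * 2) = a ^ 3 * a := by rw [← pow_succ]
      _ = a := by rw [h3, one_mul]
  simp only [Pp, h]
  congr 1
  abel

/-- The averaging element of an element of order seven. -/
noncomputable def P7 (X : B) : B :=
  (1 / 7 : ℂ) • (1 + X + X ^ 2 + X ^ 3 + X ^ 4 + X ^ 5 + X ^ 6)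

theorem mul_P7 {X : B} (h7 : X ^ 7 = 1) : X * P7 X = P7 X := by
  have h : X * X ^ 6 = 1 := by rw [← pow_succ']; exact h7
  simp only [P7, mul_smul_comm, mul_add, mul_one, h]
  simp only [← pow_two, ← pow_succ']
  congr 1
  simp only [Nat.reduceAdd]
  abel

theorem P7_mul {X : B} (h7 : X ^ 7 = 1) : P7 X * X = P7 X := by
  have h : X ^ 6 * X = 1 := by rw [← pow_succ]; exact h7
  simp only [P7, smul_mul_assoc, add_mul, one_mul, h]
  simp only [← pow_two, ← pow_succ]
  congr 1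
  simp only [Nat.reduceAdd]
  abel

/-- Data: `a` of order three acting on `X` of order seven by squaring. -/
structure Frob (a X : B) : Prop where
  cube : a ^ 3 = 1
  sev : X ^ 7 = 1
  rel : a * X = X ^ 2 * a

variable {a X : B}

omit [Algebra ℂ B] in
theorem Frob.rel_pow (h : Frob a X) (k : ℕ) : a * X ^ k = X ^ (2 * k) * a := by
  induction k with
  | zero => simp
  | succ k ih =>
    rw [pow_succ, ← mul_assoc, ih, mul_assoc, h.rel, ← mul_assoc, ← pow_add]
    congr 2

omit [Algebra ℂ B] in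
theorem Frob.pow_mod (h : Frob a X) (k : ℕ) : X ^ (k + 7) = X ^ k := by
  rw [pow_add, h.sev, mul_one]

theorem Frob.comm (h : Frob a X) : a * P7 X = P7 X * a := by
  have e1 := h.rel_pow 1
  have e2 := h.rel_pow 2
  have e3 := h.rel_pow 3
  have e4 := h.rel_pow 4
  have e5 := h.rel_pow 5
  have e6 := h.rel_pow 6
  simp only [pow_one, mul_one] at e1
  have m8 : X ^ (2 * 4) = X := by
    rw [show 2 * 4 = 1 + 7 from rfl, h.pow_mod, pow_one]
  have m10 : X ^ (2 * 5) = X ^ 3 := by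
    rw [show 2 * 5 = 3 + 7 from rfl, h.pow_mod]
  have m12 : X ^ (2 * 6) = X ^ 5 := by
    rw [show 2 * 6 = 5 + 7 from rfl, h.pow_mod]
  rw [m8] at e4
  rw [m10] at e5
  rw [m12] at e6
  simp only [P7, mul_smul_comm, smul_mul_assoc, mul_add, add_mul, mul_one, one_mul, e1, e2, e3,
    e4, e5, e6]
  simp only [Nat.reduceMul]
  congr 1
  abel

omit [Algebra ℂ B] in
theorem Frob.a_inv (h : Frob a X) : a * a ^ 2 = 1 := by
  rw [← pow_succ']; exact h.cube

/-- `P X^(2k) P = P X^k P`. -/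
theorem Frob.double (h : Frob a X) (k : ℕ) : Pp a * X ^ (2 * k) * Pp a = Pp a * X ^ k * Pp a := by
  have e : X ^ (2 * k) = a * X ^ k * a ^ 2 := by
    rw [h.rel_pow, mul_assoc, h.a_inv, mul_one]
  rw [e]
  calc Pp a * (a * X ^ k * a ^ 2) * Pp a = (Pp a * a) * X ^ k * (a ^ 2 * Pp a) := by
        simp only [mul_assoc]
    _ = _ := by rw [Pp_mul h.cube, pow_mul_Pp h.cube]

theorem Frob.avg (h : Frob a X) : Pp a * P7 X * Pp a =
    (1 / 7 : ℂ) • (Pp a + (3 : ℂ) • (Pp a * X * Pp a) + (3 : ℂ) • (Pp a * X ^ 6 * Pp a)) := by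
  have d1 := h.double 1
  have d2 := h.double 2
  have d3 := h.double 3
  have d5 := h.double 5
  simp only [Nat.reduceMul, pow_one] at d1 d2 d3 d5
  have m10 : X ^ 10 = X ^ 3 := h.pow_mod 3
  rw [m10] at d5
  have e : Pp a * P7 X * Pp a = (1 / 7 : ℂ) • (Pp a * Pp a + Pp a * X * Pp a
      + Pp a * X ^ 2 * Pp a + Pp a * X ^ 3 * Pp a + Pp a * X ^ 4 * Pp a
      + Pp a * X ^ 5 * Pp a + Pp a * X ^ 6 * Pp a) := by
    simp only [P7, mul_smul_comm, smul_mul_assoc, mul_add, add_mul, mul_one]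
  rw [e, ← d5, d2, d1, d3, Pp_idem h.cube]
  module

/-- The pair relations between the two averaging projections and the joint projection. -/
structure PairRel (P P' R : B) : Prop where
  pp : P * P = P
  pp' : P' * P' = P'
  rr : R * R = R
  rp : R * P = R
  pr : P * R = R
  rp' : R * P' = R
  pr' : P' * R = R
  tri : P * P' * P = (2 / 9 : ℂ) • P + (7 / 9 : ℂ) • R
  tri' : P' * P * P' = (2 / 9 : ℂ) • P' + (7 / 9 : ℂ) • R

/-- The relations of the group of order 21. -/
theorem pairRel_of_rel {x y : B} (hx : x ^ 3 = 1) (hy : y ^ 3 = 1)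
    (hr : x * y = y * x * y * x) : PairRel (Pp x) (Pp y) (P7 (x * y) * Pp x) ∧
      (x * y) ^ 7 = 1 ∧ Pp x * P7 (x * y) = P7 (x * y) * Pp x := by
  set X := x * y with hX
  have hxx : x * x ^ 2 = 1 := by rw [← pow_succ']; exact hx
  have hxx' : x ^ 2 * x = 1 := by rw [← pow_succ]; exact hx
  have hyy : y * y ^ 2 = 1 := by rw [← pow_succ']; exact hy
  have hyy' : y ^ 2 * y = 1 := by rw [← pow_succ]; exact hy
  have rel : x * X = X ^ 2 * x := by
    calc x * X = x * (y * x * y * x) := by rw [← hr]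
      _ = X ^ 2 * x := by rw [hX, pow_two]; simp only [mul_assoc]
  -- x X^k = X^(2k) x
  have relk : ∀ k : ℕ, x * X ^ k = X ^ (2 * k) * x := by
    intro k
    induction k with
    | zero => simp
    | succ k ih =>
      rw [pow_succ, ← mul_assoc, ih, mul_assoc, rel, ← mul_assoc, ← pow_add]
      congr 2
  have h8 : X ^ 8 = X := by
    have e1 : x * X * x ^ 2 = X ^ 2 := by rw [rel, mul_assoc, hxx, mul_one]
    have e2 : x * X ^ 2 * x ^ 2 = X ^ 4 := by rw [relk, mul_assoc, hxx, mul_one]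
    have e4 : x * X ^ 4 * x ^ 2 = X ^ 8 := by rw [relk, mul_assoc, hxx, mul_one]
    have hx3 : ∀ b : B, x * (x * (x * b)) = b := by
      intro b
      rw [← mul_assoc, ← mul_assoc, ← pow_two, ← pow_succ, hx, one_mul]
    have hx2 : x ^ 2 * (x ^ 2 * x ^ 2) = 1 := by
      rw [← pow_add, ← pow_add]
      calc x ^ (2 + (2 + 2)) = (x ^ 3) ^ 2 := by rw [← pow_mul]
        _ = 1 := by rw [hx, one_pow]
    rw [← e4, ← e2, ← e1]
    calc x * (x * (x * X * x ^ 2) * x ^ 2) * x ^ 2
        = x * (x * (x * (X * (x ^ 2 * (x ^ 2 * x ^ 2))))) := by simp only [mul_assoc]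
      _ = X := by rw [hx2, mul_one, hx3]
  have hXinv : X * (y ^ 2 * x ^ 2) = 1 := by
    calc X * (y ^ 2 * x ^ 2) = x * (y * y ^ 2) * x ^ 2 := by rw [hX]; simp only [mul_assoc]
      _ = 1 := by rw [hyy, mul_one, hxx]
  have hXinv' : (y ^ 2 * x ^ 2) * X = 1 := by
    calc (y ^ 2 * x ^ 2) * X = y ^ 2 * (x ^ 2 * x) * y := by rw [hX]; simp only [mul_assoc]
      _ = 1 := by rw [hxx', mul_one, hyy']
  have h7 : X ^ 7 = 1 := by
    calc X ^ 7 = X ^ 7 * (X * (y ^ 2 * x ^ 2)) := by rw [hXinv, mul_one]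
      _ = X ^ 8 * (y ^ 2 * x ^ 2) := by rw [pow_succ X 7]; simp only [mul_assoc]
      _ = 1 := by rw [h8, hXinv]
  have h6 : X ^ 6 = y ^ 2 * x ^ 2 := by
    calc X ^ 6 = (y ^ 2 * x ^ 2) * X * X ^ 6 := by rw [hXinv', one_mul]
      _ = (y ^ 2 * x ^ 2) * X ^ 7 := by rw [pow_succ' X 6]; simp only [mul_assoc]
      _ = _ := by rw [h7, mul_one]
  have F : Frob x X := ⟨hx, h7, rel⟩
  -- the other generator
  have hyeq : y = x ^ 2 * X := by rw [hX, ← mul_assoc, hxx', one_mul]
  have relx2 : x ^ 2 * X = X ^ 4 * x ^ 2 := by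
    calc x ^ 2 * X = x * (x * X) := by rw [pow_two, mul_assoc]
      _ = x * X ^ 2 * x := by rw [rel, mul_assoc]
      _ = X ^ 4 * x ^ 2 := by rw [relk, mul_assoc, ← pow_two x]
  have hXy : x = X * y ^ 2 := by rw [hX, mul_assoc, hyy, mul_one]
  have hx2y : x ^ 2 = y * X ^ 6 := by rw [h6, ← mul_assoc, hyy, one_mul]
  have hy2x : y ^ 2 = X ^ 6 * x := by rw [h6, mul_assoc, hxx', mul_one]
  have rely2 : y ^ 2 * X = X ^ 2 * y ^ 2 := by
    calc y ^ 2 * X = X ^ 6 * (x * X) := by rw [hy2x, mul_assoc]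
      _ = X ^ 6 * X ^ 2 * x := by rw [rel, mul_assoc]
      _ = X ^ 2 * (X ^ 6 * x) := by rw [← pow_add, ← mul_assoc, ← pow_add]
      _ = X ^ 2 * y ^ 2 := by rw [← hy2x]
  have G : Frob (y ^ 2) X := ⟨by
    rw [← pow_mul, show 2 * 3 = 3 * 2 from rfl, pow_mul, hy, one_pow], h7, rely2⟩
  have Gc : y ^ 2 * P7 X = P7 X * y ^ 2 := G.comm
  have Fc : x * P7 X = P7 X * x := F.comm
  have Gp : Pp (y ^ 2) = Pp y := Pp_sq hy
  -- P7 commutes with both projections
  have cx : Pp x * P7 X = P7 X * Pp x := by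
    have : x ^ 2 * P7 X = P7 X * x ^ 2 := by
      rw [pow_two, mul_assoc, Fc, ← mul_assoc, Fc, mul_assoc]
    simp only [Pp, smul_mul_assoc, mul_smul_comm, add_mul, mul_add, one_mul, mul_one, Fc, this]
  have cy : Pp y * P7 X = P7 X * Pp y := by
    have : (y ^ 2) ^ 2 * P7 X = P7 X * (y ^ 2) ^ 2 := by
      rw [pow_two, mul_assoc, Gc, ← mul_assoc, Gc, mul_assoc]
    rw [← Gp]
    simp only [Pp, smul_mul_assoc, mul_smul_comm, add_mul, mul_add, one_mul, mul_one, Gc, this]
  -- R and R'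
  have hyR : y * (P7 X * Pp x) = P7 X * Pp x := by
    calc y * (P7 X * Pp x) = x ^ 2 * (X * P7 X) * Pp x := by
          conv_lhs => rw [hyeq]
          simp only [mul_assoc]
      _ = x ^ 2 * (P7 X * Pp x) := by rw [mul_P7 h7, mul_assoc]
      _ = x ^ 2 * Pp x * P7 X := by rw [← cx, mul_assoc]
      _ = Pp x * P7 X := by rw [pow_mul_Pp hx]
      _ = _ := cx
  have hRy : (P7 X * Pp x) * y = P7 X * Pp x := by
    calc (P7 X * Pp x) * y = P7 X * (Pp x * x ^ 2) * X := by
          conv_lhs => rw [hyeq]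
          simp only [mul_assoc]
      _ = P7 X * Pp x * X := by rw [Pp_mul_pow hx]
      _ = Pp x * (P7 X * X) := by rw [← cx, mul_assoc]
      _ = P7 X * Pp x := by rw [P7_mul h7, cx]
  have hxR' : x * (P7 X * Pp y) = P7 X * Pp y := by
    calc x * (P7 X * Pp y) = X * (y ^ 2 * (Pp y * P7 X)) := by
          conv_lhs => rw [hXy]
          rw [cy, mul_assoc]
      _ = X * (P7 X * Pp y) := by rw [← mul_assoc (y ^ 2), pow_mul_Pp hy, cy]
      _ = P7 X * Pp y := by rw [← mul_assoc, mul_P7 h7]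
  have hRR : P7 X * Pp y = P7 X * Pp x := by
    calc P7 X * Pp y = Pp x * (P7 X * Pp y) := (Pp_mul_of_fix hxR').symm
      _ = (P7 X * Pp x) * Pp y := by rw [← mul_assoc, cx]
      _ = P7 X * Pp x := mul_Pp_of_fix hRy
  have hP7 : P7 X * P7 X = P7 X := by
    have hk : ∀ k : ℕ, X ^ k * P7 X = P7 X := by
      intro k
      induction k with
      | zero => simp
      | succ k ih => rw [pow_succ, mul_assoc, mul_P7 h7, ih]
    conv_lhs => lhs; rw [P7]
    simp only [smul_mul_assoc, add_mul, one_mul, hk, mul_P7 h7]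
    module
  have hPx := Pp_idem hx
  have hPy := Pp_idem hy
  have rp : (P7 X * Pp x) * Pp x = P7 X * Pp x := by rw [mul_assoc, hPx]
  have pr : Pp x * (P7 X * Pp x) = P7 X * Pp x := by rw [← mul_assoc, cx, mul_assoc, hPx]
  refine ⟨⟨hPx, hPy, ?_, rp, pr, mul_Pp_of_fix hRy, Pp_mul_of_fix hyR, ?_, ?_⟩, h7, cx⟩
  · rw [mul_assoc, pr, ← mul_assoc, hP7]
  · have a1 : Pp x * y * Pp x = Pp x * X * Pp x := by
      calc Pp x * y * Pp x = (Pp x * x ^ 2) * X * Pp x := by
            conv_lhs => rw [hyeq]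
            simp only [mul_assoc]
        _ = _ := by rw [Pp_mul_pow hx]
    have a2 : Pp x * y ^ 2 * Pp x = Pp x * X ^ 6 * Pp x := by
      rw [hy2x]
      calc Pp x * (X ^ 6 * x) * Pp x = Pp x * X ^ 6 * (x * Pp x) := by simp only [mul_assoc]
        _ = _ := by rw [mul_Pp hx]
    have a3 : Pp x * Pp y * Pp x =
        (1 / 3 : ℂ) • (Pp x + Pp x * X * Pp x + Pp x * X ^ 6 * Pp x) := by
      conv_lhs => rw [Pp.eq_def y]
      simp only [mul_smul_comm, smul_mul_assoc, mul_add, add_mul, mul_one, a1, a2, hPx]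
    have a4 := F.avg
    rw [cx, rp] at a4
    rw [a3, a4]
    module
  · have a1 : Pp y * x * Pp y = Pp y * X * Pp y := by
      calc Pp y * x * Pp y = Pp y * X * (y ^ 2 * Pp y) := by
            conv_lhs => rw [hXy]
            simp only [mul_assoc]
        _ = _ := by rw [pow_mul_Pp hy]
    have a2 : Pp y * x ^ 2 * Pp y = Pp y * X ^ 6 * Pp y := by
      rw [hx2y]
      calc Pp y * (y * X ^ 6) * Pp y = (Pp y * y) * X ^ 6 * Pp y := by simp only [mul_assoc]
        _ = _ := by rw [Pp_mul hy]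
    have a3 : Pp y * Pp x * Pp y =
        (1 / 3 : ℂ) • (Pp y + Pp y * X * Pp y + Pp y * X ^ 6 * Pp y) := by
      conv_lhs => rw [Pp.eq_def x]
      simp only [mul_smul_comm, smul_mul_assoc, mul_add, add_mul, mul_one, a1, a2, hPy]
    have a4 := G.avg
    rw [Gp, cy, mul_assoc, hPy, hRR] at a4
    rw [a3, a4]
    module

/-- The quadratic identity for one pair; `c ^ 2 = 2 / 9`. -/
theorem PairRel.quad {P P' R : B} (h : PairRel P P' R) {c l m : ℂ} (hc : c ^ 2 = 2 / 9)
    (hl : l ^ 2 = 2 * (1 + c)) (hm : m ^ 2 = 2 * c * (1 + c)) :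
    let T : B := P + P' - (2 : ℂ) • R
    let e0 : B := (9 / 7 : ℂ) • (T * T - (2 : ℂ) • T) + (1 - R)
    let e1 : B := ((9 / 14) * (2 + 11 * c / 2)) • T - ((9 / 14) * (1 + 9 * c / 2)) • (T * T)
    (1 - P) * (1 - P') + (1 - P') * (1 - P) + c • ((1 - P) + (1 - P')) =
      (l • e0 + m • e1) * (l • e0 + m • e1) := by
  intro T e0 e1
  have hTT : T * T = P + P' - (2 : ℂ) • R + (P * P' - R) + (P' * P - R) := by
    simp only [T, mul_add, add_mul, mul_sub, sub_mul, smul_mul_assoc, mul_smul_comm, h.pp, h.pp',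
      h.rr, h.rp, h.pr, h.rp', h.pr']
    module
  have hTTT : T * T * T = (2 : ℂ) • (T * T) - (7 / 9 : ℂ) • T := by
    have h1 : (P * P') * P' = P * P' := by rw [mul_assoc, h.pp']
    have h2 : (P' * P) * P = P' * P := by rw [mul_assoc, h.pp]
    have h3 : (P * P') * R = R := by rw [mul_assoc, h.pr', h.pr]
    have h4 : (P' * P) * R = R := by rw [mul_assoc, h.pr, h.pr']
    have e : T * T * T = (P + P' - (2 : ℂ) • R + (P * P' - R) + (P' * P - R)) * T := by
      rw [hTT]
    rw [e, hTT]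
    simp only [T, mul_add, add_mul, mul_sub, sub_mul, smul_mul_assoc, mul_smul_comm, h.pp, h.pp',
      h.rr, h.rp, h.pr, h.rp', h.pr', h1, h2, h3, h4, h.tri, h.tri']
    module
  have hTTTT : T * T * (T * T) = (2 : ℂ) • (T * T * T) - (7 / 9 : ℂ) • (T * T) := by
    rw [← mul_assoc, hTTT]
    simp only [sub_mul, smul_mul_assoc, hTTT]
  have hTR : T * R = 0 := by
    simp only [T, mul_add, add_mul, mul_sub, sub_mul, smul_mul_assoc, mul_smul_comm, h.pp, h.pp',
      h.rr, h.rp, h.pr, h.rp', h.pr']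
    module
  have hRT : R * T = 0 := by
    simp only [T, mul_add, add_mul, mul_sub, sub_mul, smul_mul_assoc, mul_smul_comm, h.pp, h.pp',
      h.rr, h.rp, h.pr, h.rp', h.pr']
    module
  have hlhs : (1 - P) * (1 - P') + (1 - P') * (1 - P) + c • ((1 - P) + (1 - P')) =
      T * T - (3 + c) • T + (2 * (1 + c)) • (1 - R) := by
    rw [hTT]
    simp only [T, mul_sub, sub_mul, mul_one, one_mul]
    module
  rw [hlhs]
  have hTTR : T * T * R = 0 := by rw [mul_assoc, hTR, mul_zero]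
  have hRTT : R * (T * T) = 0 := by rw [← mul_assoc, hRT, zero_mul]
  simp only [e0, e1, mul_add, add_mul, mul_sub, sub_mul, smul_mul_assoc, mul_smul_comm, h.rr,
    hTR, hRT, hTTR, hRTT, mul_one, one_mul, hTTTT, ← mul_assoc T T T, hTTT, smul_add, smul_sub,
    smul_zero, sub_zero, zero_sub]
  match_scalars
  · linear_combination (-9 / 7 : ℂ) * hl + (9 / 28 + 81 / 28 * c + 81 / 56 * c ^ 2) * hm +
      (81 / 28 * c ^ 2 + 243 / 28 * c + 99 / 14) * hc
  · linear_combination (18 / 7 : ℂ) * hl + (-9 / 14 - 99 / 28 * c - 81 / 28 * c ^ 2) * hm +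
      (-81 / 14 * c ^ 2 - 90 / 7 * c - 135 / 14) * hc
  · linear_combination (18 / 7 : ℂ) * hl + (-9 / 14 - 99 / 28 * c - 81 / 28 * c ^ 2) * hm +
      (-81 / 14 * c ^ 2 - 90 / 7 * c - 135 / 14) * hc
  · linear_combination (-29 / 7 : ℂ) * hl + (9 / 7 + 99 / 14 * c + 81 / 14 * c ^ 2) * hm +
      (81 / 7 * c ^ 2 + 180 / 7 * c + 135 / 7) * hc
  · linear_combination (-1 : ℂ) * hl

end alg

variable {A : Type} [CStarAlgebra A]

/-- Three unitaries of order three, pairwise generating a quotient of the group of order 21. -/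
structure Tri (u : Fin 3 → A) : Prop where
  unit : ∀ i, star (u i) * u i = 1
  unit' : ∀ i, u i * star (u i) = 1
  cube : ∀ i, u i ^ 3 = 1
  rel : ∀ i, u i * u (i + 1) = u (i + 1) * u i * u (i + 1) * u i

/-- The projection onto the vectors not fixed by `u`. -/
noncomputable def Qp (a : A) : A := 1 - (1 / 3 : ℂ) • (1 + a + a ^ 2)

/-- The Laplacian. -/
noncomputable def Lap (u : Fin 3 → A) : A := ∑ i, Qp (u i)

theorem Qp_eq (a : A) : Qp a = 1 - Pp a := rfl

theorem star_eq_sq {a : A} (h : star a * a = 1) (h3 : a ^ 3 = 1) : star a = a ^ 2 := by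
  have e : a * a ^ 2 = 1 := by rw [← pow_succ']; exact h3
  calc star a = star a * (a * a ^ 2) := by rw [e, mul_one]
    _ = a ^ 2 := by rw [← mul_assoc, h, one_mul]

theorem Pp_star {a : A} (h : star a * a = 1) (h3 : a ^ 3 = 1) : star (Pp a) = Pp a := by
  have h1 := star_eq_sq h h3
  have h2 : (a ^ 2) ^ 2 = a := by
    rw [← pow_mul]
    calc a ^ (2 * 2) = a ^ 3 * a := by rw [← pow_succ]
      _ = a := by rw [h3, one_mul]
  have h3' : star (1 / 3 : ℂ) = 1 / 3 := by simp
  simp only [Pp, star_smul, star_add, star_one, star_pow, h1, h2, h3']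
  congr 1
  abel

theorem P7_star {X : A} (h : star X * X = 1) (h7 : X ^ 7 = 1) : star (P7 X) = P7 X := by
  have e : X * X ^ 6 = 1 := by rw [← pow_succ']; exact h7
  have h1 : star X = X ^ 6 := by
    calc star X = star X * (X * X ^ 6) := by rw [e, mul_one]
      _ = X ^ 6 := by rw [← mul_assoc, h, one_mul]
  have hk : ∀ k : ℕ, (X ^ 6) ^ k * X ^ k = 1 := by
    intro k
    rw [← (Commute.pow_left (Commute.refl X) 6).mul_pow, ← pow_succ, h7, one_pow]
  have hs : ∀ k l : ℕ, k + l = 7 → (X ^ 6) ^ k = X ^ l := by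
    intro k l hkl
    calc (X ^ 6) ^ k = (X ^ 6) ^ k * (X ^ k * X ^ l) := by rw [← pow_add, hkl, h7, mul_one]
      _ = X ^ l := by rw [← mul_assoc, hk, one_mul]
  have s1 : X ^ 6 = X ^ 6 := rfl
  have s2 := hs 2 5 rfl
  have s3 := hs 3 4 rfl
  have s4 := hs 4 3 rfl
  have s5 := hs 5 2 rfl
  have s6 := hs 6 1 rfl
  have h3' : star (1 / 7 : ℂ) = 1 / 7 := by simp
  simp only [P7, star_smul, star_add, star_one, star_pow, h1, s2, s3, s4, s5, s6, pow_one, h3']
  congr 1
  abel

theorem Qp_star {a : A} (h : star a * a = 1) (_h' : a * star a = 1) (h3 : a ^ 3 = 1) :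
    star (Qp a) = Qp a := by
  rw [Qp_eq, star_sub, star_one, Pp_star h h3]

theorem Qp_idem {a : A} (h3 : a ^ 3 = 1) : Qp a * Qp a = Qp a := by
  simp only [Qp_eq, mul_sub, sub_mul, mul_one, one_mul, Pp_idem h3]
  abel

theorem Lap_star {u : Fin 3 → A} (hu : Tri u) : star (Lap u) = Lap u := by
  simp only [Lap, star_sum]
  exact Finset.sum_congr rfl fun i _ => Qp_star (hu.unit i) (hu.unit' i) (hu.cube i)

/-- The constant `sqrt 2 / 3`. -/
theorem gap_const_sq : ((Real.sqrt 2 / 3 : ℝ) : ℂ) ^ 2 = 2 / 9 := by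
  have : (Real.sqrt 2 / 3) ^ 2 = 2 / 9 := by
    rw [div_pow, Real.sq_sqrt (by norm_num)]
    norm_num
  rw [← Complex.ofReal_pow, this]
  norm_num

theorem pair_sos {x y : A} (hx : star x * x = 1) (hy : star y * y = 1)
    (hx3 : x ^ 3 = 1) (hy3 : y ^ 3 = 1) (hr : x * y = y * x * y * x) :
    ∃ r : A, Qp x * Qp y + Qp y * Qp x + ((Real.sqrt 2 / 3 : ℝ) : ℂ) • (Qp x + Qp y) =
      star r * r := by
  obtain ⟨hP, h7, hcomm⟩ := pairRel_of_rel hx3 hy3 hr
  have hX : star (x * y) * (x * y) = 1 := by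
    calc star (x * y) * (x * y) = star y * (star x * x) * y := by
          rw [star_mul]; simp only [mul_assoc]
      _ = 1 := by rw [hx, mul_one, hy]
  have hc0 : 0 ≤ Real.sqrt 2 / 3 := by positivity
  have hc2 := gap_const_sq
  generalize Real.sqrt 2 / 3 = c at hc0 hc2 ⊢
  obtain ⟨l, hl⟩ : ∃ l : ℝ, l ^ 2 = 2 * (1 + c) :=
    ⟨Real.sqrt (2 * (1 + c)), Real.sq_sqrt (by positivity)⟩
  obtain ⟨m, hm⟩ : ∃ m : ℝ, m ^ 2 = 2 * c * (1 + c) :=
    ⟨Real.sqrt (2 * c * (1 + c)), Real.sq_sqrt (by positivity)⟩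
  have hl2 : (l : ℂ) ^ 2 = 2 * (1 + (c : ℂ)) := by
    rw [← Complex.ofReal_pow, hl]
    push_cast
    ring
  have hm2 : (m : ℂ) ^ 2 = 2 * (c : ℂ) * (1 + (c : ℂ)) := by
    rw [← Complex.ofReal_pow, hm]
    push_cast
    ring
  have hq := hP.quad hc2 hl2 hm2
  simp only at hq
  have sx := Pp_star hx hx3
  have sy := Pp_star hy hy3
  have sR : star (P7 (x * y) * Pp x) = P7 (x * y) * Pp x := by
    rw [star_mul, sx, P7_star hX h7, hcomm]
  generalize P7 (x * y) * Pp x = R at hq sR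
  have sT : star (Pp x + Pp y - (2 : ℂ) • R) = Pp x + Pp y - (2 : ℂ) • R := by
    have h2 : star (2 : ℂ) = 2 := by simp
    simp only [star_sub, star_add, star_smul, sx, sy, sR, h2]
  generalize Pp x + Pp y - (2 : ℂ) • R = T at hq sT
  rw [Qp_eq, Qp_eq, hq]
  refine ⟨(l : ℂ) • ((9 / 7 : ℂ) • (T * T - (2 : ℂ) • T) + (1 - R)) +
    (m : ℂ) • (((9 / 14) * (2 + 11 * (c : ℂ) / 2)) • T -
      ((9 / 14) * (1 + 9 * (c : ℂ) / 2)) • (T * T)), ?_⟩
  congr 1
  have s1 : star (9 / 7 : ℂ) = 9 / 7 := by simp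
  have s2 : star (2 : ℂ) = 2 := by simp
  have s3 : star ((9 / 14) * (2 + 11 * (c : ℂ) / 2)) = (9 / 14) * (2 + 11 * (c : ℂ) / 2) := by
    have : ((9 / 14) * (2 + 11 * (c : ℂ) / 2)) = (((9 / 14) * (2 + 11 * c / 2) : ℝ) : ℂ) := by
      push_cast
      ring
    rw [this]
    exact Complex.conj_ofReal _
  have s4 : star ((9 / 14) * (1 + 9 * (c : ℂ) / 2)) = (9 / 14) * (1 + 9 * (c : ℂ) / 2) := by
    have : ((9 / 14) * (1 + 9 * (c : ℂ) / 2)) = (((9 / 14) * (1 + 9 * c / 2) : ℝ) : ℂ) := by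
      push_cast
      ring
    rw [this]
    exact Complex.conj_ofReal _
  have sl : star (l : ℂ) = (l : ℂ) := Complex.conj_ofReal l
  have sm : star (m : ℂ) = (m : ℂ) := Complex.conj_ofReal m
  simp only [star_add, star_sub, star_smul, star_mul, star_one, sT, sR, s1, s2, s3, s4, sl, sm]

/-- The gap inequality, as a sum of squares. -/
theorem Lap_gap {u : Fin 3 → A} (hu : Tri u) : ∃ r : Fin 3 → A,
    Lap u * Lap u - (((1 - 2 * Real.sqrt 2 / 3 : ℝ) : ℂ)) • Lap u = ∑ i, star (r i) * r i := by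
  choose r hr using fun i : Fin 3 => pair_sos (hu.unit i) (hu.unit (i + 1)) (hu.cube i)
    (hu.cube (i + 1)) (hu.rel i)
  refine ⟨r, ?_⟩
  simp only [← hr, Fin.sum_univ_three, Lap]
  have e1 : (0 : Fin 3) + 1 = 1 := rfl
  have e2 : (1 : Fin 3) + 1 = 2 := rfl
  have e3 : (2 : Fin 3) + 1 = 0 := rfl
  rw [e1, e2, e3]
  have q0 := Qp_idem (hu.cube 0)
  have q1 := Qp_idem (hu.cube 1)
  have q2 := Qp_idem (hu.cube 2)
  simp only [mul_add, add_mul, q0, q1, q2]
  push_cast
  module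

theorem spectrum_Lap {u : Fin 3 → A} (hu : Tri u) {x : ℝ} (hx : x ∈ spectrum ℝ (Lap u)) :
    x = 0 ∨ (1 - 2 * Real.sqrt 2 / 3 : ℝ) ≤ x := by
  letI : PartialOrder A := CStarAlgebra.spectralOrder A
  haveI : StarOrderedRing A := CStarAlgebra.spectralOrderedRing A
  have h0 : 0 ≤ Lap u := by
    rw [Lap]
    refine Finset.sum_nonneg fun i _ => ?_
    rw [← Qp_idem (hu.cube i)]
    nth_rw 1 [← Qp_star (hu.unit i) (hu.unit' i) (hu.cube i)]
    exact star_mul_self_nonneg _
  have hx0 : 0 ≤ x := spectrum_nonneg_of_nonneg h0 hx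
  set ε : ℝ := 1 - 2 * Real.sqrt 2 / 3 with hε
  obtain ⟨r, hr⟩ := Lap_gap hu
  have h1 : 0 ≤ Lap u * Lap u - (ε : ℂ) • Lap u := by
    rw [hr]
    exact Finset.sum_nonneg fun i _ => star_mul_self_nonneg _
  have h2 : x * x - ε * x ∈ spectrum ℝ (Lap u * Lap u - (ε : ℂ) • Lap u) := by
    have := spectrum.subset_polynomial_aeval (Lap u)
      (Polynomial.X * Polynomial.X - Polynomial.C ε * Polynomial.X)
      ⟨x, hx, rfl⟩
    simpa [Algebra.algebraMap_eq_smul_one] using this
  have h3 := spectrum_nonneg_of_nonneg h1 h2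
  by_contra hcon
  push Not at hcon
  obtain ⟨hne, hlt⟩ := hcon
  have hpos : 0 < x := lt_of_le_of_ne hx0 (Ne.symm hne)
  linarith only [mul_pos (sub_pos.2 hlt) (sub_pos.2 hpos), h3]

end Vale.Agent.P212
end
end

section

section

/-! The Kazhdan projection. -/

namespace Vale.Agent.P212

variable {A : Type} [CStarAlgebra A]

/-- The pseudo-inverse of the Laplacian. -/
noncomputable def Green (u : Fin 3 → A) : A := cfc (fun x : ℝ => x⁻¹) (Lap u)

/-- The Kazhdan projection. -/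
noncomputable def Kaz (u : Fin 3 → A) : A := 1 - Green u * Lap u

theorem gap_pos : (0 : ℝ) < 1 - 2 * Real.sqrt 2 / 3 := by
  have h1 : Real.sqrt 2 < 3 / 2 := by
    rw [Real.sqrt_lt' (by norm_num)]
    norm_num
  linarith

theorem isSelfAdjoint_Lap {u : Fin 3 → A} (hu : Tri u) : IsSelfAdjoint (Lap u) := Lap_star hu

theorem continuousOn_inv_Lap {u : Fin 3 → A} (hu : Tri u) :
    ContinuousOn (fun x : ℝ => x⁻¹) (spectrum ℝ (Lap u)) := by
  intro x hx
  by_cases h0 : x = 0
  · subst h0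
    have h1 : ∀ᶠ y in nhdsWithin (0 : ℝ) (spectrum ℝ (Lap u)), (fun x : ℝ => x⁻¹) y = 0 := by
      have h2 : ∀ᶠ y in nhdsWithin (0 : ℝ) (spectrum ℝ (Lap u)), y < 1 - 2 * Real.sqrt 2 / 3 :=
        nhdsWithin_le_nhds (Iio_mem_nhds gap_pos)
      filter_upwards [h2, self_mem_nhdsWithin] with y hy hy'
      rcases spectrum_Lap hu hy' with h3 | h3
      · simp [h3]
      · linarith
    have h3 : Filter.Tendsto (fun x : ℝ => x⁻¹) (nhdsWithin (0 : ℝ) (spectrum ℝ (Lap u)))
        (nhds 0) := by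
      refine tendsto_const_nhds.congr' ?_
      filter_upwards [h1] with y hy
      exact hy.symm
    unfold ContinuousWithinAt
    simpa using h3
  · exact (continuousAt_inv₀ h0).continuousWithinAt

theorem Lap_comm {u : Fin 3 → A} {m : A} (hm : ∀ i, m * u i = u i * m) :
    Commute (Lap u) m := by
  unfold Lap
  apply Commute.sum_left
  intro i _
  unfold Qp
  have h1 : Commute (u i) m := (hm i).symm
  apply Commute.sub_left (Commute.one_left m)
  apply Commute.smul_left
  exact ((Commute.one_left m).add_left h1).add_left (h1.pow_left 2)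

theorem Green_comm_Lap (u : Fin 3 → A) : Commute (Green u) (Lap u) :=
  Commute.cfc_real (Commute.refl (Lap u)) _

theorem Green_comm {u : Fin 3 → A} (hu : Tri u) {m : A} (hm : ∀ i, m * u i = u i * m) :
    m * Green u = Green u * m :=
  (Commute.cfc_real (Lap_comm hm) (fun x : ℝ => x⁻¹)).eq.symm

theorem Green_star {u : Fin 3 → A} (hu : Tri u) : star (Green u) = Green u := by
  have h : IsSelfAdjoint (cfc (fun x : ℝ => x⁻¹) (Lap u)) := cfc_predicate _ _
  exact h

theorem Lap_Green_Lap {u : Fin 3 → A} (hu : Tri u) : Lap u * (Green u * Lap u) = Lap u := by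
  have hsa := isSelfAdjoint_Lap hu
  have hc := continuousOn_inv_Lap hu
  have h1 : Green u * Lap u = cfc (fun x : ℝ => x⁻¹ * x) (Lap u) := by
    unfold Green
    conv_lhs => rw [← cfc_id ℝ (Lap u) hsa]
    rw [cfc_id ℝ (Lap u) hsa]
    conv_lhs =>
      rhs
      rw [← cfc_id ℝ (Lap u) hsa]
    rw [← cfc_mul (fun x : ℝ => x⁻¹) id (Lap u) hc continuousOn_id]
    rfl
  have hc2 : ContinuousOn (fun x : ℝ => x⁻¹ * x) (spectrum ℝ (Lap u)) := hc.mul continuousOn_id
  rw [h1]
  have h2 : Lap u * cfc (fun x : ℝ => x⁻¹ * x) (Lap u)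
      = cfc (fun x : ℝ => x * (x⁻¹ * x)) (Lap u) := by
    conv_lhs =>
      lhs
      rw [← cfc_id ℝ (Lap u) hsa]
    rw [← cfc_mul id (fun x : ℝ => x⁻¹ * x) (Lap u) continuousOn_id hc2]
    rfl
  rw [h2]
  have h3 : (fun x : ℝ => x * (x⁻¹ * x)) = id := by
    funext x
    by_cases hx : x = 0
    · simp [hx]
    · field_simp
      rfl
  rw [h3, cfc_id ℝ (Lap u) hsa]

theorem Lap_mul_Kaz {u : Fin 3 → A} (hu : Tri u) : Lap u * Kaz u = 0 := by
  unfold Kaz
  rw [mul_sub, mul_one, Lap_Green_Lap hu, sub_self]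

theorem Kaz_star {u : Fin 3 → A} (hu : Tri u) : star (Kaz u) = Kaz u := by
  unfold Kaz
  rw [star_sub, star_one, star_mul, Green_star hu, Lap_star hu, (Green_comm_Lap u).eq]

theorem Kaz_idem {u : Fin 3 → A} (hu : Tri u) : Kaz u * Kaz u = Kaz u := by
  conv_lhs =>
    lhs
    unfold Kaz
  rw [sub_mul, one_mul, mul_assoc, Lap_mul_Kaz hu, mul_zero, sub_zero]

theorem Kaz_comm {u : Fin 3 → A} (hu : Tri u) {m : A} (hm : ∀ i, m * u i = u i * m) :
    m * Kaz u = Kaz u * m := by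
  unfold Kaz
  rw [mul_sub, sub_mul, mul_one, one_mul, ← mul_assoc, Green_comm hu hm, mul_assoc, mul_assoc,
    (Lap_comm hm).eq]

theorem Qp_mul_Kaz {u : Fin 3 → A} (hu : Tri u) (i : Fin 3) : Qp (u i) * Kaz u = 0 := by
  letI : PartialOrder A := CStarAlgebra.spectralOrder A
  haveI : StarOrderedRing A := CStarAlgebra.spectralOrderedRing A
  have h1 : ∑ j, star (Qp (u j) * Kaz u) * (Qp (u j) * Kaz u) = 0 := by
    have h2 : ∀ j, star (Qp (u j) * Kaz u) * (Qp (u j) * Kaz u)
        = star (Kaz u) * (Qp (u j) * Kaz u) := by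
      intro j
      rw [star_mul, Qp_star (hu.unit j) (hu.unit' j) (hu.cube j), mul_assoc,
        ← mul_assoc (Qp (u j)) (Qp (u j)), Qp_idem (hu.cube j)]
    simp_rw [h2]
    rw [← Finset.mul_sum, ← Finset.sum_mul]
    change star (Kaz u) * (Lap u * Kaz u) = 0
    rw [Lap_mul_Kaz hu, mul_zero]
  have h2 := (Finset.sum_eq_zero_iff_of_nonneg
    (fun j _ => star_mul_self_nonneg (Qp (u j) * Kaz u))).1 h1 i (Finset.mem_univ i)
  exact (CStarRing.star_mul_self_eq_zero_iff _).1 h2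

theorem u_mul_Kaz {u : Fin 3 → A} (hu : Tri u) (i : Fin 3) : u i * Kaz u = Kaz u := by
  have h1 := Qp_mul_Kaz hu i
  have h2 : u i * Qp (u i) = Qp (u i) - (1 - u i) := by
    unfold Qp
    have h3 := hu.cube i
    rw [mul_sub, mul_smul_comm, mul_add, mul_add, mul_one]
    have h4 : u i * u i ^ 2 = 1 := by rw [← h3]; exact (pow_succ' (u i) 2).symm
    rw [h4, ← pow_two]
    have h5 : u i + u i ^ 2 + 1 = 1 + u i + u i ^ 2 := by abel
    rw [h5]
    abel
  have h3 : u i * (Qp (u i) * Kaz u) = Qp (u i) * Kaz u - (Kaz u - u i * Kaz u) := by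
    rw [← mul_assoc, h2, sub_mul, sub_mul, one_mul]
  rw [h1, mul_zero, zero_sub, eq_comm, neg_eq_zero, sub_eq_zero] at h3
  exact h3.symm

theorem mul_Kaz_of_mul_Lap {u : Fin 3 → A} {x : A} (hx : x * Lap u = 0)
    (hu : Tri u) : x * Kaz u = x := by
  unfold Kaz
  rw [mul_sub, mul_one, (Green_comm_Lap u).eq, ← mul_assoc, hx, zero_mul, sub_zero]

theorem mul_Kaz_eq_zero {u : Fin 3 → A} (hu : Tri u) {x y : A} (hx : x = y * Lap u) :
    x * Kaz u = 0 := by
  rw [hx, mul_assoc, Lap_mul_Kaz hu, mul_zero]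

end Vale.Agent.P212
end
end

section

section

/-! The matrices. -/

namespace Vale.Agent.P212

instance : Fact (Nat.Prime 11) := ⟨by norm_num⟩

theorem rho_ext {R : Type*} {a₁ a₂ a₃ b₁ b₂ b₃ c₁ c₂ c₃ a₁' a₂' a₃' b₁' b₂' b₃' c₁' c₂' c₃' : R}
    (h1 : a₁ = a₁') (h2 : a₂ = a₂') (h3 : a₃ = a₃') (h4 : b₁ = b₁') (h5 : b₂ = b₂')
    (h6 : b₃ = b₃') (h7 : c₁ = c₁') (h8 : c₂ = c₂') (h9 : c₃ = c₃') :
    (!![a₁, a₂, a₃; b₁, b₂, b₃; c₁, c₂, c₃] : Matrix (Fin 3) (Fin 3) R)
      = !![a₁', a₂', a₃'; b₁', b₂', b₃'; c₁', c₂', c₃'] := by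
  subst h1 h2 h3 h4 h5 h6 h7 h8 h9
  rfl

def rhoA {R : Type*} [CommRing R] (al _h : R) : Matrix (Fin 3) (Fin 3) R :=
  !![0, al, -1 - al; 0, -1, -al; 1, -1, 1]

def rhoB {R : Type*} [CommRing R] (al _h : R) : Matrix (Fin 3) (Fin 3) R :=
  !![al, 0, -1; -1, 1, -1; -1, 0, -1 - al]

def rhoC {R : Type*} [CommRing R] (al h : R) : Matrix (Fin 3) (Fin 3) R :=
  !![-h + h * al, h - h * al, -1; -3 * h, h - h * al, -(h * al); -h - h * al, 3 * h + h * al, 0]

theorem rhoA_cube {R : Type*} [CommRing R] (al h : R) (hal : al ^ 2 + al + 2 = 0) (hh : 2 * h - 1 = 0) :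
    rhoA al h * rhoA al h * rhoA al h = 1 := by
  unfold rhoA
  simp only [Matrix.mul_fin_three, Matrix.one_fin_three]
  refine rho_ext ?_ ?_ ?_ ?_ ?_ ?_ ?_ ?_ ?_
  · linear_combination ((-1)) * hal + (0) * hh
  · linear_combination (0) * hal + (0) * hh
  · linear_combination (0) * hal + (0) * hh
  · linear_combination (0) * hal + (0) * hh
  · linear_combination ((-1)) * hal + (0) * hh
  · linear_combination (0) * hal + (0) * hh
  · linear_combination (0) * hal + (0) * hh
  · linear_combination (0) * hal + (0) * hh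
  · linear_combination ((-1)) * hal + (0) * hh

theorem rhoB_cube {R : Type*} [CommRing R] (al h : R) (hal : al ^ 2 + al + 2 = 0) (hh : 2 * h - 1 = 0) :
    rhoB al h * rhoB al h * rhoB al h = 1 := by
  unfold rhoB
  simp only [Matrix.mul_fin_three, Matrix.one_fin_three]
  refine rho_ext ?_ ?_ ?_ ?_ ?_ ?_ ?_ ?_ ?_
  · linear_combination ((-1) + (1)*al^1) * hal + (0) * hh
  · linear_combination (0) * hal + (0) * hh
  · linear_combination ((-1)) * hal + (0) * hh
  · linear_combination ((-1)) * hal + (0) * hh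
  · linear_combination (0) * hal + (0) * hh
  · linear_combination ((-1)) * hal + (0) * hh
  · linear_combination ((-1)) * hal + (0) * hh
  · linear_combination (0) * hal + (0) * hh
  · linear_combination ((-2) + (-1)*al^1) * hal + (0) * hh

theorem rhoC_cube {R : Type*} [CommRing R] (al h : R) (hal : al ^ 2 + al + 2 = 0) (hh : 2 * h - 1 = 0) :
    rhoC al h * rhoC al h * rhoC al h = 1 := by
  unfold rhoC
  simp only [Matrix.mul_fin_three, Matrix.one_fin_three]
  refine rho_ext ?_ ?_ ?_ ?_ ?_ ?_ ?_ ?_ ?_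
  · linear_combination ((2)*h^2) * hal + ((1) + (2)*h^1 + (1)*h^2 + (-1)*al^1*h^2) * hh
  · linear_combination ((-1)*h^2 + (2)*h^3) * hal + ((-3)*h^2 + (-1)*al^1*h^2) * hh
  · linear_combination (0) * hal + ((1)*h^1 + (1)*al^1*h^1) * hh
  · linear_combination (0) * hal + ((3)*h^2 + (3)*al^1*h^2) * hh
  · linear_combination ((4)*h^3) * hal + ((1) + (2)*h^1 + (-5)*h^2 + (-3)*al^1*h^2) * hh
  · linear_combination ((-1)*h^2 + (2)*h^3) * hal + ((-2)*h^2) * hh
  · linear_combination ((-1)*h^2 + (2)*h^3) * hal + ((-1)*h^2 + (1)*al^1*h^2) * hh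
  · linear_combination ((1)*h^2 + (-2)*h^3) * hal + ((-1)*h^2 + (-3)*al^1*h^2) * hh
  · linear_combination ((1)*h^2 + (2)*h^3) * hal + ((1) + (2)*h^1 + (-2)*h^2 + (-2)*al^1*h^2) * hh

theorem rhoAB {R : Type*} [CommRing R] (al h : R) (hal : al ^ 2 + al + 2 = 0) (hh : 2 * h - 1 = 0) :
    rhoA al h * rhoB al h = rhoB al h * rhoA al h * (rhoB al h * rhoA al h) := by
  unfold rhoA rhoB
  simp only [Matrix.mul_fin_three]
  refine rho_ext ?_ ?_ ?_ ?_ ?_ ?_ ?_ ?_ ?_
  · linear_combination ((-1)*al^1) * hal + (0) * hh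
  · linear_combination ((1) + (1)*al^1) * hal + (0) * hh
  · linear_combination (0) * hal + (0) * hh
  · linear_combination (0) * hal + (0) * hh
  · linear_combination (0) * hal + (0) * hh
  · linear_combination (0) * hal + (0) * hh
  · linear_combination (0) * hal + (0) * hh
  · linear_combination ((1)*al^1) * hal + (0) * hh
  · linear_combination ((-1) + (-1)*al^1) * hal + (0) * hh

theorem rhoBC {R : Type*} [CommRing R] (al h : R) (hal : al ^ 2 + al + 2 = 0) (hh : 2 * h - 1 = 0) :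
    rhoB al h * rhoC al h = rhoC al h * rhoB al h * (rhoC al h * rhoB al h) := by
  unfold rhoB rhoC
  simp only [Matrix.mul_fin_three]
  refine rho_ext ?_ ?_ ?_ ?_ ?_ ?_ ?_ ?_ ?_
  · linear_combination ((1)*h^1 + (2)*h^2 + (1)*al^1*h^1 + (1)*al^1*h^2 + (-1)*al^2*h^2) * hal + ((1) + (-2)*h^1 + (-2)*al^1*h^1) * hh
  · linear_combination ((-2)*h^1 + (-3)*h^2 + (1)*al^1*h^2) * hal + ((3)*h^1 + (1)*al^1*h^1) * hh
  · linear_combination ((-1)*al^1*h^1 + (1)*al^1*h^2) * hal + ((1) + (-1)*h^1 + (2)*al^1 + (-1)*al^1*h^1) * hh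
  · linear_combination ((3)*h^2 + (4)*al^1*h^2 + (1)*al^2*h^2) * hal + ((-1)*al^1*h^1) * hh
  · linear_combination ((-6)*h^2 + (-1)*al^1*h^2) * hal + ((3)*h^1 + (1)*al^1*h^1) * hh
  · linear_combination ((1)*h^1 + (2)*h^2 + (1)*al^1*h^2) * hal + ((-1) + (-1)*h^1) * hh
  · linear_combination ((2)*h^1 + (-2)*h^2 + (1)*al^1*h^2 + (1)*al^2*h^2) * hal + ((-1)*h^1 + (-1)*al^1*h^1) * hh
  · linear_combination ((-1)*h^1 + (1)*h^2 + (-1)*al^1*h^2) * hal + ((2)*h^1 + (2)*al^1*h^1) * hh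
  · linear_combination ((2)*h^1 + (-4)*h^2 + (1)*al^1*h^1 + (-1)*al^1*h^2) * hal + ((-1) + (-1)*h^1 + (-1)*al^1*h^1) * hh

theorem rhoCA {R : Type*} [CommRing R] (al h : R) (hal : al ^ 2 + al + 2 = 0) (hh : 2 * h - 1 = 0) :
    rhoC al h * rhoA al h = rhoA al h * rhoC al h * (rhoA al h * rhoC al h) := by
  unfold rhoC rhoA
  simp only [Matrix.mul_fin_three]
  refine rho_ext ?_ ?_ ?_ ?_ ?_ ?_ ?_ ?_ ?_
  · linear_combination ((2)*h^2 + (6)*al^1*h^2 + (1)*al^2*h^2) * hal + ((1) + (2)*h^1) * hh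
  · linear_combination ((1)*h^1 + (-1)*h^2 + (-5)*al^1*h^2) * hal + ((-1) + (1)*h^1 + (1)*al^1*h^1) * hh
  · linear_combination ((-1)*h^1 + (1)*h^2 + (1)*al^1*h^2 + (1)*al^2*h^2) * hal + ((1) + (-1)*h^1) * hh
  · linear_combination ((3)*al^1*h^2) * hal + ((1)*al^1*h^1) * hh
  · linear_combination ((3)*h^2 + (1)*al^2*h^2) * hal + ((1)*h^1 + (1)*al^1*h^1) * hh
  · linear_combination ((1)*h^1 + (1)*h^2 + (1)*al^1*h^2 + (1)*al^2*h^2) * hal + ((-1)*h^1 + (-1)*al^1*h^1) * hh
  · linear_combination ((-4)*h^2 + (-1)*al^1*h^2) * hal + ((-1)*h^1) * hh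
  · linear_combination ((-1)*h^1 + (5)*h^2 + (1)*al^1*h^2) * hal + ((-2)*h^1) * hh
  · linear_combination ((-1)*h^2) * hal + ((1) + (1)*h^1 + (-1)*al^1*h^1) * hh


theorem rho_norm_211 : ‖(211 : ℤ_[11])‖ = 1 := by
  have e : ((211 : ℤ) : ℤ_[11]) = 211 := by norm_num
  have h1 : ¬ ‖((211 : ℤ) : ℤ_[11])‖ < 1 := by
    rw [PadicInt.norm_int_lt_one_iff_dvd]
    norm_num
  rw [e] at h1
  exact le_antisymm (PadicInt.norm_le_one _) (not_lt.mp h1)

theorem rho_norm_11132 : ‖(11132 : ℤ_[11])‖ < 1 := by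
  have e : ((11132 : ℤ) : ℤ_[11]) = 11132 := by norm_num
  have h1 : ‖((11132 : ℤ) : ℤ_[11])‖ < 1 := by
    rw [PadicInt.norm_int_lt_one_iff_dvd]
    norm_num
  rwa [e] at h1

/-- the root of `X^2+X+2` over the 11-adic integers -/
theorem rho_exists_root : ∃ al : ℤ_[11], al ^ 2 + al + 2 = 0 ∧
    PadicInt.toZModPow 2 al = (105 : ZMod (11 ^ 2)) := by
  set F : Polynomial ℤ_[11] := Polynomial.X ^ 2 + Polynomial.X + Polynomial.C 2 with hF
  have hF1 : F.aeval (105 : ℤ_[11]) = 11132 := by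
    rw [hF]
    simp only [map_add, map_pow, Polynomial.aeval_X, Polynomial.aeval_C, Algebra.algebraMap_self,
      RingHom.id_apply]
    norm_num
  have hF2 : F.derivative.aeval (105 : ℤ_[11]) = 211 := by
    rw [hF]
    simp only [Polynomial.derivative_X_pow, Polynomial.derivative_X,
      Polynomial.derivative_C, map_add, map_mul, map_pow, Polynomial.aeval_X, Polynomial.aeval_C,
      Algebra.algebraMap_self, RingHom.id_apply, map_one, map_zero]
    norm_num
  have hn : ‖F.aeval (105 : ℤ_[11])‖ < ‖F.derivative.aeval (105 : ℤ_[11])‖ ^ 2 := by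
    rw [hF1, hF2, rho_norm_211, one_pow]
    exact rho_norm_11132
  obtain ⟨al, h1, h2, _, _⟩ := hensels_lemma hn
  have h3 : al ^ 2 + al + 2 = 0 := by
    rw [hF] at h1
    simpa only [map_add, map_pow, Polynomial.aeval_X, Polynomial.aeval_C,
      Algebra.algebraMap_self, RingHom.id_apply] using h1
  refine ⟨al, h3, ?_⟩
  rw [hF2, rho_norm_211] at h2
  have hunit : IsUnit (al - 15) := by
    rw [PadicInt.isUnit_iff]
    refine le_antisymm (PadicInt.norm_le_one _) (not_lt.mp fun hlt => ?_)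
    rw [PadicInt.norm_lt_one_iff_dvd] at hlt h2
    have h8 : ‖((90 : ℤ) : ℤ_[11])‖ < 1 := by
      rw [PadicInt.norm_lt_one_iff_dvd]
      have : ((90 : ℤ) : ℤ_[11]) = (al - 15) - (al - 105) := by push_cast; ring
      rw [this]
      exact dvd_sub hlt h2
    rw [PadicInt.norm_int_lt_one_iff_dvd] at h8
    norm_num at h8
  have h5 : ((11 : ℕ) : ℤ_[11]) ^ 2 ∣ (al - 105) * (al - 15) :=
    ⟨13 - al, by push_cast; linear_combination h3⟩
  have h6 : ((11 : ℕ) : ℤ_[11]) ^ 2 ∣ al - 105 := (hunit.dvd_mul_right).mp h5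
  have h7 : al - 105 ∈ RingHom.ker (PadicInt.toZModPow (p := 11) 2) := by
    rw [PadicInt.ker_toZModPow, Ideal.mem_span_singleton]
    exact h6
  rw [RingHom.mem_ker, map_sub, map_ofNat] at h7
  exact sub_eq_zero.mp h7

theorem rho_exists_half : ∃ h : ℤ_[11], 2 * h - 1 = 0 := by
  have h1 : IsUnit (2 : ℤ_[11]) := by
    rw [PadicInt.isUnit_iff]
    have e : ((2 : ℤ) : ℤ_[11]) = 2 := by norm_num
    have h1 : ¬ ‖((2 : ℤ) : ℤ_[11])‖ < 1 := by
      rw [PadicInt.norm_int_lt_one_iff_dvd]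
      norm_num
    rw [e] at h1
    exact le_antisymm (PadicInt.norm_le_one _) (not_lt.mp h1)
  obtain ⟨h, hh⟩ := h1.exists_right_inv
  exact ⟨h, by rw [hh, sub_self]⟩

theorem rho_half_mod (h : ℤ_[11]) (hh : 2 * h - 1 = 0) :
    PadicInt.toZModPow 2 h = (61 : ZMod (11 ^ 2)) := by
  have h1 : 2 * PadicInt.toZModPow 2 h - 1 = (0 : ZMod (11 ^ 2)) := by
    have := congrArg (PadicInt.toZModPow (p := 11) 2) hh
    simpa only [map_sub, map_mul, map_one, map_zero, map_ofNat] using this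
  have h2 : (121 : ZMod (11 ^ 2)) = 0 := by rfl
  linear_combination 61 * h1 - PadicInt.toZModPow 2 h * h2

/-- an element which is `11 m` modulo `121` -/
theorem rho_lift (x : ℤ_[11]) (m : ℤ)
    (hx : PadicInt.toZModPow 2 x = ((11 * m : ℤ) : ZMod (11 ^ 2))) :
    ∃ y : ℤ_[11], x = 11 * y ∧ PadicInt.toZMod y = (m : ZMod 11) := by
  have h1 : x - ((11 * m : ℤ) : ℤ_[11]) ∈ RingHom.ker (PadicInt.toZModPow (p := 11) 2) := by
    rw [RingHom.mem_ker, map_sub, hx, map_intCast, sub_self]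
  rw [PadicInt.ker_toZModPow, Ideal.mem_span_singleton] at h1
  obtain ⟨z, hz⟩ := h1
  refine ⟨m + 11 * z, ?_, ?_⟩
  · have : x = ((11 * m : ℤ) : ℤ_[11]) + (11 : ℕ) ^ 2 * z := by rw [← hz]; ring
    rw [this]
    push_cast
    ring
  · have h11 : (PadicInt.toZMod (11 : ℤ_[11]) : ZMod 11) = 0 := by
      rw [map_ofNat]
      decide
    rw [map_add, map_mul, map_intCast, h11, zero_mul, add_zero]

section

variable (al h : ℤ_[11]) (hal : PadicInt.toZModPow 2 al = (105 : ZMod (11 ^ 2)))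

include hal

theorem rho_mapA : (PadicInt.toZModPow (p := 11) 2).mapMatrix (rhoA al h)
    = !![0, 105, 15; 0, 120, 16; 1, 120, 1] := by
  unfold rhoA
  ext i j
  fin_cases i <;> fin_cases j <;>
    simp only [RingHom.mapMatrix_apply, Matrix.map_apply, Matrix.of_apply, Matrix.cons_val', Matrix.cons_val_zero,
      Matrix.cons_val_one, Matrix.cons_val, map_sub, map_neg, map_one, map_zero, hal, Fin.zero_eta,
      Fin.mk_one, Fin.reduceFinMk] <;> rfl

theorem rho_mapB : (PadicInt.toZModPow (p := 11) 2).mapMatrix (rhoB al h)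
    = !![105, 0, 120; 120, 1, 120; 120, 0, 15] := by
  unfold rhoB
  ext i j
  fin_cases i <;> fin_cases j <;>
    simp only [RingHom.mapMatrix_apply, Matrix.map_apply, Matrix.of_apply, Matrix.cons_val', Matrix.cons_val_zero,
      Matrix.cons_val_one, Matrix.cons_val, map_sub, map_neg, map_one, map_zero, hal, Fin.zero_eta,
      Fin.mk_one, Fin.reduceFinMk] <;> rfl

theorem rho_mapC (hh : PadicInt.toZModPow 2 h = (61 : ZMod (11 ^ 2))) : (PadicInt.toZModPow (p := 11) 2).mapMatrix (rhoC al h)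
    = !![52, 69, 120; 59, 69, 8; 68, 54, 0] := by
  unfold rhoC
  ext i j
  fin_cases i <;> fin_cases j <;>
    simp only [RingHom.mapMatrix_apply, Matrix.map_apply, Matrix.of_apply, Matrix.cons_val', Matrix.cons_val_zero,
      Matrix.cons_val_one, Matrix.cons_val, map_sub, map_neg, map_one, map_zero, map_add, map_mul,
      map_ofNat, hal, hh, Fin.zero_eta, Fin.mk_one, Fin.reduceFinMk] <;> rfl

end

theorem rho_num0 (A B C : Matrix (Fin 3) (Fin 3) (ZMod (11 ^ 2)))
    (hA : A = !![0, 105, 15; 0, 120, 16; 1, 120, 1])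
    (hB : B = !![105, 0, 120; 120, 1, 120; 120, 0, 15])
    (hC : C = !![52, 69, 120; 59, 69, 8; 68, 54, 0]) :
    (A ^ 2 * B * C ^ 2) ^ 10 = !![12, 0, 0; 11, 78, 55; 77, 99, 34] := by
  have h1 : A ^ 2 * B * C ^ 2 = !![114, 120, 8; 53, 67, 1; 45, 68, 113] := by
    rw [hA, hB, hC]
    simp only [pow_two, Matrix.mul_fin_three]
    refine rho_ext ?_ ?_ ?_ ?_ ?_ ?_ ?_ ?_ ?_ <;> rfl
  have h2 : (!![114, 120, 8; 53, 67, 1; 45, 68, 113] : Matrix (Fin 3) (Fin 3) (ZMod (11 ^ 2)))
      * !![114, 120, 8; 53, 67, 1; 45, 68, 113] = !![114, 0, 0; 79, 27, 120; 25, 95, 8] := by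
    rw [Matrix.mul_fin_three]
    refine rho_ext ?_ ?_ ?_ ?_ ?_ ?_ ?_ ?_ ?_ <;> rfl
  have h4 : (!![114, 0, 0; 79, 27, 120; 25, 95, 8] : Matrix (Fin 3) (Fin 3) (ZMod (11 ^ 2)))
      * !![114, 0, 0; 79, 27, 120; 25, 95, 8] = !![49, 0, 0; 103, 29, 86; 28, 58, 90] := by
    rw [Matrix.mul_fin_three]
    refine rho_ext ?_ ?_ ?_ ?_ ?_ ?_ ?_ ?_ ?_ <;> rfl
  have h5 : (!![49, 0, 0; 103, 29, 86; 28, 58, 90] : Matrix (Fin 3) (Fin 3) (ZMod (11 ^ 2)))
      * !![114, 120, 8; 53, 67, 1; 45, 68, 113] = !![20, 72, 29; 88, 65, 44; 31, 56, 46] := by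
    rw [Matrix.mul_fin_three]
    refine rho_ext ?_ ?_ ?_ ?_ ?_ ?_ ?_ ?_ ?_ <;> rfl
  have h10 : (!![20, 72, 29; 88, 65, 44; 31, 56, 46] : Matrix (Fin 3) (Fin 3) (ZMod (11 ^ 2)))
      * !![20, 72, 29; 88, 65, 44; 31, 56, 46] = !![12, 0, 0; 11, 78, 55; 77, 99, 34] := by
    rw [Matrix.mul_fin_three]
    refine rho_ext ?_ ?_ ?_ ?_ ?_ ?_ ?_ ?_ ?_ <;> rfl
  rw [h1]
  generalize hX : (!![114, 120, 8; 53, 67, 1; 45, 68, 113] :
    Matrix (Fin 3) (Fin 3) (ZMod (11 ^ 2))) = X at *
  have e : X ^ 10 = (((X * X) * (X * X)) * X) * (((X * X) * (X * X)) * X) := by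
    simp only [pow_succ, pow_zero, one_mul, mul_assoc]
  rw [e, h2, h4, h5, h10]

theorem rho_num1 (A B C : Matrix (Fin 3) (Fin 3) (ZMod (11 ^ 2)))
    (hA : A = !![0, 105, 15; 0, 120, 16; 1, 120, 1])
    (hB : B = !![105, 0, 120; 120, 1, 120; 120, 0, 15])
    (hC : C = !![52, 69, 120; 59, 69, 8; 68, 54, 0]) :
    (A ^ 2 * B ^ 2 * C) ^ 10 = !![111, 99, 33; 33, 45, 11; 110, 110, 89] := by
  have h1 : A ^ 2 * B ^ 2 * C = !![60, 52, 8; 15, 0, 1; 8, 0, 113] := by
    rw [hA, hB, hC]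
    simp only [pow_two, Matrix.mul_fin_three]
    refine rho_ext ?_ ?_ ?_ ?_ ?_ ?_ ?_ ?_ ?_ <;> rfl
  have h2 : (!![60, 52, 8; 15, 0, 1; 8, 0, 113] : Matrix (Fin 3) (Fin 3) (ZMod (11 ^ 2)))
      * !![60, 52, 8; 15, 0, 1; 8, 0, 113] = !![88, 95, 105; 61, 54, 112; 53, 53, 7] := by
    rw [Matrix.mul_fin_three]
    refine rho_ext ?_ ?_ ?_ ?_ ?_ ?_ ?_ ?_ ?_ <;> rfl
  have h4 : (!![88, 95, 105; 61, 54, 112; 53, 53, 7] : Matrix (Fin 3) (Fin 3) (ZMod (11 ^ 2)))
      * !![88, 95, 105; 61, 54, 112; 53, 53, 7] = !![107, 58, 45; 78, 6, 48; 40, 40, 55] := by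
    rw [Matrix.mul_fin_three]
    refine rho_ext ?_ ?_ ?_ ?_ ?_ ?_ ?_ ?_ ?_ <;> rfl
  have h5 : (!![107, 58, 45; 78, 6, 48; 40, 40, 55] : Matrix (Fin 3) (Fin 3) (ZMod (11 ^ 2)))
      * !![60, 52, 8; 15, 0, 1; 8, 0, 113] = !![27, 119, 70; 72, 63, 4; 52, 23, 41] := by
    rw [Matrix.mul_fin_three]
    refine rho_ext ?_ ?_ ?_ ?_ ?_ ?_ ?_ ?_ ?_ <;> rfl
  have h10 : (!![27, 119, 70; 72, 63, 4; 52, 23, 41] : Matrix (Fin 3) (Fin 3) (ZMod (11 ^ 2)))
      * !![27, 119, 70; 72, 63, 4; 52, 23, 41] = !![111, 99, 33; 33, 45, 11; 110, 110, 89] := by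
    rw [Matrix.mul_fin_three]
    refine rho_ext ?_ ?_ ?_ ?_ ?_ ?_ ?_ ?_ ?_ <;> rfl
  rw [h1]
  generalize hX : (!![60, 52, 8; 15, 0, 1; 8, 0, 113] :
    Matrix (Fin 3) (Fin 3) (ZMod (11 ^ 2))) = X at *
  have e : X ^ 10 = (((X * X) * (X * X)) * X) * (((X * X) * (X * X)) * X) := by
    simp only [pow_succ, pow_zero, one_mul, mul_assoc]
  rw [e, h2, h4, h5, h10]

theorem rho_divide (M : Matrix (Fin 3) (Fin 3) ℤ_[11]) (Y : Matrix (Fin 3) (Fin 3) ℤ)
    (hM : ∀ i j, PadicInt.toZModPow 2 (M i j)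
      = (((1 : Matrix (Fin 3) (Fin 3) ℤ) i j + 11 * Y i j : ℤ) : ZMod (11 ^ 2))) :
    ∃ A : Matrix (Fin 3) (Fin 3) ℤ_[11], M = 1 + (11 : ℤ_[11]) • A ∧
      ∀ i j, PadicInt.toZMod (A i j) = (Y i j : ZMod 11) := by
  have h1 : ∀ i j, ∃ y : ℤ_[11], M i j - (1 : Matrix (Fin 3) (Fin 3) ℤ_[11]) i j = 11 * y ∧
      PadicInt.toZMod y = (Y i j : ZMod 11) := by
    intro i j
    apply rho_lift
    rw [map_sub, hM]
    have e : PadicInt.toZModPow (p := 11) 2 ((1 : Matrix (Fin 3) (Fin 3) ℤ_[11]) i j)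
        = (((1 : Matrix (Fin 3) (Fin 3) ℤ) i j : ℤ) : ZMod (11 ^ 2)) := by
      by_cases hij : i = j
      · subst hij
        rw [Matrix.one_apply_eq, Matrix.one_apply_eq, map_one, Int.cast_one]
      · rw [Matrix.one_apply_ne hij, Matrix.one_apply_ne hij, map_zero, Int.cast_zero]
    rw [e]
    push_cast
    ring
  choose A hA1 hA2 using h1
  refine ⟨Matrix.of A, ?_, hA2⟩
  ext i j
  have := hA1 i j
  rw [Matrix.add_apply, Matrix.smul_apply, smul_eq_mul, Matrix.of_apply, ← this]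
  ring

theorem exists_rho : ∃ ρ : F3 →* (Matrix (Fin 3) (Fin 3) ℤ_[11])ˣ,
    (∀ i, ρ (gen i) ^ 3 = 1) ∧
    (∀ i, ρ (gen i) * ρ (gen (i + 1)) =
      ρ (gen (i + 1)) * ρ (gen i) * ρ (gen (i + 1)) * ρ (gen i)) ∧
    ∃ (v : Fin 2 → F3) (A : Fin 2 → Matrix (Fin 3) (Fin 3) ℤ_[11]),
      (∀ k, (ρ (v k) : Matrix (Fin 3) (Fin 3) ℤ_[11]) = 1 + (11 : ℤ_[11]) • A k) ∧
      ¬ (11 : ℤ_[11]) ∣ (A 0 * A 1 - A 1 * A 0) 0 0 := by
  obtain ⟨al, hal, halm⟩ := rho_exists_root
  obtain ⟨h, hh⟩ := rho_exists_half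
  have hhm := rho_half_mod h hh
  have hA3 := rhoA_cube al h hal hh
  have hB3 := rhoB_cube al h hal hh
  have hC3 := rhoC_cube al h hal hh
  let uA : (Matrix (Fin 3) (Fin 3) ℤ_[11])ˣ :=
    ⟨rhoA al h, rhoA al h * rhoA al h, by rw [← mul_assoc]; exact hA3, hA3⟩
  let uB : (Matrix (Fin 3) (Fin 3) ℤ_[11])ˣ :=
    ⟨rhoB al h, rhoB al h * rhoB al h, by rw [← mul_assoc]; exact hB3, hB3⟩
  let uC : (Matrix (Fin 3) (Fin 3) ℤ_[11])ˣ :=
    ⟨rhoC al h, rhoC al h * rhoC al h, by rw [← mul_assoc]; exact hC3, hC3⟩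
  have huA : (uA : Matrix (Fin 3) (Fin 3) ℤ_[11]) = rhoA al h := rfl
  have huB : (uB : Matrix (Fin 3) (Fin 3) ℤ_[11]) = rhoB al h := rfl
  have huC : (uC : Matrix (Fin 3) (Fin 3) ℤ_[11]) = rhoC al h := rfl
  let ρ : F3 →* (Matrix (Fin 3) (Fin 3) ℤ_[11])ˣ := FreeGroup.lift ![uA, uB, uC]
  have hρ0 : ρ (gen 0) = uA := FreeGroup.lift_apply_of
  have hρ1 : ρ (gen 1) = uB := FreeGroup.lift_apply_of
  have hρ2 : ρ (gen 2) = uC := FreeGroup.lift_apply_of
  have cA : uA ^ 3 = 1 := by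
    ext1
    rw [Units.val_pow_eq_pow_val, huA, Units.val_one, pow_succ, pow_two]
    exact hA3
  have cB : uB ^ 3 = 1 := by
    ext1
    rw [Units.val_pow_eq_pow_val, huB, Units.val_one, pow_succ, pow_two]
    exact hB3
  have cC : uC ^ 3 = 1 := by
    ext1
    rw [Units.val_pow_eq_pow_val, huC, Units.val_one, pow_succ, pow_two]
    exact hC3
  have rAB : uA * uB = uB * uA * uB * uA := by
    ext1
    simp only [Units.val_mul, huA, huB]
    rw [mul_assoc (rhoB al h * rhoA al h)]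
    exact rhoAB al h hal hh
  have rBC : uB * uC = uC * uB * uC * uB := by
    ext1
    simp only [Units.val_mul, huC, huB]
    rw [mul_assoc (rhoC al h * rhoB al h)]
    exact rhoBC al h hal hh
  have rCA : uC * uA = uA * uC * uA * uC := by
    ext1
    simp only [Units.val_mul, huC, huA]
    rw [mul_assoc (rhoA al h * rhoC al h)]
    exact rhoCA al h hal hh
  have mA := rho_mapA al h halm
  have mB := rho_mapB al h halm
  have mC := rho_mapC al h halm hhm
  set φ := (PadicInt.toZModPow (p := 11) 2) with hφ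
  set M0 : Matrix (Fin 3) (Fin 3) ℤ_[11] :=
    (rhoA al h ^ 2 * rhoB al h * rhoC al h ^ 2) ^ 10 with hM0
  set M1 : Matrix (Fin 3) (Fin 3) ℤ_[11] :=
    (rhoA al h ^ 2 * rhoB al h ^ 2 * rhoC al h) ^ 10 with hM1
  have hφ0 : φ.mapMatrix M0 = !![12, 0, 0; 11, 78, 55; 77, 99, 34] := by
    rw [hM0, map_pow, map_mul, map_mul, map_pow, map_pow]
    exact rho_num0 _ _ _ mA mB mC
  have hφ1 : φ.mapMatrix M1 = !![111, 99, 33; 33, 45, 11; 110, 110, 89] := by
    rw [hM1, map_pow, map_mul, map_mul, map_pow, map_pow]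
    exact rho_num1 _ _ _ mA mB mC
  obtain ⟨A0, hA0, hA0'⟩ := rho_divide M0 !![1, 0, 0; 1, 7, 5; 7, 9, 3] (by
    intro i j
    have h1 : φ (M0 i j) = φ.mapMatrix M0 i j := rfl
    rw [h1, hφ0]
    fin_cases i <;> fin_cases j <;> rfl)
  obtain ⟨A1, hA1, hA1'⟩ := rho_divide M1 !![10, 9, 3; 3, 4, 1; 10, 10, 8] (by
    intro i j
    have h1 : φ (M1 i j) = φ.mapMatrix M1 i j := rfl
    rw [h1, hφ1]
    fin_cases i <;> fin_cases j <;> rfl)
  refine ⟨ρ, ?_, ?_, ![(gen 0 ^ 2 * gen 1 * gen 2 ^ 2) ^ 10, (gen 0 ^ 2 * gen 1 ^ 2 * gen 2) ^ 10],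
    ![A0, A1], ?_, ?_⟩
  · intro i
    fin_cases i
    · exact hρ0 ▸ cA
    · exact hρ1 ▸ cB
    · exact hρ2 ▸ cC
  · intro i
    fin_cases i
    · change ρ (gen 0) * ρ (gen 1) = ρ (gen 1) * ρ (gen 0) * ρ (gen 1) * ρ (gen 0)
      rw [hρ0, hρ1]; exact rAB
    · change ρ (gen 1) * ρ (gen 2) = ρ (gen 2) * ρ (gen 1) * ρ (gen 2) * ρ (gen 1)
      rw [hρ1, hρ2]; exact rBC
    · change ρ (gen 2) * ρ (gen 0) = ρ (gen 0) * ρ (gen 2) * ρ (gen 0) * ρ (gen 2)
      rw [hρ0, hρ2]; exact rCA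
  · intro k
    fin_cases k
    · change ((ρ ((gen 0 ^ 2 * gen 1 * gen 2 ^ 2) ^ 10) :
        (Matrix (Fin 3) (Fin 3) ℤ_[11])ˣ) : Matrix (Fin 3) (Fin 3) ℤ_[11]) = _
      rw [map_pow, map_mul, map_mul, map_pow, map_pow, hρ0, hρ1, hρ2]
      simp only [Units.val_pow_eq_pow_val, Units.val_mul, huA, huB, huC]
      exact hA0
    · change ((ρ ((gen 0 ^ 2 * gen 1 ^ 2 * gen 2) ^ 10) :
        (Matrix (Fin 3) (Fin 3) ℤ_[11])ˣ) : Matrix (Fin 3) (Fin 3) ℤ_[11]) = _
      rw [map_pow, map_mul, map_mul, map_pow, map_pow, hρ0, hρ1, hρ2]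
      simp only [Units.val_pow_eq_pow_val, Units.val_mul, huA, huB, huC]
      exact hA1
  · intro hdvd
    change (11 : ℤ_[11]) ∣ (A0 * A1 - A1 * A0) 0 0 at hdvd
    obtain ⟨z, hz⟩ := hdvd
    have h11 : (PadicInt.toZMod (11 : ℤ_[11]) : ZMod 11) = 0 := by
      rw [map_ofNat]
      decide
    have h1 := congrArg (PadicInt.toZMod (p := 11)) hz
    rw [map_mul, h11, zero_mul, Matrix.sub_apply, Matrix.mul_apply, Matrix.mul_apply,
      Fin.sum_univ_three, Fin.sum_univ_three] at h1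
    simp only [map_sub, map_add, map_mul, hA0', hA1'] at h1
    revert h1
    decide

end Vale.Agent.P212
end
end

section

section

/-! The tower of congruence quotients. -/

namespace Vale.Agent.P212

namespace TI

/-- Three by three matrices over the 11-adic integers. -/
abbrev Mat : Type := Matrix (Fin 3) (Fin 3) ℤ_[11]

/-- Divisibility of a matrix by a power of 11. -/
def dv (m : ℕ) (X : Mat) : Prop := ∃ B : Mat, X = ((11 : ℤ_[11]) ^ m) • B

theorem dv_zero (m : ℕ) : dv m 0 := ⟨0, by simp⟩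

theorem dv_top (X : Mat) : dv 0 X := ⟨X, by simp⟩

theorem dv_add {m : ℕ} {X Y : Mat} (hX : dv m X) (hY : dv m Y) : dv m (X + Y) := by
  obtain ⟨A, rfl⟩ := hX
  obtain ⟨B, rfl⟩ := hY
  exact ⟨A + B, by rw [smul_add]⟩

theorem dv_neg {m : ℕ} {X : Mat} (hX : dv m X) : dv m (-X) := by
  obtain ⟨A, rfl⟩ := hX
  exact ⟨-A, by rw [smul_neg]⟩

theorem dv_mul_left {m : ℕ} {X : Mat} (Y : Mat) (hX : dv m X) : dv m (Y * X) := by
  obtain ⟨A, rfl⟩ := hX
  exact ⟨Y * A, by rw [mul_smul_comm]⟩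

theorem dv_mul_right {m : ℕ} {X : Mat} (Y : Mat) (hX : dv m X) : dv m (X * Y) := by
  obtain ⟨A, rfl⟩ := hX
  exact ⟨A * Y, by rw [smul_mul_assoc]⟩

theorem dv_mono {m m' : ℕ} (h : m ≤ m') {X : Mat} (hX : dv m' X) : dv m X := by
  obtain ⟨A, rfl⟩ := hX
  obtain ⟨k, rfl⟩ := Nat.exists_eq_add_of_le h
  exact ⟨((11 : ℤ_[11]) ^ k) • A, by rw [smul_smul, pow_add]⟩

theorem norm_eleven : ‖(11 : ℤ_[11])‖ = 1 / 11 := by
  have h := PadicInt.norm_p (p := 11)
  norm_num at h ⊢
  exact h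

theorem eleven_ne_zero : (11 : ℤ_[11]) ≠ 0 := by
  intro h
  have := norm_eleven
  rw [h] at this
  norm_num at this

theorem eq_zero_of_dv {X : Mat} (h : ∀ m, dv m X) : X = 0 := by
  ext a b
  have h1 : ∀ m : ℕ, ‖X a b‖ ≤ (1 / 11 : ℝ) ^ m := by
    intro m
    obtain ⟨B, hB⟩ := h m
    rw [hB, Matrix.smul_apply, smul_eq_mul, norm_mul, norm_pow, norm_eleven]
    calc (1 / 11 : ℝ) ^ m * ‖B a b‖ ≤ (1 / 11 : ℝ) ^ m * 1 := by
          gcongr
          exact PadicInt.norm_le_one _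
      _ = (1 / 11 : ℝ) ^ m := mul_one _
  have h2 : Filter.Tendsto (fun m : ℕ => (1 / 11 : ℝ) ^ m) Filter.atTop (nhds 0) :=
    tendsto_pow_atTop_nhds_zero_of_lt_one (by norm_num) (by norm_num)
  have h3 : ‖X a b‖ ≤ 0 := ge_of_tendsto' h2 h1
  simpa using norm_le_zero_iff.1 h3

theorem isUnit_of_not_dvd {x : ℤ_[11]} (h : ¬ (11 : ℤ_[11]) ∣ x) : IsUnit x := by
  rw [PadicInt.isUnit_iff]
  by_contra hne
  have h1 : ‖x‖ < 1 := lt_of_le_of_ne (PadicInt.norm_le_one x) hne
  have h2 := (PadicInt.norm_lt_one_iff_dvd x).1 h1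
  exact h (by exact_mod_cast h2)

variable (ρ : F3 →* Matˣ)

/-- The congruence subgroups. -/
def N (m : ℕ) : Subgroup F3 where
  carrier := {v | dv m ((ρ v : Mat) - 1)}
  one_mem' := by
    show dv m (((ρ 1 : Matˣ) : Mat) - 1)
    rw [map_one, Units.val_one, sub_self]
    exact dv_zero m
  mul_mem' := by
    intro u v hu hv
    show dv m (((ρ (u * v) : Matˣ) : Mat) - 1)
    rw [map_mul, Units.val_mul]
    have h : (ρ u : Mat) * (ρ v : Mat) - 1 = (ρ u : Mat) * ((ρ v : Mat) - 1) + ((ρ u : Mat) - 1) := by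
      noncomm_ring
    rw [h]
    exact dv_add (dv_mul_left _ hv) hu
  inv_mem' := by
    intro u hu
    show dv m (((ρ u⁻¹ : Matˣ) : Mat) - 1)
    rw [map_inv]
    have h : (((ρ u)⁻¹ : Matˣ) : Mat) - 1 = -((((ρ u)⁻¹ : Matˣ) : Mat) * ((ρ u : Mat) - 1)) := by
      rw [mul_sub, Units.inv_mul]
      noncomm_ring
    rw [h]
    exact dv_neg (dv_mul_left _ hu)

theorem mem_N {m : ℕ} {v : F3} : v ∈ N ρ m ↔ dv m ((ρ v : Mat) - 1) := Iff.rfl

theorem inv_mul_mem_N {m : ℕ} {u v : F3} :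
    u⁻¹ * v ∈ N ρ m ↔ dv m ((ρ v : Mat) - (ρ u : Mat)) := by
  rw [mem_N, map_mul, map_inv, Units.val_mul]
  constructor
  · intro h
    have h1 := dv_mul_left (ρ u : Mat) h
    rw [mul_sub, Units.mul_inv_cancel_left, mul_one] at h1
    exact h1
  · intro h
    have h1 := dv_mul_left (((ρ u)⁻¹ : Matˣ) : Mat) h
    rw [mul_sub, Units.inv_mul] at h1
    exact h1

theorem normal_N (m : ℕ) : (N ρ m).Normal := by
  refine ⟨fun v hv g => ?_⟩
  rw [mem_N] at hv ⊢
  rw [map_mul, map_mul, map_inv, Units.val_mul, Units.val_mul]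
  have h : (ρ g : Mat) * (ρ v : Mat) * (((ρ g)⁻¹ : Matˣ) : Mat) - 1 =
      (ρ g : Mat) * ((ρ v : Mat) - 1) * (((ρ g)⁻¹ : Matˣ) : Mat) := by
    rw [mul_sub, sub_mul, mul_one, Units.mul_inv]
  rw [h]
  exact dv_mul_right _ (dv_mul_left _ hv)

theorem anti_N : Antitone (N ρ) := fun _ _ h _ hv => dv_mono h hv

theorem top_N : N ρ 0 = ⊤ := by
  rw [eq_top_iff]
  exact fun v _ => dv_top _

/-- The reduction of a matrix modulo 11. -/
noncomputable def modM (B : Mat) : Fin 3 → Fin 3 → ZMod 11 := fun a b => PadicInt.toZMod (B a b)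

theorem dv_one_of_modM {B B' : Mat} (h : modM B = modM B') : dv 1 (B - B') := by
  have h1 : ∀ a b, ∃ c : ℤ_[11], (B - B') a b = 11 * c := by
    intro a b
    have h2 : PadicInt.toZMod ((B - B') a b) = 0 := by
      rw [Matrix.sub_apply, map_sub]
      have := congrFun (congrFun h a) b
      simp only [modM] at this
      rw [this, sub_self]
    have h3 : (B - B') a b ∈ RingHom.ker (PadicInt.toZMod (p := 11)) := h2
    rw [PadicInt.ker_toZMod, PadicInt.maximalIdeal_eq_span_p, Ideal.mem_span_singleton] at h3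
    obtain ⟨c, hc⟩ := h3
    exact ⟨c, by rw [hc]; norm_num⟩
  choose c hc using h1
  refine ⟨Matrix.of fun a b => c a b, ?_⟩
  ext a b
  rw [hc a b, Matrix.smul_apply, pow_one, smul_eq_mul, Matrix.of_apply]

theorem step_N : ∃ C : ℕ, ∀ m, (N ρ (m + 1)).relIndex (N ρ m) ≠ 0 ∧
    (N ρ (m + 1)).relIndex (N ρ m) ≤ C := by
  refine ⟨Nat.card (Fin 3 → Fin 3 → ZMod 11), fun m => ?_⟩
  have hB : ∀ v : N ρ m, ∃ B : Mat, (ρ (v : F3) : Mat) - 1 = ((11 : ℤ_[11]) ^ m) • B :=
    fun v => v.2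
  choose B hB using hB
  let f : (N ρ m ⧸ (N ρ (m + 1)).subgroupOf (N ρ m)) → (Fin 3 → Fin 3 → ZMod 11) :=
    fun q => modM (B q.out)
  have hf : Function.Injective f := by
    intro q q' h
    have h1 : dv 1 (B q'.out - B q.out) := dv_one_of_modM h.symm
    rw [← QuotientGroup.out_eq' q, ← QuotientGroup.out_eq' q', QuotientGroup.eq,
      Subgroup.mem_subgroupOf]
    rw [Subgroup.coe_mul, Subgroup.coe_inv, inv_mul_mem_N]
    have h2 : (ρ (q'.out : F3) : Mat) - (ρ (q.out : F3) : Mat) =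
        ((11 : ℤ_[11]) ^ m) • (B q'.out - B q.out) := by
      rw [smul_sub, ← hB, ← hB]
      abel
    rw [h2]
    obtain ⟨D, hD⟩ := h1
    exact ⟨D, by rw [hD, smul_smul, pow_add]⟩
  have hfin : Finite (N ρ m ⧸ (N ρ (m + 1)).subgroupOf (N ρ m)) := Finite.of_injective f hf
  constructor
  · exact (Nat.card_pos (α := N ρ m ⧸ (N ρ (m + 1)).subgroupOf (N ρ m))).ne'
  · exact Nat.card_le_card_of_injective f hf

theorem finite_short (R : ℕ) : {v : F3 | v.toWord.length ≤ R}.Finite := by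
  have h : {l : List (Fin 3 × Bool) | l.length ≤ R}.Finite := List.finite_length_le _ _
  exact h.preimage (FreeGroup.toWord_injective.injOn)

theorem short_N (R : ℕ) : ∃ n₁ : ℕ, ∀ n ≥ n₁, ∀ v : F3, v.toWord.length ≤ R →
    v ∈ N ρ (2 * n) → v ∈ N ρ (3 * n) := by
  have h : ∀ v : F3, ∃ m : ℕ, dv m ((ρ v : Mat) - 1) → (ρ v : Mat) - 1 = 0 := by
    intro v
    by_contra hne
    push Not at hne
    exact (hne 0).2 (eq_zero_of_dv fun m => (hne m).1)
  choose m hm using h
  obtain ⟨n₁, hn₁⟩ := ((finite_short R).image m).bddAbove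
  refine ⟨n₁, fun n hn v hv hvN => ?_⟩
  have h1 : m v ≤ 2 * n := by
    have : m v ≤ n₁ := hn₁ ⟨v, hv, rfl⟩
    omega
  have h2 := hm v (dv_mono h1 hvN)
  rw [mem_N, h2]
  exact dv_zero _

/-- The eleventh power of a matrix near 1. -/
theorem pow_eleven {n : ℕ} (hn : 1 ≤ n) {X A : Mat} (hX : X = 1 + ((11 : ℤ_[11]) ^ n) • A) :
    ∃ A' : Mat, X ^ 11 = 1 + ((11 : ℤ_[11]) ^ (n + 1)) • A' ∧ dv 1 (A' - A) := by
  obtain ⟨k, rfl⟩ := Nat.exists_eq_add_of_le hn
  set c : ℤ_[11] := (11 : ℤ_[11]) ^ (1 + k) with hc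
  have key : ∃ q : Polynomial ℤ_[11], (1 + Polynomial.X : Polynomial ℤ_[11]) ^ 11 =
      1 + 11 * Polynomial.X + 55 * Polynomial.X ^ 2 + Polynomial.X ^ 3 * q :=
    ⟨165 + 330 * Polynomial.X + 462 * Polynomial.X ^ 2 + 462 * Polynomial.X ^ 3 +
      330 * Polynomial.X ^ 4 + 165 * Polynomial.X ^ 5 + 55 * Polynomial.X ^ 6 +
      11 * Polynomial.X ^ 7 + Polynomial.X ^ 8, by ring⟩
  obtain ⟨q, hq⟩ := key
  have h1 := congrArg (Polynomial.aeval (c • A)) hq
  simp only [map_pow, map_add, map_mul, map_one, Polynomial.aeval_X, map_ofNat] at h1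
  set Q : Mat := Polynomial.aeval (c • A) q
  have h11 : (11 : Mat) = (11 : ℤ_[11]) • (1 : Mat) := by
    rw [← map_ofNat (algebraMap ℤ_[11] Mat) 11, Algebra.algebraMap_eq_smul_one]
  have h55 : (55 : Mat) = (55 : ℤ_[11]) • (1 : Mat) := by
    rw [← map_ofNat (algebraMap ℤ_[11] Mat) 55, Algebra.algebraMap_eq_smul_one]
  refine ⟨A + ((11 : ℤ_[11]) ^ 1) • (((5 : ℤ_[11]) * 11 ^ k) • (A ^ 2) +
    ((11 : ℤ_[11]) ^ (2 * k)) • (A ^ 3 * Q)), ?_, ?_⟩
  · rw [hX, h1, h11, h55]
    simp only [smul_pow, smul_mul_assoc, one_mul, smul_add, smul_smul]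
    rw [hc]
    have e1 : (11 : ℤ_[11]) * 11 ^ (1 + k) = 11 ^ (1 + k + 1) := by ring
    have e2 : (55 : ℤ_[11]) * (11 ^ (1 + k)) ^ 2 = 11 ^ (1 + k + 1) * 11 ^ 1 * (5 * 11 ^ k) := by ring
    have e3 : ((11 : ℤ_[11]) ^ (1 + k)) ^ 3 = 11 ^ (1 + k + 1) * 11 ^ 1 * 11 ^ (2 * k) := by ring
    rw [e1, e2, e3]
    simp only [← mul_assoc, add_assoc]
  · rw [add_sub_cancel_left]
    exact ⟨_, rfl⟩

theorem exists_level {v : F3} {A : Mat} (hv : (ρ v : Mat) = 1 + (11 : ℤ_[11]) • A) (k : ℕ) :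
    ∃ A' : Mat, (ρ (v ^ (11 ^ k)) : Mat) = 1 + ((11 : ℤ_[11]) ^ (k + 1)) • A' ∧ dv 1 (A' - A) := by
  induction k with
  | zero => exact ⟨A, by simpa using hv, by rw [sub_self]; exact dv_zero 1⟩
  | succ k ih =>
    obtain ⟨A', h1, h2⟩ := ih
    obtain ⟨A'', h3, h4⟩ := pow_eleven (n := k + 1) (by omega) h1
    refine ⟨A'', ?_, ?_⟩
    · rw [pow_succ, pow_mul, map_pow, Units.val_pow_eq_pow_val, h3]
    · have := dv_add h4 h2
      rwa [sub_add_sub_cancel] at this

/-- Linear part modulo `11 ^ (2 n)`. -/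
def lin (n : ℕ) (v : F3) (L : Mat) : Prop :=
  dv (2 * n) ((ρ v : Mat) - (1 + ((11 : ℤ_[11]) ^ n) • L))

variable {ρ}

theorem lin_mul {n : ℕ} {v v' : F3} {L L' : Mat} (h : lin ρ n v L) (h' : lin ρ n v' L') :
    lin ρ n (v * v') (L + L') := by
  obtain ⟨U, hU⟩ := h
  obtain ⟨U', hU'⟩ := h'
  rw [sub_eq_iff_eq_add] at hU hU'
  refine ⟨U + U' + L * L' + ((11 : ℤ_[11]) ^ n) • (L * U' + U * L') +
    ((11 : ℤ_[11]) ^ (2 * n)) • (U * U'), ?_⟩
  rw [map_mul, Units.val_mul, hU, hU', two_mul, pow_add]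
  simp only [mul_add, add_mul, mul_one, one_mul, smul_mul_assoc, mul_smul_comm, smul_add, smul_smul]
  module

theorem lin_inv {n : ℕ} {v : F3} {L : Mat} (h : lin ρ n v L) : lin ρ n v⁻¹ (-L) := by
  unfold lin at h ⊢
  have h1 := dv_mul_left (((ρ v)⁻¹ : Matˣ) : Mat) h
  rw [mul_sub, Units.inv_mul] at h1
  have h2 := dv_mul_right (1 + ((11 : ℤ_[11]) ^ n) • (-L)) h1
  have h3 : dv (2 * n) ((((ρ v)⁻¹ : Matˣ) : Mat) * (((11 : ℤ_[11]) ^ (2 * n)) • (L * L))) :=
    dv_mul_left _ ⟨_, rfl⟩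
  have h4 := dv_neg (dv_add h2 (dv_neg h3))
  have h5 : (1 + ((11 : ℤ_[11]) ^ n) • L) * (1 + ((11 : ℤ_[11]) ^ n) • (-L)) =
      1 - ((11 : ℤ_[11]) ^ (2 * n)) • (L * L) := by
    rw [two_mul, pow_add]
    simp only [mul_add, add_mul, mul_one, one_mul, smul_mul_assoc, mul_smul_comm, smul_add,
      smul_smul, mul_neg, smul_neg]
    module
  rw [sub_mul, mul_assoc (((ρ v)⁻¹ : Matˣ) : Mat), h5, mul_sub, mul_one, one_mul] at h4
  have h6 : ∀ X Y Z : Mat, -(Z - (X - Y) + -Y) = X - Z := fun X Y Z => by abel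
  rw [h6] at h4
  rw [map_inv]
  exact h4

theorem lin_one (n : ℕ) : lin ρ n 1 0 := by
  unfold lin
  rw [map_one, Units.val_one, smul_zero, add_zero, sub_self]
  exact dv_zero _

theorem lin_zpow {n : ℕ} {v : F3} {L : Mat} (h : lin ρ n v L) (i : ℤ) :
    lin ρ n (v ^ i) ((i : ℤ_[11]) • L) := by
  induction i with
  | zero => simpa using lin_one n
  | succ i ih =>
    have h1 := lin_mul ih h
    have h2 : (((i : ℤ) : ℤ_[11]) • L + L) = ((((i : ℤ) + 1 : ℤ) : ℤ_[11])) • L := by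
      push_cast
      module
    rw [zpow_add_one, ← h2]
    exact h1
  | pred i ih =>
    have h1 := lin_mul ih (lin_inv h)
    have h2 : (((-(i : ℤ) : ℤ) : ℤ_[11]) • L + -L) = (((-(i : ℤ) - 1 : ℤ) : ℤ_[11])) • L := by
      push_cast
      module
    rw [zpow_sub_one, ← h2]
    exact h1

theorem smul_left_cancel {n : ℕ} {U V : Mat}
    (h : ((11 : ℤ_[11]) ^ n) • U = ((11 : ℤ_[11]) ^ n) • V) : U = V := by
  ext a b
  have h1 := congrFun (congrFun h a) b
  rw [Matrix.smul_apply, Matrix.smul_apply, smul_eq_mul, smul_eq_mul] at h1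
  rw [mul_left_cancel₀ (pow_ne_zero _ eleven_ne_zero) h1]

theorem toZModPow_pow (n : ℕ) : PadicInt.toZModPow n ((11 : ℤ_[11]) ^ n) = 0 := by
  rw [map_pow]
  have h : (PadicInt.toZModPow n (11 : ℤ_[11])) = ((11 : ℕ) : ZMod (11 ^ n)) := by
    rw [← map_natCast (PadicInt.toZModPow (p := 11) n) 11]
    norm_num
  rw [h, ← Nat.cast_pow, ZMod.natCast_self]

theorem exists_t (n : ℕ) {g : Fin 2 → F3} {A : Fin 2 → Mat}
    (hg : ∀ k, (ρ (g k) : Mat) = 1 + ((11 : ℤ_[11]) ^ n) • A k)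
    (hA : ¬ (11 : ℤ_[11]) ∣ (A 0 * A 1 - A 1 * A 0) 0 0) :
    ∃ t : ℤ → ℤ → F3 → ZMod (11 ^ n),
      (∀ (i j i' j' : ℤ) (v v' : F3), (g 0 ^ i * g 1 ^ j)⁻¹ * v ∈ N ρ (2 * n) →
        (g 0 ^ i' * g 1 ^ j')⁻¹ * v' ∈ N ρ (2 * n) →
        t (i + i') (j + j') (v * v') = t i j v + t i' j' v' + ((i * j' : ℤ) : ZMod (11 ^ n))) ∧
      ∀ v : F3, v ∈ N ρ (3 * n) → t 0 0 v = 0 := by
  classical
  obtain ⟨h, hh⟩ : ∃ h : ℤ_[11], 2 * h = 1 := by
    have h2 : ¬ (11 : ℤ_[11]) ∣ 2 := by
      intro hd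
      obtain ⟨c, hc⟩ := hd
      have := congrArg (PadicInt.toZMod (p := 11)) hc
      rw [map_mul] at this
      have e1 : PadicInt.toZMod (p := 11) (2 : ℤ_[11]) = (2 : ZMod 11) := map_ofNat _ 2
      have e2 : PadicInt.toZMod (p := 11) (11 : ℤ_[11]) = (0 : ZMod 11) := by
        rw [map_ofNat]
        decide
      rw [e1, e2, zero_mul] at this
      exact absurd this (by decide)
    obtain ⟨u, hu⟩ := isUnit_of_not_dvd h2
    exact ⟨((u⁻¹ : ℤ_[11]ˣ) : ℤ_[11]), by rw [← hu, Units.mul_inv]⟩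
  obtain ⟨w, hw⟩ : ∃ w : ℤ_[11], (A 0 * A 1 - A 1 * A 0) 0 0 * w = 1 := by
    obtain ⟨u, hu⟩ := isUnit_of_not_dvd hA
    exact ⟨((u⁻¹ : ℤ_[11]ˣ) : ℤ_[11]), by rw [← hu, Units.mul_inv]⟩
  let L : ℤ → ℤ → Mat := fun i j => (i : ℤ_[11]) • A 0 + (j : ℤ_[11]) • A 1
  let P : ℤ → ℤ → F3 → Mat → Prop := fun i j v U =>
    (ρ v : Mat) - (1 + ((11 : ℤ_[11]) ^ n) • L i j) = ((11 : ℤ_[11]) ^ (2 * n)) • U
  let Q : ℤ → ℤ → ℤ_[11] := fun i j => h * (i : ℤ_[11]) ^ 2 * (A 0 * A 0) 0 0 +
    h * (j : ℤ_[11]) ^ 2 * (A 1 * A 1) 0 0 + (i : ℤ_[11]) * (j : ℤ_[11]) * (A 1 * A 0) 0 0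
  let t : ℤ → ℤ → F3 → ZMod (11 ^ n) := fun i j v =>
    if hU : ∃ U, P i j v U then PadicInt.toZModPow n ((hU.choose 0 0 - Q i j) * w) else 0
  have ht : ∀ {i j : ℤ} {v : F3} {U : Mat}, P i j v U →
      t i j v = PadicInt.toZModPow n ((U 0 0 - Q i j) * w) := by
    intro i j v U hU
    have hex : ∃ U, P i j v U := ⟨U, hU⟩
    have h1 : hex.choose = U := by
      have h2 := hex.choose_spec
      exact smul_left_cancel (h2.symm.trans hU)
    show (if hU : ∃ U, P i j v U then PadicInt.toZModPow n ((hU.choose 0 0 - Q i j) * w) else 0) = _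
    rw [dif_pos hex, h1]
  have hlin : ∀ {i j : ℤ} {v : F3}, (g 0 ^ i * g 1 ^ j)⁻¹ * v ∈ N ρ (2 * n) → ∃ U, P i j v U := by
    intro i j v hv
    rw [inv_mul_mem_N] at hv
    have hg' : ∀ k, lin ρ n (g k) (A k) := by
      intro k
      unfold lin
      rw [hg k, sub_self]
      exact dv_zero _
    have h1 : lin ρ n (g 0 ^ i * g 1 ^ j) (L i j) := lin_mul (lin_zpow (hg' 0) i) (lin_zpow (hg' 1) j)
    have h2 := dv_add hv h1
    rw [sub_add_sub_cancel] at h2
    exact h2
  refine ⟨t, ?_, ?_⟩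
  · intro i j i' j' v v' hv hv'
    obtain ⟨U, hU⟩ := hlin hv
    obtain ⟨U', hU'⟩ := hlin hv'
    have hUU : P (i + i') (j + j') (v * v') (U + U' + L i j * L i' j' +
        ((11 : ℤ_[11]) ^ n) • (L i j * U' + U * L i' j' + ((11 : ℤ_[11]) ^ n) • (U * U'))) := by
      have hL : L (i + i') (j + j') = L i j + L i' j' := by
        simp only [L]
        push_cast
        module
      simp only [P] at hU hU' ⊢
      rw [sub_eq_iff_eq_add] at hU hU'
      rw [hL, map_mul, Units.val_mul, hU, hU', two_mul, pow_add]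
      generalize L i j = L1
      generalize L i' j' = L2
      simp only [mul_add, add_mul, mul_one, one_mul, smul_mul_assoc, mul_smul_comm, smul_add,
        smul_smul]
      module
    rw [ht hU, ht hU', ht hUU]
    have e1 : (U + U' + L i j * L i' j' +
        ((11 : ℤ_[11]) ^ n) • (L i j * U' + U * L i' j' + ((11 : ℤ_[11]) ^ n) • (U * U'))) 0 0 =
        U 0 0 + U' 0 0 + (L i j * L i' j') 0 0 + (11 : ℤ_[11]) ^ n *
          (L i j * U' + U * L i' j' + ((11 : ℤ_[11]) ^ n) • (U * U')) 0 0 := by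
      simp only [Matrix.add_apply, Matrix.smul_apply, smul_eq_mul]
    have e2 : (L i j * L i' j') 0 0 = (i : ℤ_[11]) * i' * (A 0 * A 0) 0 0 +
        (i : ℤ_[11]) * j' * (A 0 * A 1) 0 0 + (j : ℤ_[11]) * i' * (A 1 * A 0) 0 0 +
        (j : ℤ_[11]) * j' * (A 1 * A 1) 0 0 := by
      have : L i j * L i' j' = ((i : ℤ_[11]) * i') • (A 0 * A 0) +
        ((i : ℤ_[11]) * j') • (A 0 * A 1) + ((j : ℤ_[11]) * i') • (A 1 * A 0) +
        ((j : ℤ_[11]) * j') • (A 1 * A 1) := by
        simp only [L, mul_add, add_mul, smul_mul_assoc, mul_smul_comm]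
        module
      rw [this]
      simp only [Matrix.add_apply, Matrix.smul_apply, smul_eq_mul]
    have e3 : (A 0 * A 1 - A 1 * A 0) 0 0 = (A 0 * A 1) 0 0 - (A 1 * A 0) 0 0 := Matrix.sub_apply _ _ _ _
    rw [e1, e2]
    rw [e3] at hw
    generalize (L i j * U' + U * L i' j' + ((11 : ℤ_[11]) ^ n) • (U * U')) 0 0 = r
    have e4 : ((U 0 0 + U' 0 0 + ((i : ℤ_[11]) * i' * (A 0 * A 0) 0 0 +
        (i : ℤ_[11]) * j' * (A 0 * A 1) 0 0 + (j : ℤ_[11]) * i' * (A 1 * A 0) 0 0 +
        (j : ℤ_[11]) * j' * (A 1 * A 1) 0 0) + (11 : ℤ_[11]) ^ n * r) - Q (i + i') (j + j')) * w =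
        (U 0 0 - Q i j) * w + (U' 0 0 - Q i' j') * w + ((i * j' : ℤ) : ℤ_[11]) +
        (11 : ℤ_[11]) ^ n * (r * w) := by
      simp only [Q]
      push_cast
      linear_combination ((i : ℤ_[11]) * j') * hw - (((i : ℤ_[11]) * i' * (A 0 * A 0) 0 0 +
        (j : ℤ_[11]) * j' * (A 1 * A 1) 0 0) * w) * hh
    rw [e4, map_add, map_add, map_add, map_mul (PadicInt.toZModPow n) ((11 : ℤ_[11]) ^ n),
      toZModPow_pow, zero_mul, add_zero, map_intCast]
  · intro v hv
    obtain ⟨B, hB⟩ := hv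
    have hP : P 0 0 v (((11 : ℤ_[11]) ^ n) • B) := by
      simp only [P, L]
      have e : (11 : ℤ_[11]) ^ (3 * n) = 11 ^ (2 * n) * 11 ^ n := by ring
      rw [Int.cast_zero, zero_smul, zero_smul, add_zero, smul_zero, add_zero, hB, smul_smul, e]
    rw [ht hP]
    have hQ : Q 0 0 = 0 := by
      simp [Q]
    rw [hQ, Matrix.smul_apply, smul_eq_mul, sub_zero, mul_assoc, map_mul, toZModPow_pow, zero_mul]

end TI

theorem exists_tower : Nonempty Tower := by
  obtain ⟨ρ, hcube, hrel, v, A, hv, hA⟩ := exists_rho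
  let g : ℕ → Fin 2 → F3 := fun n k => (v k) ^ (11 ^ (n - 1))
  have hlev : ∀ n, 1 ≤ n → ∃ A' : Fin 2 → TI.Mat,
      (∀ k, (ρ (g n k) : TI.Mat) = 1 + ((11 : ℤ_[11]) ^ n) • A' k) ∧
      ∀ k, TI.dv 1 (A' k - A k) := by
    intro n hn
    have h1 : ∀ k, ∃ A' : TI.Mat, (ρ (g n k) : TI.Mat) = 1 + ((11 : ℤ_[11]) ^ n) • A' ∧
        TI.dv 1 (A' - A k) := by
      intro k
      obtain ⟨A', h2, h3⟩ := TI.exists_level ρ (hv k) (n - 1)
      rw [Nat.sub_add_cancel hn] at h2
      exact ⟨A', h2, h3⟩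
    choose A' h2 h3 using h1
    exact ⟨A', h2, h3⟩
  have ht : ∀ n, ∃ t : ℤ → ℤ → F3 → ZMod (11 ^ n),
      (∀ (i j i' j' : ℤ) (v v' : F3), (g n 0 ^ i * g n 1 ^ j)⁻¹ * v ∈ TI.N ρ (2 * n) →
        (g n 0 ^ i' * g n 1 ^ j')⁻¹ * v' ∈ TI.N ρ (2 * n) →
        t (i + i') (j + j') (v * v') = t i j v + t i' j' v' + ((i * j' : ℤ) : ZMod (11 ^ n))) ∧
      ∀ v : F3, v ∈ TI.N ρ (3 * n) → t 0 0 v = 0 := by
    intro n
    rcases Nat.eq_zero_or_pos n with rfl | hn
    · have : Subsingleton (ZMod (11 ^ 0)) := by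
        rw [pow_zero]
        infer_instance
      exact ⟨fun _ _ _ => 0, fun _ _ _ _ _ _ _ _ => Subsingleton.elim _ _,
        fun _ _ => Subsingleton.elim _ _⟩
    · obtain ⟨A', h1, h2⟩ := hlev n hn
      refine TI.exists_t n h1 ?_
      intro hd
      apply hA
      obtain ⟨B0, hB0⟩ := h2 0
      obtain ⟨B1, hB1⟩ := h2 1
      rw [sub_eq_iff_eq_add] at hB0 hB1
      have h3 : A' 0 * A' 1 - A' 1 * A' 0 = (A 0 * A 1 - A 1 * A 0) + (11 : ℤ_[11]) •
          (B0 * A' 1 + A 0 * B1 - B1 * A' 0 - A 1 * B0) := by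
        rw [hB0, hB1]
        simp only [mul_add, add_mul, smul_mul_assoc, mul_smul_comm, smul_add, smul_sub, smul_smul,
          pow_one]
        module
      rw [h3, Matrix.add_apply, Matrix.smul_apply, smul_eq_mul] at hd
      exact (dvd_add_left (dvd_mul_right _ _)).1 hd
  choose t ht1 ht2 using ht
  refine ⟨{
    N := TI.N ρ
    normal := TI.normal_N ρ
    anti := TI.anti_N ρ
    top := TI.top_N ρ
    step := TI.step_N ρ
    cube := ?_
    rel := ?_
    g := g
    comm := ?_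
    short := TI.short_N ρ
    t := t
    t_mul := ht1
    t_N := ht2 }⟩
  · intro m i
    rw [TI.mem_N, map_pow, hcube i, Units.val_one, sub_self]
    exact TI.dv_zero m
  · intro m i
    rw [TI.inv_mul_mem_N]
    have h1 : ρ (gen i * gen (i + 1)) = ρ (gen (i + 1) * gen i * gen (i + 1) * gen i) := by
      rw [map_mul, hrel i, map_mul, map_mul, map_mul]
    rw [h1, sub_self]
    exact TI.dv_zero m
  · intro n
    rcases Nat.eq_zero_or_pos n with rfl | hn
    · exact TI.dv_top _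
    · obtain ⟨A', h1, -⟩ := hlev n hn
      rw [TI.inv_mul_mem_N, map_mul, map_mul, Units.val_mul, Units.val_mul, h1 0, h1 1]
      refine ⟨A' 0 * A' 1 - A' 1 * A' 0, ?_⟩
      rw [two_mul, pow_add]
      simp only [mul_add, add_mul, mul_one, one_mul, smul_mul_assoc, mul_smul_comm, smul_add,
        smul_sub, smul_smul]
      module

end Vale.Agent.P212
end
end
namespace AFastda8c2ex5584a
@[reducible] def a0 {x1 : Vale.Agent.P212.Tower} {x2 : ℕ} : InvOneClass (Vale.Agent.P212.F3 ⧸ x1.N (2 * x2)) := inferInstance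
@[reducible] def a1 {x1 : Vale.Agent.P212.Tower} {x2 : ℕ} : DivInvOneMonoid (Vale.Agent.P212.F3 ⧸ x1.N (2 * x2)) := inferInstance
@[reducible] def a2 {x1 : Vale.Agent.P212.Tower} {x2 : ℕ} : DivisionMonoid (Vale.Agent.P212.F3 ⧸ x1.N (2 * x2)) := inferInstance
@[reducible] noncomputable def a3 : Monoid Vale.Agent.P212.TI.Mat := inferInstance
@[reducible] def a4 {x1 : Vale.Agent.P212.Tower} {x2 : ℕ} : Inv (Vale.Agent.P212.F3 ⧸ x1.N (2 * x2)) := inferInstance
end AFastda8c2ex5584a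
attribute [local instance] AFastda8c2ex5584a.a0 AFastda8c2ex5584a.a1 AFastda8c2ex5584a.a2
  AFastda8c2ex5584a.a3 AFastda8c2ex5584a.a4
namespace AFastda8c2ex5584b
@[reducible] def a0 {x1 : Vale.Agent.P212.Tower} {x2 : ℕ} : One (Vale.Agent.P212.F3 ⧸ x1.N (2 * x2)) := inferInstance
end AFastda8c2ex5584b
attribute [local instance] AFastda8c2ex5584b.a0
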