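import Vale.Agent.P212.MathlibUsed
import Vale.Agent.P212.Bdl.B1
import Vale.Agent.P212.Bdl.B2
import Vale.Agent.P212.Geo
import Vale.Agent.P212.RoeMax
import Vale.Agent.P212.Coarse

set_option linter.all false

namespace AFast7dbf42x9a
@[reducible] noncomputable def a0 {x1 : Type} : Module ℂ (Vale.Agent.P212.L2 x1 →L[ℂ] Vale.Agent.P212.L2 x1) := inferInstance
@[reducible] noncomputable def a1 {x1 : Type} : SetLike (StarSubalgebra ℂ (Vale.Agent.P212.L2 x1 →L[ℂ] Vale.Agent.P212.L2 x1)) (Vale.Agent.P212.L2 x1 →L[ℂ] Vale.Agent.P212.L2 x1) := inferInstance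
@[reducible] def a2 {x1 : Vale.Agent.P212.Tower} {x2 : ℕ} : DivInvOneMonoid (x1.G (min 0 (2 * x2))) := inferInstance
@[reducible] def a3 {x1 : Vale.Agent.P212.Tower} {x2 : ℕ} : InvOneClass (x1.G (min 0 (2 * x2))) := inferInstance
@[reducible] def a4 {x1 : Vale.Agent.P212.Tower} {x2 : ℕ} : DivisionMonoid (x1.G (min 0 (2 * x2))) := inferInstance
theorem a5 {x1 : Type} : StarModule ℂ (Vale.Agent.P212.L2 x1 →L[ℂ] Vale.Agent.P212.L2 x1) := inferInstance
@[reducible] noncomputable def a6 {x1 : Type} : SetLike (StarSubalgebra ℂ (Vale.Agent.P212.L2 (x1 × ℕ) →L[ℂ] Vale.Agent.P212.L2 (x1 × ℕ))) (Vale.Agent.P212.L2 (x1 × ℕ) →L[ℂ] Vale.Agent.P212.L2 (x1 × ℕ)) := inferInstance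
@[reducible] noncomputable def a7 {x1 : Vale.Agent.P212.Tower} : Module ℂ (Vale.Agent.P212.L2 (↑(Vale.Agent.P212.base x1) × ℕ) →L[ℂ] Vale.Agent.P212.L2 (↑(Vale.Agent.P212.base x1) × ℕ)) := inferInstance
theorem a8 {x1 : Type} : StarModule ℂ (Vale.Agent.P212.L2 (x1 × ℕ) →L[ℂ] Vale.Agent.P212.L2 (x1 × ℕ)) := inferInstance
@[reducible] noncomputable def a9 {x1 : Type} : SetLike (NonUnitalStarSubalgebra ℂ (Vale.Agent.P212.L2 x1 →L[ℂ] Vale.Agent.P212.L2 x1)) (Vale.Agent.P212.L2 x1 →L[ℂ] Vale.Agent.P212.L2 x1) := inferInstance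
@[reducible] def a10 {x1 : Vale.Agent.P212.Tower} {x2 : ℕ} : InvOneClass (x1.G (2 * x2)) := inferInstance
@[reducible] def a11 {x1 : Vale.Agent.P212.Tower} {x2 : ℕ} : DivInvOneMonoid (x1.G (2 * x2)) := inferInstance
@[reducible] def a12 {x1 : Vale.Agent.P212.Tower} {x2 : ℕ} : DivisionMonoid (x1.G (2 * x2)) := inferInstance
@[reducible] def a13 : AddMonoidWithOne ENNReal := inferInstance
@[reducible] def a14 {x1 : Vale.Agent.P212.Tower} {x2 : ℕ} : Inv (x1.G (2 * x2)) := inferInstance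
@[reducible] noncomputable def a15 {x1 : Type} : Star (Vale.Agent.P212.L2 x1 →L[ℂ] Vale.Agent.P212.L2 x1) := inferInstance
@[reducible] noncomputable def a16 {x1 : Type} : StarRing (Vale.Agent.P212.L2 x1 →L[ℂ] Vale.Agent.P212.L2 x1) := inferInstance
theorem a17 {x1 : Type} : ContinuousAdd (Vale.Agent.P212.L2 x1) := inferInstance
@[reducible] def a18 : Monoid ℂ := inferInstance
@[reducible] noncomputable def a19 : Module ℂ (Vale.Agent.P212.L2 ℕ →L[ℂ] Vale.Agent.P212.L2 ℕ) := inferInstance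
theorem a20 : CovariantClass ℝ ℝ (Function.swap fun x1 x2 => x1 + x2) fun x1 x2 => x1 ≤ x2 := inferInstance
@[reducible] noncomputable def a21 {x1 : Type} : CStarAlgebra (Vale.Agent.P212.L2 x1 →L[ℂ] Vale.Agent.P212.L2 x1) := inferInstance
@[reducible] noncomputable def a22 {x1 : Vale.Agent.P212.Tower} : SetLike (NonUnitalStarSubalgebra ℂ (Vale.Agent.P212.L2 (↑(Vale.Agent.P212.base x1) × ℕ) →L[ℂ] Vale.Agent.P212.L2 (↑(Vale.Agent.P212.base x1) × ℕ))) (Vale.Agent.P212.L2 (↑(Vale.Agent.P212.base x1) × ℕ) →L[ℂ] Vale.Agent.P212.L2 (↑(Vale.Agent.P212.base x1) × ℕ)) := inferInstance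
@[reducible] def a23 {x1 : Vale.Agent.P212.Tower} {x2 : ℕ} : Mul (x1.G (2 * x2)) := inferInstance
theorem a24 : AddLeftMono ℝ := inferInstance
@[reducible] noncomputable def a25 {x1 : Type} : StarRing (Vale.Agent.P212.L2 (x1 × ℕ) →L[ℂ] Vale.Agent.P212.L2 (x1 × ℕ)) := inferInstance
@[reducible] noncomputable def a26 {x1 : Vale.Agent.P212.Tower} : SetLike (StarSubalgebra ℂ (Vale.Agent.P212.L2 (Vale.Agent.P212.XT x1 × ℕ) →L[ℂ] Vale.Agent.P212.L2 (Vale.Agent.P212.XT x1 × ℕ))) (Vale.Agent.P212.L2 (Vale.Agent.P212.XT x1 × ℕ) →L[ℂ] Vale.Agent.P212.L2 (Vale.Agent.P212.XT x1 × ℕ)) := inferInstance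
@[reducible] noncomputable def a27 {x1 : Type} {x2 : Type} : Module ℂ (Vale.Agent.P212.L2 x1 →L[ℂ] Vale.Agent.P212.L2 x2) := inferInstance
@[reducible] def a28 {x1 : Vale.Agent.P212.Tower} {x2 : ℕ} : MulOne (x1.G (2 * x2)) := inferInstance
@[reducible] noncomputable def a29 : SeminormedAddCommGroup (Vale.Agent.P212.L2 ℕ →L[ℂ] Vale.Agent.P212.L2 ℕ) := inferInstance
theorem a30 : CharZero ℝ := inferInstance
@[reducible] noncomputable def a31 {x1 : Type} : CStarAlgebra (Vale.Agent.P212.L2 (x1 × ℕ) →L[ℂ] Vale.Agent.P212.L2 (x1 × ℕ)) := inferInstance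
@[reducible] def a32 {x1 : Vale.Agent.P212.Tower} {x2 : ℕ} : MulOneClass (x1.G (2 * x2)) := inferInstance
end AFast7dbf42x9a
attribute [local instance] AFast7dbf42x9a.a0 AFast7dbf42x9a.a1 AFast7dbf42x9a.a2 AFast7dbf42x9a.a3
  AFast7dbf42x9a.a4 AFast7dbf42x9a.a5 AFast7dbf42x9a.a6 AFast7dbf42x9a.a7 AFast7dbf42x9a.a8
  AFast7dbf42x9a.a9 AFast7dbf42x9a.a10 AFast7dbf42x9a.a11 AFast7dbf42x9a.a12 AFast7dbf42x9a.a13
  AFast7dbf42x9a.a14 AFast7dbf42x9a.a15 AFast7dbf42x9a.a16 AFast7dbf42x9a.a17 AFast7dbf42x9a.a18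
  AFast7dbf42x9a.a19 AFast7dbf42x9a.a20 AFast7dbf42x9a.a21 AFast7dbf42x9a.a22 AFast7dbf42x9a.a23
  AFast7dbf42x9a.a24 AFast7dbf42x9a.a25 AFast7dbf42x9a.a26 AFast7dbf42x9a.a27 AFast7dbf42x9a.a28
  AFast7dbf42x9a.a29 AFast7dbf42x9a.a30 AFast7dbf42x9a.a31 AFast7dbf42x9a.a32
namespace AFast7dbf42x9b
@[reducible] def a0 {x1 : Vale.Agent.P212.Tower} {x2 : ℕ} : One (x1.G (min 0 (2 * x2))) := inferInstance
theorem a1 {x1 : Type} {x2 : Type} [x3 : MetricSpace x2] [x4 : Vale.Agent.P212.BddGeometry x2] {x5 : x1 → x2} : StarModule ℂ ↥(Vale.Agent.P212.roeU x5) := inferInstance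
theorem a2 : ZeroHomClass ((Vale.Agent.P212.L2 ℕ →L[ℂ] Vale.Agent.P212.L2 ℕ) ≃ₗᵢ⋆[ℂ] Vale.Agent.P212.L2 ℕ →L[ℂ] Vale.Agent.P212.L2 ℕ) (Vale.Agent.P212.L2 ℕ →L[ℂ] Vale.Agent.P212.L2 ℕ) (Vale.Agent.P212.L2 ℕ →L[ℂ] Vale.Agent.P212.L2 ℕ) := inferInstance
theorem a3 {x1 : Type} {x2 : Type} [x3 : MetricSpace x2] [x4 : Vale.Agent.P212.BddGeometry x2] {x5 : x1 → x2} {x6 : Type} [x7 : CStarAlgebra x6] : ZeroHomClass (↥(Vale.Agent.P212.roeN x5) →⋆ₙₐ[ℂ] x6) (↥(Vale.Agent.P212.roeN x5)) x6 := inferInstance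
theorem a4 : AddMonoidHomClass ((Vale.Agent.P212.L2 ℕ →L[ℂ] Vale.Agent.P212.L2 ℕ) ≃ₗᵢ⋆[ℂ] Vale.Agent.P212.L2 ℕ →L[ℂ] Vale.Agent.P212.L2 ℕ) (Vale.Agent.P212.L2 ℕ →L[ℂ] Vale.Agent.P212.L2 ℕ) (Vale.Agent.P212.L2 ℕ →L[ℂ] Vale.Agent.P212.L2 ℕ) := inferInstance
theorem a5 : DistribMulActionSemiHomClass ((Vale.Agent.P212.L2 ℕ →L[ℂ] Vale.Agent.P212.L2 ℕ) ≃ₗᵢ⋆[ℂ] Vale.Agent.P212.L2 ℕ →L[ℂ] Vale.Agent.P212.L2 ℕ) (⇑(starRingEnd ℂ)) (Vale.Agent.P212.L2 ℕ →L[ℂ] Vale.Agent.P212.L2 ℕ) (Vale.Agent.P212.L2 ℕ →L[ℂ] Vale.Agent.P212.L2 ℕ) := inferInstance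
@[reducible] noncomputable def a6 {x1 : Type} {x2 : Type} [x3 : MetricSpace x2] [x4 : Vale.Agent.P212.BddGeometry x2] {x5 : x1 → x2} : Zero ↥(Vale.Agent.P212.roeN x5) := inferInstance
@[reducible] noncomputable def a7 {x1 : Type} [x2 : MetricSpace x1] [x3 : @Vale.Agent.P212.BddGeometry x1 x2] : Distrib ↥(@Vale.Agent.P212.roeN x1 x2 x3 (Prod x1 Nat) (@Prod.fst x1 Nat)) := inferInstance
@[reducible] noncomputable def a8 {x1 : Type} {x2 : Type} [x3 : MetricSpace x2] [x4 : Vale.Agent.P212.BddGeometry x2] {x5 : x1 → x2} : Distrib ↥(Vale.Agent.P212.roeN x5) := inferInstance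
theorem a9 : SemilinearMapClass ((Vale.Agent.P212.L2 ℕ →L[ℂ] Vale.Agent.P212.L2 ℕ) ≃ₗᵢ⋆[ℂ] Vale.Agent.P212.L2 ℕ →L[ℂ] Vale.Agent.P212.L2 ℕ) (starRingEnd ℂ) (Vale.Agent.P212.L2 ℕ →L[ℂ] Vale.Agent.P212.L2 ℕ) (Vale.Agent.P212.L2 ℕ →L[ℂ] Vale.Agent.P212.L2 ℕ) := inferInstance
theorem a10 {x1 : Type} {x2 : Type} [x3 : Ring x1] [x4 : Algebra ℂ x1] [x5 : StarRing x1] [x6 : Ring x2] [x7 : Algebra ℂ x2] [x8 : StarRing x2] : MulActionSemiHomClass (x1 →⋆ₐ[ℂ] x2) (⇑(RingHom.id ℂ)) x1 x2 := inferInstance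
theorem a11 {x1 : Type} {x2 : Type} [x3 : Ring x1] [x4 : Algebra ℂ x1] [x5 : StarRing x1] [x6 : Ring x2] [x7 : Algebra ℂ x2] [x8 : StarRing x2] : AddHomClass (x1 →⋆ₐ[ℂ] x2) x1 x2 := inferInstance
theorem a12 {x1 : Type} : AddSubmonoidClass (NonUnitalStarSubalgebra ℂ (Vale.Agent.P212.L2 x1 →L[ℂ] Vale.Agent.P212.L2 x1)) (Vale.Agent.P212.L2 x1 →L[ℂ] Vale.Agent.P212.L2 x1) := inferInstance
theorem a13 {x1 : Type} : AddMonoidHomClass (Vale.Agent.P212.L2 (x1 × ℕ) →L[ℂ] Vale.Agent.P212.L2 (x1 × ℕ)) (Vale.Agent.P212.L2 (x1 × ℕ)) (Vale.Agent.P212.L2 (x1 × ℕ)) := inferInstance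
theorem a14 {x1 : Type} : DistribMulActionSemiHomClass (Vale.Agent.P212.L2 (x1 × ℕ) →L[ℂ] Vale.Agent.P212.L2 (x1 × ℕ)) (⇑(RingHom.id ℂ)) (Vale.Agent.P212.L2 (x1 × ℕ)) (Vale.Agent.P212.L2 (x1 × ℕ)) := inferInstance
theorem a15 {x1 : Type} {x2 : Type} [x3 : Ring x1] [x4 : Algebra ℂ x1] [x5 : StarRing x1] [x6 : Ring x2] [x7 : Algebra ℂ x2] [x8 : StarRing x2] : LinearMapClass (x1 →⋆ₐ[ℂ] x2) ℂ x1 x2 := inferInstance
end AFast7dbf42x9b
attribute [local instance] AFast7dbf42x9b.a0 AFast7dbf42x9b.a1 AFast7dbf42x9b.a2 AFast7dbf42x9b.a3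
  AFast7dbf42x9b.a4 AFast7dbf42x9b.a5 AFast7dbf42x9b.a6 AFast7dbf42x9b.a7 AFast7dbf42x9b.a8
  AFast7dbf42x9b.a9 AFast7dbf42x9b.a10 AFast7dbf42x9b.a11 AFast7dbf42x9b.a12 AFast7dbf42x9b.a13
  AFast7dbf42x9b.a14 AFast7dbf42x9b.a15
section

section

/-! The maximal Roe algebra: universal property, augmentation, functoriality, K-theory. -/

set_option linter.unusedSectionVars false

namespace Vale.Agent.P212

open UniformSpace

section LiftC

variable {R A : Type} [Ring R] [StarRing R] [Algebra ℂ R] [StarModule ℂ R] (p : R → ℝ)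
  [IsCStarSeminorm p] [CStarAlgebra A]

/-- The homomorphism, with domain the seminormed ring. -/
noncomputable def univHom (φ : R →⋆ₐ[ℂ] A) : WithSN p →+* A := (φ : R →+* A)

theorem univHom_norm (φ : R →⋆ₐ[ℂ] A) (h : ∀ a, ‖φ a‖ ≤ p a) (a : WithSN p) :
    ‖univHom p φ a‖ ≤ ‖a‖ := h a

theorem univHom_continuous (φ : R →⋆ₐ[ℂ] A) (h : ∀ a, ‖φ a‖ ≤ p a) :
    Continuous (univHom p φ) := by
  refine AddMonoidHomClass.continuous_of_bound (univHom p φ) 1 (fun a => ?_)
  rw [one_mul]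
  exact univHom_norm p φ h a

/-- Extension of a contractive *-homomorphism to the completion. -/
noncomputable def liftC (φ : R →⋆ₐ[ℂ] A) (h : ∀ a, ‖φ a‖ ≤ p a) :
    Completion (WithSN p) →⋆ₐ[ℂ] A where
  toRingHom := Completion.extensionHom (univHom p φ) (univHom_continuous p φ h)
  commutes' c := by
    have h1 : algebraMap ℂ (Completion (WithSN p)) c =
        ((algebraMap ℂ (WithSN p) c : WithSN p) : Completion (WithSN p)) := rfl
    have h2 : Completion.extensionHom (univHom p φ) (univHom_continuous p φ h)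
        (algebraMap ℂ (WithSN p) c : WithSN p) = univHom p φ (algebraMap ℂ (WithSN p) c) :=
      Completion.extensionHom_coe (univHom p φ) (univHom_continuous p φ h) _
    have h3 : univHom p φ (algebraMap ℂ (WithSN p) c) = algebraMap ℂ A c :=
      AlgHomClass.commutes φ c
    exact h2.trans h3
  map_star' a := by
    have hc : Continuous (Completion.extensionHom (univHom p φ) (univHom_continuous p φ h)) :=
      Completion.continuous_extension
    have hs := continuous_star_completion (WithSN p)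
    refine Completion.induction_on a (isClosed_eq (hc.comp hs) (continuous_star.comp hc))
      (fun b => ?_)
    have h1 : star (b : Completion (WithSN p)) = ((star b : WithSN p) : Completion (WithSN p)) :=
      (coe_star (WithSN p) b).symm
    have h2 := Completion.extensionHom_coe (univHom p φ) (univHom_continuous p φ h) b
    have h3 := Completion.extensionHom_coe (univHom p φ) (univHom_continuous p φ h) (star b)
    have h4 : univHom p φ (star b) = star (univHom p φ b) := map_star φ (b : R)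
    exact ((congrArg _ h1).trans h3).trans (h4.trans (congrArg star h2).symm)

theorem liftC_toC (φ : R →⋆ₐ[ℂ] A) (h : ∀ a, ‖φ a‖ ≤ p a) (a : R) :
    liftC p φ h (toC p a) = φ a := by
  exact Completion.extensionHom_coe (univHom p φ) (univHom_continuous p φ h) (WithSN.mk p a)

theorem continuous_liftC (φ : R →⋆ₐ[ℂ] A) (h : ∀ a, ‖φ a‖ ≤ p a) :
    Continuous (liftC p φ h) := by
  exact Completion.continuous_extension

end LiftC

theorem isCStarSeminorm_comp {R A : Type} [Ring R] [StarRing R] [Algebra ℂ R] [CStarAlgebra A]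
    (φ : R →⋆ₐ[ℂ] A) : IsCStarSeminorm (fun a => ‖φ a‖) where
  add_le a b := by
    rw [map_add]
    exact norm_add_le _ _
  smul c a := by
    rw [map_smul, norm_smul]
  mul_le a b := by
    rw [map_mul]
    exact norm_mul_le _ _
  star_mul a := by
    rw [map_mul, map_star, CStarRing.norm_star_mul_self, sq]

variable {X : Type} [MetricSpace X] [BddGeometry X] {J : Type}

theorem norm_le_maxNorm_of_hom {A : Type} [CStarAlgebra A] (s : J → X) (φ : roeU s →⋆ₐ[ℂ] A)
    (T : roeU s) : ‖φ T‖ ≤ maxNorm s T :=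
  le_maxNorm _ (isCStarSeminorm_comp φ) T

/-- The unitization `C*_max(X)^+` of the maximal Roe algebra, as a unital C*-algebra. -/
def CM (s : J → X) : Type := CMaxU s

noncomputable instance instCStarCM (s : J → X) : CStarAlgebra (CM s) :=
  instCStarAlgebraCompletion (WithSN (maxNorm s))

/-- The canonical map `ℂ 1 + ℂ[X] → C*_max(X)^+`. -/
noncomputable def toMax (s : J → X) : roeU s →⋆ₐ[ℂ] CM s := toC (maxNorm s)

theorem denseRange_toMax (s : J → X) : DenseRange (toMax s) := denseRange_toC _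

/-- Universal property of `C*_max(X)^+`. -/
noncomputable def CM.lift {A : Type} [CStarAlgebra A] (s : J → X) (φ : roeU s →⋆ₐ[ℂ] A) :
    CM s →⋆ₐ[ℂ] A :=
  liftC (maxNorm s) φ (norm_le_maxNorm_of_hom s φ)

theorem CM.lift_toMax {A : Type} [CStarAlgebra A] (s : J → X) (φ : roeU s →⋆ₐ[ℂ] A)
    (T : roeU s) : CM.lift s φ (toMax s T) = φ T :=
  liftC_toC (maxNorm s) φ (norm_le_maxNorm_of_hom s φ) T

theorem CM.continuous_lift {A : Type} [CStarAlgebra A] (s : J → X) (φ : roeU s →⋆ₐ[ℂ] A) :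
    Continuous (CM.lift s φ) :=
  continuous_liftC (maxNorm s) φ (norm_le_maxNorm_of_hom s φ)

/-- Some fibre of the grading is infinite. -/
class InfFib (s : J → X) : Prop where
  inf : ∃ x, (s ⁻¹' {x}).Infinite

instance [Nonempty X] : InfFib (Prod.fst : X × ℕ → X) := by
  refine ⟨⟨Classical.arbitrary X, ?_⟩⟩
  refine Set.infinite_of_injective_forall_mem
    (f := fun n : ℕ => ((Classical.arbitrary X, n) : X × ℕ)) ?_ ?_
  · intro a b h
    exact (Prod.mk.inj h).2
  · intro n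
    rfl

/-- The projection onto an infinite set of coordinates is not compact. -/
theorem not_isCompactOperator_proj {S : Set J} (hS : S.Infinite) :
    ¬ IsCompactOperator (proj S) := by
  classical
  intro hc
  have hinf : Infinite S := hS.to_subtype
  let u : ℕ ↪ S := Infinite.natEmbedding S
  let e : ℕ → L2 J := fun n => lp.single (E := fun _ : J => ℂ) 2 (u n : J) (1 : ℂ)
  have he1 : ∀ n, ‖e n‖ = 1 := fun n => by
    have := lp.norm_single (E := fun _ : J => ℂ) (p := 2) (by norm_num) (u n : J) (1 : ℂ)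
    rw [norm_one] at this
    exact this
  have hpe : ∀ n, proj S (e n) = e n := by
    intro n
    apply lp.ext
    funext j
    by_cases h : j ∈ S
    · rw [proj_apply_mem _ h]
    · rw [proj_apply_not_mem _ h]
      have hne : j ≠ (u n : J) := fun h' => h (h' ▸ (u n).2)
      exact (lp.single_apply_ne (E := fun _ : J => ℂ) 2 (u n : J) (1 : ℂ) hne).symm
  have hc' : IsCompactOperator ((proj S : L2 J →L[ℂ] L2 J) : L2 J →ₗ[ℂ] L2 J) := hc
  obtain ⟨K, hK, hsub⟩ := hc'.image_closedBall_subset_compact (r := 1)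
  have hmem : ∀ n, e n ∈ K := by
    intro n
    refine hsub ⟨e n, ?_, hpe n⟩
    rw [mem_closedBall_zero_iff, he1]
  obtain ⟨a, _, φ, hφ, hlim⟩ := hK.tendsto_subseq hmem
  have hcau := hlim.cauchySeq
  obtain ⟨N, hN⟩ := Metric.cauchySeq_iff'.1 hcau 1 one_pos
  have h1 := hN (N + 1) (Nat.le_succ N)
  rw [dist_eq_norm] at h1
  have h2 : ‖(e (φ (N + 1)) - e (φ N) : L2 J) (u (φ N) : J)‖ ≤
      ‖(e (φ (N + 1)) - e (φ N) : L2 J)‖ := lp.norm_apply_le_norm (by norm_num) _ _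
  have h3 : (e (φ (N + 1)) - e (φ N) : L2 J) (u (φ N) : J) = -1 := by
    have hne : (u (φ N) : J) ≠ (u (φ (N + 1)) : J) := by
      intro h
      have h4 := u.injective (Subtype.ext h)
      exact absurd h4 (hφ (Nat.lt_succ_self N)).ne
    have h5 : (e (φ (N + 1)) : J → ℂ) (u (φ N) : J) = 0 :=
      lp.single_apply_ne (E := fun _ : J => ℂ) 2 (u (φ (N + 1)) : J) (1 : ℂ) hne
    have h6 : (e (φ N) : J → ℂ) (u (φ N) : J) = 1 :=
      lp.single_apply_self (E := fun _ : J => ℂ) 2 (u (φ N) : J) (1 : ℂ)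
    rw [lp.coeFn_sub, Pi.sub_apply, h5, h6, zero_sub]
  rw [h3, norm_neg, norm_one] at h2
  exact absurd h1 (not_lt.2 h2)

theorem not_isRoe_one (s : J → X) [InfFib s] : ¬ IsRoe s (1 : L2 J →L[ℂ] L2 J) := by
  intro h
  obtain ⟨x, hx⟩ := InfFib.inf (s := s)
  have h1 := h.compact x x
  rw [blk, mul_one, proj_idem] at h1
  exact not_isCompactOperator_proj hx h1

theorem coef_unique (s : J → X) [InfFib s] {T : L2 J →L[ℂ] L2 J} {c d : ℂ}
    (hc : IsRoe s (T - c • 1)) (hd : IsRoe s (T - d • 1)) : c = d := by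
  by_contra hne
  have h1 := hd.sub hc
  rw [sub_sub_sub_cancel_left, ← sub_smul] at h1
  have h2 := h1.smul (c - d)⁻¹
  rw [smul_smul, inv_mul_cancel₀ (sub_ne_zero.2 hne), one_smul] at h2
  exact not_isRoe_one s h2

/-- The scalar part. -/
noncomputable def coefR (s : J → X) (T : roeU s) : ℂ := T.2.choose

theorem coefR_spec (s : J → X) (T : roeU s) :
    IsRoe s ((T : L2 J →L[ℂ] L2 J) - coefR s T • 1) := T.2.choose_spec

theorem coefR_eq (s : J → X) [InfFib s] (T : roeU s) {c : ℂ} {S : L2 J →L[ℂ] L2 J}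
    (hS : IsRoe s S) (h : (T : L2 J →L[ℂ] L2 J) = c • 1 + S) : coefR s T = c := by
  refine coef_unique s (coefR_spec s T) ?_
  rw [h, add_sub_cancel_left]
  exact hS

theorem univ_smul_one_add_mul {B : Type*} [Ring B] [Algebra ℂ B] (c d : ℂ) (x y : B) :
    (c • (1 : B) + x) * (d • 1 + y) = (c * d) • 1 + (c • y + d • x + x * y) := by
  rw [add_mul, mul_add, mul_add, smul_mul_smul_comm, one_mul, smul_mul_assoc, one_mul,
    mul_smul_comm, mul_one]
  abel

theorem univ_mul_calc {B : Type*} [Ring B] [Algebra ℂ B] (c d : ℂ) (x y : B) :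
    x * y = (c * d) • 1 + (c • (y - d • 1) + d • (x - c • 1) + (x - c • 1) * (y - d • 1)) := by
  rw [← univ_smul_one_add_mul, add_sub_cancel, add_sub_cancel]

theorem univ_star_calc {B : Type*} [Ring B] [StarRing B] [Algebra ℂ B] [StarModule ℂ B] (c : ℂ)
    (x : B) : star x = star c • 1 + star (x - c • 1) := by
  rw [star_sub, star_smul, star_one, add_sub_cancel]

theorem univ_hom_calc {N B : Type*} [NonUnitalRing N] [Module ℂ N] [Star N] [NonUnitalRing B]
    [Module ℂ B] [Star B] (φ : N →⋆ₙₐ[ℂ] B) (c d : ℂ) (a b : N) :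
    φ (c • b + d • a + a * b) = c • φ b + d • φ a + φ a * φ b := by
  rw [map_add, map_add, map_smul, map_smul, map_mul]

theorem univ_hom_star {N B : Type*} [NonUnitalRing N] [Module ℂ N] [Star N] [NonUnitalRing B]
    [Module ℂ B] [Star B] (φ : N →⋆ₙₐ[ℂ] B) (a : N) : φ (star a) = star (φ a) := map_star φ a

/-- The unital extension, as a function. -/
noncomputable def unitFun {A : Type} [CStarAlgebra A] (s : J → X)
    (φ : roeN s →⋆ₙₐ[ℂ] A) (T : roeU s) : A :=
  coefR s T • 1 + φ ⟨(T : L2 J →L[ℂ] L2 J) - coefR s T • 1, coefR_spec s T⟩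

theorem unitFun_eq {A : Type} [CStarAlgebra A] (s : J → X) [InfFib s]
    (φ : roeN s →⋆ₙₐ[ℂ] A) (T : roeU s) {c : ℂ} {S : L2 J →L[ℂ] L2 J}
    (hS : IsRoe s S) (h : (T : L2 J →L[ℂ] L2 J) = c • 1 + S) :
    unitFun s φ T = c • 1 + φ ⟨S, hS⟩ := by
  have h1 := coefR_eq s T hS h
  have h2 : (⟨(T : L2 J →L[ℂ] L2 J) - coefR s T • 1, coefR_spec s T⟩ : roeN s) = ⟨S, hS⟩ := by
    apply Subtype.ext
    change (T : L2 J →L[ℂ] L2 J) - coefR s T • 1 = S
    rw [h1, h, add_sub_cancel_left]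
  rw [unitFun, h2, h1]

section UnitFun

variable {A : Type} [CStarAlgebra A] (s : J → X) [InfFib s] (φ : roeN s →⋆ₙₐ[ℂ] A)

theorem unitFun_one : unitFun s φ 1 = 1 := by
  have h0 : φ ⟨0, IsRoe.zero⟩ = 0 := map_zero φ
  have h1 : ((1 : roeU s) : L2 J →L[ℂ] L2 J) = (1 : ℂ) • 1 + 0 := by
    rw [one_smul, add_zero]
    rfl
  rw [unitFun_eq s φ 1 IsRoe.zero h1, h0, one_smul, add_zero]

theorem unitFun_zero : unitFun s φ 0 = 0 := by
  have h0 : φ ⟨0, IsRoe.zero⟩ = 0 := map_zero φ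
  have h1 : ((0 : roeU s) : L2 J →L[ℂ] L2 J) = (0 : ℂ) • 1 + 0 := by
    rw [zero_smul, add_zero]
    rfl
  rw [unitFun_eq s φ 0 IsRoe.zero h1, h0, zero_smul, add_zero]

theorem unitFun_algebraMap (c : ℂ) :
    unitFun s φ (algebraMap ℂ (roeU s) c) = algebraMap ℂ A c := by
  have h0 : φ ⟨0, IsRoe.zero⟩ = 0 := map_zero φ
  have h1 : ((algebraMap ℂ (roeU s) c : roeU s) : L2 J →L[ℂ] L2 J) = c • 1 + 0 :=
    (Algebra.algebraMap_eq_smul_one c).trans (add_zero _).symm
  rw [unitFun_eq s φ (algebraMap ℂ (roeU s) c) IsRoe.zero h1, h0, add_zero,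
    Algebra.algebraMap_eq_smul_one]

theorem unitFun_add (T T' : roeU s) :
    unitFun s φ (T + T') = unitFun s φ T + unitFun s φ T' := by
  have h1 := coefR_spec s T
  have h2 := coefR_spec s T'
  have h3 : ((T + T' : roeU s) : L2 J →L[ℂ] L2 J) = (coefR s T + coefR s T') • 1 +
      ((T - coefR s T • 1) + (T' - coefR s T' • 1)) := by
    change (T : L2 J →L[ℂ] L2 J) + T' = _
    rw [add_smul]
    abel
  have h4 : φ ⟨_, h1.add h2⟩ = φ ⟨_, h1⟩ + φ ⟨_, h2⟩ := map_add φ ⟨_, h1⟩ ⟨_, h2⟩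
  rw [unitFun_eq s φ (T + T') (h1.add h2) h3, h4, add_smul, unitFun, unitFun]
  exact add_add_add_comm _ _ _ _

theorem unitFun_mul (T T' : roeU s) :
    unitFun s φ (T * T') = unitFun s φ T * unitFun s φ T' := by
  have h1 := coefR_spec s T
  have h2 := coefR_spec s T'
  have h3 := ((h2.smul (coefR s T)).add (h1.smul (coefR s T'))).add (h1.mul h2)
  have h5 : φ ⟨_, h3⟩ = coefR s T • φ ⟨_, h2⟩ + coefR s T' • φ ⟨_, h1⟩ +
      φ ⟨_, h1⟩ * φ ⟨_, h2⟩ := univ_hom_calc φ (coefR s T) (coefR s T') ⟨_, h1⟩ ⟨_, h2⟩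
  have h6 : ((T * T' : roeU s) : L2 J →L[ℂ] L2 J) = (coefR s T * coefR s T') • 1 +
      (coefR s T • ((T' : L2 J →L[ℂ] L2 J) - coefR s T' • 1) +
        coefR s T' • ((T : L2 J →L[ℂ] L2 J) - coefR s T • 1) +
        ((T : L2 J →L[ℂ] L2 J) - coefR s T • 1) * ((T' : L2 J →L[ℂ] L2 J) - coefR s T' • 1)) :=
    univ_mul_calc (coefR s T) (coefR s T') (T : L2 J →L[ℂ] L2 J) (T' : L2 J →L[ℂ] L2 J)
  have h7 := unitFun_eq s φ (T * T') h3 h6
  rw [h5, ← univ_smul_one_add_mul] at h7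
  exact h7

theorem unitFun_star (T : roeU s) : unitFun s φ (star T) = star (unitFun s φ T) := by
  have h1 := coefR_spec s T
  have h2 := h1.star
  have h3 : φ ⟨_, h2⟩ = star (φ ⟨_, h1⟩) := univ_hom_star φ ⟨_, h1⟩
  have h4 : ((star T : roeU s) : L2 J →L[ℂ] L2 J) = star (coefR s T) • 1 +
      star ((T : L2 J →L[ℂ] L2 J) - coefR s T • 1) :=
    univ_star_calc (coefR s T) (T : L2 J →L[ℂ] L2 J)
  have h5 := unitFun_eq s φ (star T) h2 h4
  rw [h3] at h5
  refine h5.trans ?_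
  rw [unitFun, star_add, star_smul, star_one]

end UnitFun

/-- The unital extension of a *-homomorphism of `ℂ[X]` to `ℂ 1 + ℂ[X]`. -/
noncomputable def unitExt {A : Type} [CStarAlgebra A] (s : J → X) [InfFib s]
    (φ : roeN s →⋆ₙₐ[ℂ] A) : roeU s →⋆ₐ[ℂ] A where
  toFun := unitFun s φ
  map_one' := unitFun_one s φ
  map_zero' := unitFun_zero s φ
  map_add' := unitFun_add s φ
  map_mul' := unitFun_mul s φ
  commutes' := unitFun_algebraMap s φ
  map_star' := unitFun_star s φ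

theorem unitExt_apply {A : Type} [CStarAlgebra A] (s : J → X) [InfFib s]
    (φ : roeN s →⋆ₙₐ[ℂ] A) (T : L2 J →L[ℂ] L2 J) (hT : IsRoe s T) :
    unitExt s φ ⟨T, hT.mem_roeU⟩ = φ ⟨T, hT⟩ := by
  change unitFun s φ _ = _
  rw [unitFun_eq s φ ⟨T, hT.mem_roeU⟩ (c := 0) hT (by rw [zero_smul, zero_add]), zero_smul,
    zero_add]

/-- The augmentation `C*_max(X)^+ → ℂ`, with kernel `C*_max(X)`. -/
noncomputable def aug (s : J → X) [InfFib s] : CM s →⋆ₐ[ℂ] ℂ := CM.lift s (unitExt s 0)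

theorem aug_roe (s : J → X) [InfFib s] (T : L2 J →L[ℂ] L2 J) (hT : IsRoe s T) :
    aug s (toMax s ⟨T, hT.mem_roeU⟩) = 0 := by
  rw [aug, CM.lift_toMax, unitExt_apply s 0 T hT]
  rfl

theorem toMax_eq (s : J → X) (T : roeU s) :
    toMax s T = coefR s T • 1 + toMax s ⟨_, (coefR_spec s T).mem_roeU⟩ := by
  have h1 : T = coefR s T • 1 + ⟨_, (coefR_spec s T).mem_roeU⟩ := by
    apply Subtype.ext
    exact (add_sub_cancel _ _).symm
  have h2 : toMax s T = toMax s (coefR s T • 1 + ⟨_, (coefR_spec s T).mem_roeU⟩) :=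
    congrArg (toMax s) h1
  rw [h2, map_add, map_smul, map_one]

theorem norm_one_CM_le (s : J → X) : ‖(1 : CM s)‖ ≤ 1 := by
  have h1 : ‖toMax s 1‖ = maxNorm s 1 := norm_toC (maxNorm s) 1
  rw [map_one] at h1
  rw [h1]
  exact IsCStarSeminorm.one_le (maxNorm s)

/-- The kernel of the augmentation is the closure of `ℂ[X]`. -/
theorem aug_eq_zero_iff (s : J → X) [InfFib s] (b : CM s) : aug s b = 0 ↔
    b ∈ closure {b | ∃ (T : L2 J →L[ℂ] L2 J) (hT : IsRoe s T), b = toMax s ⟨T, hT.mem_roeU⟩} := by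
  constructor
  · intro hb
    rw [Metric.mem_closure_iff]
    intro ε hε
    obtain ⟨T', hT'⟩ := (denseRange_toMax s).exists_dist_lt b (half_pos hε)
    have hS := coefR_spec s T'
    refine ⟨_, ⟨_, hS, rfl⟩, ?_⟩
    have h1 : toMax s T' = coefR s T' • 1 + toMax s ⟨_, hS.mem_roeU⟩ := toMax_eq s T'
    have h2 : aug s (toMax s T') = coefR s T' := by
      rw [h1, map_add, aug_roe s _ hS, add_zero, map_smul, map_one, smul_eq_mul, mul_one]
    have h3 : ‖coefR s T'‖ ≤ ‖b - toMax s T'‖ := by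
      have h4 : ‖aug s (b - toMax s T')‖ ≤ ‖b - toMax s T'‖ :=
        NonUnitalStarAlgHom.norm_apply_le (aug s) _
      rw [map_sub, hb, zero_sub, norm_neg, h2] at h4
      exact h4
    have h5 : b - toMax s ⟨_, hS.mem_roeU⟩ = (b - toMax s T') + coefR s T' • 1 := by
      rw [h1]
      abel
    rw [dist_eq_norm] at hT' ⊢
    rw [h5]
    calc ‖(b - toMax s T') + coefR s T' • 1‖ ≤ ‖b - toMax s T'‖ + ‖coefR s T'‖ * ‖(1 : CM s)‖ :=
          (norm_add_le _ _).trans (by rw [norm_smul])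
      _ ≤ ‖b - toMax s T'‖ + ‖coefR s T'‖ * 1 := by
          gcongr
          exact norm_one_CM_le s
      _ < ε := by
          rw [mul_one]
          linarith
  · intro hb
    have hcl : IsClosed {b : CM s | aug s b = 0} :=
      isClosed_eq (CM.continuous_lift s _) continuous_const
    refine closure_minimal ?_ hcl hb
    rintro _ ⟨T, hT, rfl⟩
    exact aug_roe s T hT

/-- `K_0(C*_max(X))`: the kernel of `K_0(C*_max(X)^+) → K_0(ℂ)`. -/
noncomputable def K0Max (s : J → X) [InfFib s] : AddSubgroup (K0 (CM s)) :=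
  (K0.map (aug s : CM s →+* ℂ)).ker

end Vale.Agent.P212
end
end
namespace AFast7dbf42x398a
@[reducible] noncomputable def a0 {x1 : Type} [x2 : MetricSpace x1] [x3 : Vale.Agent.P212.BddGeometry x1] {x4 : Type} {x5 : x4 → x1} : Star (Vale.Agent.P212.CM x5) := inferInstance
@[reducible] noncomputable def a1 {x1 : Type} [x2 : MetricSpace x1] [x3 : Vale.Agent.P212.BddGeometry x1] {x4 : Type} {x5 : x4 → x1} : InvolutiveStar (Vale.Agent.P212.CM x5) := inferInstance
@[reducible] noncomputable def a2 {x1 : Type} [x2 : MetricSpace x1] [x3 : Vale.Agent.P212.BddGeometry x1] {x4 : Type} {x5 : x4 → x1} : StarAddMonoid (Vale.Agent.P212.CM x5) := inferInstance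
@[reducible] noncomputable def a3 {x1 : Type} [x2 : MetricSpace x1] [x3 : Vale.Agent.P212.BddGeometry x1] {x4 : Type} {x5 : x4 → x1} : StarRing (Vale.Agent.P212.CM x5) := inferInstance
end AFast7dbf42x398a
attribute [local instance] AFast7dbf42x398a.a0 AFast7dbf42x398a.a1 AFast7dbf42x398a.a2
  AFast7dbf42x398a.a3
namespace AFast7dbf42x398b
theorem a0 {x1 : Type} {x2 : Type} [x3 : MetricSpace x2] [x4 : Vale.Agent.P212.BddGeometry x2] {x5 : x1 → x2} : LinearMapClass (↥(Vale.Agent.P212.roeU x5) →⋆ₐ[ℂ] Vale.Agent.P212.CM x5) ℂ (↥(Vale.Agent.P212.roeU x5)) (Vale.Agent.P212.CM x5) := inferInstance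
theorem a1 {x1 : Type} {x2 : Type} [x3 : MetricSpace x2] [x4 : Vale.Agent.P212.BddGeometry x2] {x5 : x1 → x2} : AddHomClass (↥(Vale.Agent.P212.roeU x5) →⋆ₐ[ℂ] Vale.Agent.P212.CM x5) (↥(Vale.Agent.P212.roeU x5)) (Vale.Agent.P212.CM x5) := inferInstance
theorem a2 {x1 : Type} {x2 : Type} [x3 : MetricSpace x2] [x4 : Vale.Agent.P212.BddGeometry x2] {x5 : x1 → x2} : MulActionSemiHomClass (↥(Vale.Agent.P212.roeU x5) →⋆ₐ[ℂ] Vale.Agent.P212.CM x5) (⇑(RingHom.id ℂ)) (↥(Vale.Agent.P212.roeU x5)) (Vale.Agent.P212.CM x5) := inferInstance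
end AFast7dbf42x398b
attribute [local instance] AFast7dbf42x398b.a0 AFast7dbf42x398b.a1 AFast7dbf42x398b.a2

section

section

/-! Localization algebras of the Rips complexes and coarse K-homology. -/

set_option linter.unusedSectionVars false

namespace Vale.Agent.P212

open UniformSpace NNReal BoundedContinuousFunction

/-- The Hilbert space `l^2(X x N)`. -/
abbrev HX (X : Type) : Type := L2 (X × ℕ)

/-- The grading of `X x N` over `X`. -/
abbrev gX (X : Type) : X × ℕ → X := Prod.fst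

/-- The Hilbert space operators on `l^2(X x N)`. -/
abbrev BX (X : Type) : Type := HX X →L[ℂ] HX X

variable {X : Type} [MetricSpace X] [BddGeometry X]

instance countableX : Countable X := countable_of_bddGeometry

/-- The operator `T` lives on the Rips complex `P_r(X)` and its `l^1`-propagation is at
most `ε`. -/
def OnRips (r ε : ℝ) (T : BX X) : Prop :=
  ∀ j k, ent T j k ≠ 0 → InRips r (pos j) ∧ InRips r (pos k) ∧ (pos j).dist (pos k) ≤ ε

/-- The path `T` is a path in `ℂ[P_r(X)]` whose propagation tends to zero. -/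
structure IsLocal (r : ℝ) (T : ℝ≥0 → BX X) : Prop where
  roe : ∀ t, IsRoe (gX X) (T t)
  rips : ∀ t, OnRips r 2 (T t)
  prop : ∀ ε > 0, ∃ t₀, ∀ t ≥ t₀, OnRips r ε (T t)

theorem InRips.mono {r r' : ℝ} (h : r ≤ r') {p : RPt X} (hp : InRips r p) : InRips r' p :=
  fun x hx y hy => (hp x hx y hy).trans h

theorem OnRips.mono {r r' ε ε' : ℝ} (h : r ≤ r') (hε : ε ≤ ε') {T : BX X}
    (hT : OnRips r ε T) : OnRips r' ε' T := fun j k hjk =>
  ⟨(hT j k hjk).1.mono h, (hT j k hjk).2.1.mono h, (hT j k hjk).2.2.trans hε⟩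

theorem OnRips.zero (r ε : ℝ) : OnRips r ε (0 : BX X) := fun j k hjk =>
  absurd (rfl : ent (0 : BX X) j k = 0) hjk

theorem OnRips.add {r ε : ℝ} {T S : BX X} (hT : OnRips r ε T) (hS : OnRips r ε S) :
    OnRips r ε (T + S) := by
  intro j k hjk
  rw [ent_add] at hjk
  by_cases h : ent T j k = 0
  · rw [h, zero_add] at hjk
    exact hS j k hjk
  · exact hT j k h

theorem OnRips.smul {r ε : ℝ} {T : BX X} (c : ℂ) (hT : OnRips r ε T) :
    OnRips r ε (c • T) := by
  intro j k hjk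
  rw [ent_smul] at hjk
  exact hT j k (right_ne_zero_of_mul hjk)

theorem OnRips.star {r ε : ℝ} {T : BX X} (hT : OnRips r ε T) :
    OnRips r ε (Star.star T) := by
  intro j k hjk
  rw [ent_star] at hjk
  have h1 : ent T k j ≠ 0 := fun h => hjk (by rw [h, star_zero])
  obtain ⟨a, b, c⟩ := hT k j h1
  exact ⟨b, a, by rwa [RPt.dist_comm]⟩

theorem OnRips.mul {r ε ε' : ℝ} {T S : BX X} (hT : OnRips r ε T) (hS : OnRips r ε' S) :
    OnRips r (ε + ε') (T * S) := by
  intro j k hjk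
  obtain ⟨l, h1, h2⟩ := exists_of_ent_mul_ne_zero hjk
  exact ⟨(hT j l h1).1, (hS l k h2).2.1,
    (RPt.dist_triangle _ (pos l) _).trans (add_le_add (hT j l h1).2.2 (hS l k h2).2.2)⟩

theorem OnRips.of_two {r ε : ℝ} {T : BX X} (hT : OnRips r ε T) : OnRips r 2 T :=
  fun j k hjk => ⟨(hT j k hjk).1, (hT j k hjk).2.1, RPt.dist_le_two _ _⟩

theorem IsLocal.zero (r : ℝ) : IsLocal r (fun _ => (0 : BX X)) where
  roe _ := IsRoe.zero
  rips _ := OnRips.zero r 2
  prop ε _ := ⟨0, fun _ _ => OnRips.zero r ε⟩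

theorem IsLocal.add {r : ℝ} {T S : ℝ≥0 → BX X} (hT : IsLocal r T) (hS : IsLocal r S) :
    IsLocal r (fun t => T t + S t) where
  roe t := (hT.roe t).add (hS.roe t)
  rips t := (hT.rips t).add (hS.rips t)
  prop ε hε := by
    obtain ⟨t₀, h₀⟩ := hT.prop ε hε
    obtain ⟨t₁, h₁⟩ := hS.prop ε hε
    exact ⟨max t₀ t₁, fun t ht => (h₀ t ((le_max_left _ _).trans ht)).add
      (h₁ t ((le_max_right _ _).trans ht))⟩

theorem IsLocal.smul {r : ℝ} {T : ℝ≥0 → BX X} (c : ℂ) (hT : IsLocal r T) :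
    IsLocal r (fun t => c • T t) where
  roe t := (hT.roe t).smul c
  rips t := (hT.rips t).smul c
  prop ε hε := by
    obtain ⟨t₀, h₀⟩ := hT.prop ε hε
    exact ⟨t₀, fun t ht => (h₀ t ht).smul c⟩

theorem IsLocal.star {r : ℝ} {T : ℝ≥0 → BX X} (hT : IsLocal r T) :
    IsLocal r (fun t => Star.star (T t)) where
  roe t := (hT.roe t).star
  rips t := (hT.rips t).star
  prop ε hε := by
    obtain ⟨t₀, h₀⟩ := hT.prop ε hε
    exact ⟨t₀, fun t ht => (h₀ t ht).star⟩

theorem IsLocal.mul {r : ℝ} {T S : ℝ≥0 → BX X} (hT : IsLocal r T) (hS : IsLocal r S) :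
    IsLocal r (fun t => T t * S t) where
  roe t := (hT.roe t).mul (hS.roe t)
  rips t := ((hT.rips t).mul (hS.rips t)).of_two
  prop ε hε := by
    obtain ⟨t₀, h₀⟩ := hT.prop (ε / 2) (half_pos hε)
    obtain ⟨t₁, h₁⟩ := hS.prop (ε / 2) (half_pos hε)
    refine ⟨max t₀ t₁, fun t ht => ?_⟩
    have := (h₀ t ((le_max_left _ _).trans ht)).mul (h₁ t ((le_max_right _ _).trans ht))
    rwa [add_halves] at this

theorem IsLocal.mono {r r' : ℝ} (h : r ≤ r') {T : ℝ≥0 → BX X} (hT : IsLocal r T) :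
    IsLocal r' T where
  roe := hT.roe
  rips t := (hT.rips t).mono h le_rfl
  prop ε hε := by
    obtain ⟨t₀, h₀⟩ := hT.prop ε hε
    exact ⟨t₀, fun t ht => (h₀ t ht).mono h le_rfl⟩

theorem uniformContinuous_bcf_mul {A : Type*} [NormedRing A] {f g : ℝ≥0 →ᵇ A}
    (hf : UniformContinuous f) (hg : UniformContinuous g) : UniformContinuous (f * g) := by
  rw [Metric.uniformContinuous_iff] at hf hg ⊢
  intro ε hε
  have hM : 0 < ‖f‖ + ‖g‖ + 1 := by positivity
  obtain ⟨δ₁, hδ₁, h₁⟩ := hf (ε / (‖f‖ + ‖g‖ + 1)) (div_pos hε hM)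
  obtain ⟨δ₂, hδ₂, h₂⟩ := hg (ε / (‖f‖ + ‖g‖ + 1)) (div_pos hε hM)
  refine ⟨min δ₁ δ₂, lt_min hδ₁ hδ₂, fun a b hab => ?_⟩
  have e₁ := h₁ (lt_of_lt_of_le hab (min_le_left _ _))
  have e₂ := h₂ (lt_of_lt_of_le hab (min_le_right _ _))
  rw [dist_eq_norm] at e₁ e₂ ⊢
  have key : (f * g) a - (f * g) b = f a * (g a - g b) + (f a - f b) * g b := by
    change f a * g a - f b * g b = _
    rw [mul_sub, sub_mul]
    abel
  rw [key]
  have n₁ := f.norm_coe_le_norm a
  have n₂ := g.norm_coe_le_norm b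
  calc ‖f a * (g a - g b) + (f a - f b) * g b‖
      ≤ ‖f a * (g a - g b)‖ + ‖(f a - f b) * g b‖ := norm_add_le _ _
    _ ≤ ‖f a‖ * ‖g a - g b‖ + ‖f a - f b‖ * ‖g b‖ :=
        add_le_add (norm_mul_le _ _) (norm_mul_le _ _)
    _ ≤ ‖f‖ * (ε / (‖f‖ + ‖g‖ + 1)) + (ε / (‖f‖ + ‖g‖ + 1)) * ‖g‖ := by
        gcongr
    _ = (‖f‖ + ‖g‖) * (ε / (‖f‖ + ‖g‖ + 1)) := by ring
    _ < (‖f‖ + ‖g‖ + 1) * (ε / (‖f‖ + ‖g‖ + 1)) :=
        mul_lt_mul_of_pos_right (lt_add_one _) (div_pos hε hM)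
    _ = ε := by
        field_simp

theorem uniformContinuous_of_isometry_comp_star {A : Type*} [CStarAlgebra A] {f : ℝ≥0 →ᵇ A}
    (hf : UniformContinuous f) : UniformContinuous (star f : ℝ≥0 →ᵇ A) := by
  have h1 : UniformContinuous (fun a : A => star a) := by
    refine (AddMonoidHomClass.isometry_of_norm (starAddEquiv : A ≃+ A) ?_).uniformContinuous
    intro a
    exact norm_star a
  exact h1.comp hf

/-- The algebra `ℂ_L[P_r(X)]`, with a unit adjoined: bounded and uniformly continuous paths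
in `ℂ 1 + ℂ[P_r(X)]` (with the maximal norm) whose propagation tends to zero. -/
noncomputable def locAlg (X : Type) [MetricSpace X] [BddGeometry X] (r : ℝ) :
    StarSubalgebra ℂ (ℝ≥0 →ᵇ CM (gX X)) where
  carrier := {f | UniformContinuous f ∧ ∃ (c : ℂ) (T : ℝ≥0 → roeU (gX X)),
    IsLocal r (fun t => (T t : BX X) - c • 1) ∧ ∀ t, f t = toMax (gX X) (T t)}
  mul_mem' := by
    rintro f g ⟨hf, c, T, hT, hfT⟩ ⟨hg, d, S, hS, hgS⟩
    refine ⟨uniformContinuous_bcf_mul hf hg, c * d, fun t => T t * S t, ?_, fun t => ?_⟩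
    · have h := ((hT.mul hS).add (hS.smul c)).add (hT.smul d)
      have e : (fun t => ((T t * S t : roeU (gX X)) : BX X) - (c * d) • 1) =
          fun t => ((T t : BX X) - c • 1) * ((S t : BX X) - d • 1) +
            c • ((S t : BX X) - d • 1) + d • ((T t : BX X) - c • 1) := by
        funext t
        change (T t : BX X) * (S t : BX X) - (c * d) • 1 = _
        simp only [sub_mul, mul_sub, smul_sub, mul_smul_comm, smul_mul_assoc, mul_one, one_mul,
          smul_smul]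
        rw [mul_comm d c]
        abel
      rw [e]
      exact h
    · rw [map_mul, ← hfT, ← hgS]
      rfl
  add_mem' := by
    rintro f g ⟨hf, c, T, hT, hfT⟩ ⟨hg, d, S, hS, hgS⟩
    refine ⟨hf.add hg, c + d, fun t => T t + S t, ?_, fun t => ?_⟩
    · have e : (fun t => ((T t + S t : roeU (gX X)) : BX X) - (c + d) • 1) =
          fun t => ((T t : BX X) - c • 1) + ((S t : BX X) - d • 1) := by
        funext t
        change (T t : BX X) + (S t : BX X) - (c + d) • 1 = _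
        rw [add_smul]
        abel
      rw [e]
      exact hT.add hS
    · rw [map_add, ← hfT, ← hgS]
      rfl
  algebraMap_mem' := by
    intro c
    refine ⟨uniformContinuous_const, c, fun _ => algebraMap ℂ _ c, ?_, fun t => ?_⟩
    · have e : (fun _ : ℝ≥0 => ((algebraMap ℂ (roeU (gX X)) c : roeU (gX X)) : BX X) - c • 1) =
          fun _ => 0 := by
        funext t
        change algebraMap ℂ (BX X) c - c • 1 = 0
        rw [Algebra.algebraMap_eq_smul_one, sub_self]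
      rw [e]
      exact IsLocal.zero r
    · exact (AlgHomClass.commutes (toMax (gX X)) c).symm
  star_mem' := by
    rintro f ⟨hf, c, T, hT, hfT⟩
    refine ⟨?_, star c, fun t => star (T t), ?_, fun t => ?_⟩
    · exact uniformContinuous_of_isometry_comp_star hf
    · have e : (fun t => ((star (T t) : roeU (gX X)) : BX X) - (star c) • 1) =
          fun t => star ((T t : BX X) - c • 1) := by
        funext t
        change star (T t : BX X) - (star c) • 1 = _
        rw [star_sub, star_smul, star_one]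
      rw [e]
      exact hT.star
    · rw [map_star, ← hfT]
      rfl

/-- The maximal localization algebra `C*_{L,max}(P_r(X))`, with a unit adjoined. -/
noncomputable def locU (X : Type) [MetricSpace X] [BddGeometry X] (r : ℝ) :
    StarSubalgebra ℂ (ℝ≥0 →ᵇ CM (gX X)) := (locAlg X r).topologicalClosure

/-- Evaluation at time zero. -/
noncomputable def ev0 (X : Type) [MetricSpace X] [BddGeometry X] (r : ℝ) :
    locU X r →⋆ₐ[ℂ] CM (gX X) where
  toFun f := (f : ℝ≥0 →ᵇ CM (gX X)) 0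
  map_one' := rfl
  map_mul' _ _ := rfl
  map_zero' := rfl
  map_add' _ _ := rfl
  commutes' _ := rfl
  map_star' _ := rfl

variable [Nonempty X]

/-- The augmentation of the unitization of the localization algebra. -/
noncomputable def augL (X : Type) [MetricSpace X] [BddGeometry X] [Nonempty X] (r : ℝ) :
    locU X r →⋆ₐ[ℂ] ℂ := (aug (gX X)).comp (ev0 X r)

/-- The K-homology group `K_0(P_r(X)) = K_0(C*_{L,max}(P_r(X)))`. -/
noncomputable def K0L (X : Type) [MetricSpace X] [BddGeometry X] [Nonempty X] (r : ℝ) :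
    AddSubgroup (K0 (locU X r)) := (K0.map (augL X r : locU X r →+* ℂ)).ker

theorem locU_mono {r r' : ℝ} (h : r ≤ r') : locU X r ≤ locU X r' := by
  refine StarSubalgebra.topologicalClosure_mono ?_
  rintro f ⟨hf, c, T, hT, hfT⟩
  exact ⟨hf, c, T, hT.mono h, hfT⟩

/-- The inclusion `C*_{L,max}(P_r(X)) → C*_{L,max}(P_r'(X))`. -/
noncomputable def inclLoc {r r' : ℝ} (h : r ≤ r') : locU X r →⋆ₐ[ℂ] locU X r' :=
  StarSubalgebra.inclusion (locU_mono h)

/-- The map `K_0(P_r(X)) → K_0(P_r'(X))`. -/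
noncomputable def K0L.map {r r' : ℝ} (h : r ≤ r') : K0L X r →+ K0L X r' :=
  ((K0.map (inclLoc (X := X) h : locU X r →+* locU X r')).comp (K0L X r).subtype).codRestrict _ (by
    rintro ⟨x, hx⟩
    change K0.map (augL X r' : locU X r' →+* ℂ) (K0.map (inclLoc (X := X) h :
      locU X r →+* locU X r') x) = 0
    rw [← K0.map_comp]
    exact hx)

end Vale.Agent.P212
end
end
namespace AFast7dbf42x673a
@[reducible] noncomputable def a0 {x1 : Type} [x2 : MetricSpace x1] [x3 : Vale.Agent.P212.BddGeometry x1] : Semiring (BoundedContinuousFunction NNReal (Vale.Agent.P212.CM (Vale.Agent.P212.gX x1))) := inferInstance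
@[reducible] noncomputable def a1 {x1 : Type} [x2 : MetricSpace x1] [x3 : Vale.Agent.P212.BddGeometry x1] {x4 : ℝ} : Ring ↥(Vale.Agent.P212.locU x1 x4) := inferInstance
theorem a2 {x1 : Type} [x2 : MetricSpace x1] [x3 : Vale.Agent.P212.BddGeometry x1] : ContinuousAdd (Vale.Agent.P212.CM (Vale.Agent.P212.gX x1)) := inferInstance
theorem a3 {x1 : Type} [x2 : MetricSpace x1] [x3 : Vale.Agent.P212.BddGeometry x1] : ContinuousMul (Vale.Agent.P212.CM (Vale.Agent.P212.gX x1)) := inferInstance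
@[reducible] noncomputable def a4 {x1 : Type} [x2 : MetricSpace x1] [x3 : Vale.Agent.P212.BddGeometry x1] : StarAddMonoid (Vale.Agent.P212.CM (Vale.Agent.P212.gX x1)) := inferInstance
theorem a5 {x1 : Type} [x2 : MetricSpace x1] [x3 : Vale.Agent.P212.BddGeometry x1] : IsSemitopologicalSemiring (Vale.Agent.P212.CM (Vale.Agent.P212.gX x1)) := inferInstance
theorem a6 {x1 : Type} [x2 : MetricSpace x1] [x3 : Vale.Agent.P212.BddGeometry x1] : IsTopologicalSemiring (Vale.Agent.P212.CM (Vale.Agent.P212.gX x1)) := inferInstance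
theorem a7 {x1 : Type} [x2 : MetricSpace x1] [x3 : Vale.Agent.P212.BddGeometry x1] : IsTopologicalRing (Vale.Agent.P212.CM (Vale.Agent.P212.gX x1)) := inferInstance
@[reducible] noncomputable def a8 {x1 : Type} [x2 : MetricSpace x1] [x3 : Vale.Agent.P212.BddGeometry x1] : Star (Vale.Agent.P212.CM (Vale.Agent.P212.gX x1)) := inferInstance
@[reducible] noncomputable def a9 {x1 : Type} [x2 : MetricSpace x1] [x3 : Vale.Agent.P212.BddGeometry x1] : InvolutiveStar (Vale.Agent.P212.CM (Vale.Agent.P212.gX x1)) := inferInstance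
theorem a10 {x1 : Type} [x2 : MetricSpace x1] [x3 : Vale.Agent.P212.BddGeometry x1] : IsSemitopologicalRing (Vale.Agent.P212.CM (Vale.Agent.P212.gX x1)) := inferInstance
@[reducible] noncomputable def a11 {x1 : Type} [x2 : MetricSpace x1] [x3 : Vale.Agent.P212.BddGeometry x1] {x4 : ℝ} : Star ↥(Vale.Agent.P212.locU x1 x4) := inferInstance
@[reducible] noncomputable def a12 {x1 : Type} [x2 : MetricSpace x1] [x3 : Vale.Agent.P212.BddGeometry x1] : StarRing (Vale.Agent.P212.CM (Vale.Agent.P212.gX x1)) := inferInstance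
theorem a13 {x1 : Type} [x2 : MetricSpace x1] [x3 : Vale.Agent.P212.BddGeometry x1] : BoundedAdd (Vale.Agent.P212.CM (Vale.Agent.P212.gX x1)) := inferInstance
theorem a14 {x1 : Type} [x2 : MetricSpace x1] [x3 : Vale.Agent.P212.BddGeometry x1] : SubringClass (StarSubalgebra ℂ (BoundedContinuousFunction NNReal (Vale.Agent.P212.CM (Vale.Agent.P212.gX x1)))) (BoundedContinuousFunction NNReal (Vale.Agent.P212.CM (Vale.Agent.P212.gX x1))) := inferInstance
end AFast7dbf42x673a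
attribute [local instance] AFast7dbf42x673a.a0 AFast7dbf42x673a.a1 AFast7dbf42x673a.a2
  AFast7dbf42x673a.a3 AFast7dbf42x673a.a4 AFast7dbf42x673a.a5 AFast7dbf42x673a.a6
  AFast7dbf42x673a.a7 AFast7dbf42x673a.a8 AFast7dbf42x673a.a9 AFast7dbf42x673a.a10
  AFast7dbf42x673a.a11 AFast7dbf42x673a.a12 AFast7dbf42x673a.a13 AFast7dbf42x673a.a14
namespace AFast7dbf42x673b
@[reducible] noncomputable def a0 {x1 : Type} [x2 : MetricSpace x1] [x3 : Vale.Agent.P212.BddGeometry x1] {x4 : ℝ} : Semiring ↥(Vale.Agent.P212.locU x1 x4) := inferInstance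
@[reducible] noncomputable def a1 {x1 : Type} [x2 : MetricSpace x1] [x3 : Vale.Agent.P212.BddGeometry x1] {x4 : ℝ} : NonAssocSemiring ↥(Vale.Agent.P212.locU x1 x4) := inferInstance
theorem a2 {x1 : Vale.Agent.P212.Tower} : MulActionSemiHomClass (↥(Vale.Agent.P212.roeU (Vale.Agent.P212.gX (Vale.Agent.P212.XT x1))) →⋆ₐ[ℂ] Vale.Agent.P212.CM (Vale.Agent.P212.gX (Vale.Agent.P212.XT x1))) (⇑(RingHom.id ℂ)) (↥(Vale.Agent.P212.roeU (Vale.Agent.P212.gX (Vale.Agent.P212.XT x1)))) (Vale.Agent.P212.CM (Vale.Agent.P212.gX (Vale.Agent.P212.XT x1))) := inferInstance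
theorem a3 {x1 : Vale.Agent.P212.Tower} : AddHomClass (↥(Vale.Agent.P212.roeU (Vale.Agent.P212.gX (Vale.Agent.P212.XT x1))) →⋆ₐ[ℂ] Vale.Agent.P212.CM (Vale.Agent.P212.gX (Vale.Agent.P212.XT x1))) (↥(Vale.Agent.P212.roeU (Vale.Agent.P212.gX (Vale.Agent.P212.XT x1)))) (Vale.Agent.P212.CM (Vale.Agent.P212.gX (Vale.Agent.P212.XT x1))) := inferInstance
theorem a4 {x1 : Type} [x2 : MetricSpace x1] [x3 : Vale.Agent.P212.BddGeometry x1] : AddHomClass (↥(Vale.Agent.P212.roeU (Vale.Agent.P212.gX x1)) →⋆ₐ[ℂ] Vale.Agent.P212.CM (Vale.Agent.P212.gX x1)) (↥(Vale.Agent.P212.roeU (Vale.Agent.P212.gX x1))) (Vale.Agent.P212.CM (Vale.Agent.P212.gX x1)) := inferInstance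
theorem a5 {x1 : Vale.Agent.P212.Tower} : LinearMapClass (↥(Vale.Agent.P212.roeU (Vale.Agent.P212.gX (Vale.Agent.P212.XT x1))) →⋆ₐ[ℂ] Vale.Agent.P212.CM (Vale.Agent.P212.gX (Vale.Agent.P212.XT x1))) ℂ (↥(Vale.Agent.P212.roeU (Vale.Agent.P212.gX (Vale.Agent.P212.XT x1)))) (Vale.Agent.P212.CM (Vale.Agent.P212.gX (Vale.Agent.P212.XT x1))) := inferInstance
theorem a6 {x1 : Type} [x2 : MetricSpace x1] [x3 : Vale.Agent.P212.BddGeometry x1] : LinearMapClass (↥(Vale.Agent.P212.roeU (Vale.Agent.P212.gX x1)) →⋆ₐ[ℂ] Vale.Agent.P212.CM (Vale.Agent.P212.gX x1)) ℂ (↥(Vale.Agent.P212.roeU (Vale.Agent.P212.gX x1))) (Vale.Agent.P212.CM (Vale.Agent.P212.gX x1)) := inferInstance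
end AFast7dbf42x673b
attribute [local instance] AFast7dbf42x673b.a0 AFast7dbf42x673b.a1 AFast7dbf42x673b.a2
  AFast7dbf42x673b.a3 AFast7dbf42x673b.a4 AFast7dbf42x673b.a5 AFast7dbf42x673b.a6

section

section

/-! Multiplication operators by functions of the position. The cylinder functions are in
`BCyl1.lean`, the matrix coefficients and multiplication operators in `BEnt.lean`. -/

namespace Vale.Agent.P212

variable {X : Type} [MetricSpace X] [BddGeometry X]

/-- Multiplication by a function of the position. -/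
noncomputable def mulG (g : RPt X → ℂ) : BX X := mulOp (fun j => g (pos j))

end Vale.Agent.P212
end
end

section

section

/-! The cup product cocycle is divisible on the deep part. -/

namespace Vale.Agent.P212

variable {τ : Tower}

/-- The cup product of the crossing cochains. -/
def c0 (n : ℕ) (x y z : XT τ) : ℤ := cr1 n x y * cr2 n y z

/-- The points of the component `n` of level less than `L`. -/
noncomputable def lowF (τ : Tower) (n L : ℕ) : Finset (XT τ) := (coc_finite_low τ n L).toFinset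

theorem mem_lowF {n L : ℕ} {x : XT τ} : x ∈ lowF τ n L ↔ x.n = n ∧ x.l < L := by
  simp [lowF]

/-- Close points of the component `n` for large `n`. -/
theorem close_comp {n R : ℕ} (hR : R < n) {x y : XT τ} (hx : x.n = n) (hd : dist x y ≤ R) :
    y.n = n ∧ y.l ≤ x.l + R ∧ x.l ≤ y.l + R := by
  refine ⟨same_comp hR hx hd, ?_, ?_⟩
  · have h := (level_diff_le x y).trans hd
    rw [abs_le] at h
    have h1 : (y.l : ℝ) ≤ x.l + R := by linarith [h.1]
    exact_mod_cast h1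
  · have h := (level_diff_le x y).trans hd
    rw [abs_le] at h
    have h1 : (x.l : ℝ) ≤ y.l + R := by linarith [h.2]
    exact_mod_cast h1

/-- The cup product is a cocycle on close quadruples of the component `n`. -/
theorem c0_coc {n R : ℕ} (hR : 4 * R ≤ n) {x y z w : XT τ} (hx : x.n = n) (hy : y.n = n)
    (hz : z.n = n) (hw : w.n = n) (hxy : dist x y ≤ R) (hyz : dist y z ≤ R)
    (hzw : dist z w ≤ R) :
    c0 n y z w - c0 n x z w + c0 n x y w - c0 n x y z = 0 := by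
  have h1 := (cr_add hR hx hy hz hxy hyz).1
  have h2 := (cr_add hR hy hz hw hyz hzw).2
  unfold c0
  rw [h1, h2]
  ring

/-- The cup product is a cocycle at scale `R` on the component `n` for large `n`. -/
theorem cocAt_c0 {n R : ℕ} (hR : 4 * R < n) (j : ℕ) {p : RPt (XT τ)} (hp : InRips R p)
    (hn : ∃ x ∈ p.1.support, x.n = n) : CocAt (j • c0 n) p := by
  obtain ⟨x0, hx0, hn0⟩ := hn
  have hall : ∀ x ∈ p.1.support, x.n = n := fun x hx =>
    (close_comp (by omega) hn0 (hp x0 hx0 x hx)).1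
  intro x hx y hy z hz w hw
  have h := c0_coc (n := n) (R := R) (by omega) (hall x hx) (hall y hy) (hall z hz) (hall w hw)
    (hp x hx y hy) (hp y hy z hz) (hp z hz w hw)
  simp only [Pi.smul_apply, nsmul_eq_mul]
  linear_combination (j : ℤ) * h

/-- On the deep part the cup product is cohomologous to a multiple of `11 ^ n`. -/
theorem exists_div (τ : Tower) (R : ℕ) : ∃ n₁ : ℕ, ∀ n ≥ n₁,
    ∃ (b : XT τ → XT τ → ℤ) (c : XT τ → XT τ → XT τ → ℤ),
      (∀ p : RPt (XT τ), InRips R p → (∀ x ∈ p.1.support, x.n = n ∧ 2 * n + R ≤ x.l) →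
        CocAt c p ∧ ∀ x ∈ p.1.support, ∀ y ∈ p.1.support, ∀ z ∈ p.1.support,
          ((11 ^ n : ℕ) : ℤ) * c x y z = c0 n x y z + (b y z - b x z + b x y)) := by
  obtain ⟨ns, hns⟩ := τ.short (3 * R)
  refine ⟨max ns (4 * R + 1), fun n hn => ?_⟩
  have hshort := hns n ((le_max_left _ _).trans hn)
  have hR : 4 * R + 1 ≤ n := (le_max_right _ _).trans hn
  refine ⟨fun x y => ((psi n R x y).val : ℤ), fun x y z =>
    (c0 n x y z + (((psi n R y z).val : ℤ) - ((psi n R x z).val : ℤ) + ((psi n R x y).val : ℤ)))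
      / ((11 ^ n : ℕ) : ℤ), ?_⟩
  intro p hp hdeep
  have key : ∀ x ∈ p.1.support, ∀ y ∈ p.1.support, ∀ z ∈ p.1.support,
      ((11 ^ n : ℕ) : ℤ) * ((c0 n x y z + (((psi n R y z).val : ℤ) - ((psi n R x z).val : ℤ)
        + ((psi n R x y).val : ℤ))) / ((11 ^ n : ℕ) : ℤ)) = c0 n x y z +
        (((psi n R y z).val : ℤ) - ((psi n R x z).val : ℤ) + ((psi n R x y).val : ℤ)) := by
    intro x hx y hy z hz
    apply Int.mul_ediv_cancel'
    rw [← ZMod.intCast_zmod_eq_zero_iff_dvd]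
    have h := psi_add (τ := τ) (n := n) (R := R) (by omega) hshort (hdeep x hx).1 (hdeep y hy).1
      (hdeep z hz).1 (hdeep x hx).2 (hdeep y hy).2 (hp x hx y hy) (hp y hy z hz) (hp x hx z hz)
    have hv : ∀ u v : XT τ, (((psi n R u v).val : ℤ) : ZMod (11 ^ n)) = psi n R u v := by
      intro u v
      rw [Int.cast_natCast, ZMod.natCast_zmod_val]
    rw [Int.cast_add, Int.cast_add, Int.cast_sub, hv, hv, hv, h, c0]
    ring
  refine ⟨?_, key⟩
  intro x hx y hy z hz w hw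
  have h := c0_coc (n := n) (R := R) (by omega) (hdeep x hx).1 (hdeep y hy).1 (hdeep z hz).1
    (hdeep w hw).1 (hp x hx y hy) (hp y hy z hz) (hp z hz w hw)
  have h1 := key y hy z hz w hw
  have h2 := key x hx z hz w hw
  have h3 := key x hx y hy w hw
  have h4 := key x hx y hy z hz
  have h11 : ((11 ^ n : ℕ) : ℤ) ≠ 0 := by positivity
  apply mul_left_cancel₀ h11
  rw [mul_zero]
  simp only
  linear_combination h1 - h2 + h3 - h4 + h

end Vale.Agent.P212
end
end

section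

section

/-! The refined grids in the tori at level zero. -/

namespace Vale.Agent.P212

variable (τ : Tower)

/-- A vertex of the torus of index `n` at level zero. -/
def vtx (n : ℕ) (i j : ℕ) : XT τ := ⟨n, 0, ((i : ZMod (n + 1)), (j : ZMod (n + 1))), 1⟩

/-- The fractional part of `X / 2 ^ m`. -/
def frc (m X : ℕ) : ℚ := ((X % 2 ^ m : ℕ) : ℚ) / 2 ^ m

/-- The point with real coordinates `(X / 2 ^ m, Y / 2 ^ m)`, in bilinear coordinates. -/
noncomputable def gfs (n m X Y : ℕ) : XT τ →₀ ℚ :=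
  Finsupp.single (vtx τ n (X / 2 ^ m) (Y / 2 ^ m)) ((1 - frc m X) * (1 - frc m Y)) +
  Finsupp.single (vtx τ n (X / 2 ^ m + 1) (Y / 2 ^ m)) (frc m X * (1 - frc m Y)) +
  Finsupp.single (vtx τ n (X / 2 ^ m) (Y / 2 ^ m + 1)) ((1 - frc m X) * frc m Y) +
  Finsupp.single (vtx τ n (X / 2 ^ m + 1) (Y / 2 ^ m + 1)) (frc m X * frc m Y)

/-- Bilinear combinations of the vertices of a unit square. -/
noncomputable def gfc (n a b : ℕ) (α β : ℚ) : XT τ →₀ ℚ :=
  Finsupp.single (vtx τ n a b) ((1 - α) * (1 - β)) +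
  Finsupp.single (vtx τ n (a + 1) b) (α * (1 - β)) +
  Finsupp.single (vtx τ n a (b + 1)) ((1 - α) * β) +
  Finsupp.single (vtx τ n (a + 1) (b + 1)) (α * β)

theorem gfs_eq_gfc (n m X Y : ℕ) :
    gfs τ n m X Y = gfc τ n (X / 2 ^ m) (Y / 2 ^ m) (frc m X) (frc m Y) := rfl

theorem frc_nonneg (m X : ℕ) : 0 ≤ frc m X := by unfold frc; positivity

theorem frc_lt_one (m X : ℕ) : frc m X < 1 := by
  unfold frc
  rw [div_lt_one (by positivity)]
  exact_mod_cast Nat.mod_lt X (by positivity)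

theorem gfc_sum (n a b : ℕ) (α β : ℚ) (φ : XT τ → ℚ) :
    ((gfc τ n a b α β).sum fun x w => w * φ x) =
      (1 - α) * (1 - β) * φ (vtx τ n a b) + α * (1 - β) * φ (vtx τ n (a + 1) b) +
      (1 - α) * β * φ (vtx τ n a (b + 1)) + α * β * φ (vtx τ n (a + 1) (b + 1)) := by
  classical
  unfold gfc
  have h0 : ∀ x : XT τ, (0 : ℚ) * φ x = 0 := fun x => zero_mul _
  have h1 : ∀ (x : XT τ) (w w' : ℚ), (w + w') * φ x = w * φ x + w' * φ x := fun x w w' =>
    add_mul _ _ _
  rw [Finsupp.sum_add_index' h0 h1, Finsupp.sum_add_index' h0 h1, Finsupp.sum_add_index' h0 h1,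
    Finsupp.sum_single_index (h0 _), Finsupp.sum_single_index (h0 _),
    Finsupp.sum_single_index (h0 _), Finsupp.sum_single_index (h0 _)]

theorem gsingle_nonneg (x y : XT τ) {w : ℚ} (hw : 0 ≤ w) : 0 ≤ (Finsupp.single x w) y := by
  classical
  rw [Finsupp.single_apply]
  split_ifs
  · exact hw
  · exact le_rfl

theorem gfc_nonneg (n a b : ℕ) {α β : ℚ} (h0 : 0 ≤ α) (h1 : α ≤ 1) (h2 : 0 ≤ β) (h3 : β ≤ 1)
    (x : XT τ) : 0 ≤ gfc τ n a b α β x := by
  unfold gfc
  simp only [Finsupp.add_apply]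
  have e1 : 0 ≤ 1 - α := by linarith
  have e2 : 0 ≤ 1 - β := by linarith
  have := gsingle_nonneg τ (vtx τ n a b) x (mul_nonneg e1 e2)
  have := gsingle_nonneg τ (vtx τ n (a + 1) b) x (mul_nonneg h0 e2)
  have := gsingle_nonneg τ (vtx τ n a (b + 1)) x (mul_nonneg e1 h2)
  have := gsingle_nonneg τ (vtx τ n (a + 1) (b + 1)) x (mul_nonneg h0 h2)
  linarith

theorem gfs_spec (n m X Y : ℕ) : (∀ x, 0 ≤ gfs τ n m X Y x) ∧
    ((gfs τ n m X Y).sum fun _ a => a) = 1 := by
  constructor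
  · intro x
    exact gfc_nonneg τ n _ _ (frc_nonneg m X) (frc_lt_one m X).le (frc_nonneg m Y)
      (frc_lt_one m Y).le x
  · have h := gfc_sum τ n (X / 2 ^ m) (Y / 2 ^ m) (frc m X) (frc m Y) (fun _ => 1)
    simp only [mul_one] at h
    rw [gfs_eq_gfc, h]
    ring

/-- The side of the grid. -/
abbrev sd (n m : ℕ) : ℕ := 2 ^ m * (n + 1)

instance (n m : ℕ) : NeZero (sd n m) := ⟨by positivity⟩

/-- The grid point as a point of the Rips complex. -/
noncomputable def gpt (n m : ℕ) (g : Grid (sd n m)) : RPt (XT τ) :=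
  ⟨gfs τ n m g.1.val g.2.val, gfs_spec τ n m _ _⟩

theorem gpt_val (n m : ℕ) (g : Grid (sd n m)) : (gpt τ n m g).1 =
    gfc τ n (g.1.val / 2 ^ m) (g.2.val / 2 ^ m) (frc m g.1.val) (frc m g.2.val) := rfl

theorem vtx_mem_gpt (n m : ℕ) (g : Grid (sd n m)) :
    vtx τ n (g.1.val / 2 ^ m) (g.2.val / 2 ^ m) ∈ (gpt τ n m g).1.support := by
  rw [Finsupp.mem_support_iff, gpt_val]
  have a0 := frc_nonneg m g.1.val
  have a1 := frc_lt_one m g.1.val
  have b0 := frc_nonneg m g.2.val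
  have b1 := frc_lt_one m g.2.val
  set a := g.1.val / 2 ^ m
  set b := g.2.val / 2 ^ m
  set α := frc m g.1.val
  set β := frc m g.2.val
  refine ne_of_gt ?_
  unfold gfc
  simp only [Finsupp.add_apply]
  have e1 : 0 < 1 - α := by linarith
  have e2 : 0 < 1 - β := by linarith
  rw [Finsupp.single_eq_same]
  have := gsingle_nonneg τ (vtx τ n (a + 1) b) (vtx τ n a b) (mul_nonneg a0 e2.le)
  have := gsingle_nonneg τ (vtx τ n a (b + 1)) (vtx τ n a b) (mul_nonneg e1.le b0)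
  have := gsingle_nonneg τ (vtx τ n (a + 1) (b + 1)) (vtx τ n a b) (mul_nonneg a0 b0)
  have := mul_pos e1 e2
  linarith

/-- The marginal of a bilinear combination in the first direction. -/
theorem gfc_marg1 (n a b : ℕ) (α β : ℚ) (c : ℕ) :
    ((gfc τ n a b α β).sum fun x w => w * (if x.w.1.val = c then 1 else 0)) =
      (1 - α) * (if a % (n + 1) = c then 1 else 0) +
        α * (if (a + 1) % (n + 1) = c then 1 else 0) := by
  rw [gfc_sum]
  have h : ∀ i j : ℕ, (vtx τ n i j).w.1.val = i % (n + 1) := fun i j => ZMod.val_natCast _ _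
  rw [h, h, h, h]
  ring

/-- The marginal of a bilinear combination in the second direction. -/
theorem gfc_marg2 (n a b : ℕ) (α β : ℚ) (c : ℕ) :
    ((gfc τ n a b α β).sum fun x w => w * (if x.w.2.val = c then 1 else 0)) =
      (1 - β) * (if b % (n + 1) = c then 1 else 0) +
        β * (if (b + 1) % (n + 1) = c then 1 else 0) := by
  rw [gfc_sum]
  have h : ∀ i j : ℕ, (vtx τ n i j).w.2.val = j % (n + 1) := fun i j => ZMod.val_natCast _ _
  rw [h, h, h, h]
  ring

theorem succ_mod_cases {N a : ℕ} (ha : a < N) :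
    ((a + 1) % N = a + 1 ∧ a + 1 < N) ∨ ((a + 1) % N = 0 ∧ a + 1 = N) := by
  rcases Nat.lt_or_ge (a + 1) N with h | h
  · exact Or.inl ⟨Nat.mod_eq_of_lt h, h⟩
  · have h2 : a + 1 = N := by omega
    exact Or.inr ⟨by rw [h2, Nat.mod_self], h2⟩

theorem circ_inj {n a a' : ℕ} {α α' : ℚ} (hn : 3 ≤ n) (ha : a < n + 1) (ha' : a' < n + 1)
    (h1 : α < 1) (h1' : α' < 1)
    (h : ∀ c, (1 - α) * (if a % (n + 1) = c then 1 else 0) +
        α * (if (a + 1) % (n + 1) = c then 1 else 0) =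
      (1 - α') * (if a' % (n + 1) = c then 1 else 0) +
        α' * (if (a' + 1) % (n + 1) = c then 1 else 0)) : a = a' ∧ α = α' := by
  rw [Nat.mod_eq_of_lt ha, Nat.mod_eq_of_lt ha'] at h
  have k1 := succ_mod_cases ha
  have k2 := succ_mod_cases ha'
  have c1 := h a
  have c2 := h a'
  have e1 : (a + 1) % (n + 1) ≠ a := by omega
  have e2 : (a' + 1) % (n + 1) ≠ a' := by omega
  rw [if_pos rfl, if_neg e1] at c1
  rw [if_pos (rfl : a' = a'), if_neg e2] at c2
  by_cases haa : a = a'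
  · subst haa
    rw [if_pos rfl, if_neg e1] at c1
    exact ⟨rfl, by linarith⟩
  · exfalso
    rw [if_neg (Ne.symm haa)] at c1
    rw [if_neg haa] at c2
    by_cases f1 : (a' + 1) % (n + 1) = a
    · by_cases f2 : (a + 1) % (n + 1) = a'
      · omega
      · rw [if_neg f2] at c2
        linarith
    · rw [if_neg f1] at c1
      linarith

theorem eq_of_div_frc {m X X' : ℕ} (h : X / 2 ^ m = X' / 2 ^ m) (h' : frc m X = frc m X') :
    X = X' := by
  unfold frc at h'
  have h2 : (2 : ℚ) ^ m ≠ 0 := by positivity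
  rw [div_left_inj' h2] at h'
  have h3 : X % 2 ^ m = X' % 2 ^ m := by exact_mod_cast h'
  rw [← Nat.div_add_mod X (2 ^ m), ← Nat.div_add_mod X' (2 ^ m), h, h3]

theorem div_lt_of_grid {n m : ℕ} (a : ZMod (sd n m)) : a.val / 2 ^ m < n + 1 := by
  rw [Nat.div_lt_iff_lt_mul (by positivity), mul_comm]
  exact ZMod.val_lt a

theorem gpt_injective (n m : ℕ) (hn : 3 ≤ n) : Function.Injective (gpt τ n m) := by
  intro g g' h
  have hv : (gpt τ n m g).1 = (gpt τ n m g').1 := by rw [h]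
  rw [gpt_val, gpt_val] at hv
  have m1 := fun c => gfc_marg1 τ n (g.1.val / 2 ^ m) (g.2.val / 2 ^ m)
    (frc m g.1.val) (frc m g.2.val) c
  have m2 := fun c => gfc_marg2 τ n (g.1.val / 2 ^ m) (g.2.val / 2 ^ m)
    (frc m g.1.val) (frc m g.2.val) c
  rw [hv] at m1 m2
  have m1' := fun c => (m1 c).symm.trans (gfc_marg1 τ n (g'.1.val / 2 ^ m) (g'.2.val / 2 ^ m)
    (frc m g'.1.val) (frc m g'.2.val) c)
  have m2' := fun c => (m2 c).symm.trans (gfc_marg2 τ n (g'.1.val / 2 ^ m) (g'.2.val / 2 ^ m)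
    (frc m g'.1.val) (frc m g'.2.val) c)
  obtain ⟨x1, x2⟩ := circ_inj hn (div_lt_of_grid g.1) (div_lt_of_grid g'.1)
    (frc_lt_one m _) (frc_lt_one m _) m1'
  obtain ⟨y1, y2⟩ := circ_inj hn (div_lt_of_grid g.2) (div_lt_of_grid g'.2)
    (frc_lt_one m _) (frc_lt_one m _) m2'
  exact Prod.ext (ZMod.val_injective _ (eq_of_div_frc x1 x2))
    (ZMod.val_injective _ (eq_of_div_frc y1 y2))

theorem mem_support_gfc (n a b : ℕ) (α β : ℚ) {x : XT τ}
    (hx : x ∈ (gfc τ n a b α β).support) : ∃ e ≤ 1, ∃ f ≤ 1, x = vtx τ n (a + e) (b + f) := by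
  classical
  by_contra hcon
  push Not at hcon
  rw [Finsupp.mem_support_iff] at hx
  apply hx
  unfold gfc
  simp only [Finsupp.add_apply]
  have k1 : x ≠ vtx τ n a b := hcon 0 (by norm_num) 0 (by norm_num)
  have k2 : x ≠ vtx τ n (a + 1) b := hcon 1 le_rfl 0 (by norm_num)
  have k3 : x ≠ vtx τ n a (b + 1) := hcon 0 (by norm_num) 1 le_rfl
  have k4 : x ≠ vtx τ n (a + 1) (b + 1) := hcon 1 le_rfl 1 le_rfl
  rw [Finsupp.single_eq_of_ne k1, Finsupp.single_eq_of_ne k2, Finsupp.single_eq_of_ne k3,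
    Finsupp.single_eq_of_ne k4]
  norm_num

theorem support_gpt (n m : ℕ) (g : Grid (sd n m)) {x : XT τ}
    (hx : x ∈ (gpt τ n m g).1.support) : x.n = n ∧ x.l = 0 := by
  rw [gpt_val] at hx
  obtain ⟨e, -, f, -, rfl⟩ := mem_support_gfc τ _ _ _ _ _ hx
  exact ⟨rfl, rfl⟩

theorem dist_vtx_x (n i j : ℕ) : dist (vtx τ n (i + 1) j) (vtx τ n i j) ≤ 1 := by
  have h := dist_base_le τ n (((i + 1 : ℕ) : ZMod (n + 1)), (j : ZMod (n + 1)))
    ((i : ZMod (n + 1)), (j : ZMod (n + 1)))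
  have h2 := tdist_stepx_le (n := n) ((i : ZMod (n + 1)), (j : ZMod (n + 1)))
  simp only at h2
  rw [← Nat.cast_succ] at h2
  refine le_trans h ?_
  exact_mod_cast h2

theorem dist_vtx_y (n i j : ℕ) : dist (vtx τ n i (j + 1)) (vtx τ n i j) ≤ 1 := by
  have h := dist_base_le τ n ((i : ZMod (n + 1)), ((j + 1 : ℕ) : ZMod (n + 1)))
    ((i : ZMod (n + 1)), (j : ZMod (n + 1)))
  have h2 := tdist_stepy_le (n := n) ((i : ZMod (n + 1)), (j : ZMod (n + 1)))
  simp only at h2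
  rw [← Nat.cast_succ] at h2
  refine le_trans h ?_
  exact_mod_cast h2

theorem dist_vtx_le (n a b : ℕ) {e f e' f' : ℕ} (he : e ≤ 1) (hf : f ≤ 1) (he' : e' ≤ 1)
    (hf' : f' ≤ 1) : dist (vtx τ n (a + e) (b + f)) (vtx τ n (a + e') (b + f')) ≤ 2 := by
  have hx : ∀ j, dist (vtx τ n (a + e) j) (vtx τ n (a + e') j) ≤ 1 := by
    intro j
    have h := dist_vtx_x τ n a j
    have h' : dist (vtx τ n a j) (vtx τ n (a + 1) j) ≤ 1 := by rwa [dist_comm]
    interval_cases e <;> interval_cases e' <;> simp_all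
  have hy : ∀ i, dist (vtx τ n i (b + f)) (vtx τ n i (b + f')) ≤ 1 := by
    intro i
    have h := dist_vtx_y τ n i b
    have h' : dist (vtx τ n i b) (vtx τ n i (b + 1)) ≤ 1 := by rwa [dist_comm]
    interval_cases f <;> interval_cases f' <;> simp_all
  have h1 := hx (b + f)
  have h2 := hy (a + e')
  have h3 := dist_triangle (vtx τ n (a + e) (b + f)) (vtx τ n (a + e') (b + f))
    (vtx τ n (a + e') (b + f'))
  linarith

theorem inRips_gpt (n m : ℕ) (g : Grid (sd n m)) : InRips 2 (gpt τ n m g) := by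
  intro x hx y hy
  rw [gpt_val] at hx hy
  obtain ⟨e, he, f, hf, rfl⟩ := mem_support_gfc τ _ _ _ _ _ hx
  obtain ⟨e', he', f', hf', rfl⟩ := mem_support_gfc τ _ _ _ _ _ hy
  exact dist_vtx_le τ n _ _ he hf he' hf'

/-- The `l^1` norm. -/
noncomputable def gnrm {X : Type} (f : X →₀ ℚ) : ℝ := f.sum fun _ a => |(a : ℝ)|

theorem gnrm_add_le {X : Type} (f g : X →₀ ℚ) : gnrm (f + g) ≤ gnrm f + gnrm g := by
  classical
  unfold gnrm
  rw [Finsupp.sum_of_support_subset (f + g) Finsupp.support_add _ (fun _ _ => by simp),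
    Finsupp.sum_of_support_subset f (Finset.subset_union_left (s₂ := g.support)) _
      (fun _ _ => by simp),
    Finsupp.sum_of_support_subset g (Finset.subset_union_right (s₁ := f.support)) _
      (fun _ _ => by simp), ← Finset.sum_add_distrib]
  refine Finset.sum_le_sum fun x _ => ?_
  rw [Finsupp.add_apply, Rat.cast_add]
  exact abs_add_le _ _

theorem gnrm_single {X : Type} (x : X) (a : ℚ) : gnrm (Finsupp.single x a) = |(a : ℝ)| := by
  unfold gnrm
  rw [Finsupp.sum_single_index (by simp)]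

theorem gnrm_four {X : Type} (x y z t : X) {a b : ℚ} (ha : 0 ≤ a) (hb : 0 ≤ b) :
    gnrm (Finsupp.single x a + Finsupp.single y (-a) + Finsupp.single z b +
      Finsupp.single t (-b)) ≤ 2 * (a + b : ℚ) := by
  have h1 := gnrm_add_le (Finsupp.single x a + Finsupp.single y (-a) + Finsupp.single z b)
    (Finsupp.single t (-b))
  have h2 := gnrm_add_le (Finsupp.single x a + Finsupp.single y (-a)) (Finsupp.single z b)
  have h3 := gnrm_add_le (Finsupp.single x a) (Finsupp.single y (-a))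
  rw [gnrm_single] at h1 h2
  rw [gnrm_single, gnrm_single] at h3
  have ha' : (0 : ℝ) ≤ a := by exact_mod_cast ha
  have hb' : (0 : ℝ) ≤ b := by exact_mod_cast hb
  rw [Rat.cast_neg, abs_neg] at h1 h3
  rw [abs_of_nonneg ha'] at h3
  rw [abs_of_nonneg hb'] at h1 h2
  push_cast
  linarith

theorem gfc_dist_x (n a b : ℕ) {α β δ : ℚ} (hδ : 0 ≤ δ) (h2 : 0 ≤ β) (h3 : β ≤ 1) :
    gnrm (gfc τ n a b α β - gfc τ n a b (α + δ) β) ≤ 2 * (δ : ℝ) := by
  have e : gfc τ n a b α β - gfc τ n a b (α + δ) β =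
      Finsupp.single (vtx τ n a b) (δ * (1 - β)) +
      Finsupp.single (vtx τ n (a + 1) b) (-(δ * (1 - β))) +
      Finsupp.single (vtx τ n a (b + 1)) (δ * β) +
      Finsupp.single (vtx τ n (a + 1) (b + 1)) (-(δ * β)) := by
    classical
    unfold gfc
    ext x
    simp only [Finsupp.sub_apply, Finsupp.add_apply, Finsupp.single_apply]
    split_ifs <;> ring
  rw [e]
  refine (gnrm_four _ _ _ _ (mul_nonneg hδ (by linarith)) (mul_nonneg hδ h2)).trans
    (le_of_eq ?_)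
  push_cast
  ring

theorem gfc_dist_y (n a b : ℕ) {α β δ : ℚ} (hδ : 0 ≤ δ) (h2 : 0 ≤ α) (h3 : α ≤ 1) :
    gnrm (gfc τ n a b α β - gfc τ n a b α (β + δ)) ≤ 2 * (δ : ℝ) := by
  have e : gfc τ n a b α β - gfc τ n a b α (β + δ) =
      Finsupp.single (vtx τ n a b) (δ * (1 - α)) +
      Finsupp.single (vtx τ n a (b + 1)) (-(δ * (1 - α))) +
      Finsupp.single (vtx τ n (a + 1) b) (δ * α) +
      Finsupp.single (vtx τ n (a + 1) (b + 1)) (-(δ * α)) := by
    classical
    unfold gfc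
    ext x
    simp only [Finsupp.sub_apply, Finsupp.add_apply, Finsupp.single_apply]
    split_ifs <;> ring
  rw [e]
  refine (gnrm_four _ _ _ _ (mul_nonneg hδ (by linarith)) (mul_nonneg hδ h2)).trans
    (le_of_eq ?_)
  push_cast
  ring

theorem gfc_one_x (n a b : ℕ) (β : ℚ) : gfc τ n a b 1 β = gfc τ n (a + 1) b 0 β := by
  unfold gfc
  simp

theorem gfc_one_y (n a b : ℕ) (α : ℚ) : gfc τ n a b α 1 = gfc τ n a (b + 1) α 0 := by
  unfold gfc
  simp

theorem vtx_wrap_x (n j : ℕ) : vtx τ n (n + 1) j = vtx τ n 0 j := by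
  unfold vtx
  have h : ((n + 1 : ℕ) : ZMod (n + 1)) = ((0 : ℕ) : ZMod (n + 1)) := by simp
  rw [h]

theorem vtx_wrap_y (n i : ℕ) : vtx τ n i (n + 1) = vtx τ n i 0 := by
  unfold vtx
  have h : ((n + 1 : ℕ) : ZMod (n + 1)) = ((0 : ℕ) : ZMod (n + 1)) := by simp
  rw [h]

theorem gfc_wrap_x (n b : ℕ) (β : ℚ) : gfc τ n (n + 1) b 0 β = gfc τ n 0 b 0 β := by
  unfold gfc
  simp [vtx_wrap_x]

theorem gfc_wrap_y (n a : ℕ) (α : ℚ) : gfc τ n a (n + 1) α 0 = gfc τ n a 0 α 0 := by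
  unfold gfc
  simp [vtx_wrap_y]

theorem frc_eq_zero (m a : ℕ) : frc m (a * 2 ^ m) = 0 := by
  unfold frc
  simp

/-- The next value of a coordinate. -/
theorem next_cases {n m : ℕ} (a : ZMod (sd n m)) :
    ((a + 1).val / 2 ^ m = a.val / 2 ^ m ∧ frc m (a + 1).val = frc m a.val + 1 / 2 ^ m) ∨
    (frc m a.val + 1 / 2 ^ m = 1 ∧ frc m (a + 1).val = 0 ∧
      ((a + 1).val / 2 ^ m = a.val / 2 ^ m + 1 ∨
        ((a + 1).val / 2 ^ m = 0 ∧ a.val / 2 ^ m = n))) := by
  have hsd : (a + 1).val = (a.val + 1) % sd n m := by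
    have h1 : a + 1 = ((a.val + 1 : ℕ) : ZMod (sd n m)) := by simp
    rw [h1, ZMod.val_natCast]
  have hlt : a.val < sd n m := ZMod.val_lt a
  have h2m : 0 < 2 ^ m := by positivity
  have hdm := Nat.div_add_mod a.val (2 ^ m)
  have hml := Nat.mod_lt a.val h2m
  have hdl := div_lt_of_grid a
  have hq : (2 : ℚ) ^ m ≠ 0 := by positivity
  rcases Nat.lt_or_ge (a.val % 2 ^ m + 1) (2 ^ m) with hc | hc
  · left
    have e0 : a.val + 1 = 2 ^ m * (a.val / 2 ^ m) + (a.val % 2 ^ m + 1) := by omega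
    have e1 : (a.val + 1) / 2 ^ m = a.val / 2 ^ m := by
      rw [e0, Nat.mul_add_div h2m, Nat.div_eq_of_lt hc, add_zero]
    have e2 : (a.val + 1) % 2 ^ m = a.val % 2 ^ m + 1 := by
      rw [e0, Nat.mul_add_mod, Nat.mod_eq_of_lt hc]
    have e3 : a.val + 1 < sd n m := by
      by_contra hcon
      have h5 : a.val + 1 = sd n m := by omega
      rw [h5] at e1
      have h6 : sd n m / 2 ^ m = n + 1 := Nat.mul_div_cancel_left _ h2m
      omega
    rw [hsd, Nat.mod_eq_of_lt e3]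
    refine ⟨e1, ?_⟩
    unfold frc
    rw [e2]
    push_cast
    ring
  · right
    have hcc : a.val % 2 ^ m + 1 = 2 ^ m := by omega
    have e0 : a.val + 1 = (a.val / 2 ^ m + 1) * 2 ^ m := by
      have h7 : (a.val / 2 ^ m + 1) * 2 ^ m = 2 ^ m * (a.val / 2 ^ m) + 2 ^ m := by ring
      omega
    refine ⟨?_, ?_⟩
    · unfold frc
      rw [← add_div, div_eq_one_iff_eq hq]
      exact_mod_cast hcc
    · rcases Nat.lt_or_ge (a.val / 2 ^ m + 1) (n + 1) with hl | hl
      · have e3 : a.val + 1 < sd n m := by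
          rw [e0]
          show _ < 2 ^ m * (n + 1)
          rw [mul_comm (2 ^ m)]
          exact Nat.mul_lt_mul_of_pos_right hl h2m
        rw [hsd, Nat.mod_eq_of_lt e3, e0, frc_eq_zero]
        exact ⟨rfl, Or.inl (Nat.mul_div_cancel _ h2m)⟩
      · have e4 : a.val / 2 ^ m = n := by omega
        have e5 : a.val + 1 = sd n m := by
          rw [e0, e4]
          exact mul_comm _ _
        rw [hsd, e5, Nat.mod_self]
        refine ⟨?_, Or.inr ⟨by simp, e4⟩⟩
        unfold frc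
        simp

/-- Neighbouring grid points are close. -/
theorem dist_gpt_x (n m : ℕ) (hn : 3 ≤ n) (g : Grid (sd n m)) :
    (gpt τ n m g).dist (gpt τ n m (g.1 + 1, g.2)) ≤ 2 / 2 ^ m := by
  have hkey : (gpt τ n m (g.1 + 1, g.2)).1 = gfc τ n (g.1.val / 2 ^ m) (g.2.val / 2 ^ m)
      (frc m g.1.val + 1 / 2 ^ m) (frc m g.2.val) := by
    rw [gpt_val]
    rcases next_cases g.1 with ⟨h1, h2⟩ | ⟨h1, h2, h3 | ⟨h3, h4⟩⟩
    · rw [h1, h2]
    · rw [h1, h2, h3, gfc_one_x]
    · rw [h1, h2, h3, h4, gfc_one_x, gfc_wrap_x]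
  have h := gfc_dist_x τ n (g.1.val / 2 ^ m) (g.2.val / 2 ^ m) (α := frc m g.1.val)
    (δ := 1 / 2 ^ m) (by positivity) (frc_nonneg m g.2.val) (frc_lt_one m g.2.val).le
  rw [← hkey, ← gpt_val] at h
  refine le_trans h (le_of_eq ?_)
  push_cast
  ring

theorem dist_gpt_y (n m : ℕ) (hn : 3 ≤ n) (g : Grid (sd n m)) :
    (gpt τ n m g).dist (gpt τ n m (g.1, g.2 + 1)) ≤ 2 / 2 ^ m := by
  have hkey : (gpt τ n m (g.1, g.2 + 1)).1 = gfc τ n (g.1.val / 2 ^ m) (g.2.val / 2 ^ m)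
      (frc m g.1.val) (frc m g.2.val + 1 / 2 ^ m) := by
    rw [gpt_val]
    rcases next_cases g.2 with ⟨h1, h2⟩ | ⟨h1, h2, h3 | ⟨h3, h4⟩⟩
    · rw [h1, h2]
    · rw [h1, h2, h3, gfc_one_y]
    · rw [h1, h2, h3, h4, gfc_one_y, gfc_wrap_y]
  have h := gfc_dist_y τ n (g.1.val / 2 ^ m) (g.2.val / 2 ^ m) (β := frc m g.2.val)
    (δ := 1 / 2 ^ m) (by positivity) (frc_nonneg m g.1.val) (frc_lt_one m g.1.val).le
  rw [← hkey, ← gpt_val] at h
  refine le_trans h (le_of_eq ?_)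
  push_cast
  ring

/-- The index set of all grid points of refinement `m`. -/
abbrev GI (m : ℕ) : Type := Σ n : {n : ℕ // 3 ≤ n}, Grid (sd n.1 m)

/-- The basis vectors used for the grid points. -/
noncomputable def ji (m : ℕ) : GI m ↪ XT τ × ℕ where
  toFun g := idx (gpt τ g.1.1 m g.2) _ (vtx_mem_gpt τ g.1.1 m g.2)
  inj' := by
    rintro ⟨⟨n, hn⟩, g⟩ ⟨⟨n', hn'⟩, g'⟩ h
    obtain ⟨h1, h2⟩ := idx_injective _ _ h
    have h3 : n = n' := congrArg XT.n h2
    subst h3
    have h4 := gpt_injective τ n m hn h1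
    simp only at h4
    rw [h4]

theorem pos_ji (m : ℕ) (g : GI m) : pos (ji τ m g) = gpt τ g.1.1 m g.2 := pos_idx _ _ _

/-- The inclusion of the grid of refinement `m` into the next one. -/
def dbl (m : ℕ) (g : GI m) : GI (m + 1) :=
  ⟨g.1, (((2 * g.2.1.val : ℕ) : ZMod _), ((2 * g.2.2.val : ℕ) : ZMod _))⟩

theorem val_dbl {n m : ℕ} (a : ZMod (sd n m)) :
    ((2 * a.val : ℕ) : ZMod (sd n (m + 1))).val = 2 * a.val := by
  rw [ZMod.val_natCast]
  apply Nat.mod_eq_of_lt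
  have h := ZMod.val_lt a
  have h2 : sd n (m + 1) = 2 * sd n m := by unfold sd; ring
  omega

theorem dbl_div (m X : ℕ) : 2 * X / 2 ^ (m + 1) = X / 2 ^ m := by
  rw [pow_succ', Nat.mul_div_mul_left _ _ (by norm_num)]

theorem frc_dbl (m X : ℕ) : frc (m + 1) (2 * X) = frc m X := by
  unfold frc
  rw [pow_succ', Nat.mul_mod_mul_left, pow_succ']
  push_cast
  rw [mul_div_mul_left _ _ (by norm_num)]

theorem idx_congr {X : Type} [Countable X] {p p' : RPt X} {x x' : X} (hp : p = p')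
    (hx : x = x') (h : x ∈ p.1.support) (h' : x' ∈ p'.1.support) : idx p x h = idx p' x' h' := by
  subst hp
  subst hx
  rfl

theorem gpt_dbl (m : ℕ) (g : GI m) :
    gpt τ (dbl m g).1.1 (m + 1) (dbl m g).2 = gpt τ g.1.1 m g.2 := by
  apply Subtype.ext
  rw [gpt_val, gpt_val]
  simp only [dbl]
  rw [val_dbl, val_dbl, dbl_div, dbl_div, frc_dbl, frc_dbl]

theorem ji_dbl (m : ℕ) (g : GI m) : ji τ (m + 1) (dbl m g) = ji τ m g := by
  refine idx_congr (gpt_dbl τ m g) ?_ _ _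
  simp only [dbl]
  rw [val_dbl, val_dbl, dbl_div, dbl_div]

end Vale.Agent.P212
end
end

section

section

/-! Approximate units of projections. -/

namespace Vale.Agent.P212

namespace Approx

variable {X : Type}

theorem proj_add_compl {J : Type} (S : Set J) : proj S + proj Sᶜ = 1 := by
  ext f j
  change (proj S f : J → ℂ) j + (proj Sᶜ f : J → ℂ) j = (f : J → ℂ) j
  by_cases h : j ∈ S
  · rw [proj_apply_mem _ h, proj_apply_not_mem (S := Sᶜ) _ (fun k => k h), add_zero]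
  · rw [proj_apply_not_mem _ h, proj_apply_mem (S := Sᶜ) _ h, zero_add]

theorem isCompactOperator_proj_singleton {J : Type} (j : J) :
    IsCompactOperator (proj ({j} : Set J)) := by
  classical
  have h : proj ({j} : Set J) =
      (lp.singleContinuousLinearMap ℂ (fun _ : J => ℂ) 2 j) ∘L
        (lp.evalCLM ℂ (fun _ : J => ℂ) 2 j) := by
    ext f i
    change (proj ({j} : Set J) f : J → ℂ) i = (lp.single 2 j ((f : J → ℂ) j) : L2 J) i
    by_cases hi : i = j
    · subst hi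
      rw [proj_apply_mem (S := {i}) _ (Set.mem_singleton i), lp.single_apply_self]
    · rw [proj_apply_not_mem (S := {j}) _ (fun k => hi k), lp.single_apply_ne _ _ _ hi]
  rw [h]
  have h2 : IsCompactOperator (lp.evalCLM ℂ (fun _ : J => ℂ) 2 j) :=
    isCompactOperator_of_locallyCompactSpace_dom
      (lp.evalCLM ℂ (fun _ : J => ℂ) 2 j : L2 J →L[ℂ] ℂ)
  exact h2.clm_comp (lp.singleContinuousLinearMap ℂ (fun _ : J => ℂ) 2 j)

theorem proj_insert {J : Type} {j : J} {S : Set J} (h : j ∉ S) :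
    proj (insert j S) = proj {j} + proj S := by
  ext f i
  change (proj (insert j S) f : J → ℂ) i = (proj {j} f : J → ℂ) i + (proj S f : J → ℂ) i
  by_cases h1 : i = j
  · subst h1
    rw [proj_apply_mem _ (Set.mem_insert _ _), proj_apply_mem _ (Set.mem_singleton _),
      proj_apply_not_mem _ h, add_zero]
  · by_cases h2 : i ∈ S
    · rw [proj_apply_mem _ (Set.mem_insert_of_mem _ h2),
        proj_apply_not_mem (S := {j}) _ (fun k => h1 k), proj_apply_mem _ h2, zero_add]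
    · rw [proj_apply_not_mem _ (fun k => k.elim h1 h2),
        proj_apply_not_mem (S := {j}) _ (fun k => h1 k), proj_apply_not_mem _ h2, zero_add]

theorem isCompactOperator_proj_finite {J : Type} {S : Set J} (hS : S.Finite) :
    IsCompactOperator (proj S) := by
  induction S, hS using Set.Finite.induction_on with
  | empty =>
    rw [proj_empty]
    exact isCompactOperator_zero
  | @insert a S ha _ ih =>
    rw [proj_insert ha]
    exact (isCompactOperator_proj_singleton a).add ih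

/-- The tail projections. -/
noncomputable def tailP (X : Type) (k : ℕ) : L2 (X × ℕ) →L[ℂ] L2 (X × ℕ) :=
  proj {j : X × ℕ | k ≤ j.2}

theorem tailP_tendsto (f : L2 (X × ℕ)) {δ : ℝ} (hδ : 0 < δ) :
    ∃ k : ℕ, ∀ l, k ≤ l → ‖tailP X l f‖ < δ := by
  classical
  have h : Filter.Tendsto (fun s : Finset (X × ℕ) =>
      ∑ i ∈ s, (lp.single 2 i ((f : X × ℕ → ℂ) i) : L2 (X × ℕ))) Filter.atTop (nhds f) :=
    lp.hasSum_single (E := fun _ : X × ℕ => ℂ) (p := 2) (by simp) f
  obtain ⟨s, hs⟩ := Metric.tendsto_atTop.1 h δ hδ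
  have hs' := hs s le_rfl
  refine ⟨(s.sup Prod.snd) + 1, fun l hl => ?_⟩
  have hg : tailP X l (∑ i ∈ s, lp.single 2 i ((f : X × ℕ → ℂ) i)) = 0 := by
    ext j
    by_cases hj : l ≤ j.2
    · rw [tailP, proj_apply_mem (S := {j : X × ℕ | l ≤ j.2}) _ hj, lp.coeFn_sum,
        Finset.sum_apply]
      refine Finset.sum_eq_zero (fun i hi => ?_)
      rw [lp.single_apply_ne]
      · rintro rfl
        have := Finset.le_sup (f := Prod.snd) hi
        omega
    · rw [tailP, proj_apply_not_mem (S := {j : X × ℕ | l ≤ j.2}) _ hj]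
      rfl
  have h2 : tailP X l f = tailP X l (f - ∑ i ∈ s, lp.single 2 i ((f : X × ℕ → ℂ) i)) := by
    rw [map_sub, hg, sub_zero]
  rw [h2]
  refine (norm_proj_apply_le _ _).trans_lt ?_
  rw [← dist_eq_norm, dist_comm]
  exact hs'

theorem tailP_mul_compact {K : L2 (X × ℕ) →L[ℂ] L2 (X × ℕ)} (hK : IsCompactOperator K)
    {δ : ℝ} (hδ : 0 < δ) : ∃ k : ℕ, ∀ l, k ≤ l → ‖tailP X l * K‖ ≤ δ := by
  have h1 := hK
  change IsCompactOperator (K : L2 (X × ℕ) →ₗ[ℂ] L2 (X × ℕ)) at h1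
  rw [isCompactOperator_iff_isCompact_closure_image_closedBall _ zero_lt_one] at h1
  have h3 : TotallyBounded (K '' Metric.closedBall 0 1) :=
    h1.totallyBounded.subset subset_closure
  obtain ⟨t, ht, hcov⟩ := Metric.totallyBounded_iff.1 h3 (δ / 2) (by positivity)
  have hex : ∀ y : L2 (X × ℕ), ∃ k : ℕ, ∀ l, k ≤ l → ‖tailP X l y‖ < δ / 2 :=
    fun y => tailP_tendsto y (by positivity)
  choose k hk using hex
  refine ⟨ht.toFinset.sup k, fun l hl => ?_⟩
  refine ContinuousLinearMap.opNorm_le_of_unit_norm hδ.le (fun f hf => ?_)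
  have hf' := hcov ⟨f, by rw [mem_closedBall_zero_iff, hf], rfl⟩
  simp only [Set.mem_iUnion, Metric.mem_ball, exists_prop] at hf'
  obtain ⟨y, hy, hfy⟩ := hf'
  have hl' : k y ≤ l := (Finset.le_sup (f := k) (ht.mem_toFinset.2 hy)).trans hl
  have h4 := hk y l hl'
  have h5 : ‖tailP X l (K f - y)‖ < δ / 2 := by
    refine (norm_proj_apply_le _ _).trans_lt ?_
    rwa [← dist_eq_norm]
  change ‖tailP X l (K f)‖ ≤ δ
  have h6 : tailP X l (K f) = tailP X l (K f - y) + tailP X l y := by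
    rw [map_sub]; abel
  rw [h6]
  refine (norm_add_le _ _).trans ?_
  linarith only [h4, h5]

/-- The complement of the cut-off projection. -/
noncomputable def coP (κ : X → ℕ) : L2 (X × ℕ) →L[ℂ] L2 (X × ℕ) :=
  proj {j : X × ℕ | κ j.1 ≤ j.2}

/-- The cut-off projection. -/
noncomputable def capP (κ : X → ℕ) : L2 (X × ℕ) →L[ℂ] L2 (X × ℕ) :=
  proj {j : X × ℕ | j.2 < κ j.1}

theorem capP_add_coP (κ : X → ℕ) : capP κ + coP κ = 1 := by
  have h : {j : X × ℕ | κ j.1 ≤ j.2} = {j : X × ℕ | j.2 < κ j.1}ᶜ := by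
    ext j
    simp
  rw [capP, coP, h, proj_add_compl]

theorem coP_apply (κ : X → ℕ) (g : L2 (X × ℕ)) (i : X × ℕ) :
    (coP κ g : X × ℕ → ℂ) i =
      (tailP X (κ i.1) (proj (Prod.fst ⁻¹' {i.1}) g) : X × ℕ → ℂ) i := by
  by_cases hi : κ i.1 ≤ i.2
  · rw [coP, tailP, proj_apply_mem (S := {j : X × ℕ | κ j.1 ≤ j.2}) _ hi,
      proj_apply_mem (S := {j : X × ℕ | κ i.1 ≤ j.2}) _ hi,
      proj_apply_mem (S := (Prod.fst ⁻¹' {i.1} : Set (X × ℕ))) _ rfl]
  · rw [coP, tailP, proj_apply_not_mem (S := {j : X × ℕ | κ j.1 ≤ j.2}) _ hi,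
      proj_apply_not_mem (S := {j : X × ℕ | κ i.1 ≤ j.2}) _ hi]

theorem norm_coP_mul_le {κ : X → ℕ} {T : L2 (X × ℕ) →L[ℂ] L2 (X × ℕ)} {d : X → ℝ} {δ : ℝ}
    (hδ : 0 ≤ δ) (hd : ∀ s : Finset X, ∑ x ∈ s, d x ^ 2 ≤ δ ^ 2)
    (h : ∀ x, ‖tailP X (κ x) * (proj (Prod.fst ⁻¹' {x}) * T)‖ ≤ d x) :
    ‖coP κ * T‖ ≤ δ := by
  classical
  refine ContinuousLinearMap.opNorm_le_bound _ hδ (fun f => ?_)
  change ‖coP κ (T f)‖ ≤ δ * ‖f‖
  have h2 : (0 : ℝ) < (2 : ENNReal).toReal := by norm_num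
  refine lp.norm_le_of_forall_sum_le h2 (by positivity) (fun s => ?_)
  have h3 : ∀ x ∈ s.image Prod.fst, ∑ i ∈ s with i.1 = x,
      ‖(coP κ (T f) : X × ℕ → ℂ) i‖ ^ (2 : ENNReal).toReal ≤ (d x) ^ 2 * ‖f‖ ^ 2 := by
    intro x _
    calc ∑ i ∈ s with i.1 = x, ‖(coP κ (T f) : X × ℕ → ℂ) i‖ ^ (2 : ENNReal).toReal
        = ∑ i ∈ s with i.1 = x, ‖(tailP X (κ x) (proj (Prod.fst ⁻¹' {x}) (T f)) :
            X × ℕ → ℂ) i‖ ^ (2 : ENNReal).toReal := by
          refine Finset.sum_congr rfl (fun i hi => ?_)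
          rw [coP_apply, (Finset.mem_filter.1 hi).2]
      _ ≤ ‖tailP X (κ x) (proj (Prod.fst ⁻¹' {x}) (T f))‖ ^ (2 : ENNReal).toReal :=
          lp.sum_rpow_le_norm_rpow h2 _ _
      _ = ‖tailP X (κ x) (proj (Prod.fst ⁻¹' {x}) (T f))‖ ^ 2 := by
          rw [ENNReal.toReal_ofNat, Real.rpow_ofNat]
      _ ≤ (d x * ‖f‖) ^ 2 := by
          gcongr
          exact (tailP X (κ x) * (proj (Prod.fst ⁻¹' {x}) * T)).le_of_opNorm_le (h x) f
      _ = (d x) ^ 2 * ‖f‖ ^ 2 := by ring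
  rw [← Finset.sum_fiberwise_of_maps_to (g := Prod.fst) (t := s.image Prod.fst)
    (fun i hi => Finset.mem_image_of_mem _ hi)]
  refine (Finset.sum_le_sum h3).trans ?_
  rw [← Finset.sum_mul, ENNReal.toReal_ofNat, Real.rpow_ofNat, mul_pow]
  gcongr
  exact hd _

theorem exists_weights [Countable X] {δ : ℝ} (hδ : 0 < δ) :
    ∃ d : X → ℝ, (∀ x, 0 < d x) ∧ ∀ s : Finset X, ∑ x ∈ s, d x ^ 2 ≤ δ ^ 2 := by
  have hne : (⟨δ ^ 2, by positivity⟩ : NNReal) ≠ 0 := by
    intro h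
    have h' : δ ^ 2 = 0 := congrArg NNReal.toReal h
    exact absurd h' (pow_pos hδ 2).ne'
  obtain ⟨e, he, c, hc, hcδ⟩ := NNReal.exists_pos_sum_of_countable hne X
  refine ⟨fun x => Real.sqrt (e x), fun x => Real.sqrt_pos.2 (he x), fun s => ?_⟩
  have h1 : ∀ x, Real.sqrt (e x) ^ 2 = e x := fun x => Real.sq_sqrt (e x).2
  simp only [h1]
  have h2 := sum_le_hasSum s (fun i _ => bot_le) hc
  have h3 : ∑ x ∈ s, e x ≤ (⟨δ ^ 2, by positivity⟩ : NNReal) := h2.trans hcδ.le
  exact_mod_cast h3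

theorem exists_kappa [MetricSpace X] [BddGeometry X]
    (F : Finset (L2 (X × ℕ) →L[ℂ] L2 (X × ℕ))) (hF : ∀ T ∈ F, IsRoe Prod.fst T)
    {δ : ℝ} (hδ : 0 < δ) : ∃ κ : X → ℕ, ∀ T ∈ F, ‖coP κ * T‖ ≤ δ ∧ ‖T * coP κ‖ ≤ δ := by
  classical
  have : Countable X := countable_of_bddGeometry
  obtain ⟨d, hd, hs⟩ := exists_weights (X := X) hδ
  have key : ∀ T : L2 (X × ℕ) →L[ℂ] L2 (X × ℕ), IsRoe (Prod.fst : X × ℕ → X) T → ∀ x : X,
      ∃ k : ℕ, ∀ l, k ≤ l → ‖tailP X l * (proj (Prod.fst ⁻¹' {x}) * T)‖ ≤ d x := by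
    intro T hT x
    obtain ⟨R, hR⟩ := hT.1
    refine tailP_mul_compact ?_ (hd x)
    rw [PropLE.proj_mul (s := Prod.fst) hR x]
    exact isCompactOperator_sum _ _ (fun w _ => hT.2 x w)
  have key2 : ∀ T : L2 (X × ℕ) →L[ℂ] L2 (X × ℕ), ∀ x : X, ∃ k : ℕ,
      IsRoe (Prod.fst : X × ℕ → X) T → ∀ l, k ≤ l →
        ‖tailP X l * (proj (Prod.fst ⁻¹' {x}) * T)‖ ≤ d x := by
    intro T x
    by_cases hT : IsRoe (Prod.fst : X × ℕ → X) T
    · obtain ⟨k, hk⟩ := key T hT x
      exact ⟨k, fun _ => hk⟩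
    · exact ⟨0, fun h => absurd h hT⟩
  choose k hk using key2
  refine ⟨fun x => F.sup (fun T => max (k T x) (k (star T) x)), fun T hT => ?_⟩
  have hle : ∀ x, max (k T x) (k (star T) x) ≤ F.sup (fun T => max (k T x) (k (star T) x)) :=
    fun x => Finset.le_sup (f := fun T => max (k T x) (k (star T) x)) hT
  refine ⟨norm_coP_mul_le hδ.le hs (fun x => hk T x (hF T hT) _
    ((le_max_left _ _).trans (hle x))), ?_⟩
  have h1 := norm_coP_mul_le (κ := fun x => F.sup (fun T => max (k T x) (k (star T) x)))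
    hδ.le hs (fun x => hk (star T) x (hF T hT).star _ ((le_max_right _ _).trans (hle x)))
  rw [← norm_star, star_mul, star_star] at h1
  rwa [coP, star_proj] at h1

theorem capP_mem_diagAlg [MetricSpace X] [BddGeometry X] (κ : X → ℕ) :
    capP κ ∈ diagAlg (Prod.fst : X × ℕ → X) := by
  refine ⟨fun x y hxy => ?_, fun x y => ?_⟩
  · have hne : x ≠ y := dist_pos.1 hxy
    rw [blk, capP, proj_mul_proj, proj_mul_of_disjoint]
    refine Set.disjoint_left.2 (fun j hj hj' => hne ?_)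
    exact (Set.mem_singleton_iff.1 hj.1).symm.trans (Set.mem_singleton_iff.1 hj')
  · rw [blk, capP, proj_mul_proj, proj_mul_proj]
    refine isCompactOperator_proj_finite ?_
    refine ((Set.finite_lt_nat (κ x)).image (fun n => (x, n))).subset ?_
    rintro ⟨a, n⟩ ⟨⟨h1, h2⟩, _⟩
    have h1' : a = x := h1
    subst h1'
    exact ⟨n, h2, rfl⟩

theorem isRoe_cut [MetricSpace X] [BddGeometry X] {T : L2 (X × ℕ) →L[ℂ] L2 (X × ℕ)}
    (hT : IsRoe (Prod.fst : X × ℕ → X) T) (κ : X → ℕ) :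
    IsRoe (Prod.fst : X × ℕ → X) (T - capP κ * T * capP κ) :=
  hT.sub (((isRoe_of_mem_diagAlg (capP_mem_diagAlg κ)).mul hT).mul
    (isRoe_of_mem_diagAlg (capP_mem_diagAlg κ)))

theorem norm_cut_le {T : L2 (X × ℕ) →L[ℂ] L2 (X × ℕ)} {κ : X → ℕ} {δ : ℝ}
    (h1 : ‖coP κ * T‖ ≤ δ) (h2 : ‖T * coP κ‖ ≤ δ) :
    ‖T - capP κ * T * capP κ‖ ≤ 2 * δ := by
  have h : T - capP κ * T * capP κ = coP κ * T + capP κ * (T * coP κ) := by
    have h3 : capP κ = 1 - coP κ := eq_sub_of_add_eq (capP_add_coP κ)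
    rw [h3]
    noncomm_ring
  rw [h]
  have h4 : ‖capP κ * (T * coP κ)‖ ≤ 1 * δ :=
    (norm_mul_le _ _).trans (mul_le_mul (proj_norm_le _) h2 (norm_nonneg _) zero_le_one)
  calc _ ≤ ‖coP κ * T‖ + ‖capP κ * (T * coP κ)‖ := norm_add_le _ _
    _ ≤ δ + 1 * δ := add_le_add h1 h4
    _ = 2 * δ := by ring

theorem exists_const [MetricSpace X] [BddGeometry X] {T : L2 (X × ℕ) →L[ℂ] L2 (X × ℕ)}
    (hT : IsRoe (Prod.fst : X × ℕ → X) T) : ∃ C : ℝ, 0 ≤ C ∧ ∀ (κ : X → ℕ) (δ : ℝ),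
      ‖coP κ * T‖ ≤ δ → ‖T * coP κ‖ ≤ δ →
      maxNorm Prod.fst ⟨T - capP κ * T * capP κ, (isRoe_cut hT κ).mem_roeU⟩ ≤ C * δ := by
  obtain ⟨R, hR⟩ := hT.1
  obtain ⟨M, χ, hχ⟩ := exists_colouring (X := X) (2 * R)
  refine ⟨M * (M * 2), by positivity, fun κ δ h1 h2 => maxNorm_le (fun p hp => ?_)⟩
  have hprop : PropLE (Prod.fst : X × ℕ → X) (T - capP κ * T * capP κ) R := by
    have h3 := (capP_mem_diagAlg (X := X) κ).1
    refine PropLE.sub hR ?_
    have h4 := (PropLE.mul h3 hR).mul h3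
    rwa [zero_add, add_zero] at h4
  have h5 := seminorm_le_of_colouring χ p (isRoe_cut hT κ) hprop hχ
    (c := 2 * δ) (fun a b => (norm_piece_le χ _ a b).trans (norm_cut_le h1 h2))
  refine h5.trans (le_of_eq (by ring))

theorem norm_toMax (s : X × ℕ → X) [MetricSpace X] [BddGeometry X] (T : roeU s) :
    ‖toMax s T‖ = maxNorm s T := norm_toC (maxNorm s) T

end Approx

open Approx in
/-- The maximal Roe algebra of a space has an approximate unit of projections. -/
theorem approx_unit {X : Type} [MetricSpace X] [BddGeometry X] [Nonempty X]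
    (F : Finset (CM (Prod.fst : X × ℕ → X))) (ε : ℝ) (hε : 0 < ε)
    (hF : ∀ b ∈ F, aug Prod.fst b = 0) :
    ∃ P : CM (Prod.fst : X × ℕ → X), aug Prod.fst P = 0 ∧ P * P = P ∧
      ∀ b ∈ F, ‖b - P * b * P‖ < ε := by
  classical
  have h1 : ∀ b : CM (Prod.fst : X × ℕ → X), ∃ T : L2 (X × ℕ) →L[ℂ] L2 (X × ℕ),
      ∃ hT : IsRoe (Prod.fst : X × ℕ → X) T, aug Prod.fst b = 0 →
        ‖b - toMax Prod.fst ⟨T, hT.mem_roeU⟩‖ < ε / 4 := by
    intro b
    by_cases hb : aug Prod.fst b = 0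
    · have h2 := (aug_eq_zero_iff Prod.fst b).1 hb
      obtain ⟨c, ⟨T, hT, rfl⟩, hc⟩ := Metric.mem_closure_iff.1 h2 (ε / 4) (by positivity)
      exact ⟨T, hT, fun _ => by rwa [← dist_eq_norm]⟩
    · exact ⟨0, IsRoe.zero, fun h => absurd h hb⟩
  choose T hT hbT using h1
  choose C hC hCT using fun b => exists_const (hT b)
  have hS : 0 < ∑ b ∈ F, C b + 1 := by
    have := Finset.sum_nonneg (s := F) (fun b _ => hC b)
    linarith
  have hδ : 0 < ε / 4 / (∑ b ∈ F, C b + 1) := by positivity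
  obtain ⟨κ, hκ⟩ := exists_kappa (F.image T) (fun S hS => by
    obtain ⟨b, _, rfl⟩ := Finset.mem_image.1 hS
    exact hT b) hδ
  have hPd := capP_mem_diagAlg (X := X) κ
  have hPR : IsRoe (Prod.fst : X × ℕ → X) (capP κ) := isRoe_of_mem_diagAlg hPd
  refine ⟨toMax Prod.fst ⟨capP κ, hPR.mem_roeU⟩, aug_roe _ _ hPR, ?_, fun b hb => ?_⟩
  · rw [← map_mul]
    congr 1
    exact Subtype.ext (proj_idem _)
  · set P := toMax Prod.fst ⟨capP κ, hPR.mem_roeU⟩ with hPdef
    set t := toMax Prod.fst ⟨T b, (hT b).mem_roeU⟩ with htdef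
    have hP : ‖P‖ ≤ 1 := by
      rw [hPdef, norm_toMax]
      exact maxNorm_le (fun p hp => (seminorm_le_of_diag p hPd).trans (proj_norm_le _))
    obtain ⟨h2, h3⟩ := hκ (T b) (Finset.mem_image_of_mem _ hb)
    have h4 : ‖t - P * t * P‖ ≤ ε / 4 := by
      have h5 : t - P * t * P = toMax Prod.fst
          ⟨T b - capP κ * T b * capP κ, (isRoe_cut (hT b) κ).mem_roeU⟩ := by
        rw [hPdef, htdef, ← map_mul, ← map_mul, ← map_sub]
        rfl
      rw [h5, norm_toMax]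
      refine (hCT b κ _ h2 h3).trans ?_
      have h6 : C b ≤ ∑ b ∈ F, C b + 1 := by
        have := Finset.single_le_sum (f := C) (fun b _ => hC b) hb
        linarith
      calc C b * (ε / 4 / (∑ b ∈ F, C b + 1))
          ≤ (∑ b ∈ F, C b + 1) * (ε / 4 / (∑ b ∈ F, C b + 1)) := by gcongr
        _ = ε / 4 := by field_simp
    have h7 := hbT b (hF b hb)
    have h8 : ‖P * (t - b) * P‖ ≤ 1 * (ε / 4) * 1 := by
      refine (norm_mul_le _ _).trans (mul_le_mul ((norm_mul_le _ _).trans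
        (mul_le_mul hP ?_ (norm_nonneg _) zero_le_one)) hP (norm_nonneg _) (by positivity))
      rw [norm_sub_rev]
      exact h7.le
    have h9 : b - P * b * P = (b - t) + (t - P * t * P) + P * (t - b) * P := by
      noncomm_ring
    rw [h9]
    calc _ ≤ ‖(b - t) + (t - P * t * P)‖ + ‖P * (t - b) * P‖ := norm_add_le _ _
      _ ≤ (‖b - t‖ + ‖t - P * t * P‖) + ‖P * (t - b) * P‖ := by gcongr; exact norm_add_le _ _
      _ < ε := by linarith only [h8, h7, h4, hε]

theorem K0Max_rep {X : Type} [MetricSpace X] [BddGeometry X] [Nonempty X]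
    (x : K0 (CM (Prod.fst : X × ℕ → X))) (hx : x ∈ K0Max (Prod.fst : X × ℕ → X)) :
    ∃ (n : ℕ) (e f : Matrix (Fin n) (Fin n) (CM (Prod.fst : X × ℕ → X)))
      (he : e * e = e) (hf : f * f = f), (∀ i j, aug Prod.fst (e i j) = 0) ∧
      (∀ i j, aug Prod.fst (f i j) = 0) ∧ x = K0.cls e he - K0.cls f hf :=
  K00_of_approx _ approx_unit x hx

end Vale.Agent.P212
end
end

section

section

/-! Permutation operators, and the unitaries of the path of Bott projections. -/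

namespace Vale.Agent.P212

open NNReal BoundedContinuousFunction Matrix
open scoped Matrix.Norms.L2Operator

theorem memℓp_permL {J : Type} (ρ : Equiv.Perm J) (f : L2 J) :
    Memℓp (fun j => (f : J → ℂ) (ρ.symm j)) 2 := by
  have h := lp.memℓp f
  rw [memℓp_gen_iff (by norm_num)] at h ⊢
  exact (Equiv.summable_iff (f := fun j => ‖(f : J → ℂ) j‖ ^ (2 : ENNReal).toReal) ρ.symm).2 h

/-- The unitary operator of a permutation of the basis. -/
noncomputable def permL {J : Type} (ρ : Equiv.Perm J) : L2 J →L[ℂ] L2 J :=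
  LinearMap.mkContinuous
    { toFun := fun f => ⟨fun j => (f : J → ℂ) (ρ.symm j), memℓp_permL ρ f⟩
      map_add' := fun f g => rfl
      map_smul' := fun c f => rfl } 1 (fun f => by
        rw [one_mul]
        refine le_of_eq ?_
        rw [lp.norm_eq_tsum_rpow (by norm_num), lp.norm_eq_tsum_rpow (by norm_num)]
        congr 1
        exact Equiv.tsum_eq ρ.symm (fun j => ‖(f : J → ℂ) j‖ ^ (2 : ENNReal).toReal))

section

variable {J : Type}

theorem permL_apply (ρ : Equiv.Perm J) (f : L2 J) (j : J) :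
    (permL ρ f : J → ℂ) j = (f : J → ℂ) (ρ.symm j) := rfl

open Classical in
theorem ent_permL (ρ : Equiv.Perm J) (j k : J) : ent (permL ρ) j k = if j = ρ k then 1 else 0 := by
  rw [ent_eq, permL_apply, lp.single_apply]
  by_cases h : ρ.symm j = k
  · subst h
    simp
  · have h2 : j ≠ ρ k := fun h3 => h (by rw [h3, Equiv.symm_apply_apply])
    rw [Pi.single_apply, if_neg h, if_neg h2]

theorem permL_mul (ρ ρ' : Equiv.Perm J) : permL (ρ * ρ') = permL ρ * permL ρ' := by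
  apply ContinuousLinearMap.ext
  intro f
  apply lp.ext
  funext j
  rfl

theorem permL_one : permL (1 : Equiv.Perm J) = 1 := by
  apply ContinuousLinearMap.ext
  intro f
  apply lp.ext
  funext j
  rfl

theorem star_permL (ρ : Equiv.Perm J) : star (permL ρ) = permL ρ⁻¹ := by
  classical
  apply ext_ent
  intro j k
  rw [ent_star, ent_permL, ent_permL]
  by_cases h : k = ρ j
  · have h2 : j = ρ⁻¹ k := by rw [h]; simp
    rw [if_pos h, if_pos h2, star_one]
  · have h2 : j ≠ ρ⁻¹ k := fun h3 => h (by rw [h3]; simp)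
    rw [if_neg h, if_neg h2, star_zero]

theorem permL_sub_one_ent {ρ : Equiv.Perm J} {j k : J} (h : ent (permL ρ - 1) j k ≠ 0) :
    (j = ρ k ∨ j = k) ∧ ρ k ≠ k := by
  classical
  rw [ent_sub, ent_permL, ent_one] at h
  constructor
  · by_contra hcon
    push Not at hcon
    rw [if_neg hcon.1, if_neg hcon.2, sub_zero] at h
    exact h rfl
  · intro hk
    rw [hk, sub_self] at h
    exact h rfl

theorem ent_proj_mul (S : Set J) (T : L2 J →L[ℂ] L2 J) (j k : J) :
    ent (proj S * T) j k = S.indicator (fun j => ent T j k) j := by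
  classical
  rw [ent_eq]
  change (proj S (T (lp.single 2 k (1 : ℂ))) : J → ℂ) j = _
  by_cases h : j ∈ S
  · rw [proj_apply_mem _ h, Set.indicator_of_mem h, ent_eq]
  · rw [proj_apply_not_mem _ h, Set.indicator_of_notMem h]

theorem ent_mul_proj (S : Set J) (T : L2 J →L[ℂ] L2 J) (j k : J) :
    ent (T * proj S) j k = S.indicator (fun k => ent T j k) k := by
  have h1 : T * proj S = star (proj S * star T) := by
    rw [star_mul, star_star, star_proj]
  rw [h1, ent_star, ent_proj_mul]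
  by_cases h : k ∈ S
  · rw [Set.indicator_of_mem h, Set.indicator_of_mem h, ent_star, star_star]
  · rw [Set.indicator_of_notMem h, Set.indicator_of_notMem h, star_zero]

/-- Permutations moving finitely many basis vectors over each point, by a bounded distance. -/
theorem permL_mem {X : Type} [MetricSpace X] [BddGeometry X] {s : J → X} (ρ : Equiv.Perm J)
    (hf : ∀ x, {j | s j = x ∧ ρ j ≠ j}.Finite) (hb : ∃ R : ℝ, ∀ j, dist (s (ρ j)) (s j) ≤ R) :
    IsRoe s (permL ρ - 1) := by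
  classical
  obtain ⟨R, hR⟩ := hb
  refine ⟨⟨max R 0, fun x y hxy => ?_⟩, fun x y => ?_⟩
  · apply ext_ent
    intro j k
    rw [ent_zero]
    by_contra hne
    rw [blk, ent_mul_proj] at hne
    have hk : k ∈ s ⁻¹' {y} := by
      by_contra hk
      exact hne (Set.indicator_of_notMem hk _)
    rw [Set.indicator_of_mem hk, ent_proj_mul] at hne
    have hj : j ∈ s ⁻¹' {x} := by
      by_contra hj
      exact hne (Set.indicator_of_notMem hj _)
    rw [Set.indicator_of_mem hj] at hne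
    have h1 := permL_sub_one_ent hne
    have hk' : s k = y := hk
    have hj' : s j = x := hj
    rcases h1.1 with h | h
    · have h2 := hR k
      rw [← h, hj', hk'] at h2
      exact absurd hxy (not_lt.2 (h2.trans (le_max_left _ _)))
    · rw [h] at hj'
      rw [← hj', ← hk', dist_self] at hxy
      exact absurd hxy (not_lt.2 (le_max_right _ _))
  · have h1 : blk s (permL ρ - 1) x y =
        proj (s ⁻¹' {x}) * (permL ρ - 1) * proj {j | s j = y ∧ ρ j ≠ j} := by
      apply ext_ent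
      intro j k
      rw [blk, ent_mul_proj, ent_mul_proj]
      by_cases hk : s k = y
      · by_cases hk2 : ρ k = k
        · rw [Set.indicator_of_mem (show k ∈ s ⁻¹' {y} from hk),
            Set.indicator_of_notMem (fun h : k ∈ {j | s j = y ∧ ρ j ≠ j} => h.2 hk2),
            ent_proj_mul]
          have h2 : ent (permL ρ - 1) j k = 0 := by
            by_contra h
            exact (permL_sub_one_ent h).2 hk2
          by_cases hj : j ∈ s ⁻¹' {x}
          · rw [Set.indicator_of_mem hj, h2]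
          · rw [Set.indicator_of_notMem hj]
        · rw [Set.indicator_of_mem (show k ∈ s ⁻¹' {y} from hk),
            Set.indicator_of_mem (show k ∈ {j | s j = y ∧ ρ j ≠ j} from ⟨hk, hk2⟩)]
      · rw [Set.indicator_of_notMem (fun h : k ∈ s ⁻¹' {y} => hk h),
          Set.indicator_of_notMem (fun h : k ∈ {j | s j = y ∧ ρ j ≠ j} => hk h.1)]
    rw [h1]
    have h9 := (Approx.isCompactOperator_proj_finite (hf y)).clm_comp
      (proj (s ⁻¹' {x}) * (permL ρ - 1))
    exact h9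

end

/-! ### Parity -/

theorem par_add {M : ℕ} [NeZero M] (hM : 2 ∣ M) (x : ZMod M) (c : ℕ) :
    (x + c).val % 2 = (x.val + c) % 2 := by
  rw [ZMod.val_add, ZMod.val_natCast, Nat.mod_mod_of_dvd _ hM, Nat.add_mod,
    Nat.mod_mod_of_dvd _ hM, ← Nat.add_mod]

theorem par_add_two {M : ℕ} [NeZero M] (hM : 2 ∣ M) (x : ZMod M) :
    (x + 2).val % 2 = x.val % 2 := by
  have h := par_add hM x 2
  rw [Nat.cast_ofNat] at h
  omega

theorem par_sub_two {M : ℕ} [NeZero M] (hM : 2 ∣ M) (x : ZMod M) :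
    (x - 2).val % 2 = x.val % 2 := by
  have h := par_add_two hM (x - 2)
  rw [sub_add_cancel] at h
  exact h.symm

theorem par_add_one {M : ℕ} [NeZero M] (hM : 2 ∣ M) (x : ZMod M) :
    (x + 1).val % 2 = (x.val + 1) % 2 := by
  have h := par_add hM x 1
  rwa [Nat.cast_one] at h

theorem par_sub_one {M : ℕ} [NeZero M] (hM : 2 ∣ M) (x : ZMod M) :
    (x - 1).val % 2 = (x.val + 1) % 2 := by
  have h := par_add_one hM (x - 1)
  rw [sub_add_cancel] at h
  omega

theorem two_dvd_sd (n m : ℕ) : 2 ∣ sd n (m + 1) :=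
  Dvd.dvd.mul_right (Dvd.intro_left (2 ^ m) rfl) _

variable (τ : Tower)

/-- The step by two units of the even points in the first direction. -/
def gsX (m : ℕ) : Equiv.Perm (GI (m + 1)) where
  toFun g := ⟨g.1, (if g.2.1.val % 2 = 0 then g.2.1 + 2 else g.2.1, g.2.2)⟩
  invFun g := ⟨g.1, (if g.2.1.val % 2 = 0 then g.2.1 - 2 else g.2.1, g.2.2)⟩
  left_inv := by
    rintro ⟨n, x, y⟩
    have h2 := two_dvd_sd n.1 m
    by_cases h : x.val % 2 = 0
    · have h1 : (x + 2).val % 2 = 0 := (par_add_two h2 x).trans h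
      simp only [if_pos h, if_pos h1, add_sub_cancel_right]
    · simp only [if_neg h]
  right_inv := by
    rintro ⟨n, x, y⟩
    have h2 := two_dvd_sd n.1 m
    by_cases h : x.val % 2 = 0
    · have h1 : (x - 2).val % 2 = 0 := (par_sub_two h2 x).trans h
      simp only [if_pos h, if_pos h1, sub_add_cancel]
    · simp only [if_neg h]

/-- The exchange of the odd points with their successors in the first direction. -/
def tX (m : ℕ) : Equiv.Perm (GI (m + 1)) where
  toFun g := ⟨g.1, (if g.2.1.val % 2 = 0 then g.2.1 - 1 else g.2.1 + 1, g.2.2)⟩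
  invFun g := ⟨g.1, (if g.2.1.val % 2 = 0 then g.2.1 - 1 else g.2.1 + 1, g.2.2)⟩
  left_inv := by
    rintro ⟨n, x, y⟩
    have h2 := two_dvd_sd n.1 m
    by_cases h : x.val % 2 = 0
    · have h1 : ¬ (x - 1).val % 2 = 0 := by rw [par_sub_one h2 x]; omega
      simp only [if_pos h, if_neg h1, sub_add_cancel]
    · have h1 : (x + 1).val % 2 = 0 := by rw [par_add_one h2 x]; omega
      simp only [if_neg h, if_pos h1, add_sub_cancel_right]
  right_inv := by
    rintro ⟨n, x, y⟩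
    have h2 := two_dvd_sd n.1 m
    by_cases h : x.val % 2 = 0
    · have h1 : ¬ (x - 1).val % 2 = 0 := by rw [par_sub_one h2 x]; omega
      simp only [if_pos h, if_neg h1, sub_add_cancel]
    · have h1 : (x + 1).val % 2 = 0 := by rw [par_add_one h2 x]; omega
      simp only [if_neg h, if_pos h1, add_sub_cancel_right]

/-- The unit step in the first direction. -/
def fX (m : ℕ) : Equiv.Perm (GI m) where
  toFun g := ⟨g.1, (g.2.1 + 1, g.2.2)⟩
  invFun g := ⟨g.1, (g.2.1 - 1, g.2.2)⟩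
  left_inv := by
    rintro ⟨n, g⟩
    simp
  right_inv := by
    rintro ⟨n, g⟩
    simp

/-- The exchange of the two coordinates. -/
def swp (m : ℕ) : Equiv.Perm (GI m) where
  toFun g := ⟨g.1, (g.2.2, g.2.1)⟩
  invFun g := ⟨g.1, (g.2.2, g.2.1)⟩
  left_inv _ := rfl
  right_inv _ := rfl

/-- The step in the second direction. -/
def gsY (m : ℕ) : Equiv.Perm (GI (m + 1)) := swp (m + 1) * gsX m * swp (m + 1)

/-- The exchange in the second direction. -/
def tY (m : ℕ) : Equiv.Perm (GI (m + 1)) := swp (m + 1) * tX m * swp (m + 1)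

/-- The unit step in the second direction. -/
def fY (m : ℕ) : Equiv.Perm (GI m) := swp m * fX m * swp m

theorem tX_mul_gsX (m : ℕ) : tX m * gsX m = fX (m + 1) := by
  ext1 g
  obtain ⟨n, x, y⟩ := g
  have h2 := two_dvd_sd n.1 m
  change tX m (gsX m ⟨n, x, y⟩) = fX (m + 1) ⟨n, x, y⟩
  by_cases h : x.val % 2 = 0
  · have h1 : (x + 2).val % 2 = 0 := (par_add_two h2 x).trans h
    have h3 : x + 2 - 1 = x + 1 := by ring
    simp only [gsX, tX, fX, Equiv.coe_fn_mk, if_pos h, if_pos h1, h3]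
  · simp only [gsX, tX, fX, Equiv.coe_fn_mk, if_neg h]

theorem swp_mul_swp (m : ℕ) : swp m * swp m = 1 := by
  ext1 g
  rfl

theorem tY_mul_gsY (m : ℕ) : tY m * gsY m = fY (m + 1) := by
  rw [tY, gsY, fY, ← tX_mul_gsX]
  calc swp (m + 1) * tX m * swp (m + 1) * (swp (m + 1) * gsX m * swp (m + 1))
      = swp (m + 1) * tX m * (swp (m + 1) * swp (m + 1)) * gsX m * swp (m + 1) := by
        simp only [mul_assoc]
    _ = _ := by
        rw [swp_mul_swp, mul_one]
        simp only [mul_assoc]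

theorem tX_mul_self (m : ℕ) : tX m * tX m = 1 := by
  ext1 g
  exact (tX m).left_inv g

theorem tX_inv (m : ℕ) : (tX m)⁻¹ = tX m := inv_eq_of_mul_eq_one_left (tX_mul_self m)

theorem tY_mul_self (m : ℕ) : tY m * tY m = 1 := by
  rw [tY]
  calc swp (m + 1) * tX m * swp (m + 1) * (swp (m + 1) * tX m * swp (m + 1))
      = swp (m + 1) * tX m * (swp (m + 1) * swp (m + 1)) * tX m * swp (m + 1) := by
        simp only [mul_assoc]
    _ = swp (m + 1) * (tX m * tX m) * swp (m + 1) := by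
        rw [swp_mul_swp, mul_one]
        simp only [mul_assoc]
    _ = 1 := by
        rw [tX_mul_self, mul_one, swp_mul_swp]

theorem tY_inv (m : ℕ) : (tY m)⁻¹ = tY m := inv_eq_of_mul_eq_one_left (tY_mul_self m)

theorem commute_sX_sY (m : ℕ) : Commute (gsX m) (gsY m) := by
  change gsX m * gsY m = gsY m * gsX m
  ext1 g
  rfl

theorem commute_sX_tY (m : ℕ) : Commute (gsX m) (tY m) := by
  change gsX m * tY m = tY m * gsX m
  ext1 g
  rfl

theorem commute_tX_sY (m : ℕ) : Commute (tX m) (gsY m) := by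
  change tX m * gsY m = gsY m * tX m
  ext1 g
  rfl

theorem commute_tX_tY (m : ℕ) : Commute (tX m) (tY m) := by
  change tX m * tY m = tY m * tX m
  ext1 g
  rfl

/-- A permutation of the grid points as a unitary operator. -/
noncomputable def pL (m : ℕ) (π : Equiv.Perm (GI m)) : BX (XT τ) :=
  permL (π.viaEmbedding (ji τ m))

theorem pL_mul (m : ℕ) (π π' : Equiv.Perm (GI m)) : pL τ m (π * π') = pL τ m π * pL τ m π' := by
  rw [pL, pL, pL, ← permL_mul, ← Equiv.Perm.viaEmbeddingHom_apply,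
    ← Equiv.Perm.viaEmbeddingHom_apply, ← Equiv.Perm.viaEmbeddingHom_apply, map_mul]

theorem pL_one (m : ℕ) : pL τ m 1 = 1 := by
  rw [pL, ← Equiv.Perm.viaEmbeddingHom_apply, map_one, permL_one]

theorem star_pL (m : ℕ) (π : Equiv.Perm (GI m)) : star (pL τ m π) = pL τ m π⁻¹ := by
  rw [pL, pL, star_permL, ← Equiv.Perm.viaEmbeddingHom_apply, ← Equiv.Perm.viaEmbeddingHom_apply,
    map_inv]

theorem commute_pL (m : ℕ) {π π' : Equiv.Perm (GI m)} (h : Commute π π') :
    Commute (pL τ m π) (pL τ m π') := by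
  change pL τ m π * pL τ m π' = pL τ m π' * pL τ m π
  rw [← pL_mul, ← pL_mul, h.eq]

theorem fst_ji (m : ℕ) (g : GI m) :
    (ji τ m g).1 = vtx τ g.1.1 (g.2.1.val / 2 ^ m) (g.2.2.val / 2 ^ m) := rfl

theorem finite_GI (m k : ℕ) : {g : GI m | g.1.1 = k}.Finite := by
  by_cases h : 3 ≤ k
  · refine (Set.finite_range (fun p : Grid (sd k m) => (⟨⟨k, h⟩, p⟩ : GI m))).subset ?_
    rintro ⟨⟨n, hn⟩, p⟩ hg
    have hg' : n = k := hg
    subst hg'
    exact ⟨p, rfl⟩
  · have h0 : {g : GI m | g.1.1 = k} = ∅ := by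
      rw [Set.eq_empty_iff_forall_notMem]
      rintro ⟨⟨n, hn⟩, p⟩ hg
      have hg' : n = k := hg
      omega
    rw [h0]
    exact Set.finite_empty

/-- Permutations of the grid moving the vertices by at most two. -/
theorem pL_roe (m : ℕ) (π : Equiv.Perm (GI m))
    (h : ∀ g, dist (ji τ m (π g)).1 (ji τ m g).1 ≤ 2) :
    IsRoe (gX (XT τ)) (pL τ m π - 1) := by
  refine permL_mem _ (fun x => ?_) ⟨2, fun j => ?_⟩
  · refine ((finite_GI m x.n).image (ji τ m)).subset ?_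
    rintro j ⟨hj, hj2⟩
    by_cases hr : j ∈ Set.range (ji τ m)
    · obtain ⟨g, rfl⟩ := hr
      refine ⟨g, ?_, rfl⟩
      have hj' : (ji τ m g).1 = x := hj
      rw [fst_ji] at hj'
      exact congrArg XT.n hj'
    · exact absurd (Equiv.Perm.viaEmbedding_apply_of_notMem _ _ _ hr) hj2
  · by_cases hr : j ∈ Set.range (ji τ m)
    · obtain ⟨g, rfl⟩ := hr
      rw [Equiv.Perm.viaEmbedding_apply]
      exact h g
    · rw [Equiv.Perm.viaEmbedding_apply_of_notMem _ _ _ hr, dist_self]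
      norm_num

theorem vtx_step (n m : ℕ) (x : ZMod (sd n m)) :
    (((x + 1).val / 2 ^ m : ℕ) : ZMod (n + 1)) = ((x.val / 2 ^ m : ℕ) : ZMod (n + 1)) ∨
    (((x + 1).val / 2 ^ m : ℕ) : ZMod (n + 1)) = ((x.val / 2 ^ m : ℕ) : ZMod (n + 1)) + 1 := by
  have h1 : (x + 1).val = (x.val + 1) % sd n m := by
    have h := ZMod.val_add x ((1 : ℕ) : ZMod (sd n m))
    rw [ZMod.val_natCast, Nat.add_mod_mod, Nat.cast_one] at h
    exact h
  have h2 : x.val < sd n m := ZMod.val_lt x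
  have hpos : 0 < 2 ^ m := by positivity
  by_cases h : x.val + 1 = sd n m
  · right
    rw [h1, h, Nat.mod_self, Nat.zero_div, Nat.cast_zero]
    have h3 : x.val / 2 ^ m = n := by
      have h4 : x.val = 2 ^ m * n + (2 ^ m - 1) := by
        have h5 : sd n m = 2 ^ m * n + 2 ^ m := by
          change 2 ^ m * (n + 1) = _
          ring
        omega
      rw [h4, Nat.mul_add_div hpos, Nat.div_eq_of_lt (by omega), add_zero]
    rw [h3]
    have h6 := ZMod.natCast_self (n + 1)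
    push_cast at h6
    exact h6.symm
  · rw [h1, Nat.mod_eq_of_lt (by omega), Nat.succ_div]
    split_ifs
    · right
      push_cast
      rfl
    · left
      rfl

theorem dist_vtxg_x (n m : ℕ) (x : ZMod (sd n m)) (y : ℕ) :
    dist (vtx τ n ((x + 1).val / 2 ^ m) y) (vtx τ n (x.val / 2 ^ m) y) ≤ 1 := by
  unfold vtx
  rcases vtx_step n m x with h | h
  · rw [h, dist_self]
    exact zero_le_one
  · rw [h]
    refine (dist_base_le τ n _ _).trans ?_
    have h3 := tdist_stepx_le (((x.val / 2 ^ m : ℕ) : ZMod (n + 1)), ((y : ℕ) : ZMod (n + 1)))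
    exact (Nat.cast_le (α := ℝ).2 h3).trans_eq Nat.cast_one

theorem dist_vtxg_y (n m : ℕ) (x : ℕ) (y : ZMod (sd n m)) :
    dist (vtx τ n x ((y + 1).val / 2 ^ m)) (vtx τ n x (y.val / 2 ^ m)) ≤ 1 := by
  unfold vtx
  rcases vtx_step n m y with h | h
  · rw [h, dist_self]
    exact zero_le_one
  · rw [h]
    refine (dist_base_le τ n _ _).trans ?_
    have h3 := tdist_stepy_le (((x : ℕ) : ZMod (n + 1)), ((y.val / 2 ^ m : ℕ) : ZMod (n + 1)))
    exact (Nat.cast_le (α := ℝ).2 h3).trans_eq Nat.cast_one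

theorem dist_fX (m : ℕ) (g : GI m) : dist (ji τ m (fX m g)).1 (ji τ m g).1 ≤ 2 := by
  rw [fst_ji, fst_ji]
  exact (dist_vtxg_x τ g.1.1 m g.2.1 _).trans one_le_two

theorem dist_fY (m : ℕ) (g : GI m) : dist (ji τ m (fY m g)).1 (ji τ m g).1 ≤ 2 := by
  rw [fst_ji, fst_ji]
  exact (dist_vtxg_y τ g.1.1 m _ g.2.2).trans one_le_two

theorem dist_sX (m : ℕ) (g : GI (m + 1)) :
    dist (ji τ (m + 1) (gsX m g)).1 (ji τ (m + 1) g).1 ≤ 2 := by
  rw [fst_ji, fst_ji]
  obtain ⟨n, x, y⟩ := g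
  by_cases h : x.val % 2 = 0
  · have h1 : gsX m ⟨n, x, y⟩ = ⟨n, x + 1 + 1, y⟩ := by
      have h3 : x + 2 = x + 1 + 1 := by ring
      simp only [gsX, Equiv.coe_fn_mk, if_pos h, h3]
    rw [h1]
    have h4 := dist_vtxg_x τ n.1 (m + 1) (x + 1) (y.val / 2 ^ (m + 1))
    have h5 := dist_vtxg_x τ n.1 (m + 1) x (y.val / 2 ^ (m + 1))
    have h6 := dist_triangle (vtx τ n.1 ((x + 1 + 1).val / 2 ^ (m + 1)) (y.val / 2 ^ (m + 1)))
      (vtx τ n.1 ((x + 1).val / 2 ^ (m + 1)) (y.val / 2 ^ (m + 1)))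
      (vtx τ n.1 (x.val / 2 ^ (m + 1)) (y.val / 2 ^ (m + 1)))
    exact h6.trans (by linarith)
  · have h1 : gsX m ⟨n, x, y⟩ = ⟨n, x, y⟩ := by
      simp only [gsX, Equiv.coe_fn_mk, if_neg h]
    rw [h1, dist_self]
    norm_num

theorem dist_sY (m : ℕ) (g : GI (m + 1)) :
    dist (ji τ (m + 1) (gsY m g)).1 (ji τ (m + 1) g).1 ≤ 2 := by
  rw [fst_ji, fst_ji]
  obtain ⟨n, x, y⟩ := g
  have h0 : gsY m ⟨n, x, y⟩ = ⟨n, x, if y.val % 2 = 0 then y + 2 else y⟩ := rfl
  by_cases h : y.val % 2 = 0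
  · have h1 : gsY m ⟨n, x, y⟩ = ⟨n, x, y + 1 + 1⟩ := by
      have h3 : y + 2 = y + 1 + 1 := by ring
      rw [h0, if_pos h, h3]
    rw [h1]
    have h4 := dist_vtxg_y τ n.1 (m + 1) (x.val / 2 ^ (m + 1)) (y + 1)
    have h5 := dist_vtxg_y τ n.1 (m + 1) (x.val / 2 ^ (m + 1)) y
    have h6 := dist_triangle (vtx τ n.1 (x.val / 2 ^ (m + 1)) ((y + 1 + 1).val / 2 ^ (m + 1)))
      (vtx τ n.1 (x.val / 2 ^ (m + 1)) ((y + 1).val / 2 ^ (m + 1)))
      (vtx τ n.1 (x.val / 2 ^ (m + 1)) (y.val / 2 ^ (m + 1)))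
    exact h6.trans (by linarith)
  · rw [h0, if_neg h, dist_self]
    norm_num

/-- The coefficients of the rotation from `1` to an involution. -/
noncomputable def ra (s : ℝ) : ℂ := (1 + Complex.exp (Complex.I * Real.pi * s)) / 2
noncomputable def rb (s : ℝ) : ℂ := (1 - Complex.exp (Complex.I * Real.pi * s)) / 2

theorem ra_add_rb (s : ℝ) : ra s + rb s = 1 := by
  unfold ra rb
  ring

theorem star_exp_mul_exp (s : ℝ) :
    star (Complex.exp (Complex.I * Real.pi * s)) * Complex.exp (Complex.I * Real.pi * s) = 1 := by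
  rw [Complex.star_def, ← Complex.exp_conj, ← Complex.exp_add]
  simp

theorem ra_rb_one (s : ℝ) : star (ra s) * ra s + star (rb s) * rb s = 1 := by
  have h := star_exp_mul_exp s
  unfold ra rb
  simp only [star_div₀, star_add, star_sub, star_one, star_ofNat]
  linear_combination (1 / 2 : ℂ) * h

theorem ra_rb_zero (s : ℝ) : star (ra s) * rb s + star (rb s) * ra s = 0 := by
  have h := star_exp_mul_exp s
  unfold ra rb
  simp only [star_div₀, star_add, star_sub, star_one, star_ofNat]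
  linear_combination (-1 / 2 : ℂ) * h

/-- The rotation of a unitary by an involution is unitary. -/
theorem rot_unitary {A : Type*} [Ring A] [StarRing A] [Algebra ℂ A] [StarModule ℂ A] {S T : A}
    (hS : star S * S = 1) (hS' : S * star S = 1) (hT : star T = T) (hT2 : T * T = 1) (s : ℝ) :
    star (ra s • S + rb s • (T * S)) * (ra s • S + rb s • (T * S)) = 1 ∧
    (ra s • S + rb s • (T * S)) * star (ra s • S + rb s • (T * S)) = 1 := by
  have e1 : ra s • S + rb s • (T * S) = (ra s • (1 : A) + rb s • T) * S := by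
    rw [add_mul, smul_mul_assoc, smul_mul_assoc, one_mul]
  have e2 : star (ra s • (1 : A) + rb s • T) = star (ra s) • (1 : A) + star (rb s) • T := by
    rw [star_add, star_smul, star_smul, star_one, hT]
  have e3 : star (ra s • (1 : A) + rb s • T) * (ra s • (1 : A) + rb s • T) = 1 := by
    rw [e2, add_mul, mul_add, mul_add]
    simp only [smul_mul_assoc, mul_smul_comm, one_mul, mul_one, hT2, smul_smul]
    have h1 : (ra s * star (ra s)) • (1 : A) + (rb s * star (ra s)) • T +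
        ((ra s * star (rb s)) • T + (rb s * star (rb s)) • (1 : A)) =
        (star (ra s) * ra s + star (rb s) * rb s) • (1 : A) +
        (star (ra s) * rb s + star (rb s) * ra s) • T := by
      simp only [add_smul, mul_comm (star (ra s)), mul_comm (star (rb s))]
      abel
    rw [h1, ra_rb_one, ra_rb_zero, one_smul, zero_smul, add_zero]
  have e4 : (ra s • (1 : A) + rb s • T) * star (ra s • (1 : A) + rb s • T) = 1 := by
    have h5 : Commute (star (ra s • (1 : A) + rb s • T)) (ra s • (1 : A) + rb s • T) := by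
      rw [e2]
      refine Commute.add_left ?_ ?_
      · exact (Commute.one_left _).smul_left _
      · refine Commute.smul_left ?_ _
        refine Commute.add_right ?_ ?_
        · exact (Commute.one_right _).smul_right _
        · exact (Commute.refl T).smul_right _
    rw [← h5.eq, e3]
  rw [e1, star_mul]
  constructor
  · calc star S * star (ra s • (1 : A) + rb s • T) * ((ra s • (1 : A) + rb s • T) * S)
        = star S * (star (ra s • (1 : A) + rb s • T) * (ra s • (1 : A) + rb s • T)) * S := by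
          simp only [mul_assoc]
      _ = 1 := by rw [e3, mul_one, hS]
  · calc (ra s • (1 : A) + rb s • T) * S * (star S * star (ra s • (1 : A) + rb s • T))
        = (ra s • (1 : A) + rb s • T) * (S * star S) * star (ra s • (1 : A) + rb s • T) := by
          simp only [mul_assoc]
      _ = 1 := by rw [hS', mul_one, e4]

/-- The path of unitaries in the first direction between refinement `m` and `m + 1`. -/
noncomputable def Ubp (m : ℕ) (s : ℝ) : BX (XT τ) :=
  ra s • pL τ (m + 1) (gsX m) + rb s • pL τ (m + 1) (tX m * gsX m)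

/-- The path of unitaries in the second direction between refinement `m` and `m + 1`. -/
noncomputable def Vbp (m : ℕ) (s : ℝ) : BX (XT τ) :=
  ra s • pL τ (m + 1) (gsY m) + rb s • pL τ (m + 1) (tY m * gsY m)

theorem rot_sub_one {A : Type*} [Ring A] [Algebra ℂ A] (S T : A) (s : ℝ) :
    ra s • S + rb s • T - 1 = ra s • (S - 1) + rb s • (T - 1) := by
  have h : (1 : A) = ra s • (1 : A) + rb s • (1 : A) := by
    rw [← add_smul, ra_add_rb, one_smul]
  rw [smul_sub, smul_sub]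
  conv_lhs => rw [h]
  abel

theorem Ubp_roe (m : ℕ) (s : ℝ) : IsRoe (gX (XT τ)) (Ubp τ m s - 1) := by
  rw [Ubp, rot_sub_one, tX_mul_gsX]
  exact ((pL_roe τ (m + 1) _ (dist_sX τ m)).smul _).add
    ((pL_roe τ (m + 1) _ (dist_fX τ (m + 1))).smul _)

theorem Vbp_roe (m : ℕ) (s : ℝ) : IsRoe (gX (XT τ)) (Vbp τ m s - 1) := by
  rw [Vbp, rot_sub_one, tY_mul_gsY]
  exact ((pL_roe τ (m + 1) _ (dist_sY τ m)).smul _).add
    ((pL_roe τ (m + 1) _ (dist_fY τ (m + 1))).smul _)

/-- `Ubp` as an element of `ℂ 1 + ℂ[X]`. -/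
noncomputable def Uel (m : ℕ) (s : ℝ) : roeU (gX (XT τ)) :=
  ⟨Ubp τ m s, 1, by simpa using Ubp_roe τ m s⟩

noncomputable def Vel (m : ℕ) (s : ℝ) : roeU (gX (XT τ)) :=
  ⟨Vbp τ m s, 1, by simpa using Vbp_roe τ m s⟩

theorem Ubp_unitary (m : ℕ) (s : ℝ) :
    star (Ubp τ m s) * Ubp τ m s = 1 ∧ Ubp τ m s * star (Ubp τ m s) = 1 := by
  rw [Ubp, pL_mul]
  refine rot_unitary ?_ ?_ ?_ ?_ s
  · rw [star_pL, ← pL_mul, inv_mul_cancel, pL_one]
  · rw [star_pL, ← pL_mul, mul_inv_cancel, pL_one]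
  · rw [star_pL, tX_inv]
  · rw [← pL_mul, tX_mul_self, pL_one]

theorem Vbp_unitary (m : ℕ) (s : ℝ) :
    star (Vbp τ m s) * Vbp τ m s = 1 ∧ Vbp τ m s * star (Vbp τ m s) = 1 := by
  rw [Vbp, pL_mul]
  refine rot_unitary ?_ ?_ ?_ ?_ s
  · rw [star_pL, ← pL_mul, inv_mul_cancel, pL_one]
  · rw [star_pL, ← pL_mul, mul_inv_cancel, pL_one]
  · rw [star_pL, tY_inv]
  · rw [← pL_mul, tY_mul_self, pL_one]

theorem Uel_unitary (m : ℕ) (s : ℝ) : Uel τ m s ∈ unitary (roeU (gX (XT τ))) := by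
  rw [Unitary.mem_iff]
  exact ⟨Subtype.ext (Ubp_unitary τ m s).1, Subtype.ext (Ubp_unitary τ m s).2⟩

theorem Vel_unitary (m : ℕ) (s : ℝ) : Vel τ m s ∈ unitary (roeU (gX (XT τ))) := by
  rw [Unitary.mem_iff]
  exact ⟨Subtype.ext (Vbp_unitary τ m s).1, Subtype.ext (Vbp_unitary τ m s).2⟩

theorem Ubp_Vbp_commute (m : ℕ) (s : ℝ) : Commute (Ubp τ m s) (Vbp τ m s) := by
  have h1 := commute_sX_sY m
  have h2 := commute_sX_tY m
  have h3 := commute_tX_sY m
  have h4 := commute_tX_tY m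
  rw [Ubp, Vbp]
  refine Commute.add_left ?_ ?_
  · refine Commute.smul_left (Commute.add_right ?_ ?_) _
    · exact (commute_pL τ _ h1).smul_right _
    · exact (commute_pL τ _ (h2.mul_right h1)).smul_right _
  · refine Commute.smul_left (Commute.add_right ?_ ?_) _
    · exact (commute_pL τ _ (h3.mul_left h1)).smul_right _
    · exact (commute_pL τ _ ((h4.mul_right h3).mul_left (h2.mul_right h1))).smul_right _

theorem Uel_Vel_commute (m : ℕ) (s : ℝ) : Commute (Uel τ m s) (Vel τ m s) :=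
  Subtype.ext (Ubp_Vbp_commute τ m s).eq

end Vale.Agent.P212
end
end

section

section

/-! Families of operators with small propagation, and paths in the localization algebra. -/

namespace Vale.Agent.P212

open Matrix ComplexStarModule NNReal BoundedContinuousFunction

section Alg

variable {A B : Type} [Ring A] [StarRing A] [Algebra ℂ A] [Ring B] [StarRing B] [Algebra ℂ B]

/-- The imaginary part, in any *-algebra. -/
noncomputable def imP (u : A) : A := (-Complex.I / 2) • (u - star u)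

/-- A polynomial of the imaginary part. -/
noncomputable def hq (q : Polynomial ℂ) (u : A) : A := Polynomial.aeval (imP u) q

theorem map_imP (φ : A →⋆ₐ[ℂ] B) (u : A) : φ (imP u) = imP (φ u) := by
  unfold imP
  rw [map_smul, map_sub, map_star]

theorem map_hq (φ : A →⋆ₐ[ℂ] B) (q : Polynomial ℂ) (u : A) : φ (hq q u) = hq q (φ u) := by
  unfold hq
  rw [← map_imP]
  exact (Polynomial.aeval_algHom_apply (φ : A →ₐ[ℂ] B) (imP u) q).symm

theorem bott_apply (u v h : A) (a b : Fin 2) : bott u v h a b =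
    e11 A a b + bottC u h a b * (v - 1) + star (bottC u h b a * (v - 1)) := rfl

theorem map_bottC (φ : A →⋆ₐ[ℂ] B) (u h : A) (a b : Fin 2) :
    φ (bottC u h a b) = bottC (φ u) (φ h) a b := by
  fin_cases a <;> fin_cases b <;>
    simp [bottC, map_smul, map_mul, map_add, map_sub, map_neg, map_star]

theorem map_bott (φ : A →⋆ₐ[ℂ] B) (u v h : A) (a b : Fin 2) :
    φ (bott u v h a b) = bott (φ u) (φ v) (φ h) a b := by
  have h1 : φ (e11 A a b) = e11 B a b := congrFun (congrFun (e11_map (φ : A →+* B)) a) b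
  rw [bott_apply, bott_apply, map_add, map_add, map_star, map_mul, map_mul, map_sub, map_one,
    map_bottC, map_bottC, h1]

/-- Membership of the entries of the Bott matrix in a *-subalgebra. -/
theorem bott_mem [StarModule ℂ A] (S : StarSubalgebra ℂ A) {u v h : A} (hu : u ∈ S) (hv : v ∈ S)
    (hh : h ∈ S) (a b : Fin 2) : bott u v h a b ∈ S := by
  have h1 := map_bott S.subtype ⟨u, hu⟩ ⟨v, hv⟩ ⟨h, hh⟩ a b
  have h2 : bott u v h a b = ((bott (⟨u, hu⟩ : S) ⟨v, hv⟩ ⟨h, hh⟩ a b : S) : A) := h1.symm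
  rw [h2]
  exact (bott (⟨u, hu⟩ : S) ⟨v, hv⟩ ⟨h, hh⟩ a b).2

theorem hq_mem [StarModule ℂ A] (S : StarSubalgebra ℂ A) (q : Polynomial ℂ) {u : A} (hu : u ∈ S) :
    hq q u ∈ S := by
  have h1 := map_hq S.subtype q ⟨u, hu⟩
  have h2 : hq q u = ((hq q (⟨u, hu⟩ : S) : S) : A) := h1.symm
  rw [h2]
  exact (hq q (⟨u, hu⟩ : S)).2

end Alg

section CStar

variable {A : Type} [CStarAlgebra A]

theorem imP_eq (u : A) : imP u = (ℑ u : A) := by
  rw [imaginaryPart_apply_coe]
  have e1 : ((2 : ℝ)⁻¹ • (u - star u) : A) = (2 : ℂ)⁻¹ • (u - star u) := by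
    rw [← Complex.coe_smul]
    norm_num
  rw [e1, smul_smul]
  rfl

theorem hq_approx {ε : ℝ} (hε : 0 < ε) : ∃ q : Polynomial ℂ, q.coeff 0 = 0 ∧
    ∀ (A : Type) [CStarAlgebra A] (u : A), ‖u‖ ≤ 1 → ‖hneg u - hq q u‖ ≤ ε := by
  obtain ⟨q, hq0, hq1⟩ := hneg_approx hε
  refine ⟨q.map (algebraMap ℝ ℂ), ?_, fun A _ u hu => ?_⟩
  · rw [Polynomial.coeff_map, hq0, map_zero]
  · unfold hq
    rw [imP_eq]
    exact hq1 A u hu

theorem norm_bottC_sub_le {u h h' : A} (hu : ‖u‖ ≤ 1) (hh : ‖h‖ ≤ 1) (hh' : ‖h'‖ ≤ 2)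
    (a b : Fin 2) : ‖bottC u h a b - bottC u h' a b‖ ≤ ‖h - h'‖ := by
  have h0 := norm_nonneg (h - h')
  have hy : ‖(1 / 2 : ℂ) • (u + star u)‖ ≤ 1 := by
    rw [norm_smul]
    have h1 : ‖u + star u‖ ≤ 2 := by
      refine (norm_add_le _ _).trans ?_
      rw [norm_star]
      linarith
    have h2 : ‖(1 / 2 : ℂ)‖ = 1 / 2 := by norm_num
    rw [h2]
    linarith
  have h4 : ‖(1 / 4 : ℂ)‖ = 1 / 4 := by norm_num
  have hsq : ‖h * h - h' * h'‖ ≤ 3 * ‖h - h'‖ := by
    have e : h * h - h' * h' = h * (h - h') + (h - h') * h' := by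
      rw [mul_sub, sub_mul]
      abel
    rw [e]
    refine (norm_add_le _ _).trans ?_
    have e1 := norm_mul_le h (h - h')
    have e2 := norm_mul_le (h - h') h'
    linarith only [mul_nonneg (sub_nonneg.2 hh') (sub_nonneg.2 h0), mul_nonneg (sub_nonneg.2 hh) (sub_nonneg.2 h0), mul_nonneg (mul_self_nonneg (1 : ℝ)) (sub_nonneg.2 e2), mul_nonneg (mul_self_nonneg (1 : ℝ)) (sub_nonneg.2 e1)]
  have hp : ‖h * (1 + (1 / 2 : ℂ) • (u + star u)) - h' * (1 + (1 / 2 : ℂ) • (u + star u))‖ ≤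
      2 * ‖h - h'‖ := by
    have e : h * (1 + (1 / 2 : ℂ) • (u + star u)) - h' * (1 + (1 / 2 : ℂ) • (u + star u)) =
        (h - h') + (h - h') * ((1 / 2 : ℂ) • (u + star u)) := by
      rw [← sub_mul, mul_add, mul_one]
    rw [e]
    refine (norm_add_le _ _).trans ?_
    have e1 := norm_mul_le (h - h') ((1 / 2 : ℂ) • (u + star u))
    linarith only [mul_nonneg (mul_self_nonneg (1 : ℝ)) (sub_nonneg.2 e1), mul_nonneg (sub_nonneg.2 h0) (sub_nonneg.2 hy)]
  have hm : ‖h * (1 - (1 / 2 : ℂ) • (u + star u)) - h' * (1 - (1 / 2 : ℂ) • (u + star u))‖ ≤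
      2 * ‖h - h'‖ := by
    have e : h * (1 - (1 / 2 : ℂ) • (u + star u)) - h' * (1 - (1 / 2 : ℂ) • (u + star u)) =
        (h - h') - (h - h') * ((1 / 2 : ℂ) • (u + star u)) := by
      rw [← sub_mul, mul_sub, mul_one]
    rw [e]
    refine (norm_sub_le _ _).trans ?_
    have e1 := norm_mul_le (h - h') ((1 / 2 : ℂ) • (u + star u))
    linarith only [mul_nonneg (mul_self_nonneg (1 : ℝ)) (sub_nonneg.2 e1), mul_nonneg (sub_nonneg.2 h0) (sub_nonneg.2 hy)]
  fin_cases a <;> fin_cases b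
  · change ‖(1 / 4 : ℂ) • (h * h) - (1 / 4 : ℂ) • (h' * h')‖ ≤ _
    rw [← smul_sub, norm_smul, h4]
    linarith only [hsq, h0]
  · change ‖(1 / 4 : ℂ) • (h * (1 + (1 / 2 : ℂ) • (u + star u))) -
      (1 / 4 : ℂ) • (h' * (1 + (1 / 2 : ℂ) • (u + star u)))‖ ≤ _
    rw [← smul_sub, norm_smul, h4]
    linarith
  · change ‖(1 / 4 : ℂ) • (-(h * (1 - (1 / 2 : ℂ) • (u + star u)))) -
      (1 / 4 : ℂ) • (-(h' * (1 - (1 / 2 : ℂ) • (u + star u))))‖ ≤ _
    rw [← smul_sub, norm_smul, h4, ← neg_sub', norm_neg]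
    linarith
  · change ‖(1 / 4 : ℂ) • (-(h * h)) - (1 / 4 : ℂ) • (-(h' * h'))‖ ≤ _
    rw [← smul_sub, norm_smul, h4, ← neg_sub', norm_neg]
    linarith

theorem norm_bott_sub_le {u v h h' : A} (hu : ‖u‖ ≤ 1) (hv : ‖v‖ ≤ 1) (hh : ‖h‖ ≤ 1)
    (hh' : ‖h'‖ ≤ 2) (a b : Fin 2) : ‖bott u v h a b - bott u v h' a b‖ ≤ 4 * ‖h - h'‖ := by
  have key : ∀ x : A, ‖x * (v - 1)‖ ≤ 2 * ‖x‖ := by
    intro x
    have e : x * (v - 1) = x * v - x := by rw [mul_sub, mul_one]
    rw [e]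
    refine (norm_sub_le _ _).trans ?_
    have e1 := norm_mul_le x v
    have := norm_nonneg x
    linarith only [mul_nonneg (sub_nonneg.2 hv) (sub_nonneg.2 this), e1]
  have e : bott u v h a b - bott u v h' a b = (bottC u h a b - bottC u h' a b) * (v - 1) +
      star ((bottC u h b a - bottC u h' b a) * (v - 1)) := by
    rw [bott_apply, bott_apply, sub_mul, sub_mul, star_sub]
    abel
  rw [e]
  refine (norm_add_le _ _).trans ?_
  rw [norm_star]
  have e1 := key (bottC u h a b - bottC u h' a b)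
  have e2 := key (bottC u h b a - bottC u h' b a)
  have e3 := norm_bottC_sub_le hu hh hh' a b
  have e4 := norm_bottC_sub_le hu hh hh' b a
  linarith

end CStar

section Fam

variable {X : Type} [MetricSpace X] [BddGeometry X]

/-- Families of elements `c 1 + T` of `ℂ 1 + ℂ[P_2(X)]` with propagation `O(2 ^ -m)`, bounded and
uniformly Lipschitz in the real variable in the maximal norm. -/
structure IsFam (c : ℂ) (K : ℝ) (F : ℕ → ℝ → roeU (gX X)) : Prop where
  roe : ∀ m s, IsRoe (gX X) ((F m s : BX X) - c • 1)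
  rips : ∀ m s, OnRips 2 (K / 2 ^ m) ((F m s : BX X) - c • 1)
  bd : ∀ m s, ‖toMax (gX X) (F m s)‖ ≤ K
  lip : ∀ m s s', ‖toMax (gX X) (F m s) - toMax (gX X) (F m s')‖ ≤ K * |s - s'|

theorem IsFam.nonneg {c : ℂ} {K : ℝ} {F : ℕ → ℝ → roeU (gX X)} (h : IsFam c K F) : 0 ≤ K :=
  (norm_nonneg _).trans (h.bd 0 0)

theorem IsFam.add {c d : ℂ} {K L : ℝ} {F G : ℕ → ℝ → roeU (gX X)} (hF : IsFam c K F)
    (hG : IsFam d L G) : IsFam (c + d) (K + L) (F + G) := by
  have hK := hF.nonneg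
  have hL := hG.nonneg
  have e : ∀ m s, (((F + G) m s : roeU (gX X)) : BX X) - (c + d) • 1 =
      ((F m s : BX X) - c • 1) + ((G m s : BX X) - d • 1) := by
    intro m s
    change (F m s : BX X) + (G m s : BX X) - (c + d) • 1 = _
    rw [add_smul]
    abel
  refine ⟨fun m s => ?_, fun m s => ?_, fun m s => ?_, fun m s s' => ?_⟩
  · rw [e]
    exact (hF.roe m s).add (hG.roe m s)
  · rw [e]
    refine ((hF.rips m s).mono le_rfl ?_).add ((hG.rips m s).mono le_rfl ?_)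
    · gcongr
      linarith
    · gcongr
      linarith
  · change ‖toMax (gX X) (F m s + G m s)‖ ≤ _
    rw [map_add]
    exact (norm_add_le _ _).trans (add_le_add (hF.bd m s) (hG.bd m s))
  · change ‖toMax (gX X) (F m s + G m s) - toMax (gX X) (F m s' + G m s')‖ ≤ _
    rw [map_add, map_add, add_sub_add_comm, add_mul]
    exact (norm_add_le _ _).trans (add_le_add (hF.lip m s s') (hG.lip m s s'))

theorem IsFam.mul {c d : ℂ} {K L : ℝ} {F G : ℕ → ℝ → roeU (gX X)} (hF : IsFam c K F)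
    (hG : IsFam d L G) : IsFam (c * d) (K + L + 2 * (K * L)) (F * G) := by
  have hK := hF.nonneg
  have hL := hG.nonneg
  have hKL := mul_nonneg hK hL
  have e : ∀ m s, (((F * G) m s : roeU (gX X)) : BX X) - (c * d) • 1 =
      ((F m s : BX X) - c • 1) * ((G m s : BX X) - d • 1) +
        c • ((G m s : BX X) - d • 1) + d • ((F m s : BX X) - c • 1) := by
    intro m s
    change (F m s : BX X) * (G m s : BX X) - (c * d) • 1 = _
    simp only [sub_mul, mul_sub, smul_sub, mul_smul_comm, smul_mul_assoc, mul_one, one_mul,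
      smul_smul]
    rw [mul_comm d c]
    abel
  refine ⟨fun m s => ?_, fun m s => ?_, fun m s => ?_, fun m s s' => ?_⟩
  · rw [e]
    exact (((hF.roe m s).mul (hG.roe m s)).add ((hG.roe m s).smul c)).add ((hF.roe m s).smul d)
  · rw [e]
    refine ((((hF.rips m s).mul (hG.rips m s)).mono le_rfl ?_).add
      (((hG.rips m s).smul c).mono le_rfl ?_)).add (((hF.rips m s).smul d).mono le_rfl ?_)
    · rw [← add_div]
      exact div_le_div_of_nonneg_right (by linarith) (by positivity)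
    · exact div_le_div_of_nonneg_right (by linarith) (by positivity)
    · exact div_le_div_of_nonneg_right (by linarith) (by positivity)
  · change ‖toMax (gX X) (F m s * G m s)‖ ≤ _
    rw [map_mul]
    have h1 := norm_mul_le (toMax (gX X) (F m s)) (toMax (gX X) (G m s))
    have h2 : ‖toMax (gX X) (F m s)‖ * ‖toMax (gX X) (G m s)‖ ≤ K * L :=
      mul_le_mul (hF.bd m s) (hG.bd m s) (norm_nonneg _) hK
    linarith
  · change ‖toMax (gX X) (F m s * G m s) - toMax (gX X) (F m s' * G m s')‖ ≤ _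
    rw [map_mul, map_mul]
    have h1 : toMax (gX X) (F m s) * toMax (gX X) (G m s) -
        toMax (gX X) (F m s') * toMax (gX X) (G m s') =
        toMax (gX X) (F m s) * (toMax (gX X) (G m s) - toMax (gX X) (G m s')) +
          (toMax (gX X) (F m s) - toMax (gX X) (F m s')) * toMax (gX X) (G m s') := by
      rw [mul_sub, sub_mul]
      abel
    rw [h1]
    have hs := abs_nonneg (s - s')
    have h2 : ‖toMax (gX X) (F m s) * (toMax (gX X) (G m s) - toMax (gX X) (G m s'))‖ ≤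
        K * (L * |s - s'|) := (norm_mul_le _ _).trans
      (mul_le_mul (hF.bd m s) (hG.lip m s s') (norm_nonneg _) hK)
    have h3 : ‖(toMax (gX X) (F m s) - toMax (gX X) (F m s')) * toMax (gX X) (G m s')‖ ≤
        (K * |s - s'|) * L := (norm_mul_le _ _).trans
      (mul_le_mul (hF.lip m s s') (hG.bd m s') (norm_nonneg _) (by positivity))
    refine (norm_add_le _ _).trans ((add_le_add h2 h3).trans ?_)
    have h4 : 0 ≤ (K + L) * |s - s'| := by positivity
    linarith only [h4]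

theorem IsFam.star {c : ℂ} {K : ℝ} {F : ℕ → ℝ → roeU (gX X)} (hF : IsFam c K F) :
    IsFam (Star.star c) K (Star.star F) := by
  have e : ∀ m s, ((Star.star (F m s) : roeU (gX X)) : BX X) - (Star.star c) • 1 =
      Star.star ((F m s : BX X) - c • 1) := by
    intro m s
    change Star.star (F m s : BX X) - (Star.star c) • 1 = _
    rw [star_sub, star_smul, star_one]
  refine ⟨fun m s => ?_, fun m s => ?_, fun m s => ?_, fun m s s' => ?_⟩
  · change IsRoe (gX X) (((Star.star (F m s) : roeU (gX X)) : BX X) - (Star.star c) • 1)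
    rw [e]
    exact (hF.roe m s).star
  · change OnRips 2 (K / 2 ^ m) (((Star.star (F m s) : roeU (gX X)) : BX X) - (Star.star c) • 1)
    rw [e]
    exact (hF.rips m s).star
  · change ‖toMax (gX X) (Star.star (F m s))‖ ≤ K
    rw [map_star, norm_star]
    exact hF.bd m s
  · change ‖toMax (gX X) (Star.star (F m s)) - toMax (gX X) (Star.star (F m s'))‖ ≤ _
    rw [map_star, map_star, ← star_sub, norm_star]
    exact hF.lip m s s'

theorem IsFam.algebraMap (c : ℂ) :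
    IsFam c ‖c‖ (algebraMap ℂ (ℕ → ℝ → roeU (gX X)) c) := by
  have e : ∀ (m : ℕ) (s : ℝ), ((Algebra.algebraMap (R := ℂ) (A := ℕ → ℝ → roeU (gX X)) c m s :
      roeU (gX X)) : BX X) - c • 1 = 0 := by
    intro m s
    change Algebra.algebraMap (R := ℂ) (A := BX X) c - c • 1 = 0
    rw [Algebra.algebraMap_eq_smul_one, sub_self]
  have e2 : ∀ (m : ℕ) (s : ℝ), toMax (gX X) (Algebra.algebraMap (R := ℂ)
      (A := ℕ → ℝ → roeU (gX X)) c m s) = Algebra.algebraMap (R := ℂ) (A := CM (gX X)) c :=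
    fun m s => AlgHomClass.commutes (toMax (gX X)) c
  refine ⟨fun m s => ?_, fun m s => ?_, fun m s => ?_, fun m s s' => ?_⟩
  · rw [e]
    exact IsRoe.zero
  · rw [e]
    exact OnRips.zero _ _
  · rw [e2, Algebra.algebraMap_eq_smul_one, norm_smul]
    calc ‖c‖ * ‖(1 : CM (gX X))‖ ≤ ‖c‖ * 1 := by
          gcongr
          exact norm_one_CM_le _
      _ = ‖c‖ := mul_one _
  · rw [e2, e2, sub_self, norm_zero]
    positivity

noncomputable instance (priority := 2000) famRing (X : Type) [MetricSpace X] [BddGeometry X] :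
    Ring (ℕ → ℝ → roeU (gX X)) := inferInstance

noncomputable instance (priority := 2000) famSemiring (X : Type) [MetricSpace X]
    [BddGeometry X] : Semiring (ℕ → ℝ → roeU (gX X)) := inferInstance

noncomputable instance (priority := 2000) famStarRing (X : Type) [MetricSpace X]
    [BddGeometry X] : StarRing (ℕ → ℝ → roeU (gX X)) := inferInstance

instance (priority := 2000) famStarModule (X : Type) [MetricSpace X] [BddGeometry X] :
    StarModule ℂ (ℕ → ℝ → roeU (gX X)) := inferInstance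

/-- The *-algebra of families. -/
noncomputable def locFam (X : Type) [MetricSpace X] [BddGeometry X] :
    StarSubalgebra ℂ (ℕ → ℝ → roeU (gX X)) where
  carrier := {F | ∃ (c : ℂ) (K : ℝ), IsFam c K F}
  mul_mem' := by
    rintro F G ⟨c, K, hF⟩ ⟨d, L, hG⟩
    exact ⟨_, _, hF.mul hG⟩
  add_mem' := by
    rintro F G ⟨c, K, hF⟩ ⟨d, L, hG⟩
    exact ⟨_, _, hF.add hG⟩
  algebraMap_mem' := fun c => ⟨_, _, IsFam.algebraMap c⟩
  star_mem' := by
    rintro F ⟨c, K, hF⟩
    exact ⟨_, _, hF.star⟩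

theorem floor_path_lip {A : Type*} [NormedAddCommGroup A] {G : ℕ → ℝ → A} {K : ℝ}
    (hlip : ∀ m s s', ‖G m s - G m s'‖ ≤ K * |s - s'|) (hm : ∀ m, G m 1 = G (m + 1) 0)
    {t t' : ℝ≥0} (h : t ≤ t') (h' : (t' : ℝ) < t + 1) :
    ‖G ⌊t⌋₊ (t - ⌊t⌋₊) - G ⌊t'⌋₊ (t' - ⌊t'⌋₊)‖ ≤ K * (t' - t) := by
  have hn : ⌊t⌋₊ ≤ ⌊t'⌋₊ := Nat.floor_le_floor h
  have h1 : (⌊t⌋₊ : ℝ) ≤ t := by exact_mod_cast Nat.floor_le (zero_le : (0 : ℝ≥0) ≤ t)
  have h2 : (⌊t'⌋₊ : ℝ) ≤ t' := by exact_mod_cast Nat.floor_le (zero_le : (0 : ℝ≥0) ≤ t')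
  have h3 : (t : ℝ) < ⌊t⌋₊ + 1 := by exact_mod_cast Nat.lt_floor_add_one t
  have h4 : (t' : ℝ) < ⌊t'⌋₊ + 1 := by exact_mod_cast Nat.lt_floor_add_one t'
  have htt : (t : ℝ) ≤ t' := by exact_mod_cast h
  have h5 : ⌊t'⌋₊ ≤ ⌊t⌋₊ + 1 := by
    have : (⌊t'⌋₊ : ℝ) < ⌊t⌋₊ + 2 := by linarith
    have : ⌊t'⌋₊ < ⌊t⌋₊ + 2 := by exact_mod_cast this
    omega
  rcases Nat.lt_or_ge ⌊t⌋₊ ⌊t'⌋₊ with hlt | hge
  · have h6 : ⌊t'⌋₊ = ⌊t⌋₊ + 1 := by omega
    rw [h6] at h2 h4 ⊢
    push_cast at h2 h4 ⊢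
    have e : G ⌊t⌋₊ (t - ⌊t⌋₊) - G (⌊t⌋₊ + 1) (t' - (⌊t⌋₊ + 1)) =
        (G ⌊t⌋₊ (t - ⌊t⌋₊) - G ⌊t⌋₊ 1) +
          (G (⌊t⌋₊ + 1) 0 - G (⌊t⌋₊ + 1) (t' - (⌊t⌋₊ + 1))) := by
      rw [hm]
      abel
    rw [e]
    refine (norm_add_le _ _).trans ((add_le_add (hlip _ _ _) (hlip _ _ _)).trans ?_)
    have a1 : |(t : ℝ) - ⌊t⌋₊ - 1| = ⌊t⌋₊ + 1 - t := by
      rw [abs_of_nonpos (by linarith only [h3])]
      ring
    have a2 : |(0 : ℝ) - (t' - (⌊t⌋₊ + 1))| = t' - (⌊t⌋₊ + 1) := by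
      rw [abs_of_nonpos (by linarith)]
      ring
    rw [a1, a2]
    exact le_of_eq (by ring)
  · have h6 : ⌊t'⌋₊ = ⌊t⌋₊ := le_antisymm hge hn
    rw [h6]
    refine (hlip _ _ _).trans (le_of_eq ?_)
    rw [abs_of_nonpos (by linarith)]
    ring

theorem floor_path_uniformContinuous {A : Type*} [NormedAddCommGroup A] {G : ℕ → ℝ → A} {K : ℝ}
    (hK : 0 ≤ K) (hlip : ∀ m s s', ‖G m s - G m s'‖ ≤ K * |s - s'|)
    (hm : ∀ m, G m 1 = G (m + 1) 0) :
    UniformContinuous (fun t : ℝ≥0 => G ⌊t⌋₊ (t - ⌊t⌋₊)) := by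
  rw [Metric.uniformContinuous_iff]
  intro ε hε
  have key : ∀ t t' : ℝ≥0, t ≤ t' → dist t t' < min 1 (ε / (K + 1)) →
      dist (G ⌊t⌋₊ (t - ⌊t⌋₊)) (G ⌊t'⌋₊ (t' - ⌊t'⌋₊)) < ε := by
    intro t t' htt hd
    have h0 : (t : ℝ) ≤ t' := by exact_mod_cast htt
    rw [NNReal.dist_eq, abs_of_nonpos (by linarith)] at hd
    have h1 : (t' : ℝ) < t + 1 := by
      have := hd.trans_le (min_le_left _ _)
      linarith
    have h2 : (t' : ℝ) - t < ε / (K + 1) := by
      have := hd.trans_le (min_le_right _ _)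
      linarith
    rw [dist_eq_norm]
    refine (floor_path_lip hlip hm htt h1).trans_lt ?_
    have h3 : 0 ≤ (t' : ℝ) - t := by linarith
    calc K * ((t' : ℝ) - t) ≤ (K + 1) * ((t' : ℝ) - t) := by linarith only [h3]
      _ < (K + 1) * (ε / (K + 1)) := by
        gcongr
      _ = ε := by field_simp
  refine ⟨min 1 (ε / (K + 1)), lt_min one_pos (by positivity), fun {t t'} hd => ?_⟩
  rcases le_total t t' with h | h
  · exact key t t' h hd
  · rw [dist_comm]
    exact key t' t h (by rwa [dist_comm])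

/-- A family which matches at integer times gives an element of the localization algebra. -/
theorem exists_mem_locAlg {F : ℕ → ℝ → roeU (gX X)} (hF : F ∈ locFam X)
    (hm : ∀ m, F m 1 = F (m + 1) 0) {r : ℝ} (hr : 2 ≤ r) :
    ∃ f ∈ locAlg X r, ∀ t : ℝ≥0, f t = toMax (gX X) (F ⌊t⌋₊ (t - ⌊t⌋₊)) := by
  obtain ⟨c, K, hK⟩ := hF
  have hK0 := hK.nonneg
  have huc : UniformContinuous (fun t : ℝ≥0 => toMax (gX X) (F ⌊t⌋₊ (t - ⌊t⌋₊))) :=
    floor_path_uniformContinuous (G := fun m s => toMax (gX X) (F m s)) hK0 hK.lip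
      (fun m => by rw [hm])
  refine ⟨BoundedContinuousFunction.ofNormedAddCommGroup
    (fun t : ℝ≥0 => toMax (gX X) (F ⌊t⌋₊ (t - ⌊t⌋₊))) huc.continuous K
    (fun t => hK.bd _ _), ⟨huc, c, fun t => F ⌊t⌋₊ (t - ⌊t⌋₊), ?_, fun t => rfl⟩, fun t => rfl⟩
  refine ⟨fun t => hK.roe _ _, fun t => ((hK.rips _ _).mono hr le_rfl).of_two, fun ε hε => ?_⟩
  obtain ⟨N, hN⟩ : ∃ N : ℕ, K / 2 ^ N < ε := by
    obtain ⟨N, hN⟩ := pow_unbounded_of_one_lt (K / ε) (one_lt_two (α := ℝ))
    refine ⟨N, ?_⟩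
    rw [div_lt_iff₀ hε] at hN
    rw [div_lt_iff₀ (by positivity)]
    linarith
  refine ⟨N, fun t ht => (hK.rips _ _).mono hr ?_⟩
  have h1 : N ≤ ⌊t⌋₊ := Nat.le_floor ht
  calc K / 2 ^ ⌊t⌋₊ ≤ K / 2 ^ N := by
        gcongr
        exact one_le_two
    _ ≤ ε := hN.le

/-- Uniform limits. -/
theorem exists_mem_locU {g : ℝ≥0 → CM (gX X)} {r : ℝ}
    (h : ∀ ε > 0, ∃ f ∈ locAlg X r, ∀ t, ‖g t - f t‖ ≤ ε) :
    ∃ f : locU X r, ∀ t, (f : ℝ≥0 →ᵇ CM (gX X)) t = g t := by
  have hcont : Continuous g := by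
    refine continuous_of_uniform_approx_of_continuous (fun u hu => ?_)
    obtain ⟨ε, hε, hu⟩ := Metric.mem_uniformity_dist.1 hu
    obtain ⟨f, _, hf⟩ := h (ε / 2) (half_pos hε)
    refine ⟨f, f.continuous, fun t => hu ?_⟩
    rw [dist_eq_norm]
    exact (hf t).trans_lt (half_lt_self hε)
  obtain ⟨f₁, _, hf₁⟩ := h 1 one_pos
  have hbd : ∀ t, ‖g t‖ ≤ 1 + ‖f₁‖ := by
    intro t
    have e : g t = (g t - f₁ t) + f₁ t := (sub_add_cancel _ _).symm
    rw [e]
    exact (norm_add_le _ _).trans (add_le_add (hf₁ t) (f₁.norm_coe_le_norm t))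
  refine ⟨⟨BoundedContinuousFunction.ofNormedAddCommGroup g hcont _ hbd, ?_⟩, fun t => rfl⟩
  change _ ∈ closure ((locAlg X r : StarSubalgebra ℂ (ℝ≥0 →ᵇ CM (gX X))) : Set (ℝ≥0 →ᵇ CM (gX X)))
  rw [Metric.mem_closure_iff]
  intro ε hε
  obtain ⟨f, hfm, hf⟩ := h (ε / 2) (half_pos hε)
  refine ⟨f, hfm, lt_of_le_of_lt ?_ (half_lt_self hε)⟩
  rw [BoundedContinuousFunction.dist_le (by positivity)]
  intro t
  rw [dist_eq_norm]
  exact hf t

end Fam

end Vale.Agent.P212
end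
end

section

section

/-! The families of unitaries between consecutive refinements, and their matching. -/

set_option linter.unusedSectionVars false

namespace Vale.Agent.P212

open NNReal BoundedContinuousFunction Matrix

section Rel

variable {R : Type} [Ring R] [StarRing R] [Algebra ℂ R] [StarModule ℂ R]

/-- Pairs of elements commuting with a projection `p` and equal on its range. -/
noncomputable def relSub (p : R) (hp : star p = p) : StarSubalgebra ℂ (R × R) where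
  carrier := {z | z.1 * p = z.2 * p ∧ Commute p z.1 ∧ Commute p z.2}
  mul_mem' := by
    rintro ⟨x, x'⟩ ⟨y, y'⟩ ⟨h1, h2, h3⟩ ⟨k1, k2, k3⟩
    refine ⟨?_, h2.mul_right k2, h3.mul_right k3⟩
    change x * y * p = x' * y' * p
    change x * p = x' * p at h1
    change y * p = y' * p at k1
    calc x * y * p = x * (p * y) := by rw [mul_assoc, k2.eq]
      _ = x' * (p * y) := by rw [← mul_assoc, h1, mul_assoc]
      _ = x' * (y' * p) := by rw [k2.eq, k1]
      _ = x' * y' * p := by rw [mul_assoc]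
  add_mem' := by
    rintro ⟨x, x'⟩ ⟨y, y'⟩ ⟨h1, h2, h3⟩ ⟨k1, k2, k3⟩
    refine ⟨?_, h2.add_right k2, h3.add_right k3⟩
    change (x + y) * p = (x' + y') * p
    rw [add_mul, add_mul, h1, k1]
  algebraMap_mem' := fun c => ⟨rfl, (Algebra.commutes c p).symm, (Algebra.commutes c p).symm⟩
  star_mem' := by
    rintro ⟨x, x'⟩ ⟨h1, h2, h3⟩
    have h4 : Commute p (star x) := by
      have := h2.star_star
      rwa [hp] at this
    have h5 : Commute p (star x') := by
      have := h3.star_star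
      rwa [hp] at this
    refine ⟨?_, h4, h5⟩
    change star x * p = star x' * p
    rw [← h4.eq, ← h5.eq, ← hp, ← star_mul, ← star_mul]
    exact congrArg star h1

theorem aeval_mul_of_mul_eq_zero {x z : R} (h : x * z = 0) {q : Polynomial ℂ}
    (hq : q.coeff 0 = 0) : Polynomial.aeval x q * z = 0 := by
  have h1 := Polynomial.divX_mul_X_add q
  rw [← h1, map_add, map_mul, Polynomial.aeval_X, Polynomial.aeval_C, hq, map_zero, add_zero,
    mul_assoc, h, mul_zero]

/-- The matrix `C(u)` vanishes where `u = 1`. -/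
theorem bottC_mul_eq_zero {u z : R} {q : Polynomial ℂ} (hq0 : q.coeff 0 = 0)
    (h : u * z = z) (h' : star u * z = z) (a b : Fin 2) : bottC u (hq q u) a b * z = 0 := by
  have h1 : imP u * z = 0 := by
    rw [imP, smul_mul_assoc, sub_mul, h, h', sub_self, smul_zero]
  have h2 : hq q u * z = 0 := aeval_mul_of_mul_eq_zero h1 hq0
  have h3 : (1 / 2 : ℂ) • (u + star u) * z = z := by
    rw [smul_mul_assoc, add_mul, h, h', ← two_smul ℂ z, smul_smul]
    norm_num
  fin_cases a <;> fin_cases b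
  · change (1 / 4 : ℂ) • (hq q u * hq q u) * z = 0
    rw [smul_mul_assoc, mul_assoc, h2, mul_zero, smul_zero]
  · change (1 / 4 : ℂ) • (hq q u * (1 + (1 / 2 : ℂ) • (u + star u))) * z = 0
    rw [smul_mul_assoc, mul_assoc, add_mul, h3, one_mul, mul_add, h2, add_zero, smul_zero]
  · change (1 / 4 : ℂ) • (-(hq q u * (1 - (1 / 2 : ℂ) • (u + star u)))) * z = 0
    rw [smul_mul_assoc, neg_mul, mul_assoc, sub_mul, h3, one_mul, sub_self, mul_zero, neg_zero,
      smul_zero]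
  · change (1 / 4 : ℂ) • (-(hq q u * hq q u)) * z = 0
    rw [smul_mul_assoc, neg_mul, mul_assoc, h2, mul_zero, neg_zero, smul_zero]

theorem bott_eq_of_rel {p u v u' v' : R} (hp : star p = p) {q : Polynomial ℂ}
    (hq0 : q.coeff 0 = 0)
    (hu : u * p = u' * p) (hpu : Commute p u) (hpu' : Commute p u')
    (hv : v * p = v' * p) (hpv : Commute p v) (hpv' : Commute p v')
    (hv1 : (v - 1) * (1 - p) = 0) (huv : (u' - 1) * ((v' - 1) * (1 - p)) = 0)
    (hu' : star u' * u' = 1) (a b : Fin 2) :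
    bott u v (hq q u) a b = bott u' v' (hq q u') a b := by
  have key : ∀ a b : Fin 2, bottC u (hq q u) a b * (v - 1) =
      bottC u' (hq q u') a b * (v' - 1) := by
    intro a b
    set S := relSub p hp with hS
    have mU : ((u, u') : R × R) ∈ S := ⟨hu, hpu, hpu'⟩
    have mV : ((v, v') : R × R) ∈ S := ⟨hv, hpv, hpv'⟩
    set U : S := ⟨(u, u'), mU⟩
    set V : S := ⟨(v, v'), mV⟩
    have hmem := (bottC U (hq q U) a b * (V - 1)).2
    have e1 : ((bottC U (hq q U) a b * (V - 1) : S) : R × R).1 =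
        bottC u (hq q u) a b * (v - 1) := by
      have h1 := map_bottC ((StarAlgHom.fst ℂ R R).comp S.subtype) U (hq q U) a b
      rw [map_hq] at h1
      change ((bottC U (hq q U) a b : S) : R × R).1 * (v - 1) = _
      exact congrArg (· * (v - 1)) h1
    have e2 : ((bottC U (hq q U) a b * (V - 1) : S) : R × R).2 =
        bottC u' (hq q u') a b * (v' - 1) := by
      have h1 := map_bottC ((StarAlgHom.snd ℂ R R).comp S.subtype) U (hq q U) a b
      rw [map_hq] at h1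
      change ((bottC U (hq q U) a b : S) : R × R).2 * (v' - 1) = _
      exact congrArg (· * (v' - 1)) h1
    have h3 : ((bottC U (hq q U) a b * (V - 1) : S) : R × R).1 * p =
        ((bottC U (hq q U) a b * (V - 1) : S) : R × R).2 * p := hmem.1
    rw [e1, e2] at h3
    have h4 : bottC u (hq q u) a b * (v - 1) * (1 - p) = 0 := by
      rw [mul_assoc, hv1, mul_zero]
    have h5 : bottC u' (hq q u') a b * (v' - 1) * (1 - p) = 0 := by
      rw [mul_assoc]
      have h6 : u' * ((v' - 1) * (1 - p)) = (v' - 1) * (1 - p) := by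
        rw [sub_mul, one_mul, sub_eq_zero] at huv
        exact huv
      refine bottC_mul_eq_zero hq0 h6 ?_ a b
      calc star u' * ((v' - 1) * (1 - p)) = star u' * (u' * ((v' - 1) * (1 - p))) := by rw [h6]
        _ = (v' - 1) * (1 - p) := by rw [← mul_assoc, hu', one_mul]
    calc bottC u (hq q u) a b * (v - 1) = bottC u (hq q u) a b * (v - 1) * p +
          bottC u (hq q u) a b * (v - 1) * (1 - p) := by
          rw [← mul_add, add_sub_cancel, mul_one]
      _ = bottC u' (hq q u') a b * (v' - 1) * p +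
          bottC u' (hq q u') a b * (v' - 1) * (1 - p) := by rw [h3, h4, h5]
      _ = bottC u' (hq q u') a b * (v' - 1) := by
          rw [← mul_add, add_sub_cancel, mul_one]
  rw [bott_apply, bott_apply, key a b, key b a]

end Rel

section Perm

variable {J : Type}

theorem permL_mul_proj_congr {ρ ρ' : Equiv.Perm J} {S : Set J} (h : ∀ j ∈ S, ρ j = ρ' j) :
    permL ρ * proj S = permL ρ' * proj S := by
  classical
  apply ext_ent
  intro j k
  rw [ent_mul_proj, ent_mul_proj]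
  by_cases hk : k ∈ S
  · rw [Set.indicator_of_mem hk, Set.indicator_of_mem hk, ent_permL, ent_permL, h k hk]
  · rw [Set.indicator_of_notMem hk, Set.indicator_of_notMem hk]

theorem permL_commute_proj {ρ : Equiv.Perm J} {S : Set J} (h : ∀ j, ρ j ∈ S ↔ j ∈ S) :
    Commute (proj S) (permL ρ) := by
  classical
  change proj S * permL ρ = permL ρ * proj S
  apply ext_ent
  intro j k
  rw [ent_mul_proj, ent_proj_mul]
  by_cases hjk : j = ρ k
  · subst hjk
    by_cases hk : k ∈ S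
    · rw [Set.indicator_of_mem hk, Set.indicator_of_mem ((h k).2 hk)]
    · rw [Set.indicator_of_notMem hk, Set.indicator_of_notMem (fun h' => hk ((h k).1 h'))]
  · have h1 : ent (permL ρ) j k = 0 := by rw [ent_permL, if_neg hjk]
    by_cases hk : k ∈ S <;> by_cases hj : j ∈ S
    · rw [Set.indicator_of_mem hk, Set.indicator_of_mem hj]
    · rw [Set.indicator_of_mem hk, Set.indicator_of_notMem hj, h1]
    · rw [Set.indicator_of_notMem hk, Set.indicator_of_mem hj, h1]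
    · rw [Set.indicator_of_notMem hk, Set.indicator_of_notMem hj]

theorem permL_sub_one_mul_compl {ρ : Equiv.Perm J} {S : Set J} (h : ∀ j, j ∉ S → ρ j = j) :
    (permL ρ - 1) * (1 - proj S) = 0 := by
  classical
  apply ext_ent
  intro j k
  rw [mul_sub, mul_one, ent_sub, ent_mul_proj, ent_zero]
  by_cases hk : k ∈ S
  · rw [Set.indicator_of_mem hk, sub_self]
  · rw [Set.indicator_of_notMem hk, sub_zero, ent_sub, ent_permL, ent_one, h k hk, sub_self]

theorem permL_sub_one_mul_compl' {α β : Equiv.Perm J} {S : Set J}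
    (h : ∀ j, j ∉ S → β j = j ∨ (α j = j ∧ α (β j) = β j)) :
    (permL α - 1) * ((permL β - 1) * (1 - proj S)) = 0 := by
  classical
  have e : (permL α - 1) * ((permL β - 1) * (1 - proj S)) =
      (permL (α * β) - permL α - permL β + 1) -
        (permL (α * β) - permL α - permL β + 1) * proj S := by
    rw [permL_mul]
    noncomm_ring
  rw [e]
  apply ext_ent
  intro j k
  rw [ent_sub, ent_mul_proj, ent_zero]
  by_cases hk : k ∈ S
  · rw [Set.indicator_of_mem hk, sub_self]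
  · rw [Set.indicator_of_notMem hk, sub_zero, ent_add, ent_sub, ent_sub, ent_permL, ent_permL,
      ent_permL, ent_one, Equiv.Perm.mul_apply]
    rcases h k hk with h1 | ⟨h1, h2⟩
    · rw [h1]
      ring
    · rw [h2, h1]
      ring

end Perm

section Dbl

theorem val_two_mul (n m : ℕ) (x : ZMod (sd n m)) :
    (((2 * x.val : ℕ) : ZMod (sd n (m + 1)))).val = 2 * x.val := by
  rw [ZMod.val_natCast, Nat.mod_eq_of_lt]
  have h1 := ZMod.val_lt x
  have h2 : sd n (m + 1) = 2 * sd n m := by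
    change 2 ^ (m + 1) * (n + 1) = 2 * (2 ^ m * (n + 1))
    ring
  omega

theorem two_mul_val_add_one (n m : ℕ) (x : ZMod (sd n m)) :
    ((2 * (x + 1).val : ℕ) : ZMod (sd n (m + 1))) =
      ((2 * x.val : ℕ) : ZMod (sd n (m + 1))) + 2 := by
  have h1 : x + 1 = ((x.val + 1 : ℕ) : ZMod (sd n m)) := by simp
  have h2 : sd n (m + 1) = 2 * sd n m := by
    change 2 ^ (m + 1) * (n + 1) = 2 * (2 ^ m * (n + 1))
    ring
  have h3 : ((2 * (x + 1).val : ℕ) : ZMod (sd n (m + 1))) =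
      ((2 * (x.val + 1) : ℕ) : ZMod (sd n (m + 1))) := by
    rw [ZMod.natCast_eq_natCast_iff, Nat.ModEq, h1, ZMod.val_natCast, h2, Nat.mul_mod_mul_left,
      Nat.mul_mod_mul_left, Nat.mod_mod]
  rw [h3]
  push_cast
  ring

theorem gsX_dblB (m : ℕ) (g : GI m) : gsX m (dbl m g) = dbl m (fX m g) := by
  obtain ⟨n, x, y⟩ := g
  have h1 : (((2 * x.val : ℕ) : ZMod (sd n.1 (m + 1)))).val % 2 = 0 := by
    rw [val_two_mul]
    omega
  change (⟨n, (if (((2 * x.val : ℕ) : ZMod (sd n.1 (m + 1)))).val % 2 = 0 then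
    ((2 * x.val : ℕ) : ZMod (sd n.1 (m + 1))) + 2 else ((2 * x.val : ℕ) : ZMod (sd n.1 (m + 1))),
    ((2 * y.val : ℕ) : ZMod (sd n.1 (m + 1))))⟩ : GI (m + 1)) =
    ⟨n, (((2 * (x + 1).val : ℕ) : ZMod (sd n.1 (m + 1))),
      ((2 * y.val : ℕ) : ZMod (sd n.1 (m + 1))))⟩
  rw [if_pos h1, two_mul_val_add_one]

theorem gsY_apply (m : ℕ) (g : GI (m + 1)) :
    gsY m g = ⟨g.1, (g.2.1, if g.2.2.val % 2 = 0 then g.2.2 + 2 else g.2.2)⟩ := rfl

theorem gsX_apply (m : ℕ) (g : GI (m + 1)) :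
    gsX m g = ⟨g.1, (if g.2.1.val % 2 = 0 then g.2.1 + 2 else g.2.1, g.2.2)⟩ := rfl

theorem gsY_dblB (m : ℕ) (g : GI m) : gsY m (dbl m g) = dbl m (fY m g) := by
  obtain ⟨n, x, y⟩ := g
  have h1 : (((2 * y.val : ℕ) : ZMod (sd n.1 (m + 1)))).val % 2 = 0 := by
    rw [val_two_mul]
    omega
  change (⟨n, (((2 * x.val : ℕ) : ZMod (sd n.1 (m + 1))),
    if (((2 * y.val : ℕ) : ZMod (sd n.1 (m + 1)))).val % 2 = 0 then
    ((2 * y.val : ℕ) : ZMod (sd n.1 (m + 1))) + 2
    else ((2 * y.val : ℕ) : ZMod (sd n.1 (m + 1))))⟩ : GI (m + 1)) =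
    ⟨n, (((2 * x.val : ℕ) : ZMod (sd n.1 (m + 1))),
      ((2 * (y + 1).val : ℕ) : ZMod (sd n.1 (m + 1))))⟩
  rw [if_pos h1, two_mul_val_add_one]

theorem mem_range_dbl (m : ℕ) (g : GI (m + 1)) (hx : g.2.1.val % 2 = 0)
    (hy : g.2.2.val % 2 = 0) : ∃ g', dbl m g' = g := by
  obtain ⟨n, x, y⟩ := g
  have key : ∀ z : ZMod (sd n.1 (m + 1)), z.val % 2 = 0 →
      ((2 * (((z.val / 2 : ℕ) : ZMod (sd n.1 m))).val : ℕ) : ZMod (sd n.1 (m + 1))) = z := by
    intro z hz
    have h1 := ZMod.val_lt z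
    have h2 : sd n.1 (m + 1) = 2 * sd n.1 m := by
      change 2 ^ (m + 1) * (n.1 + 1) = 2 * (2 ^ m * (n.1 + 1))
      ring
    rw [ZMod.val_natCast, Nat.mod_eq_of_lt (by omega)]
    have h3 : 2 * (z.val / 2) = z.val := by omega
    rw [h3]
    exact ZMod.natCast_zmod_val z
  refine ⟨⟨n, ((x.val / 2 : ℕ) : ZMod (sd n.1 m)), ((y.val / 2 : ℕ) : ZMod (sd n.1 m))⟩, ?_⟩
  simp only [dbl]
  rw [key x hx, key y hy]

end Dbl

variable (τ : Tower)

theorem via_eq_on_range {m : ℕ} {π : Equiv.Perm (GI m)} {π' : Equiv.Perm (GI (m + 1))}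
    (h : ∀ g, π' (dbl m g) = dbl m (π g)) :
    ∀ j ∈ Set.range (ji τ m), π.viaEmbedding (ji τ m) j = π'.viaEmbedding (ji τ (m + 1)) j := by
  rintro _ ⟨g, rfl⟩
  rw [Equiv.Perm.viaEmbedding_apply]
  conv_rhs => rw [← ji_dbl]
  rw [Equiv.Perm.viaEmbedding_apply, h, ji_dbl]

theorem via_mem_range {m : ℕ} (π : Equiv.Perm (GI m)) (j : XT τ × ℕ) :
    π.viaEmbedding (ji τ m) j ∈ Set.range (ji τ m) ↔ j ∈ Set.range (ji τ m) := by
  constructor
  · intro h
    by_contra hj
    rw [Equiv.Perm.viaEmbedding_apply_of_notMem _ _ _ hj] at h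
    exact hj h
  · rintro ⟨g, rfl⟩
    rw [Equiv.Perm.viaEmbedding_apply]
    exact ⟨_, rfl⟩

theorem via_mem_range' {m : ℕ} {π : Equiv.Perm (GI m)} {π' : Equiv.Perm (GI (m + 1))}
    (h : ∀ g, π' (dbl m g) = dbl m (π g)) (j : XT τ × ℕ) :
    π'.viaEmbedding (ji τ (m + 1)) j ∈ Set.range (ji τ m) ↔ j ∈ Set.range (ji τ m) := by
  have h0 := via_eq_on_range τ h
  constructor
  · rintro ⟨g, hg⟩
    have h1 : π'.viaEmbedding (ji τ (m + 1)) (ji τ m (π⁻¹ g)) = ji τ m g := by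
      rw [← h0 _ ⟨_, rfl⟩, Equiv.Perm.viaEmbedding_apply]
      exact congrArg (ji τ m) (π.apply_symm_apply g)
    rw [← h1] at hg
    exact ⟨_, (π'.viaEmbedding (ji τ (m + 1))).injective hg⟩
  · intro hj
    rw [← h0 j hj]
    exact (via_mem_range τ π j).2 hj

/-- At integer times the Bott matrices of the two adjacent pieces of the path agree. -/
theorem bott_match (m : ℕ) {q : Polynomial ℂ} (hq0 : q.coeff 0 = 0) (a b : Fin 2) :
    bott (pL τ m (fX m)) (pL τ m (fY m)) (hq q (pL τ m (fX m))) a b =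
      bott (pL τ (m + 1) (gsX m)) (pL τ (m + 1) (gsY m)) (hq q (pL τ (m + 1) (gsX m))) a b := by
  refine bott_eq_of_rel (p := proj (Set.range (ji τ m))) (star_proj _) hq0 ?_ ?_ ?_ ?_ ?_ ?_ ?_ ?_
    ?_ a b
  · exact permL_mul_proj_congr (via_eq_on_range τ (gsX_dblB m))
  · exact permL_commute_proj (via_mem_range τ _)
  · exact permL_commute_proj (via_mem_range' τ (gsX_dblB m))
  · exact permL_mul_proj_congr (via_eq_on_range τ (gsY_dblB m))
  · exact permL_commute_proj (via_mem_range τ _)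
  · exact permL_commute_proj (via_mem_range' τ (gsY_dblB m))
  · exact permL_sub_one_mul_compl
      (fun j hj => Equiv.Perm.viaEmbedding_apply_of_notMem _ _ _ hj)
  · refine permL_sub_one_mul_compl' (fun j hj => ?_)
    by_cases hr : j ∈ Set.range (ji τ (m + 1))
    · obtain ⟨g, rfl⟩ := hr
      rw [Equiv.Perm.viaEmbedding_apply, Equiv.Perm.viaEmbedding_apply,
        Equiv.Perm.viaEmbedding_apply]
      by_cases hy : g.2.2.val % 2 = 0
      · right
        have hx : ¬ g.2.1.val % 2 = 0 := by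
          intro hx
          obtain ⟨g', hg'⟩ := mem_range_dbl m g hx hy
          exact hj ⟨g', by rw [← hg', ji_dbl]⟩
        constructor
        · rw [gsX_apply, if_neg hx]
        · have hx' : ¬ (gsY m g).2.1.val % 2 = 0 := hx
          rw [gsX_apply, if_neg hx']
      · left
        rw [gsY_apply, if_neg hy]
    · left
      exact Equiv.Perm.viaEmbedding_apply_of_notMem _ _ _ hr
  · rw [star_pL, ← pL_mul, inv_mul_cancel, pL_one]

/-! ### The families -/

theorem norm_exp_sub_exp_le (s s' : ℝ) : ‖Complex.exp (Complex.I * Real.pi * s) -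
    Complex.exp (Complex.I * Real.pi * s')‖ ≤ Real.pi * |s - s'| := by
  have h1 : Complex.exp (Complex.I * Real.pi * s) - Complex.exp (Complex.I * Real.pi * s') =
      Complex.exp (((Real.pi * s' : ℝ) : ℂ) * Complex.I) *
        (Complex.exp (Complex.I * ((Real.pi * (s - s') : ℝ) : ℂ)) - 1) := by
    rw [mul_sub, mul_one, ← Complex.exp_add]
    congr 2 <;> push_cast <;> ring
  rw [h1, norm_mul, Complex.norm_exp_ofReal_mul_I, one_mul]
  refine Real.norm_exp_I_mul_ofReal_sub_one_le.trans (le_of_eq ?_)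
  rw [Real.norm_eq_abs, abs_mul, abs_of_pos Real.pi_pos]

theorem norm_ra_sub_le (s s' : ℝ) : ‖ra s - ra s'‖ ≤ 2 * |s - s'| := by
  have h1 : ra s - ra s' = (Complex.exp (Complex.I * Real.pi * s) -
      Complex.exp (Complex.I * Real.pi * s')) / 2 := by
    unfold ra
    ring
  have h2 := norm_exp_sub_exp_le s s'
  have h3 := Real.pi_le_four
  have h4 := abs_nonneg (s - s')
  rw [h1, norm_div, Complex.norm_ofNat]
  linarith only [mul_nonneg (sub_nonneg.2 h3) (sub_nonneg.2 h4), h2]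

theorem norm_rb_sub_le (s s' : ℝ) : ‖rb s - rb s'‖ ≤ 2 * |s - s'| := by
  have h1 : rb s - rb s' = -((Complex.exp (Complex.I * Real.pi * s) -
      Complex.exp (Complex.I * Real.pi * s')) / 2) := by
    unfold rb
    ring
  have h2 := norm_exp_sub_exp_le s s'
  have h3 := Real.pi_le_four
  have h4 := abs_nonneg (s - s')
  rw [h1, norm_neg, norm_div, Complex.norm_ofNat]
  linarith only [mul_nonneg (sub_nonneg.2 h3) (sub_nonneg.2 h4), h2]

theorem ra_zero : ra 0 = 1 := by simp [ra]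
theorem rb_zero : rb 0 = 0 := by simp [rb]

theorem exp_pi_one : Complex.exp (Complex.I * Real.pi * (1 : ℝ)) = -1 := by
  have h : Complex.I * Real.pi * (1 : ℝ) = Real.pi * Complex.I := by
    push_cast
    ring
  rw [h, Complex.exp_pi_mul_I]

theorem ra_one : ra 1 = 0 := by
  rw [ra, exp_pi_one]
  norm_num

theorem rb_one : rb 1 = 1 := by
  rw [rb, exp_pi_one]
  norm_num

/-- A unitary of `C*_max(X)^+` has norm at most one. -/
theorem norm_le_one_of_mem_unitary {X : Type} [MetricSpace X] [BddGeometry X]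
    {u : CM (gX X)} (hu : u ∈ unitary (CM (gX X))) : ‖u‖ ≤ 1 := by
  have h1 : ‖u‖ * ‖u‖ ≤ 1 := by
    rw [← CStarRing.norm_star_mul_self, (Unitary.mem_iff.1 hu).1]
    exact norm_one_CM_le _
  nlinarith [norm_nonneg u]

theorem toMax_mem_unitary {X : Type} [MetricSpace X] [BddGeometry X] {U : roeU (gX X)}
    (hU : U ∈ unitary (roeU (gX X))) : toMax (gX X) U ∈ unitary (CM (gX X)) := by
  obtain ⟨h1, h2⟩ := Unitary.mem_iff.1 hU
  refine Unitary.mem_iff.2 ⟨?_, ?_⟩
  · rw [← map_star, ← map_mul, h1, map_one]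
  · rw [← map_star, ← map_mul, h2, map_one]

/-- Permutations of the grid moving the positions by at most `δ`. -/
theorem onRips_pL {m : ℕ} {π : Equiv.Perm (GI m)} {δ : ℝ}
    (h : ∀ g : GI m, (gpt τ g.1.1 m g.2).dist (gpt τ (π g).1.1 m (π g).2) ≤ δ) :
    OnRips 2 δ (pL τ m π - 1) := by
  intro j k hjk
  obtain ⟨h1, h2⟩ := permL_sub_one_ent hjk
  have hk : k ∈ Set.range (ji τ m) := by
    by_contra hk
    exact h2 (Equiv.Perm.viaEmbedding_apply_of_notMem _ _ _ hk)
  obtain ⟨g, rfl⟩ := hk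
  rw [Equiv.Perm.viaEmbedding_apply] at h1
  have hg := h g
  rcases h1 with h1 | h1
  · subst h1
    rw [pos_ji, pos_ji]
    exact ⟨inRips_gpt τ _ _ _, inRips_gpt τ _ _ _, by rwa [RPt.dist_comm]⟩
  · subst h1
    rw [pos_ji]
    exact ⟨inRips_gpt τ _ _ _, inRips_gpt τ _ _ _, by
      rw [RPt.dist_self]
      exact (RPt.dist_nonneg _ _).trans hg⟩

theorem dist_gpt_fX (m : ℕ) (g : GI m) :
    (gpt τ g.1.1 m g.2).dist (gpt τ (fX m g).1.1 m (fX m g).2) ≤ 4 / 2 ^ m :=
  (dist_gpt_x τ g.1.1 m g.1.2 g.2).trans (by gcongr; norm_num)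

theorem dist_gpt_fY (m : ℕ) (g : GI m) :
    (gpt τ g.1.1 m g.2).dist (gpt τ (fY m g).1.1 m (fY m g).2) ≤ 4 / 2 ^ m :=
  (dist_gpt_y τ g.1.1 m g.1.2 g.2).trans (by gcongr; norm_num)

theorem dist_gpt_gsX (m : ℕ) (g : GI (m + 1)) :
    (gpt τ g.1.1 (m + 1) g.2).dist (gpt τ (gsX m g).1.1 (m + 1) (gsX m g).2) ≤
      4 / 2 ^ (m + 1) := by
  obtain ⟨n, x, y⟩ := g
  rw [gsX_apply]
  by_cases h : x.val % 2 = 0
  · have h1 := dist_gpt_x τ n.1 (m + 1) n.2 (x, y)
    have h2 := dist_gpt_x τ n.1 (m + 1) n.2 (x + 1, y)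
    have h3 := RPt.dist_triangle (gpt τ n.1 (m + 1) (x, y)) (gpt τ n.1 (m + 1) (x + 1, y))
      (gpt τ n.1 (m + 1) (x + 1 + 1, y))
    have h4 : x + 2 = x + 1 + 1 := by ring
    have h5 : (4 : ℝ) / 2 ^ (m + 1) = 2 / 2 ^ (m + 1) + 2 / 2 ^ (m + 1) := by ring
    simp only [if_pos h, h4]
    rw [h5]
    exact h3.trans (add_le_add h1 h2)
  · simp only [if_neg h]
    rw [RPt.dist_self]
    positivity

theorem dist_gpt_gsY (m : ℕ) (g : GI (m + 1)) :
    (gpt τ g.1.1 (m + 1) g.2).dist (gpt τ (gsY m g).1.1 (m + 1) (gsY m g).2) ≤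
      4 / 2 ^ (m + 1) := by
  obtain ⟨n, x, y⟩ := g
  rw [gsY_apply]
  by_cases h : y.val % 2 = 0
  · have h1 := dist_gpt_y τ n.1 (m + 1) n.2 (x, y)
    have h2 := dist_gpt_y τ n.1 (m + 1) n.2 (x, y + 1)
    have h3 := RPt.dist_triangle (gpt τ n.1 (m + 1) (x, y)) (gpt τ n.1 (m + 1) (x, y + 1))
      (gpt τ n.1 (m + 1) (x, y + 1 + 1))
    have h4 : y + 2 = y + 1 + 1 := by ring
    have h5 : (4 : ℝ) / 2 ^ (m + 1) = 2 / 2 ^ (m + 1) + 2 / 2 ^ (m + 1) := by ring
    simp only [if_pos h, h4]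
    rw [h5]
    exact h3.trans (add_le_add h1 h2)
  · simp only [if_neg h]
    rw [RPt.dist_self]
    positivity

theorem onRips_Ubp (m : ℕ) (s : ℝ) : OnRips 2 (4 / 2 ^ m) (Ubp τ m s - 1) := by
  have h : (4 : ℝ) / 2 ^ (m + 1) ≤ 4 / 2 ^ m := by
    gcongr
    · exact one_le_two
    · exact Nat.le_succ m
  rw [Ubp, rot_sub_one, tX_mul_gsX]
  exact (((onRips_pL τ (dist_gpt_gsX τ m)).mono le_rfl h).smul _).add
    (((onRips_pL τ (dist_gpt_fX τ (m + 1))).mono le_rfl h).smul _)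

theorem onRips_Vbp (m : ℕ) (s : ℝ) : OnRips 2 (4 / 2 ^ m) (Vbp τ m s - 1) := by
  have h : (4 : ℝ) / 2 ^ (m + 1) ≤ 4 / 2 ^ m := by
    gcongr
    · exact one_le_two
    · exact Nat.le_succ m
  rw [Vbp, rot_sub_one, tY_mul_gsY]
  exact (((onRips_pL τ (dist_gpt_gsY τ m)).mono le_rfl h).smul _).add
    (((onRips_pL τ (dist_gpt_fY τ (m + 1))).mono le_rfl h).smul _)

theorem Ubp_zero (m : ℕ) : Ubp τ m 0 = pL τ (m + 1) (gsX m) := by
  rw [Ubp, ra_zero, rb_zero, one_smul, zero_smul, add_zero]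

theorem Ubp_one (m : ℕ) : Ubp τ m 1 = pL τ (m + 1) (fX (m + 1)) := by
  rw [Ubp, ra_one, rb_one, one_smul, zero_smul, zero_add, tX_mul_gsX]

theorem Vbp_zero (m : ℕ) : Vbp τ m 0 = pL τ (m + 1) (gsY m) := by
  rw [Vbp, ra_zero, rb_zero, one_smul, zero_smul, add_zero]

theorem Vbp_one (m : ℕ) : Vbp τ m 1 = pL τ (m + 1) (fY (m + 1)) := by
  rw [Vbp, ra_one, rb_one, one_smul, zero_smul, zero_add, tY_mul_gsY]

theorem Uel_eq (m : ℕ) (s : ℝ) : Uel τ m s = ra s • Uel τ m 0 + rb s • Uel τ m 1 := by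
  apply Subtype.ext
  change Ubp τ m s = ra s • Ubp τ m 0 + rb s • Ubp τ m 1
  rw [Ubp_zero, Ubp_one, ← tX_mul_gsX]
  rfl

theorem Vel_eq (m : ℕ) (s : ℝ) : Vel τ m s = ra s • Vel τ m 0 + rb s • Vel τ m 1 := by
  apply Subtype.ext
  change Vbp τ m s = ra s • Vbp τ m 0 + rb s • Vbp τ m 1
  rw [Vbp_zero, Vbp_one, ← tY_mul_gsY]
  rfl

theorem norm_rot_sub_le {A : Type*} [NormedRing A] [NormedAlgebra ℂ A] {S T : A}
    (hS : ‖S‖ ≤ 1) (hT : ‖T‖ ≤ 1) (s s' : ℝ) :
    ‖(ra s • S + rb s • T) - (ra s' • S + rb s' • T)‖ ≤ 4 * |s - s'| := by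
  have e : (ra s • S + rb s • T) - (ra s' • S + rb s' • T) =
      (ra s - ra s') • S + (rb s - rb s') • T := by
    rw [sub_smul, sub_smul]
    abel
  have h1 := norm_ra_sub_le s s'
  have h2 := norm_rb_sub_le s s'
  have h0 := abs_nonneg (s - s')
  rw [e]
  refine (norm_add_le _ _).trans ?_
  rw [norm_smul, norm_smul]
  have h3 : ‖ra s - ra s'‖ * ‖S‖ ≤ 2 * |s - s'| * 1 :=
    mul_le_mul h1 hS (norm_nonneg _) (by positivity)
  have h4 : ‖rb s - rb s'‖ * ‖T‖ ≤ 2 * |s - s'| * 1 :=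
    mul_le_mul h2 hT (norm_nonneg _) (by positivity)
  linarith

theorem isFam_Uel : IsFam 1 4 (fun m s => Uel τ m s) := by
  refine ⟨fun m s => ?_, fun m s => ?_, fun m s => ?_, fun m s s' => ?_⟩
  · rw [one_smul]
    exact Ubp_roe τ m s
  · rw [one_smul]
    exact onRips_Ubp τ m s
  · exact (norm_le_one_of_mem_unitary (toMax_mem_unitary (Uel_unitary τ m s))).trans
      (by norm_num)
  · rw [Uel_eq τ m s, Uel_eq τ m s', map_add, map_add, map_smul, map_smul, map_smul, map_smul]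
    exact norm_rot_sub_le (norm_le_one_of_mem_unitary (toMax_mem_unitary (Uel_unitary τ m 0)))
      (norm_le_one_of_mem_unitary (toMax_mem_unitary (Uel_unitary τ m 1))) s s'

theorem isFam_Vel : IsFam 1 4 (fun m s => Vel τ m s) := by
  refine ⟨fun m s => ?_, fun m s => ?_, fun m s => ?_, fun m s s' => ?_⟩
  · rw [one_smul]
    exact Vbp_roe τ m s
  · rw [one_smul]
    exact onRips_Vbp τ m s
  · exact (norm_le_one_of_mem_unitary (toMax_mem_unitary (Vel_unitary τ m s))).trans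
      (by norm_num)
  · rw [Vel_eq τ m s, Vel_eq τ m s', map_add, map_add, map_smul, map_smul, map_smul, map_smul]
    exact norm_rot_sub_le (norm_le_one_of_mem_unitary (toMax_mem_unitary (Vel_unitary τ m 0)))
      (norm_le_one_of_mem_unitary (toMax_mem_unitary (Vel_unitary τ m 1))) s s'

/-- The family of polynomial Bott matrices. -/
noncomputable def bottF (q : Polynomial ℂ) (a b : Fin 2) : ℕ → ℝ → roeU (gX (XT τ)) :=
  bott (fun m s => Uel τ m s) (fun m s => Vel τ m s) (hq q (fun m s => Uel τ m s)) a b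

theorem bottF_mem (q : Polynomial ℂ) (a b : Fin 2) : bottF τ q a b ∈ locFam (XT τ) := by
  have hU : (fun m s => Uel τ m s) ∈ locFam (XT τ) := ⟨1, 4, isFam_Uel τ⟩
  have hV : (fun m s => Vel τ m s) ∈ locFam (XT τ) := ⟨1, 4, isFam_Vel τ⟩
  exact bott_mem (locFam (XT τ)) hU hV (hq_mem (locFam (XT τ)) q hU) a b

/-- Evaluation of a family. -/
noncomputable def evFam {X : Type} [MetricSpace X] [BddGeometry X] (m : ℕ) (s : ℝ) :
    (ℕ → ℝ → roeU (gX X)) →⋆ₐ[ℂ] roeU (gX X) where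
  toFun F := F m s
  map_one' := rfl
  map_mul' _ _ := rfl
  map_zero' := rfl
  map_add' _ _ := rfl
  commutes' _ := rfl
  map_star' _ := rfl

theorem bottF_apply (q : Polynomial ℂ) (a b : Fin 2) (m : ℕ) (s : ℝ) :
    bottF τ q a b m s = bott (Uel τ m s) (Vel τ m s) (hq q (Uel τ m s)) a b := by
  have h1 := map_bott (evFam (X := XT τ) m s) (fun m s => Uel τ m s) (fun m s => Vel τ m s)
    (hq q (fun m s => Uel τ m s)) a b
  rw [map_hq] at h1
  exact h1

theorem bottF_match {q : Polynomial ℂ} (hq0 : q.coeff 0 = 0) (a b : Fin 2) (m : ℕ) :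
    bottF τ q a b m 1 = bottF τ q a b (m + 1) 0 := by
  rw [bottF_apply, bottF_apply]
  apply Subtype.ext
  have h1 := map_bott (roeU (gX (XT τ))).subtype (Uel τ m 1) (Vel τ m 1)
    (hq q (Uel τ m 1)) a b
  have h2 := map_bott (roeU (gX (XT τ))).subtype (Uel τ (m + 1) 0) (Vel τ (m + 1) 0)
    (hq q (Uel τ (m + 1) 0)) a b
  rw [map_hq] at h1 h2
  refine h1.trans (Eq.trans ?_ h2.symm)
  change bott (Ubp τ m 1) (Vbp τ m 1) (hq q (Ubp τ m 1)) a b =
    bott (Ubp τ (m + 1) 0) (Vbp τ (m + 1) 0) (hq q (Ubp τ (m + 1) 0)) a b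
  rw [Ubp_one, Vbp_one, Ubp_zero, Vbp_zero]
  exact bott_match τ (m + 1) hq0 a b

end Vale.Agent.P212
end
end

section

section

namespace Vale.Agent.P212

instance {X : Type} [MetricSpace X] [BddGeometry X] (W : Set X) : BddGeometry W := by
  refine ⟨fun R => ?_⟩
  obtain ⟨N, hN⟩ := BddGeometry.bdd (X := X) R
  refine ⟨N, fun x => ?_⟩
  refine le_trans ?_ (hN (x : X))
  rw [← Set.InjOn.encard_image (f := (Subtype.val : W → X)) Subtype.val_injective.injOn]
  refine Set.encard_le_encard ?_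
  rintro _ ⟨w, hw, rfl⟩
  exact hw

end Vale.Agent.P212
end
end

section

section

/-! Functoriality of the maximal Roe algebra for subspaces. -/

set_option linter.unusedSectionVars false

namespace Vale.Agent.P212

open UniformSpace

variable {X : Type} [MetricSpace X] [BddGeometry X] {J : Type}

theorem proj_comp_pushL2 {K L : Type} {u : K → L} (hu : Function.Injective u) (A : Set L) :
    proj A ∘L pushL2 u hu = pushL2 u hu ∘L proj (u ⁻¹' A) := by
  ext f k
  change (proj A (pushL2 u hu f) : L → ℂ) k = (pushL2 u hu (proj (u ⁻¹' A) f) : L → ℂ) k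
  by_cases hk : k ∈ Set.range u
  · obtain ⟨j, rfl⟩ := hk
    rw [pushL2_apply]
    by_cases hA : u j ∈ A
    · rw [proj_apply_mem _ hA, proj_apply_mem f (show j ∈ u ⁻¹' A from hA), pushL2_apply]
    · rw [proj_apply_not_mem _ hA, proj_apply_not_mem f (show j ∉ u ⁻¹' A from hA)]
  · rw [pushL2_apply_not_mem hu _ hk]
    by_cases hA : k ∈ A
    · rw [proj_apply_mem _ hA, pushL2_apply_not_mem hu _ hk]
    · rw [proj_apply_not_mem _ hA]

theorem adjoint_pushL2_comp_proj {K L : Type} {u : K → L} (hu : Function.Injective u)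
    (A : Set L) : ContinuousLinearMap.adjoint (pushL2 u hu) ∘L proj A =
      proj (u ⁻¹' A) ∘L ContinuousLinearMap.adjoint (pushL2 u hu) := by
  have h := congrArg ContinuousLinearMap.adjoint (proj_comp_pushL2 hu A)
  rw [ContinuousLinearMap.adjoint_comp, ContinuousLinearMap.adjoint_comp,
    ← ContinuousLinearMap.star_eq_adjoint (proj A),
    ← ContinuousLinearMap.star_eq_adjoint (proj (u ⁻¹' A)), star_proj, star_proj] at h
  exact h

/-- The isometry `l^2(W x N) → l^2(X x N)`. -/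
noncomputable def inclL (W : Set X) : LP W →L[ℂ] LP X :=
  pushL2 (fun j : W × ℕ => ((j.1 : X), j.2)) (by
    rintro ⟨a, b⟩ ⟨c, d⟩ h
    simpa [Subtype.ext_iff] using h)

theorem adjoint_inclL_comp (W : Set X) :
    ContinuousLinearMap.adjoint (inclL W) ∘L inclL W = 1 := adjoint_pushL2_comp _

theorem blk_incl (W : Set X) (T : LP W →L[ℂ] LP W) (x y : X) :
    blk (Prod.fst : X × ℕ → X) (inclL W ∘L T ∘L ContinuousLinearMap.adjoint (inclL W)) x y =
      inclL W ∘L (proj ((fun j : W × ℕ => ((j.1 : X), j.2)) ⁻¹'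
        ((Prod.fst : X × ℕ → X) ⁻¹' {x})) * T * proj ((fun j : W × ℕ => ((j.1 : X), j.2)) ⁻¹'
        ((Prod.fst : X × ℕ → X) ⁻¹' {y}))) ∘L ContinuousLinearMap.adjoint (inclL W) := by
  have h1 := proj_comp_pushL2 (u := fun j : W × ℕ => ((j.1 : X), j.2)) (by
    rintro ⟨a, b⟩ ⟨c, d⟩ h
    simpa [Subtype.ext_iff] using h) ((Prod.fst : X × ℕ → X) ⁻¹' {x})
  have h2 := adjoint_pushL2_comp_proj (u := fun j : W × ℕ => ((j.1 : X), j.2)) (by
    rintro ⟨a, b⟩ ⟨c, d⟩ h
    simpa [Subtype.ext_iff] using h) ((Prod.fst : X × ℕ → X) ⁻¹' {y})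
  calc blk (Prod.fst : X × ℕ → X) (inclL W ∘L T ∘L ContinuousLinearMap.adjoint (inclL W)) x y
      = (proj ((Prod.fst : X × ℕ → X) ⁻¹' {x}) ∘L inclL W) ∘L T ∘L
        (ContinuousLinearMap.adjoint (inclL W) ∘L proj ((Prod.fst : X × ℕ → X) ⁻¹' {y})) := rfl
    _ = _ := by
      rw [show proj ((Prod.fst : X × ℕ → X) ⁻¹' {x}) ∘L inclL W = _ from h1,
        show ContinuousLinearMap.adjoint (inclL W) ∘L proj ((Prod.fst : X × ℕ → X) ⁻¹' {y}) = _
          from h2]
      rfl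

theorem preimage_incl_of_mem (W : Set X) {x : X} (hx : x ∈ W) :
    (fun j : W × ℕ => ((j.1 : X), j.2)) ⁻¹' ((Prod.fst : X × ℕ → X) ⁻¹' {x}) =
      (Prod.fst : W × ℕ → W) ⁻¹' {⟨x, hx⟩} := by
  ext j
  simp [Subtype.ext_iff]

theorem preimage_incl_of_not_mem (W : Set X) {x : X} (hx : x ∉ W) :
    (fun j : W × ℕ => ((j.1 : X), j.2)) ⁻¹' ((Prod.fst : X × ℕ → X) ⁻¹' {x}) = ∅ := by
  ext j
  simp only [Set.mem_preimage, Set.mem_singleton_iff, Set.mem_empty_iff_false, iff_false]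
  intro h
  exact hx (h ▸ j.1.2)

theorem blk_incl_mem (W : Set X) (T : LP W →L[ℂ] LP W) {x y : X} (hx : x ∈ W) (hy : y ∈ W) :
    blk (Prod.fst : X × ℕ → X) (inclL W ∘L T ∘L ContinuousLinearMap.adjoint (inclL W)) x y =
      inclL W ∘L (blk (Prod.fst : W × ℕ → W) T ⟨x, hx⟩ ⟨y, hy⟩) ∘L
        ContinuousLinearMap.adjoint (inclL W) := by
  rw [blk_incl, preimage_incl_of_mem W hx, preimage_incl_of_mem W hy]
  rfl

theorem blk_incl_left (W : Set X) (T : LP W →L[ℂ] LP W) {x : X} (y : X) (hx : x ∉ W) :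
    blk (Prod.fst : X × ℕ → X) (inclL W ∘L T ∘L ContinuousLinearMap.adjoint (inclL W)) x y =
      0 := by
  rw [blk_incl, preimage_incl_of_not_mem W hx, proj_empty, zero_mul, zero_mul]
  simp

theorem blk_incl_right (W : Set X) (T : LP W →L[ℂ] LP W) (x : X) {y : X} (hy : y ∉ W) :
    blk (Prod.fst : X × ℕ → X) (inclL W ∘L T ∘L ContinuousLinearMap.adjoint (inclL W)) x y =
      0 := by
  rw [blk_incl, preimage_incl_of_not_mem W hy, proj_empty, mul_zero]
  simp

theorem isRoe_incl (W : Set X) {T : LP W →L[ℂ] LP W}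
    (hT : IsRoe (Prod.fst : W × ℕ → W) T) : IsRoe (Prod.fst : X × ℕ → X)
      (inclL W ∘L T ∘L ContinuousLinearMap.adjoint (inclL W)) := by
  obtain ⟨⟨R, hR⟩, hc⟩ := hT
  refine ⟨⟨R, fun x y hxy => ?_⟩, fun x y => ?_⟩
  · by_cases hx : x ∈ W
    · by_cases hy : y ∈ W
      · rw [blk_incl_mem W T hx hy, hR ⟨x, hx⟩ ⟨y, hy⟩ hxy]
        simp
      · exact blk_incl_right W T x hy
    · exact blk_incl_left W T y hx
  · by_cases hx : x ∈ W
    · by_cases hy : y ∈ W
      · rw [blk_incl_mem W T hx hy]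
        have h1 := (hc ⟨x, hx⟩ ⟨y, hy⟩).comp_clm (ContinuousLinearMap.adjoint (inclL W))
        exact h1.clm_comp (inclL W)
      · rw [blk_incl_right W T x hy]
        exact isCompactOperator_zero
    · rw [blk_incl_left W T y hx]
      exact isCompactOperator_zero

/-- The inclusion `ℂ[W] → ℂ[X]` for a subspace `W`: extension of operators by zero. -/
noncomputable def inclN (W : Set X) : roeN (Prod.fst : W × ℕ → W) →⋆ₙₐ[ℂ]
    roeN (Prod.fst : X × ℕ → X) where
  toFun T := ⟨inclL W ∘L T.1 ∘L ContinuousLinearMap.adjoint (inclL W), isRoe_incl W T.2⟩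
  map_smul' c T := by
    apply Subtype.ext
    change inclL W ∘L (c • T.1) ∘L ContinuousLinearMap.adjoint (inclL W) =
      c • (inclL W ∘L T.1 ∘L ContinuousLinearMap.adjoint (inclL W))
    rw [ContinuousLinearMap.smul_comp, ContinuousLinearMap.comp_smul]
  map_zero' := by
    apply Subtype.ext
    change inclL W ∘L 0 ∘L ContinuousLinearMap.adjoint (inclL W) = 0
    rw [ContinuousLinearMap.zero_comp, ContinuousLinearMap.comp_zero]
  map_add' T T' := by
    apply Subtype.ext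
    change inclL W ∘L (T.1 + T'.1) ∘L ContinuousLinearMap.adjoint (inclL W) =
      inclL W ∘L T.1 ∘L ContinuousLinearMap.adjoint (inclL W) +
        inclL W ∘L T'.1 ∘L ContinuousLinearMap.adjoint (inclL W)
    rw [ContinuousLinearMap.add_comp, ContinuousLinearMap.comp_add]
  map_mul' T T' := by
    apply Subtype.ext
    change inclL W ∘L (T.1 ∘L T'.1) ∘L ContinuousLinearMap.adjoint (inclL W) =
      (inclL W ∘L T.1 ∘L ContinuousLinearMap.adjoint (inclL W)) ∘L
        (inclL W ∘L T'.1 ∘L ContinuousLinearMap.adjoint (inclL W))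
    calc _ = inclL W ∘L (T.1 ∘L 1 ∘L T'.1) ∘L ContinuousLinearMap.adjoint (inclL W) := rfl
      _ = _ := by
        rw [← adjoint_inclL_comp W]
        rfl
  map_star' T := by
    apply Subtype.ext
    change inclL W ∘L (star T.1) ∘L ContinuousLinearMap.adjoint (inclL W) =
      star (inclL W ∘L T.1 ∘L ContinuousLinearMap.adjoint (inclL W))
    rw [ContinuousLinearMap.star_eq_adjoint, ContinuousLinearMap.star_eq_adjoint,
      ContinuousLinearMap.adjoint_comp, ContinuousLinearMap.adjoint_comp,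
      ContinuousLinearMap.adjoint_adjoint, ContinuousLinearMap.comp_assoc]

/-- The inclusion `ℂ[X] → C*_max(X)^+`. -/
noncomputable def roeToMax (s : J → X) : roeN s →⋆ₙₐ[ℂ] CM s where
  toFun T := toMax s ⟨T.1, T.2.mem_roeU⟩
  map_smul' c T := by
    have h : (⟨(c • T).1, (c • T).2.mem_roeU⟩ : roeU s) = c • ⟨T.1, T.2.mem_roeU⟩ :=
      Subtype.ext rfl
    have h2 : toMax s (⟨(c • T).1, (c • T).2.mem_roeU⟩ : roeU s) =
        c • toMax s ⟨T.1, T.2.mem_roeU⟩ := by rw [h, map_smul]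
    exact h2
  map_zero' := by
    have h : (⟨(0 : roeN s).1, (0 : roeN s).2.mem_roeU⟩ : roeU s) = 0 := Subtype.ext rfl
    have h2 : toMax s (⟨(0 : roeN s).1, (0 : roeN s).2.mem_roeU⟩ : roeU s) = 0 := by
      rw [h, map_zero]
    exact h2
  map_add' T T' := by
    have h : (⟨(T + T').1, (T + T').2.mem_roeU⟩ : roeU s) =
      ⟨T.1, T.2.mem_roeU⟩ + ⟨T'.1, T'.2.mem_roeU⟩ := Subtype.ext rfl
    have h2 : toMax s (⟨(T + T').1, (T + T').2.mem_roeU⟩ : roeU s) =
        toMax s ⟨T.1, T.2.mem_roeU⟩ + toMax s ⟨T'.1, T'.2.mem_roeU⟩ := by rw [h, map_add]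
    exact h2
  map_mul' T T' := by
    have h : (⟨(T * T').1, (T * T').2.mem_roeU⟩ : roeU s) =
      ⟨T.1, T.2.mem_roeU⟩ * ⟨T'.1, T'.2.mem_roeU⟩ := Subtype.ext rfl
    have h2 : toMax s (⟨(T * T').1, (T * T').2.mem_roeU⟩ : roeU s) =
        toMax s ⟨T.1, T.2.mem_roeU⟩ * toMax s ⟨T'.1, T'.2.mem_roeU⟩ := by rw [h, map_mul]
    exact h2
  map_star' T := by
    have h : (⟨(star T).1, (star T).2.mem_roeU⟩ : roeU s) = star ⟨T.1, T.2.mem_roeU⟩ :=
      Subtype.ext rfl
    have h2 : toMax s (⟨(star T).1, (star T).2.mem_roeU⟩ : roeU s) =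
        star (toMax s ⟨T.1, T.2.mem_roeU⟩) := by rw [h, map_star]
    exact h2

/-- The homomorphism `C*_max(W)^+ → C*_max(X)^+` for a subspace `W` of `X`. -/
noncomputable def inclC (W : Set X) [Nonempty W] :
    CM (Prod.fst : W × ℕ → W) →⋆ₐ[ℂ] CM (Prod.fst : X × ℕ → X) :=
  CM.lift _ (unitExt _ ((roeToMax (Prod.fst : X × ℕ → X)).comp (inclN W)))

/-- `K_0(C*_max(W)) → K_0(C*_max(X)^+)`. -/
noncomputable def K0incl (W : Set X) [Nonempty W] :
    K0 (CM (Prod.fst : W × ℕ → W)) →+ K0 (CM (Prod.fst : X × ℕ → X)) :=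
  K0.map (inclC W : CM (Prod.fst : W × ℕ → W) →+* CM (Prod.fst : X × ℕ → X))

end Vale.Agent.P212
end
end

section

section

/-! The multiplier algebra of the maximal Roe algebra. -/

namespace Vale.Agent.P212

open UniformSpace

variable {X : Type} [MetricSpace X] [BddGeometry X] {J : Type}

/-- The maximal norm on `ℂ[X]`. -/
noncomputable def mN (s : J → X) (T : roeN s) : ℝ := maxNorm s ⟨T.1, T.2.mem_roeU⟩

section MN

variable {s : J → X}

theorem mN_nonneg (T : roeN s) : 0 ≤ mN s T := maxNorm_nonneg _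

theorem mN_add_le {T S : L2 J →L[ℂ] L2 J} (hT : IsRoe s T) (hS : IsRoe s S)
    (h : IsRoe s (T + S)) : mN s ⟨T + S, h⟩ ≤ mN s ⟨T, hT⟩ + mN s ⟨S, hS⟩ :=
  (isCStarSeminorm_maxNorm (s := s)).add_le ⟨T, hT.mem_roeU⟩ ⟨S, hS.mem_roeU⟩

theorem mN_mul_le {T S : L2 J →L[ℂ] L2 J} (hT : IsRoe s T) (hS : IsRoe s S)
    (h : IsRoe s (T * S)) : mN s ⟨T * S, h⟩ ≤ mN s ⟨T, hT⟩ * mN s ⟨S, hS⟩ :=
  (isCStarSeminorm_maxNorm (s := s)).mul_le ⟨T, hT.mem_roeU⟩ ⟨S, hS.mem_roeU⟩

theorem mN_smul {T : L2 J →L[ℂ] L2 J} (c : ℂ) (hT : IsRoe s T) (h : IsRoe s (c • T)) :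
    mN s ⟨c • T, h⟩ = ‖c‖ * mN s ⟨T, hT⟩ :=
  (isCStarSeminorm_maxNorm (s := s)).smul c ⟨T, hT.mem_roeU⟩

theorem mN_star_mul {T : L2 J →L[ℂ] L2 J} (hT : IsRoe s T) (h : IsRoe s (star T * T)) :
    mN s ⟨star T * T, h⟩ = mN s ⟨T, hT⟩ ^ 2 :=
  (isCStarSeminorm_maxNorm (s := s)).star_mul ⟨T, hT.mem_roeU⟩

theorem mN_star {T : L2 J →L[ℂ] L2 J} (hT : IsRoe s T) (h : IsRoe s (star T)) :
    mN s ⟨star T, h⟩ = mN s ⟨T, hT⟩ :=
  IsCStarSeminorm.star_eq (maxNorm s) ⟨T, hT.mem_roeU⟩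

theorem mN_congr {T S : L2 J →L[ℂ] L2 J} (e : T = S) (hT : IsRoe s T) (hS : IsRoe s S) :
    mN s ⟨T, hT⟩ = mN s ⟨S, hS⟩ := by
  subst e
  rfl

theorem mN_zero (h : IsRoe s (0 : L2 J →L[ℂ] L2 J)) : mN s ⟨0, h⟩ = 0 :=
  IsCStarSeminorm.zero (maxNorm s)

end MN

/-- Bounded operators which multiply `ℂ[X]` into itself, boundedly for the maximal norm. -/
structure IsMult (s : J → X) (m : L2 J →L[ℂ] L2 J) : Prop where
  left : ∀ T, IsRoe s T → IsRoe s (m * T)
  right : ∀ T, IsRoe s T → IsRoe s (T * m)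
  bdd : ∃ C : ℝ, ∀ (T : L2 J →L[ℂ] L2 J) (hT : IsRoe s T),
    mN s ⟨m * T, left T hT⟩ ≤ C * mN s ⟨T, hT⟩

section IsMult

variable {s : J → X}

theorem IsMult.bdd' {m : L2 J →L[ℂ] L2 J} (hm : IsMult s m) :
    ∃ C : ℝ, 0 ≤ C ∧ ∀ (T : L2 J →L[ℂ] L2 J) (hT : IsRoe s T),
      mN s ⟨m * T, hm.left T hT⟩ ≤ C * mN s ⟨T, hT⟩ := by
  obtain ⟨C, hC⟩ := hm.bdd
  refine ⟨max C 0, le_max_right _ _, fun T hT => (hC T hT).trans ?_⟩
  exact mul_le_mul_of_nonneg_right (le_max_left _ _) (mN_nonneg _)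

theorem IsMult.mul {m m' : L2 J →L[ℂ] L2 J} (hm : IsMult s m) (hm' : IsMult s m') :
    IsMult s (m * m') := by
  obtain ⟨C, hC0, hC⟩ := hm.bdd'
  obtain ⟨C', hC0', hC'⟩ := hm'.bdd'
  refine ⟨fun T hT => ?_, fun T hT => ?_, C * C', fun T hT => ?_⟩
  · rw [mul_assoc]
    exact hm.left _ (hm'.left _ hT)
  · rw [← mul_assoc]
    exact hm'.right _ (hm.right _ hT)
  · rw [mN_congr (mul_assoc m m' T) _ (hm.left _ (hm'.left _ hT)), mul_assoc]
    exact (hC _ (hm'.left _ hT)).trans (mul_le_mul_of_nonneg_left (hC' T hT) hC0)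

theorem IsMult.add {m m' : L2 J →L[ℂ] L2 J} (hm : IsMult s m) (hm' : IsMult s m') :
    IsMult s (m + m') := by
  obtain ⟨C, hC0, hC⟩ := hm.bdd'
  obtain ⟨C', hC0', hC'⟩ := hm'.bdd'
  have h1 : ∀ T, IsRoe s T → IsRoe s (m * T + m' * T) := fun T hT =>
    (hm.left T hT).add (hm'.left T hT)
  refine ⟨fun T hT => ?_, fun T hT => ?_, C + C', fun T hT => ?_⟩
  · rw [add_mul]
    exact h1 T hT
  · rw [mul_add]
    exact (hm.right T hT).add (hm'.right T hT)
  · rw [mN_congr (add_mul m m' T) _ (h1 T hT), add_mul]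
    exact (mN_add_le (hm.left T hT) (hm'.left T hT) _).trans (add_le_add (hC T hT) (hC' T hT))

theorem isMult_algebraMap (c : ℂ) : IsMult s (algebraMap ℂ (L2 J →L[ℂ] L2 J) c) := by
  refine ⟨fun T hT => ?_, fun T hT => ?_, ‖c‖, fun T hT => ?_⟩
  · rw [← Algebra.smul_def]
    exact hT.smul c
  · rw [← Algebra.commutes, ← Algebra.smul_def]
    exact hT.smul c
  · rw [mN_congr (Algebra.smul_def c T).symm _ (hT.smul c), mN_smul c hT]

/-- The bound for the adjoint multiplier. -/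
theorem IsMult.star_bdd {m : L2 J →L[ℂ] L2 J} (hm : IsMult s m) {C : ℝ}
    (hC : ∀ (T : L2 J →L[ℂ] L2 J) (hT : IsRoe s T), mN s ⟨m * T, hm.left T hT⟩ ≤ C * mN s ⟨T, hT⟩)
    (T : L2 J →L[ℂ] L2 J) (hT : IsRoe s T) (h : IsRoe s (star m * T)) :
    mN s ⟨star m * T, h⟩ ≤ C * mN s ⟨T, hT⟩ := by
  rcases (mN_nonneg (⟨star m * T, h⟩ : roeN s)).eq_or_lt with h0 | h0
  · have h1 := hC T hT
    rw [← h0]
    exact (mN_nonneg _).trans h1
  · have e : star (star m * T) * (star m * T) = star T * (m * (star m * T)) := by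
      rw [star_mul, star_star, mul_assoc]
    have h2 : IsRoe s (star T * (m * (star m * T))) := hT.star.mul (hm.left _ h)
    have h3 := mN_star_mul h (e ▸ h2)
    rw [mN_congr e _ h2] at h3
    have h4 := mN_mul_le hT.star (hm.left _ h) h2
    rw [h3, mN_star hT] at h4
    have h5 := hC _ h
    have h6 : mN s ⟨star m * T, h⟩ ^ 2 ≤ (C * mN s ⟨T, hT⟩) * mN s ⟨star m * T, h⟩ := by
      calc _ ≤ _ := h4
        _ ≤ mN s ⟨T, hT⟩ * (C * mN s ⟨star m * T, h⟩) :=
            mul_le_mul_of_nonneg_left h5 (mN_nonneg _)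
        _ = _ := by ring
    rw [sq] at h6
    exact le_of_mul_le_mul_right h6 h0

theorem IsMult.star {m : L2 J →L[ℂ] L2 J} (hm : IsMult s m) : IsMult s (Star.star m) := by
  obtain ⟨C, hC0, hC⟩ := hm.bdd'
  have h1 : ∀ T, IsRoe s T → IsRoe s (Star.star m * T) := fun T hT => by
    have := (hm.right _ hT.star).star
    rwa [star_mul, star_star] at this
  refine ⟨h1, fun T hT => ?_, C, fun T hT => hm.star_bdd hC T hT (h1 T hT)⟩
  have := (hm.left _ hT.star).star
  rwa [star_mul, star_star] at this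

end IsMult

/-- The *-algebra of multipliers. -/
noncomputable def multAlg (s : J → X) : StarSubalgebra ℂ (L2 J →L[ℂ] L2 J) where
  carrier := {m | IsMult s m}
  mul_mem' := IsMult.mul
  add_mem' := IsMult.add
  algebraMap_mem' := isMult_algebraMap
  star_mem' := IsMult.star

noncomputable instance (priority := 2000) mar (s : J → X) : Ring (multAlg s) :=
  SubringClass.toRing (multAlg s)
noncomputable instance (priority := 2000) mas (s : J → X) : Semiring (multAlg s) :=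
  (mar s).toSemiring
noncomputable instance (priority := 2000) mamul (s : J → X) : Mul (multAlg s) := inferInstance
noncomputable instance (priority := 2000) maalg (s : J → X) : Algebra ℂ (multAlg s) :=
  (multAlg s).algebra
noncomputable instance (priority := 2000) mama (s : J → X) : MulAction ℂ (multAlg s) :=
  inferInstance
noncomputable instance (priority := 2000) mastr (s : J → X) : StarRing (multAlg s) :=
  (multAlg s).starRing

/-- The multiplier norm. -/
noncomputable def multNorm (s : J → X) (m : multAlg s) : ℝ :=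
  ⨆ T : {T : roeN s // mN s T ≤ 1}, mN s ⟨m.1 * T.1.1, m.2.left _ T.1.2⟩

section MultNorm

variable {s : J → X}

theorem bddAbove_multNorm (m : multAlg s) : BddAbove (Set.range
    (fun T : {T : roeN s // mN s T ≤ 1} => mN s ⟨m.1 * T.1.1, m.2.left _ T.1.2⟩)) := by
  obtain ⟨C, hC0, hC⟩ := m.2.bdd'
  refine ⟨C, ?_⟩
  rintro _ ⟨T, rfl⟩
  exact (hC _ T.1.2).trans (mul_le_of_le_one_right hC0 T.2)

theorem multNorm_nonneg (m : multAlg s) : 0 ≤ multNorm s m := by
  have h : mN s ⟨0, IsRoe.zero⟩ ≤ 1 := by rw [mN_zero]; exact zero_le_one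
  exact (mN_nonneg _).trans (le_ciSup (bddAbove_multNorm m)
    (⟨⟨0, IsRoe.zero⟩, h⟩ : {T : roeN s // mN s T ≤ 1}))

theorem mN_mul_le_multNorm (m : multAlg s) {T : L2 J →L[ℂ] L2 J} (hT : IsRoe s T) :
    mN s ⟨m.1 * T, m.2.left T hT⟩ ≤ multNorm s m * mN s ⟨T, hT⟩ := by
  rcases (mN_nonneg (⟨T, hT⟩ : roeN s)).eq_or_lt with h0 | h0
  · obtain ⟨C, hC0, hC⟩ := m.2.bdd'
    have := hC T hT
    rw [← h0, mul_zero] at this
    rw [← h0, mul_zero]
    exact this
  · set r := mN s ⟨T, hT⟩ with hr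
    have h1 : mN s ⟨((r⁻¹ : ℝ) : ℂ) • T, hT.smul _⟩ ≤ 1 := by
      rw [mN_smul _ hT, Complex.norm_real, Real.norm_of_nonneg (inv_nonneg.2 h0.le), ← hr,
        inv_mul_cancel₀ h0.ne']
    have h2 := le_ciSup (bddAbove_multNorm m)
      (⟨⟨((r⁻¹ : ℝ) : ℂ) • T, hT.smul _⟩, h1⟩ : {T : roeN s // mN s T ≤ 1})
    change mN s ⟨m.1 * (((r⁻¹ : ℝ) : ℂ) • T), _⟩ ≤ multNorm s m at h2
    rw [mN_congr (mul_smul_comm ((r⁻¹ : ℝ) : ℂ) m.1 T) _ ((m.2.left T hT).smul _),
      mN_smul _ (m.2.left T hT), Complex.norm_real, Real.norm_of_nonneg (inv_nonneg.2 h0.le),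
      inv_mul_le_iff₀ h0] at h2
    rw [mul_comm]
    exact h2

theorem multNorm_le {m : multAlg s} {C : ℝ} (hC0 : 0 ≤ C)
    (hC : ∀ (T : L2 J →L[ℂ] L2 J) (hT : IsRoe s T),
      mN s ⟨m.1 * T, m.2.left T hT⟩ ≤ C * mN s ⟨T, hT⟩) : multNorm s m ≤ C := by
  have h : mN s ⟨0, IsRoe.zero⟩ ≤ 1 := by rw [mN_zero]; exact zero_le_one
  have : Nonempty {T : roeN s // mN s T ≤ 1} := ⟨⟨⟨0, IsRoe.zero⟩, h⟩⟩
  exact ciSup_le fun T => (hC _ T.1.2).trans (mul_le_of_le_one_right hC0 T.2)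

theorem multNorm_star_le (m : multAlg s) : multNorm s (star m) ≤ multNorm s m :=
  multNorm_le (multNorm_nonneg m) fun T hT =>
    m.2.star_bdd (fun _ hT => mN_mul_le_multNorm m hT) T hT _

theorem multNorm_mul_le (m m' : multAlg s) :
    multNorm s (m * m') ≤ multNorm s m * multNorm s m' := by
  refine multNorm_le (mul_nonneg (multNorm_nonneg m) (multNorm_nonneg m')) fun T hT => ?_
  change mN s ⟨m.1 * m'.1 * T, _⟩ ≤ _
  rw [mN_congr (mul_assoc m.1 m'.1 T) _ (m.2.left _ (m'.2.left _ hT)), mul_assoc]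
  exact (mN_mul_le_multNorm m _).trans
    (mul_le_mul_of_nonneg_left (mN_mul_le_multNorm m' hT) (multNorm_nonneg m))

theorem multNorm_add_le (m m' : multAlg s) :
    multNorm s (m + m') ≤ multNorm s m + multNorm s m' := by
  refine multNorm_le (add_nonneg (multNorm_nonneg m) (multNorm_nonneg m')) fun T hT => ?_
  change mN s ⟨(m.1 + m'.1) * T, _⟩ ≤ _
  rw [mN_congr (add_mul m.1 m'.1 T) _ ((m.2.left _ hT).add (m'.2.left _ hT)), add_mul]
  exact (mN_add_le (m.2.left _ hT) (m'.2.left _ hT) _).trans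
    (add_le_add (mN_mul_le_multNorm m hT) (mN_mul_le_multNorm m' hT))

theorem multNorm_smul_le (c : ℂ) (m : multAlg s) :
    multNorm s (c • m) ≤ ‖c‖ * multNorm s m := by
  refine multNorm_le (mul_nonneg (norm_nonneg c) (multNorm_nonneg m)) fun T hT => ?_
  change mN s ⟨(c • m.1) * T, _⟩ ≤ _
  rw [mN_congr (smul_mul_assoc c m.1 T) _ ((m.2.left _ hT).smul c), mN_smul c (m.2.left _ hT),
    mul_assoc]
  exact mul_le_mul_of_nonneg_left (mN_mul_le_multNorm m hT) (norm_nonneg c)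

end MultNorm

instance (s : J → X) : IsCStarSeminorm (multNorm s) where
  add_le := multNorm_add_le
  smul c m := by
    refine le_antisymm (multNorm_smul_le c m) ?_
    rcases eq_or_ne c 0 with rfl | hc
    · rw [norm_zero, zero_mul]
      exact multNorm_nonneg _
    · have h := multNorm_smul_le c⁻¹ (c • m)
      rw [smul_smul, inv_mul_cancel₀ hc, one_smul, norm_inv,
        ← div_eq_inv_mul, le_div_iff₀ (norm_pos_iff.2 hc)] at h
      rw [mul_comm]
      exact h
  mul_le := multNorm_mul_le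
  star_mul m := by
    refine le_antisymm ?_ ?_
    · rw [sq]
      exact (multNorm_mul_le _ _).trans
        (mul_le_mul_of_nonneg_right (multNorm_star_le m) (multNorm_nonneg m))
    · have h : multNorm s m ≤ Real.sqrt (multNorm s (star m * m)) := by
        refine multNorm_le (Real.sqrt_nonneg _) fun T hT => ?_
        rw [← Real.sqrt_sq (mN_nonneg (⟨T, hT⟩ : roeN s)), ← Real.sqrt_mul (multNorm_nonneg _)]
        refine Real.le_sqrt_of_sq_le ?_
        have hm := m.2.left T hT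
        have e : star (m.1 * T) * (m.1 * T) = star T * ((star m * m : multAlg s).1 * T) := by
          change star (m.1 * T) * (m.1 * T) = star T * (star m.1 * m.1 * T)
          rw [star_mul]
          simp only [mul_assoc]
        have h2 : IsRoe s (star T * ((star m * m : multAlg s).1 * T)) :=
          hT.star.mul ((star m * m : multAlg s).2.left T hT)
        have h3 := mN_star_mul hm (e ▸ h2)
        rw [mN_congr e _ h2] at h3
        have h4 := mN_mul_le hT.star ((star m * m : multAlg s).2.left T hT) h2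
        rw [h3, mN_star hT] at h4
        have h5 := mN_mul_le_multNorm (star m * m) hT
        calc _ ≤ _ := h4
          _ ≤ mN s ⟨T, hT⟩ * (multNorm s (star m * m) * mN s ⟨T, hT⟩) :=
              mul_le_mul_of_nonneg_left h5 (mN_nonneg _)
          _ = _ := by ring
      calc multNorm s m ^ 2 ≤ Real.sqrt (multNorm s (star m * m)) ^ 2 :=
            pow_le_pow_left₀ (multNorm_nonneg m) h 2
        _ = multNorm s (star m * m) := Real.sq_sqrt (multNorm_nonneg _)

/-- The completion of the multipliers: a unital C*-algebra containing `C*_max(X)` as an ideal. -/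
def MM (s : J → X) : Type := Completion (WithSN (multNorm s))

noncomputable instance instCStarMM (s : J → X) : CStarAlgebra (MM s) :=
  instCStarAlgebraCompletion (WithSN (multNorm s))

noncomputable def toMM (s : J → X) : multAlg s →⋆ₐ[ℂ] MM s := toC (multNorm s)

theorem norm_toMM (s : J → X) (m : multAlg s) : ‖toMM s m‖ = multNorm s m := norm_toC _ m

theorem denseRange_toMM (s : J → X) : DenseRange (toMM s) := denseRange_toC _

theorem norm_toMax (s : J → X) (T : roeU s) : ‖toMax s T‖ = maxNorm s T := norm_toC _ T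

theorem IsRoe.isMult {s : J → X} {T : L2 J →L[ℂ] L2 J} (hT : IsRoe s T) : IsMult s T :=
  ⟨fun _ hS => hT.mul hS, fun _ hS => hS.mul hT, mN s ⟨T, hT⟩,
    fun _ hS => mN_mul_le hT hS _⟩

theorem isMult_of_mem_roeU {s : J → X} {T : L2 J →L[ℂ] L2 J} (hT : T ∈ roeU s) :
    IsMult s T := by
  obtain ⟨c, hc⟩ := hT
  have h : T = (T - c • 1) + algebraMap ℂ (L2 J →L[ℂ] L2 J) c := by
    rw [Algebra.algebraMap_eq_smul_one, sub_add_cancel]
  rw [h]
  exact hc.isMult.add (isMult_algebraMap c)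

theorem PropLE.mul_isRoe {s : J → X} {m T : L2 J →L[ℂ] L2 J} {R : ℝ} (hm : PropLE s m R)
    (hT : IsRoe s T) : IsRoe s (m * T) := by
  obtain ⟨R', hR'⟩ := hT.1
  refine ⟨⟨R + R', PropLE.mul hm hR'⟩, fun x y => ?_⟩
  rw [blk_mul hm]
  refine isCompactOperator_sum _ _ fun w _ => ?_
  exact (hT.2 w y).clm_comp (blk s m x w)

theorem PropLE.isRoe_mul {s : J → X} {m T : L2 J →L[ℂ] L2 J} {R : ℝ} (hm : PropLE s m R)
    (hT : IsRoe s T) : IsRoe s (T * m) := by
  have := (hm.star.mul_isRoe hT.star).star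
  rwa [star_mul, star_star, star_star] at this

theorem norm_le_of_star_mul_add {A : Type*} [CStarAlgebra A] {x y t : A}
    (h : star x * x + star y * y = star t * t) : ‖x‖ ≤ ‖t‖ := by
  let _ := CStarAlgebra.spectralOrder A
  let _ := CStarAlgebra.spectralOrderedRing A
  have h1 : ‖star x * x‖ ≤ ‖star t * t‖ := by
    refine CStarAlgebra.norm_le_norm_of_nonneg_of_le (star_mul_self_nonneg _) ?_
    rw [← h]
    exact le_add_of_nonneg_right (star_mul_self_nonneg _)
  rw [CStarRing.norm_star_mul_self, CStarRing.norm_star_mul_self] at h1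
  exact (mul_self_le_mul_self_iff (norm_nonneg _) (norm_nonneg _)).2 h1

/-- A finite propagation operator `m` such that `1 - m* m = r* r` with `r` of finite
propagation is a multiplier. -/
theorem isMult_of_contraction {s : J → X} {m r : L2 J →L[ℂ] L2 J} {R R' : ℝ}
    (hm : PropLE s m R) (hr : PropLE s r R') (h : star m * m + star r * r = 1) :
    IsMult s m := by
  refine ⟨fun T hT => hm.mul_isRoe hT, fun T hT => hm.isRoe_mul hT, 1, fun T hT => ?_⟩
  rw [one_mul]
  have hmT := hm.mul_isRoe hT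
  have hrT := hr.mul_isRoe hT
  set x : roeU s := ⟨m * T, hmT.mem_roeU⟩ with hx
  set y : roeU s := ⟨r * T, hrT.mem_roeU⟩ with hy
  set t : roeU s := ⟨T, hT.mem_roeU⟩ with ht
  have e : star x * x + star y * y = star t * t := by
    apply Subtype.ext
    change star (m * T) * (m * T) + star (r * T) * (r * T) = star T * T
    rw [star_mul, star_mul]
    calc star T * star m * (m * T) + star T * star r * (r * T)
        = star T * ((star m * m + star r * r) * T) := by
          rw [add_mul, mul_add]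
          simp only [mul_assoc]
      _ = star T * T := by rw [h, one_mul]
  have h1 : ‖toMax s x‖ ≤ ‖toMax s t‖ := by
    refine norm_le_of_star_mul_add (y := toMax s y) ?_
    rw [← map_star, ← map_star, ← map_star, ← map_mul, ← map_mul, ← map_mul, ← map_add, e]
  rwa [norm_toMax, norm_toMax] at h1

end Vale.Agent.P212
end
end
namespace AFast7dbf42x3944a
@[reducible] noncomputable def a0 {x1 : Type} {x2 : Type} [x3 : MetricSpace x2] [x4 : Vale.Agent.P212.BddGeometry x2] {x5 : x1 → x2} : Star ↥(Vale.Agent.P212.multAlg x5) := inferInstance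
end AFast7dbf42x3944a
attribute [local instance] AFast7dbf42x3944a.a0
namespace AFast7dbf42x3944b
@[reducible] noncomputable def a0 {x1 : Type} {x2 : Type} [x3 : MetricSpace x2] [x4 : Vale.Agent.P212.BddGeometry x2] {x5 : x1 → x2} : Module ℂ ↥(Vale.Agent.P212.multAlg x5) := inferInstance
theorem a1 {x1 : Type} {x2 : Type} [x3 : MetricSpace x2] [x4 : Vale.Agent.P212.BddGeometry x2] {x5 : x1 → x2} : StarModule ℂ ↥(Vale.Agent.P212.multAlg x5) := inferInstance
end AFast7dbf42x3944b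
attribute [local instance] AFast7dbf42x3944b.a0 AFast7dbf42x3944b.a1

section

section

/-! The maximal Roe algebra as an ideal of the multiplier algebra. -/

namespace Vale.Agent.P212

open UniformSpace

variable {X : Type} [MetricSpace X] [BddGeometry X] {J : Type}

theorem roeU_le_multAlg (s : J → X) : roeU s ≤ multAlg s := fun _ hT => isMult_of_mem_roeU hT

/-- The canonical map from `C*_max(X)^+`. -/
noncomputable def kap (s : J → X) : CM s →⋆ₐ[ℂ] MM s :=
  CM.lift s ((toMM s).comp (StarSubalgebra.inclusion (roeU_le_multAlg s)))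

theorem kap_toMax (s : J → X) (T : roeU s) :
    kap s (toMax s T) = toMM s ⟨T.1, isMult_of_mem_roeU T.2⟩ :=
  CM.lift_toMax s _ T

theorem continuous_kap (s : J → X) : Continuous (kap s) := CM.continuous_lift s _

theorem continuous_aug (s : J → X) [InfFib s] : Continuous (aug s) := CM.continuous_lift s _

theorem multNorm_roe {s : J → X} {T : L2 J →L[ℂ] L2 J} (hT : IsRoe s T) (h : IsMult s T) :
    multNorm s ⟨T, h⟩ = mN s ⟨T, hT⟩ := by
  refine le_antisymm (multNorm_le (mN_nonneg _) fun S hS => mN_mul_le hT hS _) ?_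
  rcases (mN_nonneg (⟨T, hT⟩ : roeN s)).eq_or_lt with h0 | h0
  · rw [← h0]
    exact multNorm_nonneg _
  · have h1 := mN_mul_le_multNorm (⟨T, h⟩ : multAlg s) hT.star
    rw [mN_star hT] at h1
    have h2 : mN s ⟨T * star T, hT.mul hT.star⟩ = mN s ⟨T, hT⟩ ^ 2 := by
      have e : star (star T) * star T = T * star T := by rw [star_star]
      have h3 := mN_star_mul hT.star (e ▸ hT.mul hT.star)
      rw [mN_congr e _ (hT.mul hT.star), mN_star hT] at h3
      exact h3
    change mN s ⟨T * star T, _⟩ ≤ _ at h1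
    rw [h2, sq] at h1
    exact le_of_mul_le_mul_right h1 h0

theorem norm_kap (s : J → X) [InfFib s] (b : CM s) (hb : aug s b = 0) :
    ‖kap s b‖ = ‖b‖ := by
  have hc : IsClosed {b : CM s | ‖kap s b‖ = ‖b‖} :=
    isClosed_eq (continuous_kap s).norm continuous_norm
  refine closure_minimal ?_ hc ((aug_eq_zero_iff s b).1 hb)
  rintro _ ⟨T, hT, rfl⟩
  change ‖kap s (toMax s ⟨T, hT.mem_roeU⟩)‖ = ‖toMax s ⟨T, hT.mem_roeU⟩‖
  rw [kap_toMax, norm_toMM, norm_toMax]
  exact multNorm_roe hT _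

/-- The image of `C*_max(X)` in the multiplier algebra is closed. -/
theorem isClosed_kap_image (s : J → X) [InfFib s] :
    IsClosed {c : MM s | ∃ b : CM s, aug s b = 0 ∧ kap s b = c} := by
  have hcl : IsClosed {b : CM s | aug s b = 0} :=
    isClosed_eq (continuous_aug s) continuous_const
  have : CompleteSpace {b : CM s | aug s b = 0} := hcl.completeSpace_coe
  have hiso : Isometry (fun b : {b : CM s | aug s b = 0} => kap s b.1) := by
    refine Isometry.of_dist_eq fun b b' => ?_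
    have h : aug s (b.1 - b'.1) = 0 := by
      rw [map_sub, b.2, b'.2, sub_zero]
    rw [Subtype.dist_eq, dist_eq_norm, dist_eq_norm, ← map_sub, norm_kap s _ h]
  have hset : {c : MM s | ∃ b : CM s, aug s b = 0 ∧ kap s b = c} =
      Set.range (fun b : {b : CM s | aug s b = 0} => kap s b.1) := by
    ext c
    constructor
    · rintro ⟨b, hb, rfl⟩
      exact ⟨⟨b, hb⟩, rfl⟩
    · rintro ⟨b, rfl⟩
      exact ⟨b.1, b.2, rfl⟩
  rw [hset]
  exact hiso.isClosedEmbedding.isClosed_range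

/-- `C*_max(X)` is an ideal of the multiplier algebra. -/
theorem exists_mul_kap (s : J → X) [InfFib s] (m : MM s) (b : CM s) (hb : aug s b = 0) :
    ∃ b' : CM s, aug s b' = 0 ∧ kap s b' = m * kap s b := by
  have hcl := isClosed_kap_image s
  have h1 : ∀ (m' : multAlg s) (b : CM s), aug s b = 0 →
      toMM s m' * kap s b ∈ {c : MM s | ∃ b : CM s, aug s b = 0 ∧ kap s b = c} := by
    intro m' b hb
    have hc : IsClosed {b : CM s | toMM s m' * kap s b ∈
        {c : MM s | ∃ b : CM s, aug s b = 0 ∧ kap s b = c}} :=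
      hcl.preimage (continuous_const.mul (continuous_kap s))
    refine closure_minimal ?_ hc ((aug_eq_zero_iff s b).1 hb)
    rintro _ ⟨T, hT, rfl⟩
    have hmT := m'.2.left T hT
    refine ⟨toMax s ⟨m'.1 * T, hmT.mem_roeU⟩, aug_roe s _ hmT, ?_⟩
    rw [kap_toMax, kap_toMax, ← map_mul]
    rfl
  have hc : IsClosed {m : MM s | m * kap s b ∈
      {c : MM s | ∃ b : CM s, aug s b = 0 ∧ kap s b = c}} :=
    hcl.preimage (continuous_id.mul continuous_const)
  have h2 : closure (Set.range (toMM s)) ⊆ {m : MM s | m * kap s b ∈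
      {c : MM s | ∃ b : CM s, aug s b = 0 ∧ kap s b = c}} := by
    refine closure_minimal ?_ hc
    rintro _ ⟨m', rfl⟩
    exact h1 m' b hb
  have h3 : m ∈ closure (Set.range (toMM s)) := denseRange_toMM s m
  exact h2 h3

theorem exists_kap_mul (s : J → X) [InfFib s] (m : MM s) (b : CM s) (hb : aug s b = 0) :
    ∃ b' : CM s, aug s b' = 0 ∧ kap s b' = kap s b * m := by
  obtain ⟨b', h1, h2⟩ := exists_mul_kap s (star m) (star b) (by rw [map_star, hb, star_zero])
  refine ⟨star b', by rw [map_star, h1, star_zero], ?_⟩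
  rw [map_star, h2, star_mul, star_star, map_star, star_star]

theorem kap_injOn (s : J → X) [InfFib s] {b b' : CM s} (hb : aug s b = 0) (hb' : aug s b' = 0)
    (h : kap s b = kap s b') : b = b' := by
  have h1 : aug s (b - b') = 0 := by rw [map_sub, hb, hb', sub_zero]
  have h2 := norm_kap s _ h1
  rw [map_sub, h, sub_self, norm_zero] at h2
  exact sub_eq_zero.1 (norm_eq_zero.1 h2.symm)

theorem sum_conj {A : Type*} [NonUnitalNonAssocSemiring A] {ι : Type*} (F : Finset ι) (a : ι → A)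
    (v w : A) : v * (∑ k ∈ F, a k) * w = ∑ k ∈ F, v * a k * w := by
  rw [Finset.mul_sum, Finset.sum_mul]

/-- Multiplier conjugation does not change the class in `K_0`. -/
theorem K0_transfer (s : J → X) [InfFib s] {n : ℕ} {f g : Matrix (Fin n) (Fin n) (CM s)}
    (hf : f * f = f) (hg : g * g = g) (hfI : ∀ i j, aug s (f i j) = 0)
    (hgI : ∀ i j, aug s (g i j) = 0) (v w : MM s)
    (h1 : ∀ i j, w * v * kap s (f i j) = kap s (f i j))
    (h2 : ∀ i j, kap s (g i j) = v * kap s (f i j) * w) :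
    K0.cls f hf = K0.cls g hg := by
  choose x hx0 hx using fun i j => exists_mul_kap s v (f i j) (hfI i j)
  choose y hy0 hy using fun i j => exists_kap_mul s w (f i j) (hfI i j)
  have hff : ∀ i j, ∑ k, kap s (f i k) * kap s (f k j) = kap s (f i j) := by
    intro i j
    have := congrFun (congrFun hf i) j
    rw [Matrix.mul_apply] at this
    rw [← this, map_sum]
    exact Finset.sum_congr rfl fun k _ => (map_mul _ _ _).symm
  have hxy : Matrix.of x * Matrix.of y = g := by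
    ext i j
    refine kap_injOn s ?_ (hgI i j) ?_
    · rw [Matrix.mul_apply, map_sum]
      exact Finset.sum_eq_zero fun k _ => by rw [map_mul, Matrix.of_apply, hx0, zero_mul]
    · rw [Matrix.mul_apply, map_sum, h2, ← hff]
      refine Eq.trans ?_ (sum_conj Finset.univ (fun k => kap s (f i k) * kap s (f k j)) v w).symm
      refine Finset.sum_congr rfl fun k _ => ?_
      rw [map_mul, Matrix.of_apply, Matrix.of_apply, hx, hy]
      simp only [mul_assoc]
  have hyx : Matrix.of y * Matrix.of x = f := by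
    ext i j
    refine kap_injOn s ?_ (hfI i j) ?_
    · rw [Matrix.mul_apply, map_sum]
      exact Finset.sum_eq_zero fun k _ => by rw [map_mul, Matrix.of_apply, hy0, zero_mul]
    · rw [Matrix.mul_apply, map_sum, ← hff]
      refine Finset.sum_congr rfl fun k _ => ?_
      rw [map_mul, Matrix.of_apply, Matrix.of_apply, hx, hy, mul_assoc, ← mul_assoc w, h1]
  exact K0.cls_eq_of_mvn hf hg ⟨_, _, hyx, hxy⟩

end Vale.Agent.P212
end
end

section

section

/-! The concrete operators: generators, level shift, lifts of operators on the base. -/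

namespace Vale.Agent.P212

/-- Right multiplication of a point by the inverse of a generator. -/
def AT.act {τ : Tower} (a : AT τ) (i : Fin 3) : AT τ := ⟨a.n, a.w, a.y * (τ.gm _ i)⁻¹⟩

/-- Points `(a, l)`. -/
abbrev PT (τ : Tower) : Type := AT τ × ℕ

/-- The grading of `PT` by the space. -/
def gr (τ : Tower) (p : PT τ) : XT τ := lev p.1 p.2

/-- The grading of the index set of `l^2(PT x N)`. -/
def grJ (τ : Tower) (j : PT τ × ℕ) : XT τ := gr τ j.1

theorem gr_finite (τ : Tower) (x : XT τ) : (gr τ ⁻¹' {x}).Finite := by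
  let f : Torus x.n × τ.G (2 * x.n) → PT τ := fun z => (⟨x.n, z.1, z.2⟩, x.l)
  refine (Set.finite_range f).subset ?_
  rintro ⟨⟨n, w, y⟩, l⟩ h
  have h1 : lev (⟨n, w, y⟩ : AT τ) l = x := h
  subst h1
  exact ⟨(w, y), rfl⟩

theorem gr_surjective (τ : Tower) : Function.Surjective (gr τ) := by
  rintro ⟨n, l, w, y⟩
  obtain ⟨y', hy'⟩ := τ.red_surjective (min_le_right l (2 * n)) y
  exact ⟨(⟨n, w, y'⟩, l), by simp only [gr, lev, hy']⟩

instance (τ : Tower) : InfFib (grJ τ) := by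
  let p : PT τ := (⟨0, 0, 1⟩, 0)
  refine ⟨⟨gr τ p, ?_⟩⟩
  refine (Set.infinite_range_of_injective (f := fun k : ℕ => (p, k))
    (fun _ _ h => (Prod.mk.inj h).2)).mono ?_
  rintro _ ⟨k, rfl⟩
  rfl

instance (τ : Tower) : Nonempty (base τ) := ⟨⟨⟨0, 0, 0, 1⟩, rfl⟩⟩

/-- The base point below `a`. -/
def AT.pt {τ : Tower} (a : AT τ) : base τ := ⟨⟨a.n, 0, a.w, 1⟩, rfl⟩

section Push

variable {P Q S : Type}

/-- The operator `T` moves the summand `p` to the summand `u p`. -/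
def IsPush (u : P → Q) (T : LP P →L[ℂ] LP Q) : Prop :=
  (∀ p, bl T (u p) p = 1) ∧ ∀ q p, q ≠ u p → bl T q p = 0

theorem IsPush.ext {u : P → Q} {T T' : LP P →L[ℂ] LP Q} (h : IsPush u T) (h' : IsPush u T') :
    T = T' := by
  refine bl_ext (fun q p => ?_)
  by_cases hq : q = u p
  · subst hq; rw [h.1, h'.1]
  · rw [h.2 q p hq, h'.2 q p hq]

theorem isPush_id : IsPush (fun p : P => p) (1 : LP P →L[ℂ] LP P) := by
  classical
  refine ⟨fun p => ?_, fun q p h => ?_⟩
  · rw [bl_one, if_pos rfl]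
  · rw [bl_one, if_neg h]

theorem IsPush.comp {u : P → Q} {v : Q → S} {T : LP P →L[ℂ] LP Q} {T' : LP Q →L[ℂ] LP S}
    (h : IsPush u T) (h' : IsPush v T') : IsPush (fun p => v (u p)) (T' ∘L T) := by
  classical
  have key : ∀ s p, bl (T' ∘L T) s p = bl T' s (u p) := by
    intro s p
    rw [bl_comp T' T s p {u p} (Or.inr (fun q hq => h.2 q p (by simpa using hq)))]
    rw [Finset.sum_singleton, h.1, mul_one]
  refine ⟨fun p => ?_, fun s p hs => ?_⟩
  · rw [key, h'.1]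
  · rw [key, h'.2 _ _ hs]

theorem IsPush.adjoint {u : P → Q} {v : Q → P} {T : LP P →L[ℂ] LP Q} (h : IsPush u T)
    (huv : ∀ q, u (v q) = q) (hvu : ∀ p, v (u p) = p) :
    IsPush v (ContinuousLinearMap.adjoint T) := by
  refine ⟨fun q => ?_, fun p q hp => ?_⟩
  · rw [bl_adjoint]
    have := h.1 (v q)
    rw [huv] at this
    rw [this, ← ContinuousLinearMap.star_eq_adjoint, star_one]
  · rw [bl_adjoint, h.2 q p (fun hq => hp (by rw [hq, hvu])), map_zero]

theorem IsPush.adjoint_comp {u : P → Q} (hu : Function.Injective u) {T : LP P →L[ℂ] LP Q}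
    (h : IsPush u T) : ContinuousLinearMap.adjoint T ∘L T = 1 := by
  classical
  refine bl_ext (fun p' p => ?_)
  rw [bl_comp _ T p' p {u p} (Or.inr (fun q hq => h.2 q p (by simpa using hq)))]
  rw [Finset.sum_singleton, h.1, mul_one, bl_adjoint, bl_one]
  by_cases hp : p' = p
  · subst hp
    rw [h.1, if_pos rfl, ← ContinuousLinearMap.star_eq_adjoint, star_one]
  · rw [if_neg hp, h.2 (u p) p' (fun hq => hp (hu hq).symm), map_zero]

theorem exists_isPush {u : P → Q} (hu : Function.Injective u) :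
    ∃ T : LP P →L[ℂ] LP Q, IsPush u T := by
  classical
  obtain ⟨T, hT, -⟩ := exists_of_blocks (P := P) (Q := Q)
    (fun q p => if q = u p then (1 : OpN) else 0) 1 1 zero_le_one
    (fun q => by
      rw [Nat.cast_one, Set.encard_le_one_iff]
      intro a b ha hb
      simp only [ne_eq, ite_eq_right_iff, Classical.not_imp, Set.mem_ofPred_eq] at ha hb
      exact hu (ha.1.symm.trans hb.1))
    (fun p => by
      rw [Nat.cast_one, Set.encard_le_one_iff]
      intro a b ha hb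
      simp only [ne_eq, ite_eq_right_iff, Classical.not_imp, Set.mem_ofPred_eq] at ha hb
      exact ha.1.trans hb.1.symm)
    (fun q p => by
      by_cases h : q = u p
      · rw [if_pos h]
        exact ContinuousLinearMap.norm_id_le
      · rw [if_neg h, norm_zero]
        exact zero_le_one)
  refine ⟨T, fun p => ?_, fun q p h => ?_⟩
  · rw [hT, if_pos rfl]
  · rw [hT, if_neg h]

theorem IsPush.bl_eq [DecidableEq Q] {u : P → Q} {T : LP P →L[ℂ] LP Q} (h : IsPush u T)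
    (q : Q) (p : P) : bl T q p = if q = u p then 1 else 0 := by
  by_cases hq : q = u p
  · rw [if_pos hq]; subst hq; exact h.1 p
  · rw [if_neg hq]; exact h.2 q p hq

/-- Existence of a block diagonal projection. -/
theorem exists_diag (Z : Set P) : ∃ T : LP P →L[ℂ] LP P,
    (∀ p ∈ Z, bl T p p = 1) ∧ (∀ p ∉ Z, bl T p p = 0) ∧ ∀ p q, p ≠ q → bl T p q = 0 := by
  classical
  obtain ⟨T, hT, -⟩ := exists_of_blocks (P := P) (Q := P)
    (fun q p => if q = p ∧ p ∈ Z then (1 : OpN) else 0) 1 1 zero_le_one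
    (fun q => by
      rw [Nat.cast_one, Set.encard_le_one_iff]
      intro a b ha hb
      simp only [ne_eq, ite_eq_right_iff, Classical.not_imp, Set.mem_ofPred_eq] at ha hb
      exact (ha.1.1.symm.trans hb.1.1))
    (fun p => by
      rw [Nat.cast_one, Set.encard_le_one_iff]
      intro a b ha hb
      simp only [ne_eq, ite_eq_right_iff, Classical.not_imp, Set.mem_ofPred_eq] at ha hb
      exact ha.1.1.trans hb.1.1.symm)
    (fun q p => by
      by_cases h : q = p ∧ p ∈ Z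
      · rw [if_pos h]
        exact ContinuousLinearMap.norm_id_le
      · rw [if_neg h, norm_zero]
        exact zero_le_one)
  refine ⟨T, fun p hp => ?_, fun p hp => ?_, fun p q h => ?_⟩
  · rw [hT, if_pos ⟨rfl, hp⟩]
  · rw [hT, if_neg (fun h => hp h.2)]
  · rw [hT, if_neg (fun h' => h h'.1)]

end Push

section Avg

variable {P Q : Type}

theorem Ops.inc_apply_same (b : Q) (f : L2 ℕ) (k : ℕ) :
    (inc b f : Q × ℕ → ℂ) (b, k) = (f : ℕ → ℂ) k :=
  pushL2_apply _ f k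

theorem Ops.inc_apply_ne {b b' : Q} (h : b' ≠ b) (f : L2 ℕ) (k : ℕ) :
    (inc b f : Q × ℕ → ℂ) (b', k) = 0 := by
  refine pushL2_apply_not_mem _ f ?_
  rintro ⟨j, hj⟩
  exact h (Prod.mk.inj hj).1.symm

open Classical in
/-- The function `(p, k) ↦ m(π p)^(-1/2) f (π p, k)`, supported over `S`. -/
noncomputable def avgFun (S : Set P) (π : P → Q) (m : Q → ℕ) (f : L2 (Q × ℕ)) :
    P × ℕ → ℂ :=
  fun j => if j.1 ∈ S then (((Real.sqrt (m (π j.1)))⁻¹ : ℝ) : ℂ) * (f : Q × ℕ → ℂ) (π j.1, j.2)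
    else 0

open Classical in
theorem avgFun_sum_le (S : Set P) (π : P → Q) (m : Q → ℕ)
    (hm : ∀ b, {p | p ∈ S ∧ π p = b}.encard ≤ m b) (f : L2 (Q × ℕ)) (s : Finset (P × ℕ)) :
    ∑ j ∈ s, ‖avgFun S π m f j‖ ^ (2 : ENNReal).toReal ≤ ‖f‖ ^ (2 : ENNReal).toReal := by
  have h2 : (2 : ENNReal).toReal = 2 := by norm_num
  let ρ : P × ℕ → Q × ℕ := fun j => (π j.1, j.2)
  let F : Q × ℕ → ℝ := fun i => ((m i.1 : ℝ))⁻¹ * ‖(f : Q × ℕ → ℂ) i‖ ^ (2 : ENNReal).toReal
  have e1 : ∀ j ∈ s, ‖avgFun S π m f j‖ ^ (2 : ENNReal).toReal =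
      if j.1 ∈ S then F (ρ j) else 0 := by
    intro j _
    unfold avgFun
    by_cases hj : j.1 ∈ S
    · rw [if_pos hj, if_pos hj, norm_mul, h2, Real.mul_rpow (norm_nonneg _) (norm_nonneg _)]
      simp only [F, ρ, h2]
      congr 1
      rw [Complex.norm_real, Real.norm_eq_abs, abs_of_nonneg (by positivity)]
      rw [Real.rpow_two, inv_pow, Real.sq_sqrt (Nat.cast_nonneg _)]
    · rw [if_neg hj, if_neg hj, norm_zero, h2, Real.zero_rpow (by norm_num)]
  rw [Finset.sum_congr rfl e1, ← Finset.sum_filter, Finset.sum_comp F ρ]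
  have e2 : ∀ i ∈ (Finset.image ρ (Finset.filter (fun j => j.1 ∈ S) s)),
      (Finset.filter (fun j => ρ j = i) (Finset.filter (fun j => j.1 ∈ S) s)).card • F i ≤
        ‖(f : Q × ℕ → ℂ) i‖ ^ (2 : ENNReal).toReal := by
    intro i _
    have hcard : (Finset.filter (fun j => ρ j = i)
        (Finset.filter (fun j => j.1 ∈ S) s)).card ≤ m i.1 := by
      have h3 : ((Finset.filter (fun j => ρ j = i)
        (Finset.filter (fun j => j.1 ∈ S) s)).card : ℕ∞) ≤
          {p | p ∈ S ∧ π p = i.1}.encard := by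
        rw [← Set.encard_coe_eq_coe_finsetCard]
        refine Set.encard_le_encard_of_injOn (f := fun j : P × ℕ => j.1) ?_ ?_
        · intro j hj
          simp only [Finset.coe_filter, Finset.mem_filter, Set.mem_ofPred_eq] at hj
          exact ⟨hj.1.2, (Prod.mk.inj hj.2).1⟩
        · intro j hj j' hj' h
          simp only [Finset.coe_filter, Finset.mem_filter, Set.mem_ofPred_eq] at hj hj'
          refine Prod.ext h ?_
          have h4 := congrArg Prod.snd (hj.2.trans hj'.2.symm)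
          exact h4
      exact_mod_cast h3.trans (hm i.1)
    simp only [F, nsmul_eq_mul, ← mul_assoc]
    have h5 : ((Finset.filter (fun j => ρ j = i)
        (Finset.filter (fun j => j.1 ∈ S) s)).card : ℝ) * ((m i.1 : ℝ))⁻¹ ≤ 1 := by
      rcases Nat.eq_zero_or_pos (m i.1) with h0 | h0
      · rw [h0]; simp
      · rw [mul_inv_le_iff₀ (by exact_mod_cast h0), one_mul]
        exact_mod_cast hcard
    calc _ ≤ 1 * ‖(f : Q × ℕ → ℂ) i‖ ^ (2 : ENNReal).toReal :=
          mul_le_mul_of_nonneg_right h5 (by positivity)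
      _ = _ := one_mul _
  exact (Finset.sum_le_sum e2).trans (lp.sum_rpow_le_norm_rpow (by norm_num) f _)

/-- The operator with blocks `m(b)^(-1/2)` at `(p, b)` for `π p = b`, `p ∈ S`. -/
noncomputable def avgOp (S : Set P) (π : P → Q) (m : Q → ℕ)
    (hm : ∀ b, {p | p ∈ S ∧ π p = b}.encard ≤ m b) : LP Q →L[ℂ] LP P :=
  LinearMap.mkContinuous
    { toFun := fun f => ⟨avgFun S π m f, memℓp_gen' (avgFun_sum_le S π m hm f)⟩
      map_add' := fun f g => by
        apply lp.ext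
        funext j
        change avgFun S π m (f + g) j = avgFun S π m f j + avgFun S π m g j
        unfold avgFun
        by_cases hj : j.1 ∈ S
        · rw [if_pos hj, if_pos hj, if_pos hj, lp.coeFn_add, Pi.add_apply, mul_add]
        · rw [if_neg hj, if_neg hj, if_neg hj, add_zero]
      map_smul' := fun c f => by
        apply lp.ext
        funext j
        change avgFun S π m (c • f) j = c • avgFun S π m f j
        unfold avgFun
        by_cases hj : j.1 ∈ S
        · rw [if_pos hj, if_pos hj, lp.coeFn_smul, Pi.smul_apply, smul_eq_mul, smul_eq_mul]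
          ring
        · rw [if_neg hj, if_neg hj, smul_zero] } 1
    (fun f => by
      rw [one_mul]
      exact lp.norm_le_of_forall_sum_le (by norm_num) (norm_nonneg _)
        (avgFun_sum_le S π m hm f))

open Classical in
theorem bl_avgOp (S : Set P) (π : P → Q) (m : Q → ℕ)
    (hm : ∀ b, {p | p ∈ S ∧ π p = b}.encard ≤ m b) (p : P) (b : Q) :
    bl (avgOp S π m hm) p b = if p ∈ S ∧ π p = b then
      (((Real.sqrt (m b))⁻¹ : ℝ) : ℂ) • 1 else 0 := by
  ext f k
  rw [bl_apply]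
  change avgFun S π m (inc b f) (p, k) = _
  unfold avgFun
  by_cases hp : p ∈ S
  · by_cases hb : π p = b
    · rw [if_pos hp, if_pos ⟨hp, hb⟩]
      simp only [hb]
      rw [Ops.inc_apply_same]
      rfl
    · rw [if_pos hp, if_neg (fun h => hb h.2)]
      simp only
      rw [Ops.inc_apply_ne hb, mul_zero]
      rfl
  · rw [if_neg hp, if_neg (fun h => hp h.1)]
    rfl

end Avg

section Ops

variable (τ : Tower)

theorem Ops.act_injective (i : Fin 3) : Function.Injective (fun a : AT τ => a.act i) := by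
  rintro ⟨n, w, y⟩ ⟨n', w', y'⟩ h
  simp only [AT.act, AT.mk.injEq] at h
  obtain ⟨h1, h2, h3⟩ := h
  subst h1
  have h2' : w = w' := eq_of_heq h2
  have h3' := eq_of_heq h3
  subst h2'
  have h4 : y = y' := by simpa using h3'
  subst h4
  rfl

open Classical in
/-- The unitary of the `i`-th generator. -/
theorem exists_U (i : Fin 3) : ∃ U : LP (PT τ) →L[ℂ] LP (PT τ),
    ∀ p q, bl U p q = if p = (q.1.act i, q.2) then 1 else 0 := by
  obtain ⟨T, hT⟩ := exists_isPush (u := fun q : PT τ => ((q.1.act i, q.2) : PT τ))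
    (fun a b h => Prod.ext (Ops.act_injective τ i (Prod.mk.inj h).1) (Prod.mk.inj h).2)
  exact ⟨T, fun p q => hT.bl_eq p q⟩

noncomputable def Uop (i : Fin 3) : LP (PT τ) →L[ℂ] LP (PT τ) := (exists_U τ i).choose

open Classical in
/-- The level shift. -/
theorem exists_V : ∃ U : LP (PT τ) →L[ℂ] LP (PT τ),
    ∀ p q, bl U p q = if p = (q.1, q.2 + 1) then 1 else 0 := by
  obtain ⟨T, hT⟩ := exists_isPush (u := fun q : PT τ => ((q.1, q.2 + 1) : PT τ))
    (fun a b h => Prod.ext (Prod.mk.inj h).1 (Nat.succ_injective (Prod.mk.inj h).2))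
  exact ⟨T, fun p q => hT.bl_eq p q⟩

noncomputable def Vop : LP (PT τ) →L[ℂ] LP (PT τ) := (exists_V τ).choose

open Classical in
/-- The projection onto level zero. -/
theorem exists_Z : ∃ U : LP (PT τ) →L[ℂ] LP (PT τ),
    ∀ p q, bl U p q = if p = q ∧ p.2 = 0 then 1 else 0 := by
  obtain ⟨T, h1, h2, h3⟩ := exists_diag {p : PT τ | p.2 = 0}
  refine ⟨T, fun p q => ?_⟩
  by_cases h : p = q
  · subst h
    by_cases h' : p.2 = 0
    · rw [if_pos ⟨rfl, h'⟩, h1 p h']
    · rw [if_neg (fun k => h' k.2), h2 p h']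
  · rw [if_neg (fun k => h k.1), h3 p q h]

noncomputable def Zop : LP (PT τ) →L[ℂ] LP (PT τ) := (exists_Z τ).choose

instance Ops.subsingleton_G_zero (k : ℕ) : Subsingleton (τ.G (min 0 k)) := by
  have h : τ.N (min 0 k) = ⊤ := by rw [Nat.zero_min]; exact τ.top
  exact QuotientGroup.subsingleton_iff.2 h

/-- The level zero points over a base point. -/
theorem Ops.fib_eq (b : base τ) : {p : PT τ | p ∈ {p : PT τ | p.2 = 0} ∧ p.1.pt = b} =
    Set.range (fun y : τ.G (2 * b.1.n) => (((⟨b.1.n, b.1.w, y⟩ : AT τ), 0) : PT τ)) := by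
  ext p
  constructor
  · rintro ⟨h, rfl⟩
    obtain ⟨a, l⟩ := p
    have h' : l = 0 := h
    subst h'
    exact ⟨a.y, rfl⟩
  · rintro ⟨y, rfl⟩
    refine ⟨rfl, ?_⟩
    obtain ⟨⟨n, l, w, y'⟩, hl⟩ := b
    have hl' : l = 0 := hl
    subst hl'
    have : y' = 1 := Subsingleton.elim _ _
    subst this
    rfl

theorem Ops.fib_inj (b : base τ) : Function.Injective
    (fun y : τ.G (2 * b.1.n) => (((⟨b.1.n, b.1.w, y⟩ : AT τ), 0) : PT τ)) := by
  intro y y' h
  have h1 := (Prod.mk.inj h).1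
  simpa using h1

theorem Ops.encard_fib (b : base τ) :
    {p : PT τ | p ∈ {p : PT τ | p.2 = 0} ∧ p.1.pt = b}.encard =
      Nat.card (τ.G (2 * b.1.n)) := by
  rw [Ops.fib_eq, ← Set.image_univ, (Ops.fib_inj τ b).encard_image, Set.encard_univ,
    ENat.card_eq_coe_natCard]

open Classical in
/-- The isometry onto the fibrewise constant functions at level zero. -/
theorem exists_C : ∃ U : LP (base τ) →L[ℂ] LP (PT τ),
    ∀ (p : PT τ) (b : base τ), bl U p b = if p.2 = 0 ∧ p.1.pt = b then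
      (((Real.sqrt (Nat.card (τ.G (2 * p.1.n))))⁻¹ : ℝ) : ℂ) • 1 else 0 := by
  refine ⟨avgOp {p : PT τ | p.2 = 0} (fun p => p.1.pt) (fun b => Nat.card (τ.G (2 * b.1.n)))
    (fun b => (Ops.encard_fib τ b).le), fun p b => ?_⟩
  rw [bl_avgOp]
  by_cases h : p.2 = 0 ∧ p.1.pt = b
  · rw [if_pos h, if_pos ⟨h.1, h.2⟩, ← h.2]
    rfl
  · rw [if_neg h, if_neg (fun k => h ⟨k.1, k.2⟩)]

noncomputable def Cop : LP (base τ) →L[ℂ] LP (PT τ) := (exists_C τ).choose

theorem Ops.isPush_U (i : Fin 3) : IsPush (fun q : PT τ => ((q.1.act i, q.2) : PT τ)) (Uop τ i) := by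
  have h := (exists_U τ i).choose_spec
  exact ⟨fun p => (h _ _).trans (if_pos rfl), fun q p hq => (h _ _).trans (if_neg hq)⟩

theorem Ops.isPush_V : IsPush (fun q : PT τ => ((q.1, q.2 + 1) : PT τ)) (Vop τ) := by
  have h := (exists_V τ).choose_spec
  exact ⟨fun p => (h _ _).trans (if_pos rfl), fun q p hq => (h _ _).trans (if_neg hq)⟩

/-- Right multiplication by a generator. -/
def AT.act' {τ : Tower} (a : AT τ) (i : Fin 3) : AT τ :=
  ⟨a.n, a.w, a.y * τ.gm _ i⟩

theorem Ops.act_act' (a : AT τ) (i : Fin 3) : (a.act' i).act i = a := by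
  obtain ⟨n, w, y⟩ := a
  have h : y * τ.gm (2 * n) i * (τ.gm (2 * n) i)⁻¹ = y := mul_inv_cancel_right _ _
  exact congrArg (AT.mk n w) h

theorem Ops.act'_act (a : AT τ) (i : Fin 3) : (a.act i).act' i = a := by
  obtain ⟨n, w, y⟩ := a
  have h : y * (τ.gm (2 * n) i)⁻¹ * τ.gm (2 * n) i = y := inv_mul_cancel_right _ _
  exact congrArg (AT.mk n w) h

theorem Ops.gm_cube (m : ℕ) (i : Fin 3) : τ.gm m i * τ.gm m i * τ.gm m i = 1 := by
  have h := τ.cube m i
  rw [pow_three] at h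
  change (QuotientGroup.mk (gen i * gen i * gen i) : τ.G m) = 1
  rw [mul_assoc]
  exact (QuotientGroup.eq_one_iff _).2 h

theorem Ops.gm_rel (m : ℕ) (i : Fin 3) : τ.gm m (i + 1) * τ.gm m i * τ.gm m (i + 1) * τ.gm m i =
    τ.gm m i * τ.gm m (i + 1) := by
  change (QuotientGroup.mk (gen (i + 1) * gen i * gen (i + 1) * gen i) : τ.G m) =
    QuotientGroup.mk (gen i * gen (i + 1))
  exact QuotientGroup.eq.2 (τ.rel m i)

theorem Ops.act_cube (a : AT τ) (i : Fin 3) : ((a.act i).act i).act i = a := by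
  obtain ⟨n, w, y⟩ := a
  have h : y * (τ.gm (2 * n) i)⁻¹ * (τ.gm (2 * n) i)⁻¹ * (τ.gm (2 * n) i)⁻¹ = y := by
    have h1 : y * (τ.gm (2 * n) i)⁻¹ * (τ.gm (2 * n) i)⁻¹ * (τ.gm (2 * n) i)⁻¹ =
      y * (τ.gm (2 * n) i * τ.gm (2 * n) i * τ.gm (2 * n) i)⁻¹ := by group
    rw [h1, Ops.gm_cube, inv_one, mul_one]
  exact congrArg (AT.mk n w) h

theorem Ops.act_rel (a : AT τ) (i : Fin 3) :
    (a.act (i + 1)).act i = (((a.act i).act (i + 1)).act i).act (i + 1) := by
  obtain ⟨n, w, y⟩ := a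
  have h : y * (τ.gm (2 * n) (i + 1))⁻¹ * (τ.gm (2 * n) i)⁻¹ =
      y * (τ.gm (2 * n) i)⁻¹ * (τ.gm (2 * n) (i + 1))⁻¹ * (τ.gm (2 * n) i)⁻¹ *
        (τ.gm (2 * n) (i + 1))⁻¹ := by
    have h1 : y * (τ.gm (2 * n) i)⁻¹ * (τ.gm (2 * n) (i + 1))⁻¹ * (τ.gm (2 * n) i)⁻¹ *
        (τ.gm (2 * n) (i + 1))⁻¹ =
      y * (τ.gm (2 * n) (i + 1) * τ.gm (2 * n) i * τ.gm (2 * n) (i + 1) *
        τ.gm (2 * n) i)⁻¹ := by group
    rw [h1, Ops.gm_rel, mul_inv_rev, mul_assoc]
  exact congrArg (AT.mk n w) h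

theorem Ops.isPush_U_star (i : Fin 3) :
    IsPush (fun q : PT τ => ((q.1.act' i, q.2) : PT τ)) (star (Uop τ i)) := by
  rw [ContinuousLinearMap.star_eq_adjoint]
  exact (Ops.isPush_U τ i).adjoint (fun q => by simp only [Ops.act_act']) (fun q => by
    simp only [Ops.act'_act])

theorem tri_Uop : Tri (fun i => Uop τ i) where
  unit i := by
    have h := ((Ops.isPush_U τ i).comp (Ops.isPush_U_star τ i))
    have h' : (fun q : PT τ => (((q.1.act i).act' i, q.2) : PT τ)) = fun q => q := by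
      funext q; simp only [Ops.act'_act]
    exact h.ext (h' ▸ isPush_id)
  unit' i := by
    have h := ((Ops.isPush_U_star τ i).comp (Ops.isPush_U τ i))
    have h' : (fun q : PT τ => (((q.1.act' i).act i, q.2) : PT τ)) = fun q => q := by
      funext q; simp only [Ops.act_act']
    exact h.ext (h' ▸ isPush_id)
  cube i := by
    have h := (((Ops.isPush_U τ i).comp (Ops.isPush_U τ i)).comp (Ops.isPush_U τ i))
    have h' : (fun q : PT τ => ((((q.1.act i).act i).act i, q.2) : PT τ)) = fun q => q := by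
      funext q; simp only [Ops.act_cube]
    rw [pow_three]
    exact h.ext (h' ▸ isPush_id)
  rel i := by
    have h1 := (Ops.isPush_U τ (i + 1)).comp (Ops.isPush_U τ i)
    have h2 := (((Ops.isPush_U τ i).comp (Ops.isPush_U τ (i + 1))).comp (Ops.isPush_U τ i)).comp
      (Ops.isPush_U τ (i + 1))
    have h' : (fun q : PT τ => (((q.1.act (i + 1)).act i, q.2) : PT τ)) = fun q =>
        (((((q.1.act i).act (i + 1)).act i).act (i + 1), q.2) : PT τ) := by
      funext q; simp only [← Ops.act_rel]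
    have h3 : Uop τ i ∘L Uop τ (i + 1) =
        Uop τ (i + 1) ∘L (Uop τ i ∘L (Uop τ (i + 1) ∘L Uop τ i)) := by
      refine IsPush.ext h1 ?_
      rw [h']
      exact h2
    have h4 : Uop τ i * Uop τ (i + 1) =
        Uop τ (i + 1) * (Uop τ i * (Uop τ (i + 1) * Uop τ i)) := h3
    rw [h4]
    simp only [mul_assoc]

theorem Ops.red_gm {m m' : ℕ} (h : m ≤ m') (i : Fin 3) : τ.red h (τ.gm m' i) = τ.gm m i := rfl

theorem Ops.dist_gr_act (p : PT τ) (i : Fin 3) : dist (gr τ p) (gr τ (p.1.act i, p.2)) ≤ 1 := by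
  obtain ⟨⟨n, w, y⟩, l⟩ := p
  have h := dist_gen n l w (τ.red (min_le_right l (2 * n)) y * (τ.gm _ i)⁻¹) i
  rw [inv_mul_cancel_right] at h
  have h2 : gr τ (((⟨n, w, y⟩ : AT τ).act i), l) =
      ⟨n, l, w, τ.red (min_le_right l (2 * n)) y * (τ.gm _ i)⁻¹⟩ := by
    have h3 : τ.red (min_le_right l (2 * n)) (y * (τ.gm (2 * n) i)⁻¹) =
        τ.red (min_le_right l (2 * n)) y * (τ.gm _ i)⁻¹ := by
      rw [map_mul, map_inv, Ops.red_gm]
    exact congrArg (XT.mk n l w) h3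
  change dist _ (gr τ (((⟨n, w, y⟩ : AT τ).act i), l)) ≤ 1
  rw [h2]
  exact h

theorem propLE_Uop (i : Fin 3) : PropLE (grJ τ) (Uop τ i) 1 := by
  refine (propLE_iff_bl (gr τ) (Uop τ i) 1).2 (fun p q h => ?_)
  refine (Ops.isPush_U τ i).2 p q (fun hp => ?_)
  subst hp
  have := Ops.dist_gr_act τ q i
  rw [dist_comm] at this
  linarith

theorem propLE_Vop : PropLE (grJ τ) (Vop τ) 1 := by
  refine (propLE_iff_bl (gr τ) (Vop τ) 1).2 (fun p q h => ?_)
  refine (Ops.isPush_V τ).2 p q (fun hp => ?_)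
  subst hp
  have : dist (gr τ (q.1, q.2 + 1)) (gr τ q) ≤ 1 := dist_lev_succ q.1 q.2
  linarith

theorem Ops.bl_Z_of (p : PT τ) (hp : p.2 = 0) : bl (Zop τ) p p = 1 :=
  ((exists_Z τ).choose_spec p p).trans (if_pos ⟨rfl, hp⟩)

theorem Ops.bl_Z_of_not (p : PT τ) (hp : p.2 ≠ 0) : bl (Zop τ) p p = 0 :=
  ((exists_Z τ).choose_spec p p).trans (if_neg (fun h => hp h.2))

theorem Ops.bl_Z_ne (p q : PT τ) (h : p ≠ q) : bl (Zop τ) p q = 0 :=
  ((exists_Z τ).choose_spec p q).trans (if_neg (fun h' => h h'.1))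

theorem propLE_Zop : PropLE (grJ τ) (Zop τ) 0 := by
  refine (propLE_iff_bl (gr τ) (Zop τ) 0).2 (fun p q h => ?_)
  refine Ops.bl_Z_ne τ p q (fun hp => ?_)
  subst hp
  rw [dist_self] at h
  exact lt_irrefl _ h

theorem star_V_mul_V : star (Vop τ) * Vop τ = 1 := by
  rw [ContinuousLinearMap.star_eq_adjoint]
  exact (Ops.isPush_V τ).adjoint_comp
    (fun a b h => Prod.ext (Prod.mk.inj h).1 (Nat.succ_injective (Prod.mk.inj h).2))

theorem Ops.bl_V_same (p : AT τ) (l : ℕ) : bl (Vop τ) (p, l + 1) (p, l) = 1 := (Ops.isPush_V τ).1 (p, l)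

theorem V_mul_star_V : Vop τ * star (Vop τ) = 1 - Zop τ := by
  classical
  refine bl_ext (fun p q => ?_)
  rw [bl_sub, bl_one]
  obtain ⟨a, l⟩ := p
  cases l with
  | zero =>
    have h0 : ∀ r, bl (Vop τ) (a, 0) r = 0 := fun r => (Ops.isPush_V τ).2 _ _ (fun h => by
      have := (Prod.mk.inj h).2
      omega)
    have h1 : bl (Vop τ * star (Vop τ)) (a, 0) q = 0 := by
      have := bl_comp (Vop τ) (star (Vop τ)) (a, 0) q ∅ (Or.inl (fun r _ => h0 r))
      rw [Finset.sum_empty] at this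
      exact this
    rw [h1]
    by_cases hq : (a, 0) = q
    · subst hq
      rw [if_pos rfl, Ops.bl_Z_of τ _ rfl, sub_self]
    · rw [if_neg hq, Ops.bl_Z_ne τ _ _ hq, sub_zero]
  | succ l =>
    have h1 : bl (Vop τ * star (Vop τ)) (a, l + 1) q =
        bl (star (Vop τ)) (a, l) q := by
      have := bl_comp (Vop τ) (star (Vop τ)) (a, l + 1) q {(a, l)} (Or.inl (fun r hr =>
        (Ops.isPush_V τ).2 _ _ (fun h => by
          apply hr
          rw [Finset.mem_singleton]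
          have h2 := Prod.mk.inj h
          exact Prod.ext h2.1.symm (Nat.succ_injective h2.2).symm)))
      rw [Finset.sum_singleton, Ops.bl_V_same, one_mul] at this
      exact this
    rw [h1, bl_star]
    by_cases hq : (a, l + 1) = q
    · subst hq
      rw [if_pos rfl, Ops.bl_Z_of_not τ _ (Nat.succ_ne_zero l), sub_zero, Ops.bl_V_same, star_one]
    · rw [if_neg hq, Ops.bl_Z_ne τ _ _ hq, sub_zero, (Ops.isPush_V τ).2 q (a, l) (fun h => hq h.symm),
        star_zero]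

theorem Ops.bl_Z_mul (T : LP (PT τ) →L[ℂ] LP (PT τ)) (p q : PT τ) :
    bl (Zop τ * T) p q = bl (Zop τ) p p * bl T p q := by
  classical
  have := bl_comp (Zop τ) T p q {p} (Or.inl (fun r hr => Ops.bl_Z_ne τ p r (fun h => hr (by
    rw [Finset.mem_singleton]; exact h.symm))))
  rw [Finset.sum_singleton] at this
  exact this

theorem Z_idem : Zop τ * Zop τ = Zop τ := by
  refine bl_ext (fun p q => ?_)
  rw [Ops.bl_Z_mul]
  by_cases h : p.2 = 0
  · rw [Ops.bl_Z_of τ p h, one_mul]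
  · rw [Ops.bl_Z_of_not τ p h, zero_mul]
    by_cases hq : p = q
    · subst hq; rw [Ops.bl_Z_of_not τ p h]
    · rw [Ops.bl_Z_ne τ p q hq]

theorem Z_star : star (Zop τ) = Zop τ := by
  refine bl_ext (fun p q => ?_)
  rw [bl_star]
  by_cases hq : p = q
  · subst hq
    by_cases h : p.2 = 0
    · rw [Ops.bl_Z_of τ p h, star_one]
    · rw [Ops.bl_Z_of_not τ p h, star_zero]
  · rw [Ops.bl_Z_ne τ p q hq, Ops.bl_Z_ne τ q p (Ne.symm hq), star_zero]

theorem V_comm_U (i : Fin 3) : Vop τ * Uop τ i = Uop τ i * Vop τ := by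
  have h1 := (Ops.isPush_U τ i).comp (Ops.isPush_V τ)
  have h2 := (Ops.isPush_V τ).comp (Ops.isPush_U τ i)
  have h3 : Vop τ ∘L Uop τ i = Uop τ i ∘L Vop τ := IsPush.ext h1 h2
  exact h3

theorem Ops.bl_C_of (p : PT τ) (hp : p.2 = 0) : bl (Cop τ) p p.1.pt =
    (((Real.sqrt (Nat.card (τ.G (2 * p.1.n))))⁻¹ : ℝ) : ℂ) • 1 :=
  ((exists_C τ).choose_spec p p.1.pt).trans (if_pos ⟨hp, rfl⟩)

theorem Ops.bl_C_of_not (p : PT τ) (b : base τ) (h : ¬ (p.2 = 0 ∧ p.1.pt = b)) :
    bl (Cop τ) p b = 0 :=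
  ((exists_C τ).choose_spec p b).trans (if_neg h)

theorem C_isom : ContinuousLinearMap.adjoint (Cop τ) ∘L Cop τ = 1 := by
  classical
  refine bl_ext (fun b b' => ?_)
  have hfin : {p : PT τ | p ∈ {p : PT τ | p.2 = 0} ∧ p.1.pt = b}.Finite := by
    rw [Ops.fib_eq]; exact Set.finite_range _
  rw [bl_comp _ (Cop τ) b b' hfin.toFinset (Or.inl (fun p hp => by
    rw [bl_adjoint, Ops.bl_C_of_not τ p b (fun h => hp (by
      rw [Set.Finite.mem_toFinset]; exact h)), map_zero])), bl_one]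
  by_cases hb : b = b'
  · subst hb
    rw [if_pos rfl]
    have h1 : ∀ p ∈ hfin.toFinset, bl (ContinuousLinearMap.adjoint (Cop τ)) b p *
        bl (Cop τ) p b = (((Nat.card (τ.G (2 * b.1.n)) : ℝ)⁻¹ : ℝ) : ℂ) • 1 := by
      intro p hp
      rw [Set.Finite.mem_toFinset] at hp
      obtain ⟨hp0, rfl⟩ := hp
      rw [bl_adjoint, Ops.bl_C_of τ p hp0, ← ContinuousLinearMap.star_eq_adjoint, star_smul,
        star_one, smul_mul_smul_comm, one_mul]
      congr 1
      rw [Complex.star_def, Complex.conj_ofReal, ← Complex.ofReal_mul]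
      congr 1
      rw [← mul_inv, Real.mul_self_sqrt (Nat.cast_nonneg _)]
      rfl
    rw [Finset.sum_congr rfl h1, Finset.sum_const, ← Nat.cast_smul_eq_nsmul ℂ, smul_smul]
    have h2 : hfin.toFinset.card = Nat.card (τ.G (2 * b.1.n)) := by
      have := Ops.encard_fib τ b
      rw [hfin.encard_eq_coe_toFinset_card] at this
      exact_mod_cast this
    rw [h2]
    have h3 : ((Nat.card (τ.G (2 * b.1.n)) : ℕ) : ℂ) ≠ 0 := by
      exact_mod_cast Nat.card_pos.ne'
    rw [Complex.ofReal_inv, Complex.ofReal_natCast, mul_inv_cancel₀ h3, one_smul]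
  · rw [if_neg hb]
    refine Finset.sum_eq_zero (fun p hp => ?_)
    rw [Set.Finite.mem_toFinset] at hp
    rw [Ops.bl_C_of_not τ p b' (fun h => hb (hp.2.symm.trans h.2)), mul_zero]

theorem Z_comp_C : Zop τ ∘L Cop τ = Cop τ := by
  classical
  refine bl_ext (fun p b => ?_)
  rw [bl_comp (Zop τ) (Cop τ) p b {p} (Or.inl (fun r hr => Ops.bl_Z_ne τ p r (fun h => hr (by
    rw [Finset.mem_singleton]; exact h.symm)))), Finset.sum_singleton]
  by_cases h : p.2 = 0
  · rw [Ops.bl_Z_of τ p h, one_mul]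
  · rw [Ops.bl_C_of_not τ p b (fun h' => h h'.1), mul_zero]

theorem U_comp_C (i : Fin 3) : Uop τ i ∘L Cop τ = Cop τ := by
  classical
  refine bl_ext (fun p b => ?_)
  have hp : ((p.1.act' i).act i, p.2) = p := by rw [Ops.act_act']
  rw [bl_comp (Uop τ i) (Cop τ) p b {(p.1.act' i, p.2)} (Or.inl (fun r hr =>
    (Ops.isPush_U τ i).2 p r (fun h => hr (by
      rw [Finset.mem_singleton]
      rw [h]
      simp only [Ops.act'_act])))), Finset.sum_singleton]
  have h1 : bl (Uop τ i) p (p.1.act' i, p.2) = 1 := by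
    have := (Ops.isPush_U τ i).1 (p.1.act' i, p.2)
    simp only [Ops.act_act'] at this
    exact this
  rw [h1, one_mul]
  by_cases h : p.2 = 0 ∧ p.1.pt = b
  · obtain ⟨h, rfl⟩ := h
    rw [Ops.bl_C_of τ p h]
    exact Ops.bl_C_of τ (p.1.act' i, p.2) h
  · rw [Ops.bl_C_of_not τ p b h]
    exact Ops.bl_C_of_not τ (p.1.act' i, p.2) b h

theorem Ops.gr_zero (p : PT τ) (hp : p.2 = 0) : gr τ p = (p.1.pt : XT τ) := by
  obtain ⟨⟨n, w, y⟩, l⟩ := p
  have hp' : l = 0 := hp
  subst hp'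
  have h : τ.red (min_le_right 0 (2 * n)) y = 1 := Subsingleton.elim _ _
  exact congrArg (XT.mk n 0 w) h

theorem Ops.bl_CTC (T : LP (base τ) →L[ℂ] LP (base τ)) (p q : PT τ) :
    bl (Cop τ ∘L T ∘L ContinuousLinearMap.adjoint (Cop τ)) p q =
      bl (Cop τ) p p.1.pt * bl T p.1.pt q.1.pt *
        ContinuousLinearMap.adjoint (bl (Cop τ) q q.1.pt) := by
  classical
  rw [bl_comp (Cop τ) _ p q {p.1.pt} (Or.inl (fun r hr => Ops.bl_C_of_not τ p r (fun h => hr (by
    rw [Finset.mem_singleton]; exact h.2.symm)))), Finset.sum_singleton]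
  rw [bl_comp T _ p.1.pt q {q.1.pt} (Or.inr (fun r hr => by
    rw [bl_adjoint, Ops.bl_C_of_not τ q r (fun h => hr (by
      rw [Finset.mem_singleton]; exact h.2.symm)), map_zero])), Finset.sum_singleton, bl_adjoint,
    mul_assoc]

theorem isRoe_C {T : LP (base τ) →L[ℂ] LP (base τ)}
    (hT : IsRoe (Prod.fst : base τ × ℕ → base τ) T) :
    IsRoe (grJ τ) (Cop τ ∘L T ∘L ContinuousLinearMap.adjoint (Cop τ)) := by
  have hT' := (isRoe_iff_bl (fun b : base τ => b) (fun x => Set.finite_singleton x) T).1 hT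
  refine (isRoe_iff_bl (gr τ) (gr_finite τ) _).2 ⟨?_, fun p q => ?_⟩
  · obtain ⟨R, hR⟩ := hT'.1
    refine ⟨R, fun p q h => ?_⟩
    rw [Ops.bl_CTC]
    by_cases hp : p.2 = 0
    · by_cases hq : q.2 = 0
      · rw [Ops.gr_zero τ p hp, Ops.gr_zero τ q hq] at h
        rw [hR p.1.pt q.1.pt h, mul_zero, zero_mul]
      · rw [Ops.bl_C_of_not τ q q.1.pt (fun h => hq h.1), map_zero, mul_zero]
    · rw [Ops.bl_C_of_not τ p p.1.pt (fun h => hp h.1), zero_mul, zero_mul]
  · rw [Ops.bl_CTC]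
    change IsCompactOperator (⇑(bl (Cop τ) p p.1.pt) ∘ ⇑(bl T p.1.pt q.1.pt) ∘
      ⇑(ContinuousLinearMap.adjoint (bl (Cop τ) q q.1.pt)))
    exact ((hT'.2 p.1.pt q.1.pt).comp_clm _).clm_comp _

end Ops

end Vale.Agent.P212
end
end
namespace AFast7dbf42x4825a
@[reducible] noncomputable def a0 {x1 : Vale.Agent.P212.Tower} : Star ↥(Vale.Agent.P212.multAlg (Vale.Agent.P212.grJ x1)) := inferInstance
@[reducible] noncomputable def a1 {x1 : Vale.Agent.P212.Tower} : Star (Vale.Agent.P212.MM (Vale.Agent.P212.grJ x1)) := inferInstance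
@[reducible] noncomputable def a2 {x1 : Vale.Agent.P212.Tower} : InvolutiveStar (Vale.Agent.P212.MM (Vale.Agent.P212.grJ x1)) := inferInstance
@[reducible] noncomputable def a3 {x1 : Vale.Agent.P212.Tower} : StarAddMonoid (Vale.Agent.P212.MM (Vale.Agent.P212.grJ x1)) := inferInstance
@[reducible] noncomputable def a4 {x1 : Vale.Agent.P212.Tower} : SetLike (StarSubalgebra ℂ (Vale.Agent.P212.L2 (Vale.Agent.P212.PT x1 × ℕ) →L[ℂ] Vale.Agent.P212.L2 (Vale.Agent.P212.PT x1 × ℕ))) (Vale.Agent.P212.L2 (Vale.Agent.P212.PT x1 × ℕ) →L[ℂ] Vale.Agent.P212.L2 (Vale.Agent.P212.PT x1 × ℕ)) := inferInstance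
theorem a5 {x1 : Vale.Agent.P212.Tower} : StarModule ℂ (Vale.Agent.P212.L2 (Vale.Agent.P212.PT x1 × ℕ) →L[ℂ] Vale.Agent.P212.L2 (Vale.Agent.P212.PT x1 × ℕ)) := inferInstance
theorem a6 {x1 : Vale.Agent.P212.Tower} : StarMemClass (StarSubalgebra ℂ (Vale.Agent.P212.L2 (Vale.Agent.P212.PT x1 × ℕ) →L[ℂ] Vale.Agent.P212.L2 (Vale.Agent.P212.PT x1 × ℕ))) (Vale.Agent.P212.L2 (Vale.Agent.P212.PT x1 × ℕ) →L[ℂ] Vale.Agent.P212.L2 (Vale.Agent.P212.PT x1 × ℕ)) := inferInstance
@[reducible] noncomputable def a7 {x1 : Vale.Agent.P212.Tower} : StarRing (Vale.Agent.P212.MM (Vale.Agent.P212.grJ x1)) := inferInstance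
@[reducible] noncomputable def a8 {x1 : Vale.Agent.P212.Tower} : Module ℂ (Vale.Agent.P212.LP ↑(Vale.Agent.P212.base x1) →L[ℂ] Vale.Agent.P212.LP (Vale.Agent.P212.PT x1)) := inferInstance
end AFast7dbf42x4825a
attribute [local instance] AFast7dbf42x4825a.a0 AFast7dbf42x4825a.a1 AFast7dbf42x4825a.a2
  AFast7dbf42x4825a.a3 AFast7dbf42x4825a.a4 AFast7dbf42x4825a.a5 AFast7dbf42x4825a.a6
  AFast7dbf42x4825a.a7 AFast7dbf42x4825a.a8
namespace AFast7dbf42x4825b
theorem a0 {x1 : Vale.Agent.P212.Tower} : T2Space (Vale.Agent.P212.MM (Vale.Agent.P212.grJ x1)) := inferInstance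
end AFast7dbf42x4825b
attribute [local instance] AFast7dbf42x4825b.a0

section

section

/-! Lifts of operators on the base. -/

namespace Vale.Agent.P212

/-- `a` is the transport of `a'` along the shortest path. -/
def Trans {τ : Tower} (a a' : AT τ) : Prop :=
  ∃ (n : ℕ) (w w' : Torus n) (y : τ.G (2 * n)), a = ⟨n, w, hol τ w w' * y⟩ ∧ a' = ⟨n, w', y⟩

open Classical in
/-- The coefficient of the lift: transport for components at least `n0`, averaging below. -/
noncomputable def coefL {τ : Tower} (n0 : ℕ) (a a' : AT τ) : ℂ :=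
  if n0 ≤ a.n ∧ n0 ≤ a'.n then (if Trans a a' then 1 else 0)
  else if a.n < n0 ∧ a'.n < n0 then
    ((Real.sqrt (Nat.card (τ.G (2 * a.n)) * Nat.card (τ.G (2 * a'.n))))⁻¹ : ℝ) else 0

section Aux

variable {τ : Tower}

theorem subsingleton_G_zero (n : ℕ) : Subsingleton (τ.G (min 0 (2 * n))) := by
  have h : τ.N (min 0 (2 * n)) = ⊤ := by rw [Nat.zero_min]; exact τ.top
  constructor
  intro a b
  induction a using QuotientGroup.induction_on with | H a =>
  induction b using QuotientGroup.induction_on with | H b =>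
  exact QuotientGroup.eq.2 (by rw [h]; trivial)

theorem base_cases (b : base τ) : ∃ (n : ℕ) (w : Torus n), b = ⟨⟨n, 0, w, 1⟩, rfl⟩ := by
  obtain ⟨⟨n, l, w, y⟩, hl⟩ := b
  have hl' : l = 0 := hl
  subst hl'
  have := subsingleton_G_zero (τ := τ) n
  exact ⟨n, w, Subtype.ext (by rw [Subsingleton.elim y 1])⟩

/-- A point above a base point. -/
def mkA (b : base τ) (y : τ.G (2 * b.1.n)) : AT τ := ⟨b.1.n, b.1.w, y⟩

theorem pt_mkA (b : base τ) (y : τ.G (2 * b.1.n)) : (mkA b y).pt = b := by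
  obtain ⟨n, w, rfl⟩ := base_cases b
  rfl

theorem mkA_pt (a : AT τ) : mkA a.pt a.y = a := rfl

theorem trans_iff {n : ℕ} (w w' : Torus n) (y y' : τ.G (2 * n)) :
    Trans (⟨n, w, y⟩ : AT τ) ⟨n, w', y'⟩ ↔ y = hol τ w w' * y' := by
  constructor
  · rintro ⟨n1, w1, w1', y1, h, h'⟩
    cases h'
    simp only [AT.mk.injEq, heq_eq_eq, true_and] at h
    obtain ⟨rfl, rfl⟩ := h
    rfl
  · rintro rfl
    exact ⟨n, w, w', y', rfl, rfl⟩

theorem Trans.n_eq {a a' : AT τ} (h : Trans a a') : a.n = a'.n := by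
  obtain ⟨n, w, w', y, rfl, rfl⟩ := h
  rfl

theorem isRoe_fst_iff {X : Type} [MetricSpace X] (T : LP X →L[ℂ] LP X) :
    IsRoe (Prod.fst : X × ℕ → X) T ↔ (∃ R : ℝ, ∀ p q, R < dist p q → bl T p q = 0) ∧
      ∀ p q, IsCompactOperator (bl T p q) :=
  isRoe_iff_bl (fun x : X => x) (fun x => by simp) T

theorem natCard_pos (m : ℕ) : 0 < Nat.card (τ.G m) := Nat.card_pos

theorem norm_coefL_le (n0 : ℕ) (a a' : AT τ) : ‖coefL n0 a a'‖ ≤ 1 := by
  unfold coefL
  split_ifs with h1 h2 h3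
  · simp
  · simp
  · rw [Complex.norm_real, Real.norm_of_nonneg (by positivity)]
    apply inv_le_one_of_one_le₀
    rw [Real.one_le_sqrt]
    have h4 : (1 : ℝ) ≤ Nat.card (τ.G (2 * a.n)) := by exact_mod_cast natCard_pos _
    have h5 : (1 : ℝ) ≤ Nat.card (τ.G (2 * a'.n)) := by exact_mod_cast natCard_pos _
    linarith [mul_nonneg (sub_nonneg.2 h4) (sub_nonneg.2 h5), h5]
  · simp

theorem disp_natAbs_le {n : ℕ} (i i' : ZMod (n + 1)) : 2 * (disp i i').natAbs ≤ n + 1 := by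
  have := ZMod.natAbs_valMinAbs_le (i - i')
  unfold disp
  omega

theorem tdist_le_n {n : ℕ} (w w' : Torus n) : tdist w w' ≤ n + 1 := by
  have h1 := disp_natAbs_le w.1 w'.1
  have h2 := disp_natAbs_le w.2 w'.2
  unfold tdist
  omega

/-- The geometric relation between base points in the definition of `Good`. -/
def GP (n0 : ℕ) (b b' : base τ) : Prop :=
  (b.1.n < n0 ∧ b'.1.n < n0) ∨ (b.1.n = b'.1.n ∧ ∃ (n : ℕ) (w w' : Torus n),
      n0 ≤ n ∧ 8 * tdist w w' ≤ n ∧ b.1 = ⟨n, 0, w, 1⟩ ∧ b'.1 = ⟨n, 0, w', 1⟩)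

theorem coefL_low {n0 : ℕ} {a a' : AT τ} (h : a.n < n0) (h' : a'.n < n0) :
    coefL n0 a a' =
      ((Real.sqrt (Nat.card (τ.G (2 * a.n)) * Nat.card (τ.G (2 * a'.n))))⁻¹ : ℝ) := by
  unfold coefL
  rw [if_neg (by omega), if_pos ⟨h, h'⟩]

open Classical in
theorem coefL_high {n0 n : ℕ} (w w' : Torus n) (y y' : τ.G (2 * n)) (h : n0 ≤ n) :
    coefL n0 (⟨n, w, y⟩ : AT τ) ⟨n, w', y'⟩ = if y = hol τ w w' * y' then 1 else 0 := by
  unfold coefL
  rw [if_pos ⟨h, h⟩]
  simp only [trans_iff]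

theorem sqrt_aux {A B C : ℝ} (hA : 0 < A) (hB : 0 < B) :
    B * ((Real.sqrt (A * B))⁻¹ * (Real.sqrt (B * C))⁻¹) = (Real.sqrt (A * C))⁻¹ := by
  have h : Real.sqrt (A * B) * Real.sqrt (B * C) = B * Real.sqrt (A * C) := by
    rw [← Real.sqrt_mul (by positivity), show A * B * (B * C) = B ^ 2 * (A * C) by ring,
      Real.sqrt_mul (by positivity), Real.sqrt_sq hB.le]
  rw [← mul_inv, h, mul_inv, ← mul_assoc, mul_inv_cancel₀ hB.ne', one_mul]

open Classical in
theorem sum_coefL {n0 : ℕ} (a a'' : AT τ) (b : base τ) [Fintype (τ.G (2 * b.1.n))]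
    (h1 : GP n0 a.pt b) (h2 : GP n0 b a''.pt) :
    ∑ y : τ.G (2 * b.1.n), coefL n0 a (mkA b y) * coefL n0 (mkA b y) a'' = coefL n0 a a'' := by
  rcases h1 with ⟨ha, hb⟩ | ⟨hab, n, w, w', hn, ht, e1, e2⟩
  · rcases h2 with ⟨-, ha''⟩ | ⟨-, n, w, w', hn, ht, e1, e2⟩
    · have ha : a.n < n0 := ha
      have ha'' : a''.n < n0 := ha''
      rw [coefL_low ha ha'']
      have : ∀ y : τ.G (2 * b.1.n), coefL n0 a (mkA b y) * coefL n0 (mkA b y) a'' =
          (((Real.sqrt (Nat.card (τ.G (2 * a.n)) * Nat.card (τ.G (2 * b.1.n))))⁻¹ *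
            (Real.sqrt (Nat.card (τ.G (2 * b.1.n)) * Nat.card (τ.G (2 * a''.n))))⁻¹ : ℝ) : ℂ) := by
        intro y
        rw [coefL_low ha (show (mkA b y).n < n0 from hb),
          coefL_low (show (mkA b y).n < n0 from hb) ha'']
        push_cast
        rfl
      simp only [this]
      rw [Finset.sum_const, Finset.card_univ, nsmul_eq_mul, ← Nat.card_eq_fintype_card]
      rw [← Complex.ofReal_natCast, ← Complex.ofReal_mul]
      congr 1
      exact sqrt_aux (by exact_mod_cast natCard_pos _) (by exact_mod_cast natCard_pos _)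
    · rw [e1] at hb
      exact absurd hb (not_lt.2 hn)
  · rcases h2 with ⟨hb, ha''⟩ | ⟨-, n', v', v'', hn', ht', e1', e2'⟩
    · rw [e2] at hb
      exact absurd hb (not_lt.2 hn)
    · obtain ⟨x, hx⟩ := b
      obtain ⟨na, wa, ya⟩ := a
      obtain ⟨nc, wc, yc⟩ := a''
      simp only [AT.pt] at e1 e2 e1' e2'
      subst e2
      simp only [XT.mk.injEq] at e1 e1' e2'
      obtain ⟨rfl, -, h3, -⟩ := e1
      obtain ⟨rfl, -, h4, -⟩ := e1'
      obtain ⟨rfl, -, h5, -⟩ := e2'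
      rw [heq_eq_eq] at h3 h4 h5
      subst h3 h4 h5
      have e : ∀ y : τ.G (2 * nc), coefL n0 (⟨nc, wa, ya⟩ : AT τ) ⟨nc, w', y⟩ *
          coefL n0 (⟨nc, w', y⟩ : AT τ) ⟨nc, wc, yc⟩ =
          if y = hol τ w' wc * yc then (if ya = hol τ wa w' * (hol τ w' wc * yc) then 1 else 0)
            else 0 := by
        intro y
        rw [coefL_high _ _ _ _ hn, coefL_high _ _ _ _ hn]
        by_cases hy : y = hol τ w' wc * yc
        · subst hy
          simp
        · simp [hy]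
      refine (Finset.sum_congr rfl (fun y _ => e y)).trans ?_
      rw [Finset.sum_ite_eq' Finset.univ (hol τ w' wc * yc), if_pos (Finset.mem_univ _),
        coefL_high _ _ _ _ hn, ← mul_assoc, hol_mul τ le_rfl (by omega)]

theorem coefL_ne_zero {n0 : ℕ} {a a' : AT τ} (h : coefL n0 a a' ≠ 0) :
    (n0 ≤ a.n ∧ n0 ≤ a'.n ∧ Trans a a') ∨ (a.n < n0 ∧ a'.n < n0) := by
  unfold coefL at h
  split_ifs at h with h1 h2 h3
  · exact Or.inl ⟨h1.1, h1.2, h2⟩
  · exact absurd rfl h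
  · exact Or.inr h3
  · exact absurd rfl h

theorem pt_eq_iff {a a' : AT τ} (h : a.pt = a'.pt) : ∃ (n : ℕ) (w : Torus n)
    (y y' : τ.G (2 * n)), a = ⟨n, w, y⟩ ∧ a' = ⟨n, w, y'⟩ := by
  obtain ⟨n, w, y⟩ := a
  obtain ⟨n', w', y'⟩ := a'
  have h := congrArg Subtype.val h
  simp only [AT.pt, XT.mk.injEq] at h
  obtain ⟨rfl, -, h3, -⟩ := h
  rw [heq_eq_eq] at h3
  subst h3
  exact ⟨n, w, y, y', rfl, rfl⟩

theorem trans_right_inj {a a' a'' : AT τ} (h : Trans a a') (h' : Trans a a'')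
    (hp : a'.pt = a''.pt) : a' = a'' := by
  obtain ⟨n, w, y, y', rfl, rfl⟩ := pt_eq_iff hp
  obtain ⟨n', v, z⟩ := a
  have hn : n' = n := h.n_eq
  subst hn
  rw [trans_iff] at h h'
  rw [mul_left_cancel (h.symm.trans h')]

theorem trans_left_inj {a a' a'' : AT τ} (h : Trans a' a) (h' : Trans a'' a)
    (hp : a'.pt = a''.pt) : a' = a'' := by
  obtain ⟨n, w, y, y', rfl, rfl⟩ := pt_eq_iff hp
  obtain ⟨n', v, z⟩ := a
  have hn : n = n' := h.n_eq
  subst hn
  rw [trans_iff] at h h'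
  rw [h, h']

theorem finite_low (n0 : ℕ) : {a : AT τ | a.n < n0}.Finite := by
  have : Finite (Σ n : Fin n0, Torus n × τ.G (2 * n)) := inferInstance
  have hs : {a : AT τ | a.n < n0} ⊆ Set.range
      (fun s : Σ n : Fin n0, Torus n × τ.G (2 * n) => (⟨s.1, s.2.1, s.2.2⟩ : AT τ)) := by
    rintro ⟨n, w, y⟩ h
    exact ⟨⟨⟨n, h⟩, w, y⟩, rfl⟩
  exact (Set.finite_range _).subset hs

theorem count_aux {n0 : ℕ} {R : ℝ} {N1 : ℕ}
    (hN1 : ∀ x : XT τ, (Metric.closedBall x R).encard ≤ N1) {M : ℕ}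
    (hM : {a : AT τ | a.n < n0}.encard ≤ M) (p : PT τ) (s : Set (PT τ))
    (h1 : ∀ q ∈ s, q.2 = p.2) (h2 : ∀ q ∈ s, dist (q.1.pt : XT τ) (p.1.pt : XT τ) ≤ R)
    (h3 : (∀ q ∈ s, q.1.n < n0) ∨ (∀ q ∈ s, ∀ q' ∈ s, q.1.pt = q'.1.pt → q.1 = q'.1)) :
    s.encard ≤ (max N1 M : ℕ) := by
  rcases h3 with h3 | h3
  · have hs : s ⊆ (fun a : AT τ => ((a, p.2) : PT τ)) '' {a : AT τ | a.n < n0} := by
      intro q hq
      exact ⟨q.1, h3 q hq, Prod.ext rfl (h1 q hq).symm⟩
    calc s.encard ≤ _ := Set.encard_le_encard hs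
      _ ≤ {a : AT τ | a.n < n0}.encard := Set.encard_image_le _ _
      _ ≤ M := hM
      _ ≤ (max N1 M : ℕ) := by exact_mod_cast le_max_right _ _
  · have hinj : Set.InjOn (fun q : PT τ => (q.1.pt : XT τ)) s := by
      intro q hq q' hq' h
      exact Prod.ext (h3 q hq q' hq' (Subtype.ext h)) ((h1 q hq).trans (h1 q' hq').symm)
    rw [← hinj.encard_image]
    calc _ ≤ (Metric.closedBall (p.1.pt : XT τ) R).encard := by
          apply Set.encard_le_encard
          rintro _ ⟨q, hq, rfl⟩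
          exact h2 q hq
      _ ≤ N1 := hN1 _
      _ ≤ (max N1 M : ℕ) := by exact_mod_cast le_max_left _ _

theorem lev_trans {n : ℕ} (w w' : Torus n) (y : τ.G (2 * n)) (l : ℕ) :
    lev (⟨n, w, hol τ w w' * y⟩ : AT τ) l =
      ⟨n, l, w, hol τ w w' * τ.red (min_le_right l (2 * n)) y⟩ := by
  simp only [lev, map_mul, red_hol]

theorem tdist_le_of_dist {n : ℕ} {w w' : Torus n} {k : ℕ}
    (h : dist (⟨n, 0, w, 1⟩ : XT τ) ⟨n, 0, w', 1⟩ ≤ k) : tdist w w' ≤ 2 * k := by
  by_cases hk : 2 * k ≤ n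
  · have := tdist_le hk h
    omega
  · have := tdist_le_n w w'
    omega

end Aux

section Ops

variable (τ : Tower)

/-- Operators of finite propagation on the base vanish between far apart tori and
between far apart points of far tori. -/
def Good (n0 : ℕ) (T : LP (base τ) →L[ℂ] LP (base τ)) : Prop :=
  ∀ b b' : base τ, bl T b b' ≠ 0 →
    (b.1.n < n0 ∧ b'.1.n < n0) ∨ (b.1.n = b'.1.n ∧ ∃ (n : ℕ) (w w' : Torus n),
      n0 ≤ n ∧ 8 * tdist w w' ≤ n ∧ b.1 = ⟨n, 0, w, 1⟩ ∧ b'.1 = ⟨n, 0, w', 1⟩)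

theorem exists_good {T : LP (base τ) →L[ℂ] LP (base τ)}
    (hT : IsRoe (Prod.fst : base τ × ℕ → base τ) T) : ∃ n1, ∀ n0 ≥ n1, Good τ n0 T := by
  obtain ⟨⟨R, hR⟩, -⟩ := (isRoe_fst_iff T).1 hT
  refine ⟨8 * ⌈R⌉₊ + 1, fun n0 hn0 b b' hb => ?_⟩
  have hd : dist b b' ≤ R := not_lt.1 (fun h => hb (hR b b' h))
  have hd' : dist b.1 b'.1 ≤ (⌈R⌉₊ : ℕ) := hd.trans (Nat.le_ceil R)
  obtain ⟨n, w, rfl⟩ := base_cases b
  obtain ⟨n', w', rfl⟩ := base_cases b'
  by_cases hn : n = n'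
  · subst hn
    by_cases h0 : n < n0
    · exact Or.inl ⟨h0, h0⟩
    · have := tdist_le (k := ⌈R⌉₊) (by omega) hd'
      exact Or.inr ⟨rfl, n, w, w', not_lt.1 h0, by omega, rfl, rfl⟩
  · have h := (le_dist_diff (x := (⟨n, 0, w, 1⟩ : XT τ)) (x' := ⟨n', 0, w', 1⟩) hn).trans hd'
    have h' : max n n' ≤ ⌈R⌉₊ := by exact_mod_cast h
    left
    constructor
    · change n < n0
      omega
    · change n' < n0
      omega

/-- The lift of an operator on the base. -/
theorem exists_lift {n0 : ℕ} {T : LP (base τ) →L[ℂ] LP (base τ)}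
    (hT : IsRoe (Prod.fst : base τ × ℕ → base τ) T) (hg : Good τ n0 T) :
    ∃ S : LP (PT τ) →L[ℂ] LP (PT τ), IsRoe (grJ τ) S ∧
      ∀ p q, bl S p q = if p.2 = q.2 then coefL n0 p.1 q.1 • bl T p.1.pt q.1.pt else 0 := by
  obtain ⟨⟨R, hR⟩, hc⟩ := (isRoe_fst_iff T).1 hT
  have hR' : ∀ b b' : base τ, bl T b b' ≠ 0 → dist (b : XT τ) (b' : XT τ) ≤ R :=
    fun b b' hb => not_lt.1 (fun h => hb (hR b b' h))
  obtain ⟨N1, hN1⟩ := BddGeometry.bdd (X := XT τ) R
  obtain ⟨M, hM⟩ : ∃ M : ℕ, {a : AT τ | a.n < n0}.encard ≤ M :=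
    ⟨_, (finite_low n0).cast_ncard_eq.symm.le⟩
  have hne : ∀ p q : PT τ,
      (if p.2 = q.2 then coefL n0 p.1 q.1 • bl T p.1.pt q.1.pt else (0 : OpN)) ≠ 0 →
      p.2 = q.2 ∧ coefL n0 p.1 q.1 ≠ 0 ∧ bl T p.1.pt q.1.pt ≠ 0 := by
    intro p q h
    split_ifs at h with h1
    · exact ⟨h1, fun h2 => h (by rw [h2, zero_smul]), fun h2 => h (by rw [h2, smul_zero])⟩
    · exact absurd rfl h
  obtain ⟨S, hS, -⟩ := exists_of_blocks (P := PT τ) (Q := PT τ)
    (fun p q => if p.2 = q.2 then coefL n0 p.1 q.1 • bl T p.1.pt q.1.pt else 0)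
    (max N1 M) ‖T‖ (norm_nonneg _)
    (fun p => by
      refine count_aux hN1 hM p _ (fun q hq => (hne p q hq).1.symm)
        (fun q hq => by rw [dist_comm]; exact hR' _ _ (hne p q hq).2.2) ?_
      by_cases h : p.1.n < n0
      · left
        intro q hq
        rcases coefL_ne_zero (hne p q hq).2.1 with h1 | h1
        · omega
        · exact h1.2
      · right
        intro q hq q' hq' hpt
        rcases coefL_ne_zero (hne p q hq).2.1 with h1 | h1
        · rcases coefL_ne_zero (hne p q' hq').2.1 with h2 | h2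
          · exact trans_right_inj h1.2.2 h2.2.2 hpt
          · exact absurd h2.1 h
        · exact absurd h1.1 h)
    (fun p => by
      refine count_aux hN1 hM p _ (fun q hq => (hne q p hq).1)
        (fun q hq => hR' _ _ (hne q p hq).2.2) ?_
      by_cases h : p.1.n < n0
      · left
        intro q hq
        rcases coefL_ne_zero (hne q p hq).2.1 with h1 | h1
        · omega
        · exact h1.1
      · right
        intro q hq q' hq' hpt
        rcases coefL_ne_zero (hne q p hq).2.1 with h1 | h1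
        · rcases coefL_ne_zero (hne q' p hq').2.1 with h2 | h2
          · exact trans_left_inj h1.2.2 h2.2.2 hpt
          · exact absurd h2.2 h
        · exact absurd h1.2 h)
    (fun p q => by
      split_ifs with h
      · rw [norm_smul]
        calc _ ≤ 1 * ‖T‖ := mul_le_mul (norm_coefL_le _ _ _) (norm_bl_le _ _ _)
              (norm_nonneg _) zero_le_one
          _ = ‖T‖ := one_mul _
      · rw [norm_zero]
        exact norm_nonneg _)
  refine ⟨S, ?_, hS⟩
  refine (isRoe_iff_bl (gr τ) (gr_finite τ) S).2 ⟨⟨((2 * n0 + 2 * ⌈R⌉₊ + 2 : ℕ) : ℝ), ?_⟩, ?_⟩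
  · intro p q h
    by_contra hb
    rw [hS] at hb
    obtain ⟨h1, h2, h3⟩ := hne p q hb
    have hd : dist (p.1.pt : XT τ) (q.1.pt : XT τ) ≤ (⌈R⌉₊ : ℕ) :=
      (hR' _ _ h3).trans (Nat.le_ceil R)
    refine absurd h (not_lt.2 ?_)
    obtain ⟨a, l⟩ := p
    obtain ⟨a', l'⟩ := q
    have h1' : l = l' := h1
    subst h1'
    rcases coefL_ne_zero h2 with ⟨ha, ha', n, w, w', y, e1, e2⟩ | ⟨ha, ha'⟩
    · dsimp only at e1 e2
      subst e1 e2
      have ht : tdist w w' ≤ 2 * ⌈R⌉₊ := tdist_le_of_dist hd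
      have h5 : dist (gr τ (⟨n, w, hol τ w w' * y⟩, l)) (gr τ (⟨n, w', y⟩, l)) ≤ tdist w w' := by
        unfold gr
        rw [lev_trans]
        exact dist_transport w w' _
      refine h5.trans ?_
      exact_mod_cast (by omega : tdist w w' ≤ 2 * n0 + 2 * ⌈R⌉₊ + 2)
    · have ha : a.n < n0 := ha
      have ha' : a'.n < n0 := ha'
      by_cases hn : a.n = a'.n
      · have h5 := dist_same_level (x := gr τ (a, l)) (x' := gr τ (a', l)) hn rfl
        refine h5.trans ?_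
        have h6 : (gr τ (a, l)).n < n0 := ha
        exact_mod_cast (by omega : 2 * ((gr τ (a, l)).n + 1) ≤ 2 * n0 + 2 * ⌈R⌉₊ + 2)
      · have h5 := dist_diff_le (x := gr τ (a, l)) (x' := gr τ (a', l)) hn rfl
        refine h5.trans ?_
        have h6 : (gr τ (a, l)).n < n0 := ha
        have h7 : (gr τ (a', l)).n < n0 := ha'
        exact_mod_cast (by omega : max (gr τ (a, l)).n (gr τ (a', l)).n ≤
          2 * n0 + 2 * ⌈R⌉₊ + 2)
  · intro p q
    rw [hS]
    split_ifs with h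
    · exact (hc _ _).smul (coefL n0 p.1 q.1)
    · exact isCompactOperator_zero

/-- The lift. -/
noncomputable def liftOp {n0 : ℕ} {T : LP (base τ) →L[ℂ] LP (base τ)}
    (hT : IsRoe (Prod.fst : base τ × ℕ → base τ) T) (hg : Good τ n0 T) :
    LP (PT τ) →L[ℂ] LP (PT τ) := (exists_lift τ hT hg).choose

theorem isRoe_liftOp {n0 : ℕ} {T : LP (base τ) →L[ℂ] LP (base τ)}
    (hT : IsRoe (Prod.fst : base τ × ℕ → base τ) T) (hg : Good τ n0 T) :
    IsRoe (grJ τ) (liftOp τ hT hg) := (exists_lift τ hT hg).choose_spec.1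

theorem bl_liftOp {n0 : ℕ} {T : LP (base τ) →L[ℂ] LP (base τ)}
    (hT : IsRoe (Prod.fst : base τ × ℕ → base τ) T) (hg : Good τ n0 T) (p q : PT τ) :
    bl (liftOp τ hT hg) p q =
      if p.2 = q.2 then coefL n0 p.1 q.1 • bl T p.1.pt q.1.pt else 0 :=
  (exists_lift τ hT hg).choose_spec.2 p q

section Lift

variable {n0 : ℕ} {T T' : LP (base τ) →L[ℂ] LP (base τ)}
  (hT : IsRoe (Prod.fst : base τ × ℕ → base τ) T) (hg : Good τ n0 T)
  (hT' : IsRoe (Prod.fst : base τ × ℕ → base τ) T') (hg' : Good τ n0 T')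

open Classical in
theorem bl_Uop (i : Fin 3) (p q : PT τ) :
    bl (Uop τ i) p q = if p = (q.1.act i, q.2) then 1 else 0 :=
  (exists_U τ i).choose_spec p q

open Classical in
theorem bl_Vop (p q : PT τ) : bl (Vop τ) p q = if p = (q.1, q.2 + 1) then 1 else 0 :=
  (exists_V τ).choose_spec p q

/-- The inverse of `AT.act`. -/
def AT.acti (a : AT τ) (i : Fin 3) : AT τ := ⟨a.n, a.w, a.y * τ.gm _ i⟩

theorem acti_act (a : AT τ) (i : Fin 3) : (a.act i).acti τ i = a := by
  obtain ⟨n, w, y⟩ := a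
  exact congrArg (AT.mk n w) (inv_mul_cancel_right y _)

theorem act_acti (a : AT τ) (i : Fin 3) : (a.acti τ i).act i = a := by
  obtain ⟨n, w, y⟩ := a
  exact congrArg (AT.mk n w) (mul_inv_cancel_right y _)

theorem coefL_act (a a' : AT τ) (i : Fin 3) :
    coefL n0 a (a'.act i) = coefL n0 (a.acti τ i) a' := by
  obtain ⟨n, w, y⟩ := a
  obtain ⟨n', w', y'⟩ := a'
  by_cases h : n0 ≤ n
  · by_cases h' : n = n'
    · subst h'
      change coefL n0 (⟨n, w, y⟩ : AT τ) ⟨n, w', y' * (τ.gm _ i)⁻¹⟩ =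
        coefL n0 (⟨n, w, y * τ.gm _ i⟩ : AT τ) ⟨n, w', y'⟩
      classical
      rw [coefL_high _ _ _ _ h, coefL_high _ _ _ _ h]
      congr 1
      rw [← mul_assoc, eq_mul_inv_iff_mul_eq]
    · have h1 : ¬ Trans (⟨n, w, y⟩ : AT τ) ((⟨n', w', y'⟩ : AT τ).act i) :=
        fun k => h' k.n_eq
      have h2 : ¬ Trans ((⟨n, w, y⟩ : AT τ).acti τ i) (⟨n', w', y'⟩ : AT τ) :=
        fun k => h' k.n_eq
      have h3 : ¬ (n < n0 ∧ n' < n0) := fun k => absurd h (not_le.2 k.1)
      unfold coefL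
      rw [if_neg h1, if_neg h2]
      rfl
  · have h1 : ¬ (n0 ≤ n ∧ n0 ≤ n') := fun k => h k.1
    unfold coefL
    rw [if_neg (show ¬ (n0 ≤ (⟨n, w, y⟩ : AT τ).n ∧ n0 ≤ ((⟨n', w', y'⟩ : AT τ).act i).n) from h1),
      if_neg (show ¬ (n0 ≤ ((⟨n, w, y⟩ : AT τ).acti τ i).n ∧ n0 ≤ (⟨n', w', y'⟩ : AT τ).n) from h1)]
    rfl

theorem liftOp_comm_U (i : Fin 3) : liftOp τ hT hg * Uop τ i = Uop τ i * liftOp τ hT hg := by
  classical
  refine bl_ext (fun p q => ?_)
  have h1 : bl (liftOp τ hT hg * Uop τ i) p q = bl (liftOp τ hT hg) p (q.1.act i, q.2) := by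
    refine (bl_comp (liftOp τ hT hg) (Uop τ i) p q {(q.1.act i, q.2)} (Or.inr ?_)).trans ?_
    · intro r hr
      rw [bl_Uop, if_neg (by simpa using hr)]
    · rw [Finset.sum_singleton, bl_Uop, if_pos rfl, mul_one]
  have h2 : bl (Uop τ i * liftOp τ hT hg) p q = bl (liftOp τ hT hg) (p.1.acti τ i, p.2) q := by
    refine (bl_comp (Uop τ i) (liftOp τ hT hg) p q {(p.1.acti τ i, p.2)} (Or.inl ?_)).trans ?_
    · intro r hr
      rw [bl_Uop, if_neg]
      rintro rfl
      apply hr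
      rw [Finset.mem_singleton]
      exact Prod.ext (acti_act τ r.1 i).symm rfl
    · rw [Finset.sum_singleton, bl_Uop, if_pos, one_mul]
      exact Prod.ext (act_acti τ p.1 i).symm rfl
  rw [h1, h2, bl_liftOp, bl_liftOp, coefL_act]
  rfl

theorem liftOp_comm_V : liftOp τ hT hg * Vop τ = Vop τ * liftOp τ hT hg := by
  classical
  refine bl_ext (fun p q => ?_)
  have h1 : bl (liftOp τ hT hg * Vop τ) p q = bl (liftOp τ hT hg) p (q.1, q.2 + 1) := by
    refine (bl_comp (liftOp τ hT hg) (Vop τ) p q {(q.1, q.2 + 1)} (Or.inr ?_)).trans ?_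
    · intro r hr
      rw [bl_Vop, if_neg (by simpa using hr)]
    · rw [Finset.sum_singleton, bl_Vop, if_pos rfl, mul_one]
  have h2 : bl (Vop τ * liftOp τ hT hg) p q =
      if p.2 = 0 then 0 else bl (liftOp τ hT hg) (p.1, p.2 - 1) q := by
    split_ifs with hp
    · refine (bl_comp (Vop τ) (liftOp τ hT hg) p q ∅ (Or.inl ?_)).trans ?_
      · intro r _
        rw [bl_Vop, if_neg]
        rintro rfl
        simp at hp
      · rw [Finset.sum_empty]
    · refine (bl_comp (Vop τ) (liftOp τ hT hg) p q {(p.1, p.2 - 1)} (Or.inl ?_)).trans ?_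
      · intro r hr
        rw [bl_Vop, if_neg]
        rintro rfl
        apply hr
        rw [Finset.mem_singleton]
        exact Prod.ext rfl (by simp)
      · rw [Finset.sum_singleton, bl_Vop, if_pos, one_mul]
        exact Prod.ext rfl (by simp; omega)
  rw [h1, h2, bl_liftOp]
  split_ifs with h3 h4 h4
  · omega
  · rw [bl_liftOp, if_pos (show p.2 - 1 = q.2 by omega)]
  · rfl
  · rw [bl_liftOp, if_neg (show ¬ (p.2 - 1 = q.2) by omega)]

theorem liftOp_add (h : IsRoe (Prod.fst : base τ × ℕ → base τ) (T + T'))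
    (hh : Good τ n0 (T + T')) : liftOp τ h hh = liftOp τ hT hg + liftOp τ hT' hg' := by
  refine bl_ext (fun p q => ?_)
  rw [bl_add, bl_liftOp, bl_liftOp, bl_liftOp]
  split_ifs with h1
  · rw [bl_add, smul_add]
  · rw [add_zero]

theorem liftOp_smul (c : ℂ) (h : IsRoe (Prod.fst : base τ × ℕ → base τ) (c • T))
    (hh : Good τ n0 (c • T)) : liftOp τ h hh = c • liftOp τ hT hg := by
  refine bl_ext (fun p q => ?_)
  rw [bl_smul, bl_liftOp, bl_liftOp]
  split_ifs with h1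
  · rw [bl_smul, smul_comm]
  · rw [smul_zero]

theorem finite_row {T : LP (base τ) →L[ℂ] LP (base τ)}
    (hT : IsRoe (Prod.fst : base τ × ℕ → base τ) T) (b : base τ) :
    {b' | bl T b b' ≠ 0}.Finite := by
  obtain ⟨⟨R, hR⟩, hc⟩ := (isRoe_fst_iff T).1 hT
  obtain ⟨N1, hN1⟩ := BddGeometry.bdd (X := XT τ) R
  have h1 : (Metric.closedBall (b : XT τ) R).Finite :=
    Set.finite_of_encard_le_coe (hN1 _)
  have h2 : {b' | bl T b b' ≠ 0} ⊆ (fun b' : base τ => (b' : XT τ)) ⁻¹'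
      (Metric.closedBall (b : XT τ) R) := by
    intro b' hb'
    rw [Set.mem_preimage, Metric.mem_closedBall, dist_comm]
    exact not_lt.1 (fun h => hb' (hR b b' h))
  exact (h1.preimage (Subtype.val_injective.injOn)).subset h2

theorem liftOp_mul (h : IsRoe (Prod.fst : base τ × ℕ → base τ) (T * T'))
    (hh : Good τ n0 (T * T')) : liftOp τ h hh = liftOp τ hT hg * liftOp τ hT' hg' := by
  classical
  refine bl_ext (fun p q => ?_)
  have _inst : ∀ m, Fintype (τ.G m) := fun m => Fintype.ofFinite _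
  obtain ⟨F, hF⟩ := (finite_row τ hT p.1.pt).exists_finset
  have h1 : bl (T * T') p.1.pt q.1.pt = ∑ b ∈ F, bl T p.1.pt b * bl T' b q.1.pt := by
    refine bl_comp T T' p.1.pt q.1.pt F (Or.inl ?_)
    intro b hb
    by_contra hne
    exact hb ((hF b).2 hne)
  have hinj : Function.Injective
      (fun s : Σ b : base τ, τ.G (2 * b.1.n) => ((mkA s.1 s.2, p.2) : PT τ)) := by
    rintro ⟨b, y⟩ ⟨b', y'⟩ hs
    have hs1 := congrArg Prod.fst hs
    have hb : b = b' := by rw [← pt_mkA b y, ← pt_mkA b' y']; exact congrArg AT.pt hs1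
    subst hb
    simpa [mkA] using hs1
  have h2 : bl (liftOp τ hT hg * liftOp τ hT' hg') p q =
      ∑ r ∈ (F.sigma (fun b => (Finset.univ : Finset (τ.G (2 * b.1.n))))).map ⟨_, hinj⟩,
        bl (liftOp τ hT hg) p r * bl (liftOp τ hT' hg') r q := by
    refine bl_comp _ _ p q _ (Or.inl ?_)
    intro r hr
    rw [bl_liftOp]
    split_ifs with h3
    · by_cases h4 : bl T p.1.pt r.1.pt = 0
      · rw [h4, smul_zero]
      · exfalso
        apply hr
        rw [Finset.mem_map]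
        refine ⟨⟨r.1.pt, r.1.y⟩, ?_, Prod.ext (mkA_pt r.1) h3⟩
        rw [Finset.mem_sigma]
        exact ⟨(hF _).2 h4, Finset.mem_univ _⟩
    · rfl
  rw [h2, Finset.sum_map, Finset.sum_sigma, bl_liftOp, h1]
  by_cases hl : p.2 = q.2
  · rw [if_pos hl, Finset.smul_sum]
    refine Finset.sum_congr rfl (fun b _ => ?_)
    by_cases h5 : bl T p.1.pt b = 0
    · rw [h5, zero_mul, smul_zero]
      symm
      refine Finset.sum_eq_zero (fun y _ => ?_)
      change bl (liftOp τ hT hg) p (mkA b y, p.2) * bl (liftOp τ hT' hg') (mkA b y, p.2) q = 0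
      rw [bl_liftOp, if_pos rfl, pt_mkA, h5, smul_zero, zero_mul]
    by_cases h6 : bl T' b q.1.pt = 0
    · rw [h6, mul_zero, smul_zero]
      symm
      refine Finset.sum_eq_zero (fun y _ => ?_)
      change bl (liftOp τ hT hg) p (mkA b y, p.2) * bl (liftOp τ hT' hg') (mkA b y, p.2) q = 0
      rw [bl_liftOp τ hT' hg', if_pos hl, pt_mkA, h6, smul_zero, mul_zero]
    rw [← sum_coefL p.1 q.1 b (hg _ _ h5) (hg' _ _ h6), Finset.sum_smul]
    refine Finset.sum_congr rfl (fun y _ => ?_)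
    change _ = bl (liftOp τ hT hg) p (mkA b y, p.2) * bl (liftOp τ hT' hg') (mkA b y, p.2) q
    rw [bl_liftOp, bl_liftOp, if_pos rfl, if_pos hl, pt_mkA]
    rw [smul_mul_smul_comm]
  · rw [if_neg hl]
    symm
    refine Finset.sum_eq_zero (fun b _ => Finset.sum_eq_zero (fun y _ => ?_))
    change bl (liftOp τ hT hg) p (mkA b y, p.2) * bl (liftOp τ hT' hg') (mkA b y, p.2) q = 0
    rw [bl_liftOp τ hT' hg', if_neg hl, mul_zero]

theorem liftOp_star (h : IsRoe (Prod.fst : base τ × ℕ → base τ) (star T))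
    (hh : Good τ n0 (star T)) : liftOp τ h hh = star (liftOp τ hT hg) := by
  classical
  refine bl_ext (fun p q => ?_)
  rw [bl_star, bl_liftOp, bl_liftOp]
  by_cases hl : p.2 = q.2
  · rw [if_pos hl, if_pos hl.symm, bl_star, star_smul]
    by_cases h5 : bl T q.1.pt p.1.pt = 0
    · rw [h5, star_zero, smul_zero, smul_zero]
    · congr 1
      obtain ⟨a, l⟩ := p
      obtain ⟨a', l'⟩ := q
      rcases hg _ _ h5 with ⟨h1, h2⟩ | ⟨hn, n, w, w', hn0, ht, e1, e2⟩
      · have h1 : a'.n < n0 := h1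
        have h2 : a.n < n0 := h2
        change coefL n0 a a' = star (coefL n0 a' a)
        rw [coefL_low h2 h1, coefL_low h1 h2, mul_comm]
        exact (Complex.conj_ofReal _).symm
      · obtain ⟨na, wa, ya⟩ := a
        obtain ⟨nc, wc, yc⟩ := a'
        simp only [AT.pt, XT.mk.injEq] at e1 e2
        obtain ⟨rfl, -, h3, -⟩ := e1
        obtain ⟨rfl, -, h4, -⟩ := e2
        rw [heq_eq_eq] at h3 h4
        subst h3 h4
        change coefL n0 (⟨na, wa, ya⟩ : AT τ) ⟨na, wc, yc⟩ =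
          star (coefL n0 (⟨na, wc, yc⟩ : AT τ) ⟨na, wa, ya⟩)
        rw [coefL_high _ _ _ _ hn0, coefL_high _ _ _ _ hn0]
        rw [hol_symm τ le_rfl (w := wc) (w' := wa) (by omega)]
        by_cases h6 : yc = hol τ wc wa * ya
        · rw [if_pos h6, if_pos (eq_inv_mul_iff_mul_eq.2 h6.symm), star_one]
        · rw [if_neg h6, if_neg (fun h7 => h6 (eq_inv_mul_iff_mul_eq.1 h7).symm), star_zero]
  · rw [if_neg hl, if_neg (fun k => hl k.symm), star_zero]

end Lift

end Ops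

end Vale.Agent.P212
end
end

section

section

/-! Differences of lifts are multiples of the Laplacian. -/

namespace Vale.Agent.P212

section Blk

variable {P : Type}

theorem fac_inc_ne {p q : P} (h : q ≠ p) (f : L2 ℕ) (k : ℕ) :
    (inc p f : P × ℕ → ℂ) (q, k) = 0 := by
  refine pushL2_apply_not_mem (u := fun k : ℕ => (p, k)) (fun _ _ h => (Prod.mk.inj h).2) f ?_
  rintro ⟨k', hk'⟩
  exact h (Prod.mk.inj hk').1.symm

open Classical in
theorem fac_proj_inc (A : Set P) (q : P) (f : L2 ℕ) :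
    proj {j : P × ℕ | j.1 ∈ A} (inc q f) = if q ∈ A then inc q f else 0 := by
  apply lp.ext
  funext j
  obtain ⟨p, k⟩ := j
  by_cases hp : p ∈ A
  · rw [proj_apply_mem _ (show (p, k) ∈ {j : P × ℕ | j.1 ∈ A} from hp)]
    by_cases hq : q ∈ A
    · rw [if_pos hq]
    · rw [if_neg hq, fac_inc_ne (fun h : p = q => hq (h ▸ hp))]
      rfl
  · rw [proj_apply_not_mem _ (show (p, k) ∉ {j : P × ℕ | j.1 ∈ A} from hp)]
    by_cases hq : q ∈ A
    · rw [if_pos hq, fac_inc_ne (fun h : p = q => hp (h ▸ hq))]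
    · rw [if_neg hq]
      rfl

open Classical in
theorem fac_bl_mul_proj (T : LP P →L[ℂ] LP P) (A : Set P) (p q : P) :
    bl (T * proj {j : P × ℕ | j.1 ∈ A}) p q = if q ∈ A then bl T p q else 0 := by
  apply ContinuousLinearMap.ext
  intro f
  apply lp.ext
  funext k
  rw [bl_apply]
  change (T (proj {j : P × ℕ | j.1 ∈ A} (inc q f)) : P × ℕ → ℂ) (p, k) = _
  rw [fac_proj_inc]
  split_ifs with h
  · rw [bl_apply]
  · rw [map_zero]; rfl

open Classical in
theorem fac_bl_proj_mul (T : LP P →L[ℂ] LP P) (A : Set P) (p q : P) :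
    bl (proj {j : P × ℕ | j.1 ∈ A} * T) p q = if p ∈ A then bl T p q else 0 := by
  apply ContinuousLinearMap.ext
  intro f
  apply lp.ext
  funext k
  rw [bl_apply]
  change (proj {j : P × ℕ | j.1 ∈ A} (T (inc q f)) : P × ℕ → ℂ) (p, k) = _
  split_ifs with h
  · rw [proj_apply_mem _ (show (p, k) ∈ {j : P × ℕ | j.1 ∈ A} from h), bl_apply]
  · rw [proj_apply_not_mem _ (show (p, k) ∉ {j : P × ℕ | j.1 ∈ A} from h)]; rfl

end Blk

section Ops

variable (τ : Tower)

open Classical in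
theorem fac_bl_U (i : Fin 3) (p q : PT τ) :
    bl (Uop τ i) p q = if p = (q.1.act i, q.2) then 1 else 0 := (exists_U τ i).choose_spec p q

open Classical in
theorem fac_bl_Z (p q : PT τ) : bl (Zop τ) p q = if p = q ∧ p.2 = 0 then 1 else 0 :=
  (exists_Z τ).choose_spec p q

open Classical in
theorem fac_bl_C (p : PT τ) (b : base τ) : bl (Cop τ) p b = if p.2 = 0 ∧ p.1.pt = b then
      (((Real.sqrt (Nat.card (τ.G (2 * p.1.n))))⁻¹ : ℝ) : ℂ) • 1 else 0 :=
  (exists_C τ).choose_spec p b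

variable {τ}

/-- The label of the fibre of a point. -/
def fibl (p : PT τ) : (Σ n : ℕ, Torus n) × ℕ := (⟨p.1.n, p.1.w⟩, p.2)

/-- The points with a given label. -/
def fibS (F : (Σ n : ℕ, Torus n) × ℕ) : Set (PT τ) := {p | fibl p = F}

variable (τ)

theorem fac_comm_U (F : (Σ n : ℕ, Torus n) × ℕ) (i : Fin 3) :
    proj {j : PT τ × ℕ | j.1 ∈ fibS F} * Uop τ i = Uop τ i * proj {j : PT τ × ℕ | j.1 ∈ fibS F} := by
  classical
  apply bl_ext
  intro p q
  rw [fac_bl_proj_mul, fac_bl_mul_proj, fac_bl_U]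
  by_cases h : p = (q.1.act i, q.2)
  · rw [if_pos h]
    subst h
    rfl
  · rw [if_neg h]
    simp

theorem fac_bl_eq_zero {M : LP (PT τ) →L[ℂ] LP (PT τ)}
    (hM : ∀ F, proj {j : PT τ × ℕ | j.1 ∈ fibS F} * M = M * proj {j : PT τ × ℕ | j.1 ∈ fibS F})
    {p q : PT τ} (h : fibl p ≠ fibl q) : bl M p q = 0 := by
  classical
  have h1 := congrArg (fun T => bl T p q) (hM (fibl q))
  rw [fac_bl_proj_mul, fac_bl_mul_proj, if_neg (show p ∉ fibS (fibl q) from h),
    if_pos (show q ∈ fibS (fibl q) from rfl)] at h1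
  exact h1.symm

theorem fac_bl_Green {p q : PT τ} (h : fibl p ≠ fibl q) :
    bl (Green (fun i => Uop τ i)) p q = 0 :=
  fac_bl_eq_zero τ (fun F => Green_comm (tri_Uop τ) (fun i => fac_comm_U τ F i)) h

theorem fac_bl_Kaz {p q : PT τ} (h : fibl p ≠ fibl q) :
    bl (Kaz (fun i => Uop τ i)) p q = 0 :=
  fac_bl_eq_zero τ (fun F => Kaz_comm (tri_Uop τ) (fun i => fac_comm_U τ F i)) h

/-- blocks of the Kazhdan projection are invariant under the generators. -/
theorem fac_Kaz_act (i : Fin 3) (r q : PT τ) :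
    bl (Kaz (fun i => Uop τ i)) (r.1.act i, r.2) q = bl (Kaz (fun i => Uop τ i)) r q := by
  classical
  have h1 := u_mul_Kaz (tri_Uop τ) i
  have h2 := congrArg (fun T => bl T (r.1.act i, r.2) q) h1
  have h3 := bl_comp (Uop τ i) (Kaz (fun i => Uop τ i)) (r.1.act i, r.2) q {r} (Or.inl (by
    intro s hs
    rw [fac_bl_U, if_neg]
    intro h
    apply hs
    rw [Finset.mem_singleton]
    obtain ⟨⟨n, w, y⟩, l⟩ := r
    obtain ⟨⟨n', w', y'⟩, l'⟩ := s
    simp only [AT.act, Prod.mk.injEq, AT.mk.injEq] at h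
    obtain ⟨⟨rfl, h4⟩, rfl⟩ := h
    obtain ⟨h5, h6⟩ := h4
    have h5' := eq_of_heq h5
    have h6' := eq_of_heq h6
    subst h5'
    have h7 := mul_right_cancel h6'
    rw [h7]))
  rw [Finset.sum_singleton, fac_bl_U, if_pos rfl, one_mul] at h3
  rw [← h2]
  exact h3

/-- blocks of the Kazhdan projection are constant along the fibre. -/
theorem fac_Kaz_const (n l : ℕ) (w : Torus n) (y : τ.G (2 * n)) (q : PT τ) :
    bl (Kaz (fun i => Uop τ i)) ((⟨n, w, y⟩ : AT τ), l) q =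
      bl (Kaz (fun i => Uop τ i)) ((⟨n, w, 1⟩ : AT τ), l) q := by
  have hstep : ∀ (i : Fin 3) (y : τ.G (2 * n)),
      bl (Kaz (fun i => Uop τ i)) ((⟨n, w, y * (τ.gm _ i)⁻¹⟩ : AT τ), l) q =
        bl (Kaz (fun i => Uop τ i)) ((⟨n, w, y⟩ : AT τ), l) q := fun i y =>
    fac_Kaz_act τ i ((⟨n, w, y⟩ : AT τ), l) q
  have hstep' : ∀ (i : Fin 3) (y : τ.G (2 * n)),
      bl (Kaz (fun i => Uop τ i)) ((⟨n, w, y * τ.gm _ i⟩ : AT τ), l) q =
        bl (Kaz (fun i => Uop τ i)) ((⟨n, w, y⟩ : AT τ), l) q := by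
    intro i y
    have := hstep i (y * τ.gm _ i)
    rw [mul_inv_cancel_right] at this
    exact this.symm
  have key : ∀ (v : F3) (y : τ.G (2 * n)),
      bl (Kaz (fun i => Uop τ i)) ((⟨n, w, y * QuotientGroup.mk v⟩ : AT τ), l) q =
        bl (Kaz (fun i => Uop τ i)) ((⟨n, w, y⟩ : AT τ), l) q := by
    intro v
    induction v using FreeGroup.induction_on with
    | C1 =>
      intro y
      rw [QuotientGroup.mk_one, mul_one]
    | of i =>
      intro y
      exact hstep' i y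
    | inv_of i _ =>
      intro y
      exact hstep i y
    | mul v v' h h' =>
      intro y
      rw [QuotientGroup.mk_mul, ← mul_assoc, h', h]
  induction y using QuotientGroup.induction_on with
  | H v =>
    have := key v 1
    rw [one_mul] at this
    exact this

/-- Operators whose row sums over the fibres vanish are right multiples of the Laplacian. -/
theorem exists_factor {S : LP (PT τ) →L[ℂ] LP (PT τ)} (hS : IsRoe (grJ τ) S) (R : ℝ)
    (h1 : ∀ (p : PT τ) (n l : ℕ) (w : Torus n) (y y' : τ.G (2 * n)),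
      bl S p (⟨n, w, y⟩, l) ≠ 0 → dist (gr τ p) (gr τ (⟨n, w, y'⟩, l)) ≤ R)
    (h2 : ∀ (p : PT τ) (n l : ℕ) (w : Torus n), ∑ᶠ y : τ.G (2 * n), bl S p (⟨n, w, y⟩, l) = 0) :
    ∃ Y, IsRoe (grJ τ) Y ∧ S = Y * Lap (fun i => Uop τ i) := by
  classical
  have hSb := (isRoe_iff_bl (gr τ) (gr_finite τ) S).1 hS
  have hfin : ∀ n : ℕ, Finite (τ.G (2 * n)) := fun n => inferInstance
  -- the fibre of a point as a finite set
  have hfib : ∀ q : PT τ, ∃ F : Finset (PT τ), (∀ r, r ∈ F ↔ fibl r = fibl q) ∧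
      ∀ g : PT τ → OpN, ∑ r ∈ F, g r = ∑ᶠ y : τ.G (2 * q.1.n), g (⟨q.1.n, q.1.w, y⟩, q.2) := by
    intro q
    have : Fintype (τ.G (2 * q.1.n)) := Fintype.ofFinite _
    have hinj : Function.Injective
        (fun y : τ.G (2 * q.1.n) => (((⟨q.1.n, q.1.w, y⟩ : AT τ), q.2) : PT τ)) := by
      intro y y' h
      simp only [Prod.mk.injEq, AT.mk.injEq, heq_eq_eq, true_and, and_true] at h
      exact h
    refine ⟨Finset.univ.image
      (fun y : τ.G (2 * q.1.n) => (((⟨q.1.n, q.1.w, y⟩ : AT τ), q.2) : PT τ)), ?_, ?_⟩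
    · intro r
      rw [Finset.mem_image]
      constructor
      · rintro ⟨y, -, rfl⟩
        rfl
      · intro h
        obtain ⟨⟨n, w, y⟩, l⟩ := r
        obtain ⟨⟨n', w', y'⟩, l'⟩ := q
        simp only [fibl, Prod.mk.injEq, Sigma.mk.injEq] at h
        obtain ⟨⟨rfl, hw⟩, rfl⟩ := h
        have hw' := eq_of_heq hw
        subst hw'
        exact ⟨y, Finset.mem_univ _, rfl⟩
    · intro g
      rw [Finset.sum_image (fun _ _ _ _ h => hinj h), finsum_eq_sum_of_fintype]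
  have hSK : S * Kaz (fun i => Uop τ i) = 0 := by
    apply bl_ext
    intro p q
    obtain ⟨F, hF, hsum⟩ := hfib q
    have h3 := bl_comp S (Kaz (fun i => Uop τ i)) p q F (Or.inr (by
      intro r hr
      apply fac_bl_Kaz
      intro h
      exact hr ((hF r).2 h)))
    have h4 : bl (S * Kaz (fun i => Uop τ i)) p q = bl (S ∘L Kaz (fun i => Uop τ i)) p q := rfl
    rw [h4, h3, bl_zero]
    have h5 : ∀ r ∈ F, bl S p r * bl (Kaz (fun i => Uop τ i)) r q =
        bl S p r * bl (Kaz (fun i => Uop τ i)) ((⟨q.1.n, q.1.w, 1⟩ : AT τ), q.2) q := by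
      intro r hr
      have h6 := (hF r).1 hr
      obtain ⟨⟨n, w, y⟩, l⟩ := r
      obtain ⟨⟨n', w', y'⟩, l'⟩ := q
      simp only [fibl, Prod.mk.injEq, Sigma.mk.injEq] at h6
      obtain ⟨⟨rfl, hw⟩, rfl⟩ := h6
      have hw' := eq_of_heq hw
      subst hw'
      rw [fac_Kaz_const]
    rw [Finset.sum_congr rfl h5, ← Finset.sum_mul, hsum (fun r => bl S p r), h2, zero_mul]
  have hY : ∀ p q : PT τ, ∃ F : Finset (PT τ), (∀ r ∈ F, fibl r = fibl q) ∧
      bl (S * Green (fun i => Uop τ i)) p q =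
        ∑ r ∈ F, bl S p r * bl (Green (fun i => Uop τ i)) r q := by
    intro p q
    obtain ⟨F, hF, -⟩ := hfib q
    refine ⟨F, fun r hr => (hF r).1 hr, ?_⟩
    exact bl_comp S (Green (fun i => Uop τ i)) p q F (Or.inr (by
      intro r hr
      apply fac_bl_Green
      intro h
      exact hr ((hF r).2 h)))
  refine ⟨S * Green (fun i => Uop τ i), ?_, ?_⟩
  · refine (isRoe_iff_bl (gr τ) (gr_finite τ) _).2 ⟨⟨R, ?_⟩, ?_⟩
    · intro p q hpq
      obtain ⟨F, hF, hsum⟩ := hY p q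
      rw [hsum]
      refine Finset.sum_eq_zero (fun r hr => ?_)
      have h6 := hF r hr
      by_cases h7 : bl S p r = 0
      · rw [h7, zero_mul]
      · exfalso
        obtain ⟨⟨n, w, y⟩, l⟩ := r
        obtain ⟨⟨n', w', y'⟩, l'⟩ := q
        simp only [fibl, Prod.mk.injEq, Sigma.mk.injEq] at h6
        obtain ⟨⟨rfl, hw⟩, rfl⟩ := h6
        have hw' := eq_of_heq hw
        subst hw'
        exact absurd (h1 p n l w y y' h7) (not_le.2 hpq)
    · intro p q
      obtain ⟨F, hF, hsum⟩ := hY p q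
      rw [hsum]
      refine isCompactOperator_sum _ _ (fun r _ => ?_)
      exact (hSb.2 p r).comp_clm _
  · have h8 : S = S * Kaz (fun i => Uop τ i) +
        S * Green (fun i => Uop τ i) * Lap (fun i => Uop τ i) := by
      have h9 : (Kaz (fun i => Uop τ i)) = 1 - Green (fun i => Uop τ i) * Lap (fun i => Uop τ i) :=
        rfl
      rw [h9, mul_sub, mul_one, mul_assoc, sub_add_cancel]
    rw [hSK, zero_add] at h8
    exact h8

/-! ### Transport coefficients -/

theorem fac_Trans_iff {n : ℕ} {w w' : Torus n} {y y' : τ.G (2 * n)} :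
    Trans (τ := τ) ⟨n, w, y⟩ ⟨n, w', y'⟩ ↔ y' = (hol τ w w')⁻¹ * y := by
  constructor
  · rintro ⟨m, v, v', z, h, h'⟩
    simp only [AT.mk.injEq] at h h'
    obtain ⟨rfl, h2, h3⟩ := h
    obtain ⟨-, h5, h6⟩ := h'
    have h2' := eq_of_heq h2
    have h3' := eq_of_heq h3
    have h5' := eq_of_heq h5
    have h6' := eq_of_heq h6
    subst h2' h5' h6'
    rw [h3', inv_mul_cancel_left]
  · intro h
    refine ⟨n, w, w', y', ?_, rfl⟩
    rw [h, mul_inv_cancel_left]

open Classical in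
theorem fac_sum_Trans (n : ℕ) (w w' : Torus n) (y : τ.G (2 * n)) (B : OpN) :
    ∑ᶠ y' : τ.G (2 * n), ((if Trans (τ := τ) ⟨n, w, y⟩ ⟨n, w', y'⟩ then (1 : ℂ) else 0) -
      (((Real.sqrt (Nat.card (τ.G (2 * n)) * Nat.card (τ.G (2 * n))))⁻¹ : ℝ) : ℂ)) • B = 0 := by
  have : Fintype (τ.G (2 * n)) := Fintype.ofFinite _
  rw [finsum_eq_sum_of_fintype, ← Finset.sum_smul]
  have hcard : (Nat.card (τ.G (2 * n)) : ℝ) ≠ 0 := by
    have := Nat.card_pos (α := τ.G (2 * n))
    positivity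
  have h1 : ∑ y' : τ.G (2 * n), ((if Trans (τ := τ) ⟨n, w, y⟩ ⟨n, w', y'⟩ then (1 : ℂ) else 0) -
      (((Real.sqrt (Nat.card (τ.G (2 * n)) * Nat.card (τ.G (2 * n))))⁻¹ : ℝ) : ℂ)) = 0 := by
    rw [Finset.sum_sub_distrib]
    simp only [fac_Trans_iff]
    rw [Finset.sum_ite_eq' Finset.univ, if_pos (Finset.mem_univ _), Finset.sum_const,
      Finset.card_univ, Real.sqrt_mul_self (Nat.cast_nonneg _), ← Nat.card_eq_fintype_card,
      nsmul_eq_mul]
    push_cast
    rw [mul_inv_cancel₀ (by exact_mod_cast hcard), sub_self]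
  rw [h1, zero_smul]

theorem fac_coefL_high {n0 : ℕ} {a a' : AT τ} (h : n0 ≤ a.n) (h' : n0 ≤ a'.n) [Decidable (Trans a a')] :
    coefL n0 a a' = if Trans a a' then 1 else 0 := by
  classical
  unfold coefL
  rw [if_pos ⟨h, h'⟩]
  split_ifs <;> rfl

theorem fac_coefL_low {n0 : ℕ} {a a' : AT τ} (h : a.n < n0) (h' : a'.n < n0) :
    coefL n0 a a' =
      ((Real.sqrt (Nat.card (τ.G (2 * a.n)) * Nat.card (τ.G (2 * a'.n))))⁻¹ : ℝ) := by
  classical
  unfold coefL
  rw [if_neg (fun hh => absurd hh.1 (not_le.2 h)), if_pos ⟨h, h'⟩]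

theorem fac_coefL_succ {n0 : ℕ} {T : LP (base τ) →L[ℂ] LP (base τ)} (hg : Good τ n0 T)
    {a a' : AT τ} (h : (coefL n0 a a' - coefL (n0 + 1) a a') • bl T a.pt a'.pt ≠ 0) :
    a.n = n0 ∧ a'.n = n0 := by
  have hB : bl T a.pt a'.pt ≠ 0 := fun h' => h (by rw [h', smul_zero])
  have hc : coefL n0 a a' ≠ coefL (n0 + 1) a a' := fun h' => h (by rw [h', sub_self, zero_smul])
  have h1 : (a.n < n0 ∧ a'.n < n0) ∨ a.n = a'.n := by
    rcases hg _ _ hB with h2 | h2
    · exact Or.inl h2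
    · exact Or.inr h2.1
  classical
  rcases h1 with h1 | h1
  · exfalso
    apply hc
    rw [fac_coefL_low τ h1.1 h1.2, fac_coefL_low τ (by omega) (by omega)]
  · by_contra hne
    rcases lt_trichotomy a.n n0 with h2 | h2 | h2
    · apply hc
      rw [fac_coefL_low τ h2 (by omega), fac_coefL_low τ (by omega) (by omega)]
    · exact hne ⟨h2, by omega⟩
    · apply hc
      rw [fac_coefL_high τ (by omega) (by omega), fac_coefL_high τ (by omega) (by omega)]

theorem liftOp_succ {n0 : ℕ} {T : LP (base τ) →L[ℂ] LP (base τ)}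
    (hT : IsRoe (Prod.fst : base τ × ℕ → base τ) T) (hg : Good τ n0 T)
    (hg' : Good τ (n0 + 1) T) : ∃ Y, IsRoe (grJ τ) Y ∧
      liftOp τ hT hg - liftOp τ hT hg' = Y * Lap (fun i => Uop τ i) := by
  classical
  have hbl : ∀ p q, bl (liftOp τ hT hg - liftOp τ hT hg') p q = if p.2 = q.2 then
      (coefL n0 p.1 q.1 - coefL (n0 + 1) p.1 q.1) • bl T p.1.pt q.1.pt else 0 := by
    intro p q
    rw [bl_sub, bl_liftOp, bl_liftOp]
    split_ifs with h
    · rw [sub_smul]
    · rw [sub_zero]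
  apply exists_factor τ ((isRoe_liftOp τ hT hg).sub (isRoe_liftOp τ hT hg')) (2 * (n0 + 1))
  · intro p n l w y y' hne
    rw [hbl] at hne
    by_cases hl : p.2 = l
    · rw [if_pos hl] at hne
      obtain ⟨h1, h2⟩ := fac_coefL_succ τ hg hne
      have h3 := dist_same_level (x := gr τ p) (x' := gr τ (⟨n, w, y'⟩, l))
        (show p.1.n = n from h1.trans h2.symm) hl
      refine h3.trans (le_of_eq ?_)
      have h4 : (gr τ p).n = n0 := h1
      rw [h4]
    · rw [if_neg hl] at hne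
      exact absurd rfl hne
  · intro p n l w
    obtain ⟨⟨m, v, z⟩, l'⟩ := p
    by_cases hl : l' = l
    · by_cases hn : m = n0 ∧ n = n0
      · obtain ⟨rfl, rfl⟩ := hn
        have h5 : ∀ y : τ.G (2 * n), bl (liftOp τ hT hg - liftOp τ hT hg')
            ((⟨n, v, z⟩ : AT τ), l') ((⟨n, w, y⟩ : AT τ), l) =
            ((if Trans (τ := τ) ⟨n, v, z⟩ ⟨n, w, y⟩ then (1 : ℂ) else 0) -
      (((Real.sqrt (Nat.card (τ.G (2 * n)) * Nat.card (τ.G (2 * n))))⁻¹ : ℝ) : ℂ)) •
          bl T (⟨n, v, z⟩ : AT τ).pt (⟨n, w, 1⟩ : AT τ).pt := by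
          intro y
          have e1 := fac_coefL_high τ (n0 := n) (a := ⟨n, v, z⟩) (a' := ⟨n, w, y⟩) le_rfl le_rfl
          have e2 := fac_coefL_low τ (n0 := n + 1) (a := ⟨n, v, z⟩) (a' := ⟨n, w, y⟩)
            (Nat.lt_succ_self n) (Nat.lt_succ_self n)
          rw [hbl, if_pos hl, e1, e2]
          rfl
        rw [finsum_congr h5, fac_sum_Trans]
      · have h5 : ∀ y : τ.G (2 * n), bl (liftOp τ hT hg - liftOp τ hT hg')
            ((⟨m, v, z⟩ : AT τ), l') ((⟨n, w, y⟩ : AT τ), l) = 0 := by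
          intro y
          rw [hbl, if_pos hl]
          by_contra hne
          exact hn (fac_coefL_succ τ hg hne)
        rw [finsum_congr h5, finsum_zero]
    · have h5 : ∀ y : τ.G (2 * n), bl (liftOp τ hT hg - liftOp τ hT hg')
            ((⟨m, v, z⟩ : AT τ), l') ((⟨n, w, y⟩ : AT τ), l) = 0 := by
        intro y
        rw [hbl, if_neg hl]
      rw [finsum_congr h5, finsum_zero]

/-! ### Level zero -/

theorem fac_lev_zero (a : AT τ) : lev a 0 = (a.pt).1 := by
  obtain ⟨n, w, y⟩ := a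
  have hs : ∀ z : τ.G (min 0 (2 * n)), z = 1 := by
    intro z
    induction z using QuotientGroup.induction_on with
    | H v =>
      rw [QuotientGroup.eq_one_iff]
      have h0 : τ.N (min 0 (2 * n)) = ⊤ := by rw [Nat.zero_min, τ.top]
      rw [h0]
      exact Subgroup.mem_top v
  have h1 : (τ.red (min_le_right 0 (2 * n)) y) = 1 := hs _
  change (⟨n, 0, w, τ.red (min_le_right 0 (2 * n)) y⟩ : XT τ) = ⟨n, 0, w, 1⟩
  rw [h1]

theorem fac_bl_Z_mul (S : LP (PT τ) →L[ℂ] LP (PT τ)) (p q : PT τ) :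
    bl (Zop τ * S) p q = if p.2 = 0 then bl S p q else 0 := by
  classical
  have h := bl_comp (Zop τ) S p q {p} (Or.inl (by
    intro r hr
    rw [fac_bl_Z, if_neg]
    rintro ⟨h1, -⟩
    exact hr (by rw [Finset.mem_singleton, h1])))
  have h' : bl (Zop τ * S) p q = bl (Zop τ ∘L S) p q := rfl
  rw [h', h, Finset.sum_singleton, fac_bl_Z]
  by_cases hp : p.2 = 0
  · rw [if_pos ⟨rfl, hp⟩, if_pos hp, one_mul]
  · rw [if_neg (fun h => hp h.2), if_neg hp, zero_mul]

theorem fac_adjoint_smul_one (c : ℝ) :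
    ContinuousLinearMap.adjoint ((c : ℂ) • (1 : OpN)) = (c : ℂ) • 1 := by
  rw [← ContinuousLinearMap.star_eq_adjoint, star_smul, star_one]
  congr 1
  exact Complex.conj_ofReal c

theorem fac_bl_CTC (T : LP (base τ) →L[ℂ] LP (base τ)) (p q : PT τ) :
    bl (Cop τ ∘L T ∘L ContinuousLinearMap.adjoint (Cop τ)) p q =
      if p.2 = 0 ∧ q.2 = 0 then
        (((Real.sqrt (Nat.card (τ.G (2 * p.1.n)) * Nat.card (τ.G (2 * q.1.n))))⁻¹ : ℝ) : ℂ) •
          bl T p.1.pt q.1.pt else 0 := by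
  classical
  have h1 := bl_comp (Cop τ) (T ∘L ContinuousLinearMap.adjoint (Cop τ)) p q {p.1.pt} (Or.inl (by
    intro b hb
    rw [fac_bl_C, if_neg]
    rintro ⟨-, h1⟩
    exact hb (by rw [Finset.mem_singleton, h1])))
  have h2 := bl_comp T (ContinuousLinearMap.adjoint (Cop τ)) p.1.pt q {q.1.pt} (Or.inr (by
    intro b hb
    rw [bl_adjoint, fac_bl_C, if_neg]
    · exact map_zero _
    rintro ⟨-, h1⟩
    exact hb (by rw [Finset.mem_singleton, h1])))
  rw [h1, Finset.sum_singleton, h2, Finset.sum_singleton, bl_adjoint, fac_bl_C, fac_bl_C]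
  by_cases hp : p.2 = 0
  · by_cases hq : q.2 = 0
    · rw [if_pos ⟨hp, rfl⟩, if_pos ⟨hq, rfl⟩, if_pos ⟨hp, hq⟩, fac_adjoint_smul_one,
        Real.sqrt_mul (Nat.cast_nonneg _), mul_inv]
      rw [smul_mul_assoc, one_mul, mul_smul_comm, mul_one, smul_smul]
      push_cast
      rfl
    · rw [if_neg (fun h : q.2 = 0 ∧ _ => hq h.1), if_neg (fun h : p.2 = 0 ∧ q.2 = 0 => hq h.2)]
      rw [map_zero, mul_zero, mul_zero]
  · rw [if_neg (fun h : p.2 = 0 ∧ _ => hp h.1), if_neg (fun h : p.2 = 0 ∧ q.2 = 0 => hp h.1),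
      zero_mul]

theorem Z_liftOp {n0 : ℕ} {T : LP (base τ) →L[ℂ] LP (base τ)}
    (hT : IsRoe (Prod.fst : base τ × ℕ → base τ) T) (hg : Good τ n0 T) :
    ∃ Y, IsRoe (grJ τ) Y ∧
      Zop τ * liftOp τ hT hg - Cop τ ∘L T ∘L ContinuousLinearMap.adjoint (Cop τ) =
        Y * Lap (fun i => Uop τ i) := by
  classical
  obtain ⟨⟨R, hR⟩, -⟩ := (isRoe_iff_bl (fun b : base τ => b)
    (fun x => by
      have : (fun b : base τ => b) ⁻¹' {x} = {x} := rfl
      rw [this]; exact Set.finite_singleton x) T).1 hT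
  have hLb := (isRoe_iff_bl (gr τ) (gr_finite τ) _).1 (isRoe_liftOp τ hT hg)
  have hbl : ∀ p q, bl (Zop τ * liftOp τ hT hg -
      Cop τ ∘L T ∘L ContinuousLinearMap.adjoint (Cop τ)) p q = if p.2 = 0 ∧ q.2 = 0 then
      (coefL n0 p.1 q.1 -
        (((Real.sqrt (Nat.card (τ.G (2 * p.1.n)) * Nat.card (τ.G (2 * q.1.n))))⁻¹ : ℝ) : ℂ)) •
          bl T p.1.pt q.1.pt else 0 := by
    intro p q
    rw [bl_sub, fac_bl_Z_mul, fac_bl_CTC, bl_liftOp]
    by_cases hp : p.2 = 0
    · by_cases hq : q.2 = 0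
      · rw [if_pos hp, if_pos (hp.trans hq.symm), if_pos ⟨hp, hq⟩, if_pos ⟨hp, hq⟩, sub_smul]
      · rw [if_pos hp, if_neg (fun h : p.2 = q.2 => hq (h ▸ hp)),
          if_neg (fun h : p.2 = 0 ∧ q.2 = 0 => hq h.2),
          if_neg (fun h : p.2 = 0 ∧ q.2 = 0 => hq h.2), sub_zero]
    · rw [if_neg hp, if_neg (fun h : p.2 = 0 ∧ q.2 = 0 => hp h.1),
        if_neg (fun h : p.2 = 0 ∧ q.2 = 0 => hp h.1), sub_zero]
  have hZ : IsRoe (grJ τ) (Zop τ * liftOp τ hT hg) := by
    refine (isRoe_iff_bl (gr τ) (gr_finite τ) _).2 ⟨?_, ?_⟩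
    · obtain ⟨R', hR'⟩ := hLb.1
      refine ⟨R', fun p q hpq => ?_⟩
      rw [fac_bl_Z_mul, hR' p q hpq, ite_self]
    · intro p q
      rw [fac_bl_Z_mul]
      split_ifs
      · exact hLb.2 p q
      · exact isCompactOperator_zero
  apply exists_factor τ (hZ.sub (isRoe_C τ hT)) R
  · intro p n l w y y' hne
    rw [hbl] at hne
    by_cases hpl : p.2 = 0 ∧ l = 0
    · rw [if_pos hpl] at hne
      obtain ⟨hp, rfl⟩ := hpl
      have hB : bl T p.1.pt (⟨n, w, y⟩ : AT τ).pt ≠ 0 := fun h' => hne (by rw [h', smul_zero])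
      have h3 : ¬ R < dist p.1.pt (⟨n, w, y⟩ : AT τ).pt := fun h => hB (hR _ _ h)
      have h4 : gr τ p = (p.1.pt).1 := by
        have : gr τ p = lev p.1 0 := by unfold gr; rw [hp]
        rw [this, fac_lev_zero]
      have h5 : gr τ ((⟨n, w, y'⟩ : AT τ), 0) = ((⟨n, w, y⟩ : AT τ).pt).1 := by
        have : gr τ ((⟨n, w, y'⟩ : AT τ), 0) = lev (⟨n, w, y'⟩ : AT τ) 0 := rfl
        rw [this, fac_lev_zero]
        rfl
      rw [h4, h5]
      exact not_lt.1 h3
    · rw [if_neg hpl] at hne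
      exact absurd rfl hne
  · intro p n l w
    obtain ⟨⟨m, v, z⟩, l'⟩ := p
    by_cases hpl : l' = 0 ∧ l = 0
    · by_cases hB : bl T (⟨m, v, z⟩ : AT τ).pt (⟨n, w, 1⟩ : AT τ).pt = 0
      · have h5 : ∀ y : τ.G (2 * n), bl (Zop τ * liftOp τ hT hg -
            Cop τ ∘L T ∘L ContinuousLinearMap.adjoint (Cop τ))
            ((⟨m, v, z⟩ : AT τ), l') ((⟨n, w, y⟩ : AT τ), l) = 0 := by
          intro y
          rw [hbl, if_pos hpl]
          have h6 : bl T (⟨m, v, z⟩ : AT τ).pt (⟨n, w, y⟩ : AT τ).pt = 0 := hB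
          rw [h6, smul_zero]
        rw [finsum_congr h5, finsum_zero]
      · rcases hg _ _ hB with h2 | ⟨h2, n', _, _, hn', _, h3, _⟩
        · have h2' : m < n0 ∧ n < n0 := h2
          have h5 : ∀ y : τ.G (2 * n), bl (Zop τ * liftOp τ hT hg -
            Cop τ ∘L T ∘L ContinuousLinearMap.adjoint (Cop τ))
            ((⟨m, v, z⟩ : AT τ), l') ((⟨n, w, y⟩ : AT τ), l) = 0 := by
            intro y
            rw [hbl, if_pos hpl, fac_coefL_low τ h2'.1 h2'.2, sub_self, zero_smul]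
          rw [finsum_congr h5, finsum_zero]
        · have h2' : m = n := h2
          subst h2'
          have h4 : m = n' := congrArg XT.n h3
          subst h4
          have h5 : ∀ y : τ.G (2 * m), bl (Zop τ * liftOp τ hT hg -
            Cop τ ∘L T ∘L ContinuousLinearMap.adjoint (Cop τ))
            ((⟨m, v, z⟩ : AT τ), l') ((⟨m, w, y⟩ : AT τ), l) =
            ((if Trans (τ := τ) ⟨m, v, z⟩ ⟨m, w, y⟩ then (1 : ℂ) else 0) -
      (((Real.sqrt (Nat.card (τ.G (2 * m)) * Nat.card (τ.G (2 * m))))⁻¹ : ℝ) : ℂ)) •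
          bl T (⟨m, v, z⟩ : AT τ).pt (⟨m, w, 1⟩ : AT τ).pt := by
            intro y
            rw [hbl, if_pos hpl, fac_coefL_high τ hn' hn']
            rfl
          rw [finsum_congr h5, fac_sum_Trans]
    · have h5 : ∀ y : τ.G (2 * n), bl (Zop τ * liftOp τ hT hg -
            Cop τ ∘L T ∘L ContinuousLinearMap.adjoint (Cop τ))
            ((⟨m, v, z⟩ : AT τ), l') ((⟨n, w, y⟩ : AT τ), l) = 0 := by
        intro y
        rw [hbl, if_neg hpl]
      rw [finsum_congr h5, finsum_zero]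

end Ops

end Vale.Agent.P212
end
end

section

section

/-! Regrading along a bijection over the space. -/

namespace Vale.Agent.P212

/-- A bijection of `P x N` with `X x N` over a surjection `P → X`. -/
theorem exists_theta {P X : Type} [Countable P] (σ : P → X) (hσ : Function.Surjective σ) :
    ∃ θ : P × ℕ ≃ X × ℕ, ∀ j, (θ j).1 = σ j.1 := by
  have h : ∀ x : X, Nonempty ({p : P // σ p = x} × ℕ ≃ ℕ) := by
    intro x
    have h1 : Infinite ({p : P // σ p = x} × ℕ) := by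
      obtain ⟨p, hp⟩ := hσ x
      exact Infinite.of_injective (fun k : ℕ => ((⟨p, hp⟩ : {p : P // σ p = x}), k))
        (fun a b hab => (Prod.mk.inj hab).2)
    exact nonempty_equiv_of_countable
  let e : ∀ x : X, {p : P // σ p = x} × ℕ ≃ ℕ := fun x => (h x).some
  refine ⟨{ toFun := fun j => (σ j.1, e (σ j.1) (⟨j.1, rfl⟩, j.2))
            invFun := fun j => (((e j.1).symm j.2).1.1, ((e j.1).symm j.2).2)
            left_inv := ?_
            right_inv := ?_ }, fun j => rfl⟩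
  · rintro ⟨p, k⟩
    simp
  · rintro ⟨x, k⟩
    have hx : σ ((e x).symm k).1.1 = x := ((e x).symm k).1.2
    have : ∀ (y : X) (hy : σ ((e x).symm k).1.1 = y),
        e y (⟨((e x).symm k).1.1, hy⟩, ((e x).symm k).2) = k → 
        (σ ((e x).symm k).1.1, e (σ ((e x).symm k).1.1)
          (⟨((e x).symm k).1.1, rfl⟩, ((e x).symm k).2)) = (y, k) := by
      rintro y rfl h
      exact Prod.ext rfl h
    refine this x hx ?_
    have : ((⟨((e x).symm k).1.1, hx⟩ : {p : P // σ p = x}), ((e x).symm k).2) =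
        (e x).symm k := rfl
    rw [this, Equiv.apply_symm_apply]

section Proj

variable {X J K : Type}

/-- Transport of blocks along a bijection of the index sets over the space. -/
theorem pushL2_proj (s : J → X) (t : K → X) (θ : J ≃ K) (hθ : ∀ j, t (θ j) = s j) (x : X) :
    pushL2 θ θ.injective ∘L proj (s ⁻¹' {x}) = proj (t ⁻¹' {x}) ∘L pushL2 θ θ.injective := by
  ext f k
  obtain ⟨j, rfl⟩ := θ.surjective k
  change (pushL2 θ θ.injective (proj (s ⁻¹' {x}) f) : K → ℂ) (θ j) =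
    (proj (t ⁻¹' {x}) (pushL2 θ θ.injective f) : K → ℂ) (θ j)
  rw [pushL2_apply]
  by_cases h : s j = x
  · rw [proj_apply_mem _ (show j ∈ s ⁻¹' {x} from h),
      proj_apply_mem _ (show θ j ∈ t ⁻¹' {x} from (hθ j).trans h), pushL2_apply]
  · rw [proj_apply_not_mem _ (show j ∉ s ⁻¹' {x} from h),
      proj_apply_not_mem _ (show θ j ∉ t ⁻¹' {x} from fun h' => h ((hθ j).symm.trans h'))]

theorem adjoint_pushL2_proj (s : J → X) (t : K → X) (θ : J ≃ K) (hθ : ∀ j, t (θ j) = s j)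
    (x : X) : ContinuousLinearMap.adjoint (pushL2 θ θ.injective) ∘L proj (t ⁻¹' {x}) =
      proj (s ⁻¹' {x}) ∘L ContinuousLinearMap.adjoint (pushL2 θ θ.injective) := by
  have h := congrArg ContinuousLinearMap.adjoint (pushL2_proj s t θ hθ x)
  rw [ContinuousLinearMap.adjoint_comp, ContinuousLinearMap.adjoint_comp,
    ← ContinuousLinearMap.star_eq_adjoint (proj (s ⁻¹' {x})), star_proj,
    ← ContinuousLinearMap.star_eq_adjoint (proj (t ⁻¹' {x})), star_proj] at h
  exact h.symm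

end Proj

variable {X : Type} [MetricSpace X] {J K : Type}

theorem blk_regrade (s : J → X) (t : K → X) (θ : J ≃ K) (hθ : ∀ j, t (θ j) = s j)
    (T : L2 J →L[ℂ] L2 J) (x y : X) :
    blk t (pushL2 θ θ.injective ∘L T ∘L ContinuousLinearMap.adjoint (pushL2 θ θ.injective)) x y =
      pushL2 θ θ.injective ∘L blk s T x y ∘L
        ContinuousLinearMap.adjoint (pushL2 θ θ.injective) := by
  have h1 := pushL2_proj s t θ hθ x
  have h2 := adjoint_pushL2_proj s t θ hθ y
  change proj (t ⁻¹' {x}) ∘L (pushL2 θ θ.injective ∘L T ∘L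
    ContinuousLinearMap.adjoint (pushL2 θ θ.injective)) ∘L proj (t ⁻¹' {y}) =
    pushL2 θ θ.injective ∘L (proj (s ⁻¹' {x}) ∘L T ∘L proj (s ⁻¹' {y})) ∘L
        ContinuousLinearMap.adjoint (pushL2 θ θ.injective)
  simp only [ContinuousLinearMap.comp_assoc]
  rw [h2, ← ContinuousLinearMap.comp_assoc, ← h1]
  simp only [ContinuousLinearMap.comp_assoc]

theorem isRoe_regrade {s : J → X} {t : K → X} (θ : J ≃ K) (hθ : ∀ j, t (θ j) = s j)
    {T : L2 J →L[ℂ] L2 J} (hT : IsRoe s T) : IsRoe t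
      (pushL2 θ θ.injective ∘L T ∘L ContinuousLinearMap.adjoint (pushL2 θ θ.injective)) := by
  obtain ⟨R, hR⟩ := hT.1
  refine ⟨⟨R, fun x y hxy => ?_⟩, fun x y => ?_⟩
  · rw [blk_regrade s t θ hθ, hR x y hxy]
    simp
  · rw [blk_regrade s t θ hθ]
    have := (hT.2 x y).comp_clm (ContinuousLinearMap.adjoint (pushL2 θ θ.injective))
    exact this.clm_comp (pushL2 θ θ.injective)

/-- Conjugation by an isometry which preserves the Roe condition. -/
noncomputable def conjN [BddGeometry X] {Y : Type} [MetricSpace Y] [BddGeometry Y]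
    (s : J → X) (t : K → Y)
    (V : L2 J →L[ℂ] L2 K) (hV : ContinuousLinearMap.adjoint V ∘L V = 1)
    (h : ∀ T, IsRoe s T → IsRoe t (V ∘L T ∘L ContinuousLinearMap.adjoint V)) :
    roeN s →⋆ₙₐ[ℂ] roeN t where
  toFun T := ⟨V ∘L T.1 ∘L ContinuousLinearMap.adjoint V, h T.1 T.2⟩
  map_smul' c T := by
    apply Subtype.ext
    change V ∘L (c • T.1) ∘L ContinuousLinearMap.adjoint V =
      c • (V ∘L T.1 ∘L ContinuousLinearMap.adjoint V)
    simp
  map_zero' := by
    apply Subtype.ext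
    change V ∘L (0 : L2 J →L[ℂ] L2 J) ∘L ContinuousLinearMap.adjoint V = 0
    simp
  map_add' T T' := by
    apply Subtype.ext
    change V ∘L (T.1 + T'.1) ∘L ContinuousLinearMap.adjoint V =
      (V ∘L T.1 ∘L ContinuousLinearMap.adjoint V) + (V ∘L T'.1 ∘L ContinuousLinearMap.adjoint V)
    simp
  map_mul' T T' := by
    apply Subtype.ext
    change V ∘L (T.1 ∘L T'.1) ∘L ContinuousLinearMap.adjoint V =
      (V ∘L T.1 ∘L ContinuousLinearMap.adjoint V) ∘L
        (V ∘L T'.1 ∘L ContinuousLinearMap.adjoint V)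
    have : ∀ x, ContinuousLinearMap.adjoint V (V x) = x := fun x => by
      have := congrArg (fun L : L2 J →L[ℂ] L2 J => L x) hV
      exact this
    ext x : 1
    simp [this]
  map_star' T := by
    apply Subtype.ext
    change V ∘L (ContinuousLinearMap.adjoint T.1) ∘L ContinuousLinearMap.adjoint V =
      ContinuousLinearMap.adjoint (V ∘L T.1 ∘L ContinuousLinearMap.adjoint V)
    rw [ContinuousLinearMap.adjoint_comp, ContinuousLinearMap.adjoint_comp,
      ContinuousLinearMap.adjoint_adjoint, ContinuousLinearMap.comp_assoc]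

end Vale.Agent.P212
end
end

section

section

/-! The homomorphism `T ↦ lift T * p` into the multiplier algebra. -/

namespace Vale.Agent.P212

variable (τ : Tower)

/-- The grading of the base. -/
abbrev sB : base τ × ℕ → base τ := Prod.fst

theorem isMult_U (i : Fin 3) : IsMult (grJ τ) (Uop τ i) := by
  refine isMult_of_contraction (r := 0) (propLE_Uop τ i) (PropLE.zero 0) ?_
  rw [(tri_Uop τ).unit i]
  simp

theorem isMult_V : IsMult (grJ τ) (Vop τ) := by
  refine isMult_of_contraction (r := 0) (propLE_Vop τ) (PropLE.zero 0) ?_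
  rw [star_V_mul_V]
  simp

theorem isMult_Z : IsMult (grJ τ) (Zop τ) := by
  refine isMult_of_contraction (r := 1 - Zop τ) (propLE_Zop τ)
    ((PropLE.one le_rfl).sub (propLE_Zop τ)) ?_
  rw [star_sub, star_one, Z_star, Z_idem]
  have h := Z_idem τ
  simp only [mul_sub, sub_mul, mul_one, one_mul, h]
  abel

/-- The unitaries of the generators in the multiplier algebra. -/
noncomputable def uM (i : Fin 3) : MM (grJ τ) := toMM (grJ τ) ⟨Uop τ i, isMult_U τ i⟩

/-- The level shift in the multiplier algebra. -/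
noncomputable def vM : MM (grJ τ) := toMM (grJ τ) ⟨Vop τ, isMult_V τ⟩

/-- The projection to level zero in the multiplier algebra. -/
noncomputable def zM : MM (grJ τ) := toMM (grJ τ) ⟨Zop τ, isMult_Z τ⟩

theorem tri_uM : Tri (uM τ) where
  unit i := by
    rw [uM, ← map_star, ← map_mul, ← map_one (toMM (grJ τ))]
    exact congrArg _ (Subtype.ext ((tri_Uop τ).unit i))
  unit' i := by
    rw [uM, ← map_star, ← map_mul, ← map_one (toMM (grJ τ))]
    exact congrArg _ (Subtype.ext ((tri_Uop τ).unit' i))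
  cube i := by
    rw [uM, ← map_pow, ← map_one (toMM (grJ τ))]
    exact congrArg _ (Subtype.ext ((tri_Uop τ).cube i))
  rel i := by
    rw [uM, uM, ← map_mul, ← map_mul, ← map_mul, ← map_mul]
    exact congrArg _ (Subtype.ext ((tri_Uop τ).rel i))

/-- The Kazhdan projection. -/
noncomputable def pM : MM (grJ τ) := Kaz (uM τ)

theorem star_vM_mul_vM : star (vM τ) * vM τ = 1 := by
  rw [vM, ← map_star, ← map_mul, ← map_one (toMM (grJ τ))]
  exact congrArg _ (Subtype.ext (star_V_mul_V τ))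

theorem vM_mul_star_vM : vM τ * star (vM τ) = 1 - zM τ := by
  rw [vM, zM, ← map_star, ← map_mul, ← map_one (toMM (grJ τ)), ← map_sub]
  exact congrArg _ (Subtype.ext (V_mul_star_V τ))

theorem zM_idem : zM τ * zM τ = zM τ := by
  rw [zM, ← map_mul]
  exact congrArg _ (Subtype.ext (Z_idem τ))

theorem zM_mul_vM : zM τ * vM τ = 0 := by
  have h : vM τ = (1 - zM τ) * vM τ := by
    rw [← vM_mul_star_vM, mul_assoc, star_vM_mul_vM, mul_one]
  rw [h, ← mul_assoc, mul_sub, mul_one, zM_idem, sub_self, zero_mul]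

theorem vM_comm_uM (i : Fin 3) : vM τ * uM τ i = uM τ i * vM τ := by
  rw [vM, uM, ← map_mul, ← map_mul]
  exact congrArg _ (Subtype.ext (V_comm_U τ i))

theorem vM_comm_pM : vM τ * pM τ = pM τ * vM τ := Kaz_comm (tri_uM τ) (vM_comm_uM τ)

theorem pM_star : star (pM τ) = pM τ := Kaz_star (tri_uM τ)

theorem pM_idem : pM τ * pM τ = pM τ := Kaz_idem (tri_uM τ)

theorem isMult_Lap : IsMult (grJ τ) (Lap (fun i => Uop τ i)) := by
  have h : ∀ i, Qp (Uop τ i) ∈ multAlg (grJ τ) := by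
    intro i
    have h1 : Uop τ i ∈ multAlg (grJ τ) := isMult_U τ i
    exact sub_mem (one_mem _) (SMulMemClass.smul_mem _
      (add_mem (add_mem (one_mem _) h1) (pow_mem h1 2)))
  exact sum_mem (fun i _ => h i)

theorem toMM_Lap : toMM (grJ τ) ⟨Lap (fun i => Uop τ i), isMult_Lap τ⟩ = Lap (uM τ) := by
  have h : (⟨Lap (fun i => Uop τ i), isMult_Lap τ⟩ : multAlg (grJ τ)) =
      ∑ i, (1 - (1 / 3 : ℂ) • (1 + (⟨Uop τ i, isMult_U τ i⟩ : multAlg (grJ τ)) +
        (⟨Uop τ i, isMult_U τ i⟩ : multAlg (grJ τ)) ^ 2)) := by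
    apply Subtype.ext
    rw [AddSubmonoidClass.coe_finsetSum]
    rfl
  rw [h, map_sum]
  refine Finset.sum_congr rfl (fun i _ => ?_)
  rw [map_sub, map_smul, map_add, map_add, map_pow, map_one]
  rfl

/-- A right multiple of the Laplacian is killed by `p`. -/
theorem toMM_mul_pM_eq_zero {S Y : LP (PT τ) →L[ℂ] LP (PT τ)} (hS : IsMult (grJ τ) S)
    (hY : IsRoe (grJ τ) Y) (h : S = Y * Lap (fun i => Uop τ i)) :
    toMM (grJ τ) ⟨S, hS⟩ * pM τ = 0 := by
  have h1 : (⟨S, hS⟩ : multAlg (grJ τ)) = ⟨Y, hY.isMult⟩ * ⟨_, isMult_Lap τ⟩ := Subtype.ext h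
  rw [h1, map_mul, toMM_Lap]
  exact mul_Kaz_eq_zero (tri_uM τ) rfl

theorem toMM_mul_pM_eq_zero' {a : multAlg (grJ τ)} {Y : LP (PT τ) →L[ℂ] LP (PT τ)}
    (hY : IsRoe (grJ τ) Y) (h : a.1 = Y * Lap (fun i => Uop τ i)) :
    toMM (grJ τ) a * pM τ = 0 := toMM_mul_pM_eq_zero τ a.2 hY h

/-- The threshold beyond which the lift is defined. -/
noncomputable def thr (T : roeN (sB τ)) : ℕ := (exists_good τ T.2).choose

theorem good_thr (T : roeN (sB τ)) (n0 : ℕ) (h : thr τ T ≤ n0) : Good τ n0 T.1 :=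
  (exists_good τ T.2).choose_spec n0 h

/-- The lift of an operator, as a multiplier. -/
noncomputable def liftM (T : roeN (sB τ)) (n0 : ℕ) (h : Good τ n0 T.1) : MM (grJ τ) :=
  toMM (grJ τ) ⟨liftOp τ T.2 h, (isRoe_liftOp τ T.2 h).isMult⟩

theorem liftM_succ (T : roeN (sB τ)) (n0 : ℕ) (h : Good τ n0 T.1) (h' : Good τ (n0 + 1) T.1) :
    liftM τ T n0 h * pM τ = liftM τ T (n0 + 1) h' * pM τ := by
  obtain ⟨Y, hY, hYeq⟩ := liftOp_succ τ T.2 h h'
  rw [← sub_eq_zero, ← sub_mul, liftM, liftM, ← map_sub]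
  exact toMM_mul_pM_eq_zero τ _ hY hYeq

/-- The homomorphism as a function. -/
noncomputable def qFun (T : roeN (sB τ)) : MM (grJ τ) :=
  liftM τ T (thr τ T) (good_thr τ T _ le_rfl) * pM τ

theorem qFun_eq (T : roeN (sB τ)) {n0 : ℕ} (h : thr τ T ≤ n0) (hg : Good τ n0 T.1) :
    qFun τ T = liftM τ T n0 hg * pM τ := by
  induction n0, h using Nat.le_induction with
  | base => rfl
  | succ n hn ih =>
    rw [ih (good_thr τ T n hn)]
    exact liftM_succ τ T n _ _

theorem qFun_add (T T' : roeN (sB τ)) : qFun τ (T + T') = qFun τ T + qFun τ T' := by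
  obtain ⟨n0, h1, h2, h3⟩ : ∃ n0, thr τ T ≤ n0 ∧ thr τ T' ≤ n0 ∧ thr τ (T + T') ≤ n0 :=
    ⟨max (thr τ T) (max (thr τ T') (thr τ (T + T'))), by simp, by simp, by simp⟩
  rw [qFun_eq τ T h1 (good_thr τ T _ h1), qFun_eq τ T' h2 (good_thr τ T' _ h2),
    qFun_eq τ (T + T') h3 (good_thr τ (T + T') _ h3), ← add_mul, liftM, liftM, liftM, ← map_add]
  congr 2
  exact Subtype.ext (liftOp_add τ T.2 (good_thr τ T _ h1) T'.2 (good_thr τ T' _ h2) (T + T').2
    (good_thr τ (T + T') _ h3))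

theorem qFun_smul (c : ℂ) (T T' : roeN (sB τ)) (hT : T'.1 = c • T.1) :
    qFun τ T' = c • qFun τ T := by
  obtain ⟨n0, h1, h2⟩ : ∃ n0, thr τ T ≤ n0 ∧ thr τ T' ≤ n0 :=
    ⟨max (thr τ T) (thr τ T'), by simp, by simp⟩
  rw [qFun_eq τ T h1 (good_thr τ T _ h1), qFun_eq τ T' h2 (good_thr τ T' _ h2),
    ← smul_mul_assoc, liftM, liftM, ← map_smul]
  obtain ⟨S, hS⟩ := T'
  change S = c • T.1 at hT
  subst hT
  congr 2
  exact Subtype.ext (liftOp_smul τ T.2 (good_thr τ T _ h1) c hS (good_thr τ ⟨_, hS⟩ _ h2))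

theorem liftM_comm_pM (T : roeN (sB τ)) (n0 : ℕ) (h : Good τ n0 T.1) :
    liftM τ T n0 h * pM τ = pM τ * liftM τ T n0 h := by
  refine Kaz_comm (tri_uM τ) (fun i => ?_)
  rw [liftM, uM, ← map_mul, ← map_mul]
  exact congrArg _ (Subtype.ext (liftOp_comm_U τ T.2 h i))

theorem qFun_mul (T T' : roeN (sB τ)) : qFun τ (T * T') = qFun τ T * qFun τ T' := by
  obtain ⟨n0, h1, h2, h3⟩ : ∃ n0, thr τ T ≤ n0 ∧ thr τ T' ≤ n0 ∧ thr τ (T * T') ≤ n0 :=
    ⟨max (thr τ T) (max (thr τ T') (thr τ (T * T'))), by simp, by simp, by simp⟩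
  rw [qFun_eq τ T h1 (good_thr τ T _ h1), qFun_eq τ T' h2 (good_thr τ T' _ h2),
    qFun_eq τ (T * T') h3 (good_thr τ (T * T') _ h3)]
  have h4 : liftM τ (T * T') n0 (good_thr τ (T * T') _ h3) =
      liftM τ T n0 (good_thr τ T _ h1) * liftM τ T' n0 (good_thr τ T' _ h2) := by
    rw [liftM, liftM, liftM, ← map_mul]
    congr 1
    exact Subtype.ext (liftOp_mul τ T.2 (good_thr τ T _ h1) T'.2 (good_thr τ T' _ h2) (T * T').2
      (good_thr τ (T * T') _ h3))
  rw [h4, mul_assoc _ (pM τ), ← mul_assoc (pM τ), ← liftM_comm_pM, mul_assoc _ (pM τ) (pM τ),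
    pM_idem, mul_assoc]

theorem qFun_star (T : roeN (sB τ)) : qFun τ (star T) = star (qFun τ T) := by
  obtain ⟨n0, h1, h2⟩ : ∃ n0, thr τ T ≤ n0 ∧ thr τ (star T) ≤ n0 :=
    ⟨max (thr τ T) (thr τ (star T)), by simp, by simp⟩
  rw [qFun_eq τ T h1 (good_thr τ T _ h1), qFun_eq τ (star T) h2 (good_thr τ (star T) _ h2),
    star_mul, pM_star]
  have h4 : liftM τ (star T) n0 (good_thr τ (star T) _ h2) =
      star (liftM τ T n0 (good_thr τ T _ h1)) := by
    rw [liftM, liftM, ← map_star]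
    congr 1
    exact Subtype.ext (liftOp_star τ T.2 (good_thr τ T _ h1) (star T).2
      (good_thr τ (star T) _ h2))
  rw [← h4, liftM_comm_pM]

theorem qFun_zero : qFun τ 0 = 0 := by
  have h := qFun_add τ 0 0
  rw [add_zero] at h
  exact left_eq_add.1 h

/-- The homomorphism `T ↦ lift T * p`. -/
noncomputable def qHom : roeN (sB τ) →⋆ₙₐ[ℂ] MM (grJ τ) where
  toFun := qFun τ
  map_smul' c T := qFun_smul τ c T _ rfl
  map_zero' := qFun_zero τ
  map_add' := qFun_add τ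
  map_mul' := qFun_mul τ
  map_star' := qFun_star τ

/-- The homomorphism `T ↦ C T C*`. -/
noncomputable def cHom : roeN (sB τ) →⋆ₙₐ[ℂ] roeN (grJ τ) :=
  conjN (sB τ) (grJ τ) (Cop τ) (C_isom τ) (fun _ hT => isRoe_C τ hT)

end Vale.Agent.P212
end
end

section

section

/-! Vanishing of the push-forward to level zero, in the regraded picture. -/

namespace Vale.Agent.P212

/-- Two continuous maps which agree on the Roe operators agree on the kernel of the
augmentation. -/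
theorem eq_on_ker_aug {X : Type} [MetricSpace X] [BddGeometry X] {J : Type} (s : J → X)
    [InfFib s] {B : Type} [TopologicalSpace B] [T2Space B] (φ ψ : CM s → B)
    (hφ : Continuous φ) (hψ : Continuous ψ)
    (h : ∀ (T : L2 J →L[ℂ] L2 J) (hT : IsRoe s T),
      φ (toMax s ⟨T, hT.mem_roeU⟩) = ψ (toMax s ⟨T, hT.mem_roeU⟩))
    (b : CM s) (hb : aug s b = 0) : φ b = ψ b := by
  have h1 := (aug_eq_zero_iff s b).1 hb
  have h2 : IsClosed {b : CM s | φ b = ψ b} := isClosed_eq hφ hψ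
  refine closure_minimal ?_ h2 h1
  rintro _ ⟨T, hT, rfl⟩
  exact h T hT

variable (τ : Tower)

/-- The extension of `qHom`. -/
noncomputable def qC : CM (sB τ) →⋆ₐ[ℂ] MM (grJ τ) := CM.lift _ (unitExt _ (qHom τ))

/-- The extension of `cHom`. -/
noncomputable def gC : CM (sB τ) →⋆ₐ[ℂ] CM (grJ τ) :=
  CM.lift _ (unitExt _ ((roeToMax (grJ τ)).comp (cHom τ)))

theorem qC_roe (T : LP (base τ) →L[ℂ] LP (base τ)) (hT : IsRoe (sB τ) T) :
    qC τ (toMax (sB τ) ⟨T, hT.mem_roeU⟩) = qFun τ ⟨T, hT⟩ := by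
  rw [qC, CM.lift_toMax]
  exact unitExt_apply (sB τ) (qHom τ) T hT

theorem gC_roe (T : LP (base τ) →L[ℂ] LP (base τ)) (hT : IsRoe (sB τ) T) :
    gC τ (toMax (sB τ) ⟨T, hT.mem_roeU⟩) =
      toMax (grJ τ) ⟨Cop τ ∘L T ∘L ContinuousLinearMap.adjoint (Cop τ),
        (isRoe_C τ hT).mem_roeU⟩ := by
  rw [gC, CM.lift_toMax]
  exact unitExt_apply (sB τ) ((roeToMax (grJ τ)).comp (cHom τ)) T hT

theorem vM_comm_qFun (T : roeN (sB τ)) : vM τ * qFun τ T = qFun τ T * vM τ := by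
  have h : liftM τ T (thr τ T) (good_thr τ T _ le_rfl) * vM τ =
      vM τ * liftM τ T (thr τ T) (good_thr τ T _ le_rfl) := by
    rw [liftM, vM, ← map_mul, ← map_mul]
    exact congrArg _ (Subtype.ext (liftOp_comm_V τ T.2 (good_thr τ T _ le_rfl)))
  rw [qFun, ← mul_assoc, ← h, mul_assoc, vM_comm_pM, mul_assoc]

theorem svM_comm_qFun (T : roeN (sB τ)) :
    star (vM τ) * qFun τ T = qFun τ T * star (vM τ) := by
  have h := congrArg star (vM_comm_qFun τ (star T))
  rw [star_mul, star_mul, qFun_star, star_star] at h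
  exact h.symm

theorem Cstar_comp_U (i : Fin 3) :
    ContinuousLinearMap.adjoint (Cop τ) ∘L Uop τ i = ContinuousLinearMap.adjoint (Cop τ) := by
  have h1 : star (Uop τ i) ∘L Cop τ = Cop τ := by
    have h2 := congrArg (fun S => star (Uop τ i) ∘L S) (U_comp_C τ i)
    have h3 : star (Uop τ i) ∘L (Uop τ i ∘L Cop τ) = Cop τ := by
      rw [← ContinuousLinearMap.comp_assoc]
      have := (tri_Uop τ).unit i
      change (star (Uop τ i) * Uop τ i) ∘L Cop τ = Cop τ
      rw [this]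
      rfl
    exact h2.symm.trans h3
  have h4 := congrArg ContinuousLinearMap.adjoint h1
  rw [ContinuousLinearMap.adjoint_comp, ContinuousLinearMap.star_eq_adjoint,
    ContinuousLinearMap.adjoint_adjoint] at h4
  exact h4

theorem C_mul_Lap (T : LP (base τ) →L[ℂ] LP (base τ)) :
    (Cop τ ∘L T ∘L ContinuousLinearMap.adjoint (Cop τ)) * Lap (fun i => Uop τ i) = 0 := by
  have h1 : ∀ i, (Cop τ ∘L T ∘L ContinuousLinearMap.adjoint (Cop τ)) * Uop τ i =
      Cop τ ∘L T ∘L ContinuousLinearMap.adjoint (Cop τ) := by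
    intro i
    change (Cop τ ∘L T ∘L ContinuousLinearMap.adjoint (Cop τ)) ∘L Uop τ i = _
    rw [ContinuousLinearMap.comp_assoc, ContinuousLinearMap.comp_assoc, Cstar_comp_U]
  rw [Lap, Finset.mul_sum]
  refine Finset.sum_eq_zero (fun i _ => ?_)
  rw [Qp, mul_sub, mul_one, mul_smul_comm, mul_add, mul_add, mul_one, pow_two, ← mul_assoc,
    h1, h1, sub_eq_zero]
  generalize (Cop τ ∘L T ∘L ContinuousLinearMap.adjoint (Cop τ)) = S
  have : S + S + S = (3 : ℂ) • S := by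
    rw [show (3 : ℂ) = 1 + 1 + 1 by norm_num, add_smul, add_smul, one_smul]
  rw [this, smul_smul]
  norm_num

theorem zM_mul_qFun (T : roeN (sB τ)) : zM τ * qFun τ T =
    toMM (grJ τ) ⟨Cop τ ∘L T.1 ∘L ContinuousLinearMap.adjoint (Cop τ),
      (isRoe_C τ T.2).isMult⟩ := by
  obtain ⟨Y, hY, hYe⟩ := Z_liftOp τ T.2 (good_thr τ T _ le_rfl)
  let c : multAlg (grJ τ) := ⟨Cop τ ∘L T.1 ∘L ContinuousLinearMap.adjoint (Cop τ),
      (isRoe_C τ T.2).isMult⟩
  let z : multAlg (grJ τ) := ⟨Zop τ, isMult_Z τ⟩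
  let l : multAlg (grJ τ) := ⟨liftOp τ T.2 (good_thr τ T _ le_rfl),
    (isRoe_liftOp τ T.2 _).isMult⟩
  have h3 : toMM (grJ τ) (z * l - c) * pM τ = 0 := toMM_mul_pM_eq_zero' τ hY hYe
  have h4 : toMM (grJ τ) c * pM τ = toMM (grJ τ) c := by
    refine mul_Kaz_of_mul_Lap ?_ (tri_uM τ)
    rw [← toMM_Lap, ← map_mul, ← map_zero (toMM (grJ τ))]
    exact congrArg _ (Subtype.ext (C_mul_Lap τ T.1))
  rw [map_sub, map_mul, sub_mul, h4, sub_eq_zero, mul_assoc] at h3
  exact h3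

theorem qFun_decomp (T : roeN (sB τ)) : qFun τ T =
    kap (grJ τ) (gC τ (toMax (sB τ) ⟨T.1, T.2.mem_roeU⟩)) + vM τ * qFun τ T * star (vM τ) := by
  have h1 : vM τ * qFun τ T * star (vM τ) = (1 - zM τ) * qFun τ T := by
    rw [mul_assoc, ← svM_comm_qFun, ← mul_assoc, vM_mul_star_vM]
  have h2 : zM τ * qFun τ T = kap (grJ τ) (gC τ (toMax (sB τ) ⟨T.1, T.2.mem_roeU⟩)) := by
    rw [gC_roe τ T.1 T.2, kap_toMax]
    exact zM_mul_qFun τ T
  rw [h1, ← h2, ← add_mul, add_sub_cancel, one_mul]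

theorem qC_decomp (b : CM (sB τ)) (hb : aug (sB τ) b = 0) : qC τ b =
    kap (grJ τ) (gC τ b) + vM τ * qC τ b * star (vM τ) := by
  have hq : Continuous (qC τ) := CM.continuous_lift _ _
  have hg : Continuous (gC τ) := CM.continuous_lift _ _
  have hk : Continuous (kap (grJ τ)) := continuous_kap _
  refine eq_on_ker_aug (sB τ) (fun b => qC τ b)
    (fun b => kap (grJ τ) (gC τ b) + vM τ * qC τ b * star (vM τ)) hq
    ((hk.comp hg).add ((continuous_const.mul hq).mul continuous_const)) ?_ b hb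
  intro T hT
  change qC τ _ = _
  rw [qC_roe]
  exact qFun_decomp τ ⟨T, hT⟩

theorem qFun_mem (T : roeN (sB τ)) : ∃ b, aug (grJ τ) b = 0 ∧ kap (grJ τ) b = qFun τ T := by
  obtain ⟨b, hb, hb'⟩ := exists_kap_mul (grJ τ) (pM τ)
    (toMax (grJ τ) ⟨liftOp τ T.2 (good_thr τ T _ le_rfl),
      (isRoe_liftOp τ T.2 (good_thr τ T _ le_rfl)).mem_roeU⟩)
    (aug_roe (grJ τ) _ (isRoe_liftOp τ T.2 (good_thr τ T _ le_rfl)))
  refine ⟨b, hb, ?_⟩
  rw [hb', kap_toMax]
  rfl

theorem qC_mem (b : CM (sB τ)) (hb : aug (sB τ) b = 0) :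
    ∃ b', aug (grJ τ) b' = 0 ∧ kap (grJ τ) b' = qC τ b := by
  have hq : Continuous (qC τ) := CM.continuous_lift _ _
  have h1 := (aug_eq_zero_iff (sB τ) b).1 hb
  have h2 : IsClosed (qC τ ⁻¹' {m : MM (grJ τ) | ∃ b, aug (grJ τ) b = 0 ∧ kap (grJ τ) b = m}) :=
    (isClosed_kap_image (grJ τ)).preimage hq
  have h3 : b ∈ qC τ ⁻¹' {m : MM (grJ τ) | ∃ b, aug (grJ τ) b = 0 ∧ kap (grJ τ) b = m} := by
    refine closure_minimal ?_ h2 h1
    rintro _ ⟨T, hT, rfl⟩
    obtain ⟨b', hb', h⟩ := qFun_mem τ ⟨T, hT⟩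
    exact ⟨b', hb', by rw [qC_roe τ T hT, h]⟩
  exact h3

theorem aug_gC (b : CM (sB τ)) (hb : aug (sB τ) b = 0) : aug (grJ τ) (gC τ b) = 0 := by
  have hg : Continuous (gC τ) := CM.continuous_lift _ _
  have ha : Continuous (aug (grJ τ)) := CM.continuous_lift _ _
  refine eq_on_ker_aug (sB τ) (fun b => aug (grJ τ) (gC τ b)) (fun _ => 0) (ha.comp hg)
    continuous_const ?_ b hb
  intro T hT
  change aug (grJ τ) (gC τ _) = 0
  rw [gC_roe τ T hT]
  exact aug_roe _ _ (isRoe_C τ hT)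

theorem kap_inj {X : Type} [MetricSpace X] [BddGeometry X] {J : Type} (s : J → X) [InfFib s]
    {a b : CM s} (ha : aug s a = 0) (hb : aug s b = 0) (h : kap s a = kap s b) : a = b := by
  have h1 : ‖kap s (a - b)‖ = ‖a - b‖ := norm_kap s _ (by rw [map_sub, ha, hb, sub_zero])
  rw [map_sub, h, sub_self, norm_zero] at h1
  exact sub_eq_zero.1 (norm_eq_zero.1 h1.symm)

theorem aug_mul_mat {X : Type} [MetricSpace X] [BddGeometry X] {J : Type} (s : J → X)
    [InfFib s] {n : ℕ} {a b : Matrix (Fin n) (Fin n) (CM s)}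
    (ha : ∀ i j, aug s (a i j) = 0) (i j : Fin n) : aug s ((a * b) i j) = 0 := by
  rw [Matrix.mul_apply, map_sum]
  exact Finset.sum_eq_zero (fun k _ => by rw [map_mul, ha, zero_mul])

theorem star_vM_mul_kap_gC (b : CM (sB τ)) (hb : aug (sB τ) b = 0) :
    star (vM τ) * kap (grJ τ) (gC τ b) = 0 := by
  have hg : Continuous (gC τ) := CM.continuous_lift _ _
  have hk : Continuous (kap (grJ τ)) := continuous_kap _
  refine eq_on_ker_aug (sB τ) (fun b => star (vM τ) * kap (grJ τ) (gC τ b)) (fun _ => 0)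
    (continuous_const.mul (hk.comp hg)) continuous_const ?_ b hb
  intro T hT
  change star (vM τ) * kap (grJ τ) (gC τ _) = 0
  rw [gC_roe τ T hT, kap_toMax]
  have h1 : toMM (grJ τ) ⟨Cop τ ∘L T ∘L ContinuousLinearMap.adjoint (Cop τ),
      isMult_of_mem_roeU (isRoe_C τ hT).mem_roeU⟩ = zM τ *
      toMM (grJ τ) ⟨Cop τ ∘L T ∘L ContinuousLinearMap.adjoint (Cop τ),
      isMult_of_mem_roeU (isRoe_C τ hT).mem_roeU⟩ := by
    rw [zM, ← map_mul]
    refine congrArg _ (Subtype.ext ?_)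
    change Cop τ ∘L T ∘L ContinuousLinearMap.adjoint (Cop τ) =
      Zop τ ∘L (Cop τ ∘L T ∘L ContinuousLinearMap.adjoint (Cop τ))
    rw [← ContinuousLinearMap.comp_assoc (Zop τ), Z_comp_C]
  have h2 : star (vM τ) * zM τ = 0 := by
    have h := congrArg star (zM_mul_vM τ)
    rw [star_mul, star_zero] at h
    have hz : star (zM τ) = zM τ := by
      rw [zM, ← map_star]
      exact congrArg _ (Subtype.ext (Z_star τ))
    rwa [hz] at h
  rw [h1, ← mul_assoc, h2, zero_mul]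

theorem kap_gC_mul_vM (b : CM (sB τ)) (hb : aug (sB τ) b = 0) :
    kap (grJ τ) (gC τ b) * vM τ = 0 := by
  have h := congrArg star (star_vM_mul_kap_gC τ (star b) (by rw [map_star, hb, star_zero]))
  rw [star_mul, star_star, star_zero, ← map_star, ← map_star, star_star] at h
  exact h

/-- The push-forward to level zero (through fibrewise constant functions) vanishes in
K-theory. -/
theorem cls_gC_eq_zero {n : ℕ} {e : Matrix (Fin n) (Fin n) (CM (sB τ))} (he : e * e = e)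
    (heI : ∀ i j, aug (sB τ) (e i j) = 0) :
    K0.cls (e.map (gC τ)) (mapMat_idem (gC τ : CM (sB τ) →+* CM (grJ τ)) he) = 0 := by
  choose q hq hq' using fun i j => qC_mem τ (e i j) (heI i j)
  choose r hr hr' using fun i j => exists_mul_kap (grJ τ) (vM τ) (q i j) (hq i j)
  choose t ht ht' using fun i j => exists_kap_mul (grJ τ) (star (vM τ)) (r i j) (hr i j)
  let Q : Matrix (Fin n) (Fin n) (CM (grJ τ)) := Matrix.of q
  let S : Matrix (Fin n) (Fin n) (CM (grJ τ)) := Matrix.of t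
  let E : Matrix (Fin n) (Fin n) (CM (grJ τ)) := e.map (gC τ)
  have hE : E * E = E := mapMat_idem (gC τ : CM (sB τ) →+* CM (grJ τ)) he
  have hQm : ∀ i j, kap (grJ τ) (Q i j) = qC τ (e i j) := hq'
  have hSm : ∀ i j, kap (grJ τ) (S i j) = vM τ * kap (grJ τ) (Q i j) * star (vM τ) := by
    intro i j
    change kap (grJ τ) (t i j) = _
    rw [ht', hr']
    rfl
  have hEa : ∀ i j, aug (grJ τ) (E i j) = 0 := fun i j => aug_gC τ _ (heI i j)
  have hSa : ∀ i j, aug (grJ τ) (S i j) = 0 := ht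
  have hQa : ∀ i j, aug (grJ τ) (Q i j) = 0 := hq
  have hsum : Q = E + S := by
    ext i j
    refine kap_inj (grJ τ) (hQa i j) ?_ ?_
    · rw [Matrix.add_apply, map_add, hEa, hSa, add_zero]
    · rw [Matrix.add_apply, map_add, hSm, hQm]
      exact qC_decomp τ _ (heI i j)
  have hQ : Q * Q = Q := by
    ext i j
    refine kap_inj (grJ τ) (aug_mul_mat _ hQa i j) (hQa i j) ?_
    have h := congrArg (fun m : Matrix (Fin n) (Fin n) (CM (sB τ)) => qC τ (m i j)) he
    simp only [Matrix.mul_apply, map_sum, map_mul] at h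
    rw [Matrix.mul_apply, map_sum, hQm, ← h]
    exact Finset.sum_congr rfl (fun k _ => by rw [map_mul, hQm, hQm])
  have hES : E * S = 0 := by
    ext i j
    refine kap_inj (grJ τ) (aug_mul_mat _ hEa i j) (map_zero _) ?_
    rw [Matrix.mul_apply, map_sum]
    simp only [Matrix.zero_apply, map_zero]
    refine Finset.sum_eq_zero (fun k _ => ?_)
    rw [map_mul, hSm, ← mul_assoc, ← mul_assoc]
    change kap (grJ τ) (gC τ (e i k)) * vM τ * _ * _ = 0
    rw [kap_gC_mul_vM τ _ (heI i k), zero_mul, zero_mul]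
  have hSE : S * E = 0 := by
    ext i j
    refine kap_inj (grJ τ) (aug_mul_mat _ hSa i j) (map_zero _) ?_
    rw [Matrix.mul_apply, map_sum]
    simp only [Matrix.zero_apply, map_zero]
    refine Finset.sum_eq_zero (fun k _ => ?_)
    rw [map_mul, hSm, mul_assoc _ (star (vM τ))]
    change _ * (star (vM τ) * kap (grJ τ) (gC τ (e k j))) = 0
    rw [star_vM_mul_kap_gC τ _ (heI k j), mul_zero]
  have hS : S * S = S := by
    ext i j
    refine kap_inj (grJ τ) (aug_mul_mat _ hSa i j) (hSa i j) ?_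
    have h := congrArg (fun m : Matrix (Fin n) (Fin n) (CM (grJ τ)) => kap (grJ τ) (m i j)) hQ
    simp only [Matrix.mul_apply, map_sum, map_mul] at h
    have e1 : ∑ k, vM τ * (kap (grJ τ) (Q i k) * kap (grJ τ) (Q k j)) * star (vM τ) =
        vM τ * kap (grJ τ) (Q i j) * star (vM τ) := by
      have h5 := Finset.sum_mul Finset.univ
        (fun k => vM τ * (kap (grJ τ) (Q i k) * kap (grJ τ) (Q k j))) (star (vM τ))
      have h6 := Finset.mul_sum Finset.univ
        (fun k => kap (grJ τ) (Q i k) * kap (grJ τ) (Q k j)) (vM τ)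
      exact h5.symm.trans ((congrArg (fun m => m * star (vM τ)) h6.symm).trans
        (congrArg (fun m => vM τ * m * star (vM τ)) h))
    rw [Matrix.mul_apply, map_sum, hSm, ← e1]
    refine Finset.sum_congr rfl (fun k _ => ?_)
    rw [map_mul, hSm, hSm]
    have hv := star_vM_mul_vM τ
    calc vM τ * kap (grJ τ) (Q i k) * star (vM τ) * (vM τ * kap (grJ τ) (Q k j) * star (vM τ))
        = vM τ * kap (grJ τ) (Q i k) * (star (vM τ) * vM τ) *
          kap (grJ τ) (Q k j) * star (vM τ) := by simp only [mul_assoc]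
      _ = _ := by rw [hv, mul_one]; simp only [mul_assoc]
  have h1 : K0.cls Q hQ = K0.cls E hE + K0.cls S hS := by
    have := K0.cls_add hE hS hES hSE (by rw [← hsum]; exact hQ)
    rw [← this]
    exact K0.cls_congr hQ hsum
  have h2 : K0.cls Q hQ = K0.cls S hS := by
    refine K0_transfer (grJ τ) hQ hS hQa hSa (vM τ) (star (vM τ)) ?_ hSm
    intro i j
    rw [star_vM_mul_vM, one_mul]
  rw [h2] at h1
  exact (left_eq_add.1 (by rw [add_comm] at h1; exact h1))

end Vale.Agent.P212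
end
end

section

section

/-! The fundamental cycle of the family of tori. -/

namespace Vale.Agent.P212

/-- The point of the base torus. -/
def bpt (τ : Tower) (n : ℕ) (w : Torus n) : base τ := ⟨⟨n, 0, w, 1⟩, rfl⟩

open Classical in
/-- The fundamental cycle: two triangles for each square of each torus. -/
noncomputable def tcycle (τ : Tower) (x : Fin 3 → base τ) : ℤ :=
  if ∃ (n : ℕ) (w : Torus n), 3 ≤ n ∧ x 0 = bpt τ n w ∧ x 1 = bpt τ n (w.1 + 1, w.2) ∧
      x 2 = bpt τ n (w.1 + 1, w.2 + 1) then 1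
  else if ∃ (n : ℕ) (w : Torus n), 3 ≤ n ∧ x 0 = bpt τ n w ∧ x 1 = bpt τ n (w.1, w.2 + 1) ∧
      x 2 = bpt τ n (w.1 + 1, w.2 + 1) then -1 else 0

section cyc

variable (τ : Tower)

theorem cyc_subsingleton_G_zero (m : ℕ) : Subsingleton (τ.G (min 0 m)) := by
  have h : τ.N (min 0 m) = ⊤ := by rw [Nat.zero_min, τ.top]
  refine ⟨fun a b => ?_⟩
  induction a using QuotientGroup.induction_on with | H a =>
  induction b using QuotientGroup.induction_on with | H b =>
  refine QuotientGroup.eq.2 ?_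
  rw [h]; trivial

theorem eq_bpt (x : base τ) : x = bpt τ x.1.n x.1.w := by
  obtain ⟨⟨n, l, w, y⟩, hx⟩ := x
  have hl : l = 0 := hx
  subst hl
  have := cyc_subsingleton_G_zero τ (2 * n)
  apply Subtype.ext
  change (⟨n, 0, w, y⟩ : XT τ) = ⟨n, 0, w, 1⟩
  congr 1
  exact Subsingleton.elim _ _

theorem bpt_inj {n : ℕ} {w w' : Torus n} (h : bpt τ n w = bpt τ n w') : w = w' := by
  have h1 : (⟨n, 0, w, 1⟩ : XT τ) = ⟨n, 0, w', 1⟩ := congrArg Subtype.val h
  injection h1 with _ _ h2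

theorem sh_aux1 (x : base τ) : bpt τ x.1.n (x.1.w.1 + 1 - 1, x.1.w.2) = x := by
  rw [add_sub_cancel_right]; exact (eq_bpt τ x).symm

theorem sh_aux2 (x : base τ) : bpt τ x.1.n (x.1.w.1 - 1 + 1, x.1.w.2) = x := by
  rw [sub_add_cancel]; exact (eq_bpt τ x).symm

theorem sh_aux3 (x : base τ) : bpt τ x.1.n (x.1.w.1, x.1.w.2 + 1 - 1) = x := by
  rw [add_sub_cancel_right]; exact (eq_bpt τ x).symm

theorem sh_aux4 (x : base τ) : bpt τ x.1.n (x.1.w.1, x.1.w.2 - 1 + 1) = x := by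
  rw [sub_add_cancel]; exact (eq_bpt τ x).symm

/-- shift in the first direction -/
def sh1 : Equiv.Perm (base τ) where
  toFun x := bpt τ x.1.n (x.1.w.1 + 1, x.1.w.2)
  invFun x := bpt τ x.1.n (x.1.w.1 - 1, x.1.w.2)
  left_inv x := sh_aux1 τ x
  right_inv x := sh_aux2 τ x

/-- shift in the second direction -/
def sh2 : Equiv.Perm (base τ) where
  toFun x := bpt τ x.1.n (x.1.w.1, x.1.w.2 + 1)
  invFun x := bpt τ x.1.n (x.1.w.1, x.1.w.2 - 1)
  left_inv x := sh_aux3 τ x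
  right_inv x := sh_aux4 τ x

theorem sh_comm (x : base τ) : sh1 τ (sh2 τ x) = sh2 τ (sh1 τ x) := rfl

theorem sh1_n (x : base τ) : (sh1 τ x).1.n = x.1.n := rfl

theorem sh2_n (x : base τ) : (sh2 τ x).1.n = x.1.n := rfl

theorem one_ne_zero_zmod {n : ℕ} (hn : 3 ≤ n) : (1 : ZMod (n + 1)) ≠ 0 := by
  have : Fact (1 < n + 1) := ⟨by omega⟩
  exact one_ne_zero

theorem sh_ne {x : base τ} (hx : 3 ≤ x.1.n) : sh1 τ x ≠ sh2 τ x := by
  intro h
  have h1 := bpt_inj τ h
  have h2 := congrArg Prod.fst h1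
  simp only [add_eq_left] at h2
  exact one_ne_zero_zmod hx h2

/-- first type of triangles -/
def TA (x : Fin 3 → base τ) : Prop :=
  3 ≤ (x 0).1.n ∧ x 1 = sh1 τ (x 0) ∧ x 2 = sh2 τ (sh1 τ (x 0))

/-- second type of triangles -/
def TB (x : Fin 3 → base τ) : Prop :=
  3 ≤ (x 0).1.n ∧ x 1 = sh2 τ (x 0) ∧ x 2 = sh2 τ (sh1 τ (x 0))

theorem TA_iff (x : Fin 3 → base τ) : TA τ x ↔
    ∃ (n : ℕ) (w : Torus n), 3 ≤ n ∧ x 0 = bpt τ n w ∧ x 1 = bpt τ n (w.1 + 1, w.2) ∧
      x 2 = bpt τ n (w.1 + 1, w.2 + 1) := by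
  constructor
  · rintro ⟨h0, h1, h2⟩
    exact ⟨(x 0).1.n, (x 0).1.w, h0, eq_bpt τ _, h1, h2⟩
  · rintro ⟨n, w, h0, h1, h2, h3⟩
    refine ⟨?_, ?_, ?_⟩
    · rw [h1]; exact h0
    · rw [h1, h2]; rfl
    · rw [h1, h3]; rfl

theorem TB_iff (x : Fin 3 → base τ) : TB τ x ↔
    ∃ (n : ℕ) (w : Torus n), 3 ≤ n ∧ x 0 = bpt τ n w ∧ x 1 = bpt τ n (w.1, w.2 + 1) ∧
      x 2 = bpt τ n (w.1 + 1, w.2 + 1) := by
  constructor
  · rintro ⟨h0, h1, h2⟩
    exact ⟨(x 0).1.n, (x 0).1.w, h0, eq_bpt τ _, h1, h2⟩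
  · rintro ⟨n, w, h0, h1, h2, h3⟩
    refine ⟨?_, ?_, ?_⟩
    · rw [h1]; exact h0
    · rw [h1, h2]; rfl
    · rw [h1, h3]; rfl

theorem TA_not_TB {x : Fin 3 → base τ} (h : TA τ x) : ¬ TB τ x := by
  intro h'
  exact sh_ne τ h.1 (h.2.1.symm.trans h'.2.1)

open Classical in
theorem tcycle_eq (x : Fin 3 → base τ) :
    tcycle τ x = (if TA τ x then 1 else 0) - (if TB τ x then 1 else 0) := by
  unfold tcycle
  rw [if_congr (TA_iff τ x).symm rfl rfl, if_congr (TB_iff τ x).symm rfl rfl]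
  by_cases h : TA τ x
  · have h' := TA_not_TB τ h
    simp [h, h']
  · by_cases h' : TB τ x
    · simp [h, h']
    · simp [h, h']

end cyc

theorem cyc_disp_succ {n : ℕ} (hn : 3 ≤ n) (i : ZMod (n + 1)) : disp (i + 1) i = 1 := by
  have e : (i + 1 - i : ZMod (n + 1)) = ((1 : ℤ) : ZMod (n + 1)) := by push_cast; ring
  unfold disp
  rw [e, ZMod.valMinAbs_spec]
  refine ⟨rfl, ?_, ?_⟩
  · push_cast; omega
  · push_cast; omega

theorem disp_same {n : ℕ} (i : ZMod (n + 1)) : disp i i = 0 := by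
  unfold disp
  rw [sub_self]; exact ZMod.valMinAbs_zero _

theorem dist_bpt_le (τ : Tower) (n : ℕ) (w w' : Torus n) :
    dist (bpt τ n w) (bpt τ n w') ≤ tdist w w' := by
  have h := dist_transport (τ := τ) (l := 0) w w' 1
  have := cyc_subsingleton_G_zero τ (2 * n)
  have e : hol τ w w' * (1 : τ.G (min 0 (2 * n))) = 1 := Subsingleton.elim _ _
  rw [e] at h
  exact h

theorem controlled_tcycle (τ : Tower) : Controlled (tcycle τ) := by
  refine ⟨2, fun x hx => ?_⟩
  rw [tcycle_eq] at hx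
  have key : ∀ (n : ℕ), 3 ≤ n → ∀ (w : Torus n),
      dist (bpt τ n w) (bpt τ n (w.1 + 1, w.2)) ≤ 2 ∧
      dist (bpt τ n w) (bpt τ n (w.1, w.2 + 1)) ≤ 2 ∧
      dist (bpt τ n w) (bpt τ n (w.1 + 1, w.2 + 1)) ≤ 2 ∧
      dist (bpt τ n (w.1 + 1, w.2)) (bpt τ n (w.1 + 1, w.2 + 1)) ≤ 2 ∧
      dist (bpt τ n (w.1, w.2 + 1)) (bpt τ n (w.1 + 1, w.2 + 1)) ≤ 2 := by
    intro n hn w
    have hb : ∀ w w' : Torus n, tdist w' w ≤ 2 → dist (bpt τ n w) (bpt τ n w') ≤ 2 := by
      intro w w' h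
      rw [dist_comm]
      exact (dist_bpt_le τ n w' w).trans (by exact_mod_cast h)
    refine ⟨hb _ _ ?_, hb _ _ ?_, hb _ _ ?_, hb _ _ ?_, hb _ _ ?_⟩ <;>
      simp [tdist, cyc_disp_succ hn, disp_same]
  have hcase : TA τ x ∨ TB τ x := by
    by_contra hcon
    push Not at hcon
    simp [hcon.1, hcon.2] at hx
  rcases hcase with h | h
  · obtain ⟨n, w, hn, h0, h1, h2⟩ := (TA_iff τ x).1 h
    obtain ⟨k1, k2, k3, k4, k5⟩ := key n hn w
    intro i j
    fin_cases i <;> fin_cases j <;>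
      simp only [Fin.zero_eta, Fin.mk_one, Fin.reduceFinMk, h0, h1, h2] <;>
      first
        | exact k1 | exact k3 | exact k4
        | (rw [dist_comm]; exact k1) | (rw [dist_comm]; exact k3)
        | (rw [dist_comm]; exact k4) | (rw [dist_self]; norm_num)
  · obtain ⟨n, w, hn, h0, h1, h2⟩ := (TB_iff τ x).1 h
    obtain ⟨k1, k2, k3, k4, k5⟩ := key n hn w
    intro i j
    fin_cases i <;> fin_cases j <;>
      simp only [Fin.zero_eta, Fin.mk_one, Fin.reduceFinMk, h0, h1, h2] <;>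
      first
        | exact k2 | exact k3 | exact k5
        | (rw [dist_comm]; exact k2) | (rw [dist_comm]; exact k3)
        | (rw [dist_comm]; exact k5) | (rw [dist_self]; norm_num)

open Classical in
theorem finsum_ite_and {α : Type} (f : α → Prop) (y0 : α) (Q : Prop)
    (h : ∀ y, f y ↔ (y = y0 ∧ Q)) :
    ∑ᶠ y, (if f y then (1 : ℤ) else 0) = if Q then 1 else 0 := by
  rw [finsum_eq_single _ y0]
  · simp [h]
  · intro y hy
    simp [h, hy]

open Classical in
theorem support_ite_and {α : Type} (f : α → Prop) (y0 : α) (Q : Prop)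
    (h : ∀ y, f y ↔ (y = y0 ∧ Q)) :
    (Function.support fun y => (if f y then (1 : ℤ) else 0)).Finite := by
  refine (Set.finite_singleton y0).subset ?_
  intro y hy
  by_contra hne
  apply hy
  simp only [Set.mem_singleton_iff] at hne
  simp [h, hne]

open Classical in
theorem finsum_tcycle (τ : Tower) (F : base τ → (Fin 3 → base τ)) (y1 y2 : base τ)
    (Q1 Q2 : Prop) (h1 : ∀ y, TA τ (F y) ↔ (y = y1 ∧ Q1)) (h2 : ∀ y, TB τ (F y) ↔ (y = y2 ∧ Q2)) :
    ∑ᶠ y, tcycle τ (F y) = (if Q1 then 1 else 0) - (if Q2 then 1 else 0) := by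
  simp only [tcycle_eq]
  rw [finsum_sub_distrib (support_ite_and _ y1 Q1 h1) (support_ite_and _ y2 Q2 h2),
    finsum_ite_and _ y1 Q1 h1, finsum_ite_and _ y2 Q2 h2]

theorem insert0 {α : Type} (y : α) (x : Fin 2 → α) :
    (Fin.insertNth (0 : Fin 3) y x : Fin 3 → α) = ![y, x 0, x 1] := by
  funext i; fin_cases i <;> rfl

theorem insert1 {α : Type} (y : α) (x : Fin 2 → α) :
    (Fin.insertNth (1 : Fin 3) y x : Fin 3 → α) = ![x 0, y, x 1] := by
  funext i; fin_cases i <;> rfl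

theorem insert2 {α : Type} (y : α) (x : Fin 2 → α) :
    (Fin.insertNth (2 : Fin 3) y x : Fin 3 → α) = ![x 0, x 1, y] := by
  funext i; fin_cases i <;> rfl

open Classical in
theorem bdry_tcycle (τ : Tower) : bdry (tcycle τ) = 0 := by
  funext x
  unfold bdry
  rw [Fin.sum_univ_three]
  simp only [insert0, insert1, insert2]
  rw [finsum_tcycle τ (fun y => ![y, x 0, x 1]) ((sh1 τ).symm (x 0)) ((sh2 τ).symm (x 0))
      (3 ≤ (x 0).1.n ∧ x 1 = sh2 τ (x 0)) (3 ≤ (x 0).1.n ∧ x 1 = sh1 τ (x 0)),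
    finsum_tcycle τ (fun y => ![x 0, y, x 1]) (sh1 τ (x 0)) (sh2 τ (x 0))
      (3 ≤ (x 0).1.n ∧ x 1 = sh2 τ (sh1 τ (x 0))) (3 ≤ (x 0).1.n ∧ x 1 = sh2 τ (sh1 τ (x 0))),
    finsum_tcycle τ (fun y => ![x 0, x 1, y]) (sh2 τ (sh1 τ (x 0))) (sh2 τ (sh1 τ (x 0)))
      (3 ≤ (x 0).1.n ∧ x 1 = sh1 τ (x 0)) (3 ≤ (x 0).1.n ∧ x 1 = sh2 τ (x 0))]
  · simp
  · intro y
    simp only [TA, Matrix.cons_val_zero, Matrix.cons_val_one, Matrix.cons_val]
    tauto
  · intro y
    simp only [TB, Matrix.cons_val_zero, Matrix.cons_val_one, Matrix.cons_val]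
    tauto
  · intro y
    simp only [TA, Matrix.cons_val_zero, Matrix.cons_val_one, Matrix.cons_val]
    tauto
  · intro y
    simp only [TB, Matrix.cons_val_zero, Matrix.cons_val_one, Matrix.cons_val]
    tauto
  · intro y
    simp only [TA, Matrix.cons_val_zero, Matrix.cons_val_one, Matrix.cons_val]
    constructor
    · rintro ⟨h0, h1, h2⟩
      have : y = (sh1 τ).symm (x 0) := by rw [h1, Equiv.symm_apply_apply]
      refine ⟨this, ?_, ?_⟩
      · rw [h1]; exact h0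
      · rw [h2, h1]
    · rintro ⟨h0, h1, h2⟩
      have e : sh1 τ y = x 0 := by rw [h0, Equiv.apply_symm_apply]
      refine ⟨?_, e.symm, ?_⟩
      · rw [← sh1_n, e]; exact h1
      · rw [e, h2]
  · intro y
    simp only [TB, Matrix.cons_val_zero, Matrix.cons_val_one, Matrix.cons_val]
    constructor
    · rintro ⟨h0, h1, h2⟩
      have : y = (sh2 τ).symm (x 0) := by rw [h1, Equiv.symm_apply_apply]
      refine ⟨this, ?_, ?_⟩
      · rw [h1]; exact h0
      · rw [h2, h1, sh_comm]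
    · rintro ⟨h0, h1, h2⟩
      have e : sh2 τ y = x 0 := by rw [h0, Equiv.apply_symm_apply]
      refine ⟨?_, e.symm, ?_⟩
      · rw [← sh2_n, e]; exact h1
      · rw [← sh_comm, e, h2]

theorem disp_pred {n : ℕ} (hn : 3 ≤ n) (i : ZMod (n + 1)) : disp i (i + 1) = -1 := by
  have e : (i - (i + 1) : ZMod (n + 1)) = ((-1 : ℤ) : ZMod (n + 1)) := by push_cast; ring
  unfold disp
  rw [e, ZMod.valMinAbs_spec]
  refine ⟨rfl, ?_, ?_⟩
  · push_cast; omega
  · push_cast; omega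

theorem cross_same {n : ℕ} (i : ZMod (n + 1)) : cross i i = 0 := by
  unfold cross
  rw [disp_same]; simp

theorem cross_succ {n : ℕ} (hn : 3 ≤ n) (i : ZMod (n + 1)) :
    cross (i + 1) i = if i = (n : ZMod (n + 1)) then 1 else 0 := by
  unfold cross
  rw [cyc_disp_succ hn, ZMod.val_add, ZMod.val_one'' (by omega)]
  have hlt : i.val < n + 1 := ZMod.val_lt i
  have hv : i = (n : ZMod (n + 1)) ↔ i.val = n := by
    constructor
    · intro h
      rw [h]; exact ZMod.val_natCast_of_lt (by omega)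
    · intro h
      have e : ((i.val : ℕ) : ZMod (n + 1)) = i := ZMod.natCast_zmod_val i
      exact e.symm.trans (congrArg (fun t : ℕ => (t : ZMod (n + 1))) h)
  by_cases h : i = (n : ZMod (n + 1))
  · rw [if_pos h]
    rw [hv.1 h]
    simp only [Nat.mod_self]
    have : ((n : ℤ) + 1 - ((0 : ℕ) : ℤ)) = ((n + 1 : ℕ) : ℤ) := by push_cast; ring
    rw [this]
    exact Int.ediv_self (by positivity)
  · rw [if_neg h]
    have h' : i.val ≠ n := fun hc => h (hv.2 hc)
    rw [Nat.mod_eq_of_lt (by omega)]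
    push_cast
    simp

theorem sum_cross {n : ℕ} (hn : 3 ≤ n) : ∑ i : ZMod (n + 1), cross (i + 1) i = 1 := by
  simp only [cross_succ hn]
  simp

/-- first type of triangles in one component -/
def triA (τ : Tower) (n : ℕ) (w : Torus n) : Fin 3 → XT τ :=
  ![(bpt τ n w).1, (bpt τ n (w.1 + 1, w.2)).1, (bpt τ n (w.1 + 1, w.2 + 1)).1]

/-- second type of triangles in one component -/
def triB (τ : Tower) (n : ℕ) (w : Torus n) : Fin 3 → XT τ :=
  ![(bpt τ n w).1, (bpt τ n (w.1, w.2 + 1)).1, (bpt τ n (w.1 + 1, w.2 + 1)).1]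

theorem triA_inj (τ : Tower) (n : ℕ) : Function.Injective (triA τ n) := by
  intro w w' h
  have h1 : (bpt τ n w).1 = (bpt τ n w').1 := congrFun h 0
  exact bpt_inj τ (Subtype.ext h1)

theorem triB_inj (τ : Tower) (n : ℕ) : Function.Injective (triB τ n) := by
  intro w w' h
  have h1 : (bpt τ n w).1 = (bpt τ n w').1 := congrFun h 0
  exact bpt_inj τ (Subtype.ext h1)

theorem triA_mem (τ : Tower) (n : ℕ) (w : Torus n) (i : Fin 3) : triA τ n w i ∈ base τ := by
  fin_cases i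
  · exact (bpt τ n w).2
  · exact (bpt τ n (w.1 + 1, w.2)).2
  · exact (bpt τ n (w.1 + 1, w.2 + 1)).2

theorem triB_mem (τ : Tower) (n : ℕ) (w : Torus n) (i : Fin 3) : triB τ n w i ∈ base τ := by
  fin_cases i
  · exact (bpt τ n w).2
  · exact (bpt τ n (w.1, w.2 + 1)).2
  · exact (bpt τ n (w.1 + 1, w.2 + 1)).2

open Classical in
theorem pair_point (τ : Tower) {M : Type} [AddCommGroup M] (n : ℕ) (hn : 3 ≤ n)
    (Θ : XT τ → XT τ → XT τ → M) (h0 : ∀ x y z, Θ x y z ≠ 0 → x.n = n ∧ y.n = n ∧ z.n = n)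
    (x : Fin 3 → XT τ) :
    extendChain (base τ) (tcycle τ) x • Θ (x 0) (x 1) (x 2) =
      Set.indicator (Set.range (triA τ n)) (fun x => Θ (x 0) (x 1) (x 2)) x
      - Set.indicator (Set.range (triB τ n)) (fun x => Θ (x 0) (x 1) (x 2)) x := by
  by_cases hf : Θ (x 0) (x 1) (x 2) = 0
  · have e : ∀ s : Set (Fin 3 → XT τ),
        Set.indicator s (fun x => Θ (x 0) (x 1) (x 2)) x = 0 := by
      intro s
      rw [Set.indicator_apply]
      split_ifs
      · exact hf
      · rfl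
    rw [e, e, hf, smul_zero, sub_zero]
  have hx0 : (x 0).n = n := (h0 _ _ _ hf).1
  by_cases hx : ∀ i, x i ∈ base τ
  · have hA : TA τ (fun i => ⟨x i, hx i⟩) ↔ x ∈ Set.range (triA τ n) := by
      rw [TA_iff]
      constructor
      · rintro ⟨n', w, -, h1, h2, h3⟩
        have e1 : x 0 = (bpt τ n' w).1 := congrArg Subtype.val h1
        have e2 : x 1 = (bpt τ n' (w.1 + 1, w.2)).1 := congrArg Subtype.val h2
        have e3 : x 2 = (bpt τ n' (w.1 + 1, w.2 + 1)).1 := congrArg Subtype.val h3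
        have hn' : n' = n := by rw [← hx0, e1]; rfl
        subst hn'
        refine ⟨w, ?_⟩
        funext i
        fin_cases i
        · exact e1.symm
        · exact e2.symm
        · exact e3.symm
      · rintro ⟨w, rfl⟩
        exact ⟨n, w, hn, rfl, rfl, rfl⟩
    have hB : TB τ (fun i => ⟨x i, hx i⟩) ↔ x ∈ Set.range (triB τ n) := by
      rw [TB_iff]
      constructor
      · rintro ⟨n', w, -, h1, h2, h3⟩
        have e1 : x 0 = (bpt τ n' w).1 := congrArg Subtype.val h1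
        have e2 : x 1 = (bpt τ n' (w.1, w.2 + 1)).1 := congrArg Subtype.val h2
        have e3 : x 2 = (bpt τ n' (w.1 + 1, w.2 + 1)).1 := congrArg Subtype.val h3
        have hn' : n' = n := by rw [← hx0, e1]; rfl
        subst hn'
        refine ⟨w, ?_⟩
        funext i
        fin_cases i
        · exact e1.symm
        · exact e2.symm
        · exact e3.symm
      · rintro ⟨w, rfl⟩
        exact ⟨n, w, hn, rfl, rfl, rfl⟩
    unfold extendChain
    rw [dif_pos hx, tcycle_eq, if_congr hA rfl rfl, if_congr hB rfl rfl, Set.indicator_apply,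
      Set.indicator_apply]
    by_cases h1 : x ∈ Set.range (triA τ n) <;> by_cases h2 : x ∈ Set.range (triB τ n) <;>
      simp only [h1, h2, if_true, if_false] <;> simp
  · have hA : x ∉ Set.range (triA τ n) := by
      rintro ⟨w, rfl⟩
      exact hx (triA_mem τ n w)
    have hB : x ∉ Set.range (triB τ n) := by
      rintro ⟨w, rfl⟩
      exact hx (triB_mem τ n w)
    unfold extendChain
    rw [dif_neg hx, Set.indicator_of_notMem hA, Set.indicator_of_notMem hB, zero_smul, sub_zero]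

/-- The pairing of the cycle with the cup product of the crossing cochains. -/
theorem pair_tcycle (τ : Tower) {M : Type} [AddCommGroup M] (κ : M) (n : ℕ) (hn : 3 ≤ n)
    (Θ : XT τ → XT τ → XT τ → M) (h0 : ∀ x y z, Θ x y z ≠ 0 → x.n = n ∧ y.n = n ∧ z.n = n)
    (h1 : ∀ w w' w'' : Torus n, tdist w w' ≤ 2 → tdist w' w'' ≤ 2 → tdist w w'' ≤ 2 →
      Θ (bpt τ n w).1 (bpt τ n w').1 (bpt τ n w'').1 =
        (cross w'.1 w.1 * cross w''.2 w'.2) • κ) :
    ∑ᶠ x : Fin 3 → XT τ, extendChain (base τ) (tcycle τ) x • Θ (x 0) (x 1) (x 2) = κ := by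
  have hfin : ∀ g : Torus n → (Fin 3 → XT τ), (Function.support
      (Set.indicator (Set.range g) (fun x => Θ (x 0) (x 1) (x 2)))).Finite := by
    intro g
    refine (Set.finite_range g).subset ?_
    exact Set.support_indicator_subset
  simp only [pair_point τ n hn Θ h0]
  rw [finsum_sub_distrib (hfin _) (hfin _), ← finsum_mem_def, ← finsum_mem_def,
    finsum_mem_range (triA_inj τ n), finsum_mem_range (triB_inj τ n),
    finsum_eq_sum_of_fintype, finsum_eq_sum_of_fintype]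
  have eB : ∀ w : Torus n, Θ (triB τ n w 0) (triB τ n w 1) (triB τ n w 2) = 0 := by
    intro w
    have := h1 w (w.1, w.2 + 1) (w.1 + 1, w.2 + 1)
      (by simp [tdist, disp_pred hn, disp_same]) (by simp [tdist, disp_pred hn, disp_same])
      (by simp [tdist, disp_pred hn])
    rw [cross_same, zero_mul, zero_smul] at this
    exact this
  have eA : ∀ w : Torus n, Θ (triA τ n w 0) (triA τ n w 1) (triA τ n w 2) =
      (cross (w.1 + 1) w.1 * cross (w.2 + 1) w.2) • κ := by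
    intro w
    exact h1 w (w.1 + 1, w.2) (w.1 + 1, w.2 + 1)
      (by simp [tdist, disp_pred hn, disp_same]) (by simp [tdist, disp_pred hn, disp_same])
      (by simp [tdist, disp_pred hn])
  simp only [eA, eB, Finset.sum_const_zero, sub_zero]
  rw [← Finset.sum_smul, Fintype.sum_prod_type]
  simp only
  rw [← Finset.sum_mul_sum, sum_cross hn, one_mul, one_smul]

end Vale.Agent.P212
end
end

section

section

/-! Non-vanishing in coarse homology. -/

namespace Vale.Agent.P212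

/-- Reindexing a sum over tuples by inserting a vertex. -/
theorem pairing_sum_insertNth {X M : Type} [AddCommGroup M] {m : ℕ} (F : Finset X)
    (i : Fin (m + 1)) (f : (Fin (m + 1) → X) → M) :
    ∑ z ∈ Fintype.piFinset (fun _ : Fin (m + 1) => F), f z =
      ∑ x ∈ Fintype.piFinset (fun _ : Fin m => F), ∑ y ∈ F, f (i.insertNth y x) := by
  rw [← Finset.sum_product']
  refine Finset.sum_nbij' (fun z => (i.removeNth z, z i)) (fun p => i.insertNth p.2 p.1)
    ?_ ?_ ?_ ?_ ?_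
  · intro z hz
    rw [Fintype.mem_piFinset] at hz
    rw [Finset.mem_product, Fintype.mem_piFinset]
    exact ⟨fun j => hz _, hz i⟩
  · rintro ⟨x, y⟩ hp
    rw [Finset.mem_product, Fintype.mem_piFinset] at hp
    rw [Fintype.mem_piFinset]
    intro j
    refine i.succAboveCases ?_ (fun j => ?_) j
    · rw [Fin.insertNth_apply_same]
      exact hp.2
    · rw [Fin.insertNth_apply_succAbove]
      exact hp.1 j
  · intro z _
    exact Fin.insertNth_self_removeNth i z
  · rintro ⟨x, y⟩ _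
    refine Prod.ext ?_ ?_
    · exact Fin.removeNth_insertNth (α := fun _ => X) i y x
    · exact Fin.insertNth_apply_same (α := fun _ => X) i y x
  · intro z _
    exact congrArg f (Fin.insertNth_self_removeNth i z).symm

/-- Summation by parts. -/
theorem pair_bdry {X : Type} [MetricSpace X] [BddGeometry X] {M : Type} [AddCommGroup M]
    (Θ : X → X → X → M) (hΘ : {p : X × X × X | Θ p.1 p.2.1 p.2.2 ≠ 0}.Finite)
    (b : (Fin 4 → X) → ℤ) (R : ℝ) (hb : ∀ x, b x ≠ 0 → ∀ i j, dist (x i) (x j) ≤ R)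
    (hc : ∀ x : Fin 4 → X, (∀ i j, dist (x i) (x j) ≤ R) →
      Θ (x 1) (x 2) (x 3) - Θ (x 0) (x 2) (x 3) + Θ (x 0) (x 1) (x 3)
        - Θ (x 0) (x 1) (x 2) = 0) :
    ∑ᶠ x : Fin 3 → X, bdry b x • Θ (x 0) (x 1) (x 2) = 0 := by
  classical
  -- a large finite set
  let F0 : Finset X := hΘ.toFinset.image (fun p => p.1) ∪
    (hΘ.toFinset.image (fun p => p.2.1) ∪ hΘ.toFinset.image (fun p => p.2.2))
  let F : Finset X := F0 ∪ F0.biUnion fun x => ballF x R
  have hF0 : ∀ x : Fin 3 → X, Θ (x 0) (x 1) (x 2) ≠ 0 → ∀ j, x j ∈ F0 := by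
    intro x hx j
    have hmem : ((x 0, x 1, x 2) : X × X × X) ∈ hΘ.toFinset := hΘ.mem_toFinset.2 hx
    fin_cases j
    · exact Finset.mem_union_left _ (Finset.mem_image.2 ⟨_, hmem, rfl⟩)
    · exact Finset.mem_union_right _
        (Finset.mem_union_left _ (Finset.mem_image.2 ⟨_, hmem, rfl⟩))
    · exact Finset.mem_union_right _
        (Finset.mem_union_right _ (Finset.mem_image.2 ⟨_, hmem, rfl⟩))
  have hsub : (Function.support fun x : Fin 3 → X => bdry b x • Θ (x 0) (x 1) (x 2)) ⊆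
      ↑(Fintype.piFinset (fun _ : Fin 3 => F)) := by
    intro x hx
    rw [Function.mem_support] at hx
    have hx' : Θ (x 0) (x 1) (x 2) ≠ 0 := fun h => hx (by rw [h, smul_zero])
    rw [Finset.mem_coe, Fintype.mem_piFinset]
    exact fun j => Finset.mem_union_left _ (hF0 x hx' j)
  rw [finsum_eq_sum_of_support_subset _ hsub]
  have h1 : ∀ x ∈ Fintype.piFinset (fun _ : Fin 3 => F),
      bdry b x • Θ (x 0) (x 1) (x 2) =
        ∑ i : Fin 4, ∑ y ∈ F, ((-1 : ℤ) ^ (i : ℕ) * b (i.insertNth y x)) •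
          Θ (x 0) (x 1) (x 2) := by
    intro x _
    by_cases hx : Θ (x 0) (x 1) (x 2) = 0
    · rw [hx, smul_zero]
      simp
    · have h2 : ∀ i : Fin 4, ∑ᶠ y : X, b (i.insertNth y x) = ∑ y ∈ F, b (i.insertNth y x) := by
        intro i
        refine finsum_eq_sum_of_support_subset _ ?_
        intro y hy
        rw [Function.mem_support] at hy
        have h3 := hb _ hy i (i.succAbove 0)
        rw [Fin.insertNth_apply_same, Fin.insertNth_apply_succAbove] at h3
        rw [Finset.mem_coe]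
        refine Finset.mem_union_right _ (Finset.mem_biUnion.2 ⟨x 0, hF0 x hx 0, ?_⟩)
        rw [mem_ballF]
        exact h3
      unfold bdry
      rw [Finset.sum_smul]
      refine Finset.sum_congr rfl fun i _ => ?_
      rw [h2 i, Finset.mul_sum, Finset.sum_smul]
  rw [Finset.sum_congr rfl h1, Finset.sum_comm]
  have h4 : ∀ i : Fin 4, ∑ x ∈ Fintype.piFinset (fun _ : Fin 3 => F), ∑ y ∈ F,
      ((-1 : ℤ) ^ (i : ℕ) * b (i.insertNth y x)) • Θ (x 0) (x 1) (x 2) =
      ∑ z ∈ Fintype.piFinset (fun _ : Fin 4 => F),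
        ((-1 : ℤ) ^ (i : ℕ) * b z) • Θ (z (i.succAbove 0)) (z (i.succAbove 1))
          (z (i.succAbove 2)) := by
    intro i
    rw [pairing_sum_insertNth F i]
    refine Finset.sum_congr rfl fun x _ => Finset.sum_congr rfl fun y _ => ?_
    rw [Fin.insertNth_apply_succAbove, Fin.insertNth_apply_succAbove,
      Fin.insertNth_apply_succAbove]
  rw [Finset.sum_congr rfl fun i _ => h4 i, Finset.sum_comm]
  refine Finset.sum_eq_zero fun z _ => ?_
  by_cases hz : b z = 0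
  · simp [hz]
  · have h5 := hc z (hb z hz)
    rw [Fin.sum_univ_four]
    have e0 : ((0 : Fin 4).succAbove 0, (0 : Fin 4).succAbove 1, (0 : Fin 4).succAbove 2) =
      ((1 : Fin 4), (2 : Fin 4), (3 : Fin 4)) := by decide
    have e1 : ((1 : Fin 4).succAbove 0, (1 : Fin 4).succAbove 1, (1 : Fin 4).succAbove 2) =
      ((0 : Fin 4), (2 : Fin 4), (3 : Fin 4)) := by decide
    have e2 : ((2 : Fin 4).succAbove 0, (2 : Fin 4).succAbove 1, (2 : Fin 4).succAbove 2) =
      ((0 : Fin 4), (1 : Fin 4), (3 : Fin 4)) := by decide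
    have e3 : ((3 : Fin 4).succAbove 0, (3 : Fin 4).succAbove 1, (3 : Fin 4).succAbove 2) =
      ((0 : Fin 4), (1 : Fin 4), (2 : Fin 4)) := by decide
    simp only [Prod.mk.injEq] at e0 e1 e2 e3
    rw [e0.1, e0.2.1, e0.2.2, e1.1, e1.2.1, e1.2.2, e2.1, e2.2.1, e2.2.2, e3.1, e3.2.1, e3.2.2]
    have h6 : ((-1 : ℤ) ^ ((0 : Fin 4) : ℕ) * b z) • Θ (z 1) (z 2) (z 3) +
        ((-1 : ℤ) ^ ((1 : Fin 4) : ℕ) * b z) • Θ (z 0) (z 2) (z 3) +
        ((-1 : ℤ) ^ ((2 : Fin 4) : ℕ) * b z) • Θ (z 0) (z 1) (z 3) +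
        ((-1 : ℤ) ^ ((3 : Fin 4) : ℕ) * b z) • Θ (z 0) (z 1) (z 2) =
        b z • (Θ (z 1) (z 2) (z 3) - Θ (z 0) (z 2) (z 3) + Θ (z 0) (z 1) (z 3)
          - Θ (z 0) (z 1) (z 2)) := by
      have q0 : ((-1 : ℤ) ^ ((0 : Fin 4) : ℕ) * b z) = b z := by norm_num
      have q1 : ((-1 : ℤ) ^ ((1 : Fin 4) : ℕ) * b z) = -b z := by norm_num
      have q2 : ((-1 : ℤ) ^ ((2 : Fin 4) : ℕ) * b z) = b z := by norm_num
      have q3 : ((-1 : ℤ) ^ ((3 : Fin 4) : ℕ) * b z) = -b z := by norm_num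
      rw [q0, q1, q2, q3, smul_sub, smul_add, smul_sub, neg_smul, neg_smul]
      abel
    rw [h6, h5, smul_zero]

/-- The fundamental cycle is not a torsion class in the coarse homology of the space. -/
theorem exists_cycle (τ : Tower) : ∃ c : (Fin 3 → base τ) → ℤ, Controlled c ∧ bdry c = 0 ∧
    ∀ N : ℕ, 1 ≤ N → ∀ b : (Fin 4 → XT τ) → ℤ, Controlled b →
      bdry b ≠ fun x => (N : ℤ) * extendChain (base τ) c x := by
  refine ⟨tcycle τ, controlled_tcycle τ, bdry_tcycle τ, ?_⟩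
  intro N hN b hb hbd
  obtain ⟨R, hR⟩ := hb
  obtain ⟨R', hR'⟩ := exists_nat_ge (max R 2)
  obtain ⟨n₁, hn₁⟩ := exists_cocycle τ R'
  -- choose `n` large with `11 ^ n > N`
  let n : ℕ := max n₁ (max 3 N)
  have hn1 : n₁ ≤ n := le_max_left _ _
  have hn3 : 3 ≤ n := (le_max_left _ _).trans (le_max_right _ _)
  have hnN : N ≤ n := (le_max_right _ _).trans (le_max_right _ _)
  obtain ⟨Θ, hfin, hsupp, hcoc, hcross⟩ := hn₁ n hn1
  have hRR : R ≤ R' := (le_max_left _ _).trans hR'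
  have h2R : 2 ≤ R' := by
    have : (2 : ℝ) ≤ R' := (le_max_right _ _).trans hR'
    exact_mod_cast this
  have hzero := pair_bdry Θ hfin b R' (fun x hx i j => (hR x hx i j).trans hRR) hcoc
  have hone := pair_tcycle τ (1 : ZMod (11 ^ n)) n hn3 Θ hsupp (by
    intro w w' w'' h1 h2 h3
    have := hcross w w' w'' (h1.trans h2R) (h2.trans h2R) (h3.trans h2R)
    rw [zsmul_eq_mul, mul_one]
    exact this)
  have hsup : (Function.support fun x : Fin 3 → XT τ =>
      extendChain (base τ) (tcycle τ) x • Θ (x 0) (x 1) (x 2)).Finite := by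
    have hinj : Function.Injective (fun x : Fin 3 → XT τ => (x 0, x 1, x 2)) := by
      intro x y h
      simp only [Prod.mk.injEq] at h
      funext j
      fin_cases j
      · exact h.1
      · exact h.2.1
      · exact h.2.2
    refine (hfin.preimage (hinj.injOn (s := _))).subset ?_
    intro x hx
    rw [Function.mem_support] at hx
    exact fun h => hx (by
      have h' : Θ (x 0) (x 1) (x 2) = 0 := h
      rw [h', smul_zero])
  have hN0 : ((N : ℤ) • (1 : ZMod (11 ^ n))) = 0 := by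
    rw [← hone]
    refine Eq.trans ?_ hzero
    have hmap := (smulAddHom ℤ (ZMod (11 ^ n)) (N : ℤ)).map_finsum hsup
    have h8 : (N : ℤ) • (∑ᶠ x : Fin 3 → XT τ,
        extendChain (base τ) (tcycle τ) x • Θ (x 0) (x 1) (x 2)) =
        ∑ᶠ x : Fin 3 → XT τ, (N : ℤ) •
          (extendChain (base τ) (tcycle τ) x • Θ (x 0) (x 1) (x 2)) := hmap
    rw [h8]
    refine finsum_congr fun x => ?_
    rw [hbd, smul_smul]
  rw [zsmul_eq_mul, mul_one, Int.cast_natCast] at hN0
  rw [ZMod.natCast_eq_zero_iff] at hN0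
  have h9 := Nat.le_of_dvd hN hN0
  have h10 : n < 11 ^ n := Nat.lt_pow_self (by norm_num)
  omega

end Vale.Agent.P212
end
end

section

section

/-! The class has infinite order at each scale. -/

namespace Vale.Agent.P212

open Matrix NNReal
open scoped Matrix.Norms.L2Operator Kronecker

section Inf

variable {τ : Tower} [DecidableEq (XT τ)]

/-- A finite family of cylinder functions. -/
theorem exists_family {X ι : Type} [Finite ι] (g : ι → RPt X → ℂ) (hg : ∀ i, Cyl (g i)) :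
    ∃ 𝓖 : Finset (RPt X → ℂ), (∀ h ∈ 𝓖, Cyl h) ∧ ∀ i, g i ∈ 𝓖 ∧ (fun p => star (g i p)) ∈ 𝓖 := by
  classical
  have := Fintype.ofFinite ι
  refine ⟨Finset.univ.image g ∪ Finset.univ.image (fun i p => star (g i p)), ?_, ?_⟩
  · intro h hh
    rw [Finset.mem_union, Finset.mem_image, Finset.mem_image] at hh
    rcases hh with ⟨i, _, rfl⟩ | ⟨i, _, rfl⟩
    · exact hg i
    · exact (hg i).star
  · intro i
    exact ⟨Finset.mem_union_left _ (Finset.mem_image_of_mem _ (Finset.mem_univ i)),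
      Finset.mem_union_right _ (Finset.mem_image_of_mem _ (Finset.mem_univ i))⟩

theorem CocAt.nsmul {X : Type} {c : X → X → X → ℤ} {p : RPt X} (h : CocAt c p) (i : ℕ) :
    CocAt (i • c) p := by
  intro x hx y hy z hz w hw
  have h1 := h x hx y hy z hz w hw
  simp only [Pi.smul_apply, nsmul_eq_mul]
  linear_combination (i : ℤ) * h1

/-- A finite family containing all functions needed. -/
theorem exists_big_family (BI B2 : Finset (XT τ)) (D q : ℕ) (cz c : XT τ → XT τ → XT τ → ℤ)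
    (b : XT τ → XT τ → ℤ)
    (KM : ℕ → RPt (XT τ) → Matrix (Σ _ : Ev D, B2) (Σ _ : Od D, B2) ℂ)
    (hKM : ∀ i a b, Cyl (fun p => KM i p a b)) :
    ∃ 𝓖 : Finset (RPt (XT τ) → ℂ), (∀ h ∈ 𝓖, Cyl h) ∧
      (∀ φ ∈ ({kap1, kapm, kapp} : Set (ℝ → ℝ)), (fun p => ((φ (mass BI p) : ℝ) : ℂ)) ∈ 𝓖) ∧
      (∀ j ≤ D, ∀ x y, (fun p => Qb B2 (j • cz) p x y) ∈ 𝓖 ∧
        (fun p => star (Qb B2 (j • cz) p x y)) ∈ 𝓖) ∧
      (∀ j ≤ D, ∀ x y, (fun p => Mb B2 (j • cz) (j • b) p x y) ∈ 𝓖 ∧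
        (fun p => star (Mb B2 (j • cz) (j • b) p x y)) ∈ 𝓖) ∧
      (∀ i ≤ D * q + D, ∀ x y, (fun p => Qb B2 (i • c) p x y) ∈ 𝓖 ∧
        (fun p => star (Qb B2 (i • c) p x y)) ∈ 𝓖) ∧
      (∀ i ≤ D * q, ∀ x y, (fun p => KM i p x y) ∈ 𝓖 ∧ (fun p => star (KM i p x y)) ∈ 𝓖) := by
  obtain ⟨𝓖₁, h₁, h₁'⟩ := exists_family (X := XT τ)
    (fun i : Fin 3 => fun p => (((![kap1, kapm, kapp] i) (mass BI p) : ℝ) : ℂ)) (by
      intro i
      fin_cases i
      · exact Cyl.mass BI (Complex.continuous_ofReal.comp kap1_continuous)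
      · exact Cyl.mass BI (Complex.continuous_ofReal.comp kapm_continuous)
      · exact Cyl.mass BI (Complex.continuous_ofReal.comp kapp_continuous))
  obtain ⟨𝓖₂, h₂, h₂'⟩ := exists_family (X := XT τ)
    (fun i : Fin (D + 1) × B2 × B2 => fun p => Qb B2 ((i.1 : ℕ) • cz) p i.2.1 i.2.2)
    (fun i => Cyl.Qb _ _ _ _)
  obtain ⟨𝓖₃, h₃, h₃'⟩ := exists_family (X := XT τ)
    (fun i : Fin (D + 1) × B2 × B2 => fun p =>
      Mb B2 ((i.1 : ℕ) • cz) ((i.1 : ℕ) • b) p i.2.1 i.2.2)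
    (fun i => Cyl.Mb _ _ _ _ _)
  obtain ⟨𝓖₄, h₄, h₄'⟩ := exists_family (X := XT τ)
    (fun i : Fin (D * q + D + 1) × B2 × B2 => fun p => Qb B2 ((i.1 : ℕ) • c) p i.2.1 i.2.2)
    (fun i => Cyl.Qb _ _ _ _)
  obtain ⟨𝓖₅, h₅, h₅'⟩ := exists_family (X := XT τ)
    (fun i : Fin (D * q + 1) × (Σ _ : Ev D, B2) × (Σ _ : Od D, B2) => fun p =>
      KM (i.1 : ℕ) p i.2.1 i.2.2)
    (fun i => hKM _ _ _)
  classical
  refine ⟨𝓖₁ ∪ (𝓖₂ ∪ (𝓖₃ ∪ (𝓖₄ ∪ 𝓖₅))), ?_, ?_, ?_, ?_, ?_, ?_⟩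
  · intro g hg
    simp only [Finset.mem_union] at hg
    rcases hg with h | h | h | h | h
    exacts [h₁ g h, h₂ g h, h₃ g h, h₄ g h, h₅ g h]
  · intro φ hφ
    refine Finset.mem_union_left _ ?_
    rcases hφ with rfl | rfl | hφ
    · exact (h₁' 0).1
    · exact (h₁' 1).1
    · rw [Set.mem_singleton_iff] at hφ
      subst hφ
      exact (h₁' 2).1
  · intro j hj x y
    have h := h₂' (⟨j, by omega⟩, x, y)
    exact ⟨Finset.mem_union_right _ (Finset.mem_union_left _ h.1),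
      Finset.mem_union_right _ (Finset.mem_union_left _ h.2)⟩
  · intro j hj x y
    have h := h₃' (⟨j, by omega⟩, x, y)
    exact ⟨Finset.mem_union_right _ (Finset.mem_union_right _ (Finset.mem_union_left _ h.1)),
      Finset.mem_union_right _ (Finset.mem_union_right _ (Finset.mem_union_left _ h.2))⟩
  · intro i hi x y
    have h := h₄' (⟨i, by omega⟩, x, y)
    exact ⟨Finset.mem_union_right _ (Finset.mem_union_right _ (Finset.mem_union_right _
        (Finset.mem_union_left _ h.1))),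
      Finset.mem_union_right _ (Finset.mem_union_right _ (Finset.mem_union_right _
        (Finset.mem_union_left _ h.2)))⟩
  · intro i hi x y
    have h := h₅' (⟨i, by omega⟩, x, y)
    exact ⟨Finset.mem_union_right _ (Finset.mem_union_right _ (Finset.mem_union_right _
        (Finset.mem_union_right _ h.1))),
      Finset.mem_union_right _ (Finset.mem_union_right _ (Finset.mem_union_right _
        (Finset.mem_union_right _ h.2)))⟩

end Inf

end Vale.Agent.P212
end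
end
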