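import Vale.Agent.P212.MathlibUsed
import Vale.Agent.P212.Bdl.B1
import Vale.Agent.P212.Bdl.B3
import Vale.Agent.P212.MaxRoe
import Vale.Agent.P212.Bdl.B2
import Vale.Agent.P212.BJudge

set_option linter.all false

section

section

/-! Abstract localization systems, and the one given by the maximal localization algebra. -/

namespace Vale.Agent.P212

open Filter Topology NNReal BoundedContinuousFunction

variable {X : Type} [MetricSpace X] [BddGeometry X]

/-- The canonical representation of `C*_max(X)^+` on `l^2(X x N)`. -/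
noncomputable def opC (X : Type) [MetricSpace X] [BddGeometry X] : CM (gX X) →⋆ₐ[ℂ] BX X :=
  CM.lift (gX X) (roeU (gX X)).subtype

theorem opC_toMax (T : roeU (gX X)) : opC X (toMax (gX X) T) = T :=
  CM.lift_toMax _ _ _

/-- A unital *-algebra `A` with *-representations `ev t`, `t ≥ 0`, which asymptotically commute
with cylinder functions and are locally compact perturbations of scalars, on `P_r(X)`. -/
structure LocSys (X : Type) [MetricSpace X] [BddGeometry X] (r : ℝ) (A : Type) [Ring A]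
    [StarRing A] [Algebra ℂ A] where
  ev : ℝ≥0 → (A →⋆ₐ[ℂ] BX X)
  aug : A →⋆ₐ[ℂ] ℂ
  bdd : ∀ a, ∃ C : ℝ, ∀ t, ‖ev t a‖ ≤ C
  comm : ∀ (a : A) (g : RPt X → ℂ), Cyl g →
    Tendsto (fun t => ‖ev t a * mulG g - mulG g * ev t a‖) atTop (𝓝 0)
  cpt : ∀ (a : A) (t : ℝ≥0) (B : Finset X),
    IsCompactOperator (proj (gX X ⁻¹' (B : Set X)) * (ev t a - aug a • (1 : BX X)))
  rips : ∀ (a : A) (t : ℝ≥0) (j k : X × ℕ), ent (ev t a - aug a • (1 : BX X)) j k ≠ 0 →
    InRips r (pos j) ∧ InRips r (pos k)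

/-- The canonical representation is contractive. -/
theorem norm_opC_le (b : CM (gX X)) : ‖opC X b‖ ≤ ‖b‖ :=
  NonUnitalStarAlgHom.norm_apply_le (opC X) b

omit [MetricSpace X] [BddGeometry X] in
theorem isLocal_bdd_norm_one_le : ‖(1 : BX X)‖ ≤ 1 := ContinuousLinearMap.norm_id_le

omit [MetricSpace X] [BddGeometry X] in
/-- The difference of a matrix coefficient and a nearby one. -/
theorem norm_ent_le_of_norm_sub_le {A S : BX X} {ε : ℝ} (h : ‖A - S‖ ≤ ε) {j k : X × ℕ}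
    (hS : ent S j k = 0) : ‖ent A j k‖ ≤ ε := by
  have h1 : A = (A - S) + S := (sub_add_cancel A S).symm
  have h2 : ent A j k = ent (A - S) j k := by
    conv_lhs => rw [h1]
    rw [ent_add, hS, add_zero]
  rw [h2]
  exact (norm_ent_le _ j k).trans h

/-- The compression of a Roe operator to a finite subset of `X` is compact. -/
theorem IsRoe.isCompactOperator_proj_mul {S : BX X} (hS : IsRoe (gX X) S) (B : Finset X) :
    IsCompactOperator (proj (gX X ⁻¹' (B : Set X)) * S : BX X) := by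
  classical
  obtain ⟨R, hR⟩ := hS.1
  have h1 : (proj (gX X ⁻¹' (B : Set X)) : BX X) = ∑ x ∈ B, proj (gX X ⁻¹' {x}) := by
    ext f j
    have h2 : ((∑ x ∈ B, (proj (gX X ⁻¹' {x}) : BX X)) f : HX X) =
        ∑ x ∈ B, proj (gX X ⁻¹' {x}) f := by
      simp
    rw [h2, lp.coeFn_sum, Finset.sum_apply]
    by_cases hj : gX X j ∈ B
    · rw [Finset.sum_eq_single_of_mem (gX X j) hj, proj_apply_mem, proj_apply_mem]
      · rfl
      · exact hj
      · intro w _ hw
        exact proj_apply_not_mem _ (fun h => hw (by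
          have : gX X j = w := h
          exact this.symm))
    · have h3 : (proj (gX X ⁻¹' (B : Set X)) f : X × ℕ → ℂ) j = 0 :=
        proj_apply_not_mem f (fun h => hj h)
      refine h3.trans (Finset.sum_eq_zero (fun w hw => ?_)).symm
      exact proj_apply_not_mem _ (fun h => hj (by
        have : gX X j = w := h
        rw [this]
        exact hw))
  rw [h1, Finset.sum_mul]
  refine isCompactOperator_sum _ _ (fun x _ => ?_)
  rw [PropLE.proj_mul (R := R) hR x]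
  exact isCompactOperator_sum _ _ (fun w _ => hS.2 x w)

variable [Nonempty X]

/-- Every element of the localization algebra is approximated, uniformly in time, by the sum
of a scalar and a local path. -/
theorem exists_isLocal_approx (r : ℝ) (f : locU X r) {ε : ℝ} (hε : 0 < ε) :
    ∃ S : ℝ≥0 → BX X, IsLocal r S ∧ ∀ t,
      ‖(opC X ((f : ℝ≥0 →ᵇ CM (gX X)) t) - augL X r f • (1 : BX X)) - S t‖ ≤ ε := by
  obtain ⟨g, hg, hfg⟩ := Metric.mem_closure_iff.1
    (show (f : ℝ≥0 →ᵇ CM (gX X)) ∈ closure ((locAlg X r : StarSubalgebra ℂ _) : Set _) from f.2)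
    (ε / 2) (half_pos hε)
  obtain ⟨_, c, T, hT, hgT⟩ := hg
  refine ⟨fun t => (T t : BX X) - c • 1, hT, fun t => ?_⟩
  have h1 : ∀ s, ‖(f : ℝ≥0 →ᵇ CM (gX X)) s - toMax (gX X) (T s)‖ ≤ ε / 2 := by
    intro s
    rw [← hgT s, ← dist_eq_norm]
    exact (BoundedContinuousFunction.dist_coe_le_dist s).trans hfg.le
  have h2 : ‖opC X ((f : ℝ≥0 →ᵇ CM (gX X)) t) - (T t : BX X)‖ ≤ ε / 2 := by
    rw [← opC_toMax (T t), ← map_sub]
    exact (norm_opC_le _).trans (h1 t)
  have h3 : aug (gX X) (toMax (gX X) (T 0)) = c := by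
    have h4 : coefR (gX X) (T 0) = c :=
      coefR_eq (gX X) (T 0) (hT.roe 0) (add_sub_cancel _ _).symm
    rw [toMax_eq, map_add, aug_roe _ _ (coefR_spec _ _), add_zero, map_smul, map_one,
      smul_eq_mul, mul_one, h4]
  have h5 : ‖augL X r f - c‖ ≤ ε / 2 := by
    have h6 : augL X r f - c = aug (gX X) ((f : ℝ≥0 →ᵇ CM (gX X)) 0 - toMax (gX X) (T 0)) := by
      rw [map_sub, h3]
      rfl
    rw [h6]
    exact (NonUnitalStarAlgHom.norm_apply_le (aug (gX X)) _).trans (h1 0)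
  have h7 : (opC X ((f : ℝ≥0 →ᵇ CM (gX X)) t) - augL X r f • (1 : BX X)) -
      ((T t : BX X) - c • 1) = (opC X ((f : ℝ≥0 →ᵇ CM (gX X)) t) - (T t : BX X)) -
        (augL X r f - c) • (1 : BX X) := by
    rw [sub_smul]
    abel
  rw [h7]
  refine (norm_sub_le _ _).trans ?_
  have h8 : ‖(augL X r f - c) • (1 : BX X)‖ ≤ ε / 2 := by
    rw [norm_smul]
    calc ‖augL X r f - c‖ * ‖(1 : BX X)‖ ≤ ε / 2 * 1 := by
          gcongr
          exact isLocal_bdd_norm_one_le
      _ = ε / 2 := mul_one _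
  linarith

/-- The commutators of an element of the localization algebra with cylinder functions. -/
theorem tendsto_comm_locU (r : ℝ) (f : locU X r) (g : RPt X → ℂ) (hg : Cyl g) :
    Tendsto (fun t => ‖opC X ((f : ℝ≥0 →ᵇ CM (gX X)) t) * mulG g -
      mulG g * opC X ((f : ℝ≥0 →ᵇ CM (gX X)) t)‖) atTop (𝓝 0) := by
  rw [Metric.tendsto_atTop]
  intro η hη
  obtain ⟨Cg, hCg⟩ := hg.bdd
  set M : BX X := mulG g with hM
  have hM0 : 0 ≤ ‖M‖ := norm_nonneg M
  obtain ⟨S, hS, hSf⟩ := exists_isLocal_approx r f (ε := η / (8 * (‖M‖ + 1))) (by positivity)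
  set a : ℂ := augL X r f with ha
  set C : ℝ := ‖(f : ℝ≥0 →ᵇ CM (gX X))‖ + ‖a‖ + η / (8 * (‖M‖ + 1)) with hC
  have hC0 : 0 ≤ C := by positivity
  have hSC : ∀ t, ‖S t‖ ≤ C := by
    intro t
    have h1 : S t = (opC X ((f : ℝ≥0 →ᵇ CM (gX X)) t) - a • (1 : BX X)) -
        ((opC X ((f : ℝ≥0 →ᵇ CM (gX X)) t) - a • (1 : BX X)) - S t) := (sub_sub_cancel _ _).symm
    have h2 : ‖opC X ((f : ℝ≥0 →ᵇ CM (gX X)) t)‖ ≤ ‖(f : ℝ≥0 →ᵇ CM (gX X))‖ :=
      (norm_opC_le _).trans (BoundedContinuousFunction.norm_coe_le_norm _ t)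
    have h3 : ‖a • (1 : BX X)‖ ≤ ‖a‖ := by
      rw [norm_smul]
      exact (mul_le_mul_of_nonneg_left isLocal_bdd_norm_one_le (norm_nonneg _)).trans
        (mul_one _).le
    rw [h1]
    refine (norm_sub_le _ _).trans ?_
    have h4 := hSf t
    have h5 := norm_sub_le (opC X ((f : ℝ≥0 →ᵇ CM (gX X)) t)) (a • (1 : BX X))
    rw [hC]
    linarith
  obtain ⟨δ, hδ, hunif⟩ := hg.unif (ε := η / (64 * (C + 1))) (by positivity)
  obtain ⟨t₀, ht₀⟩ := hS.prop δ hδ
  refine ⟨t₀, fun t ht => ?_⟩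
  have hω : 0 ≤ η / (64 * (C + 1)) := by positivity
  have h1 : ‖S t * M - M * S t‖ ≤ 16 * (η / (64 * (C + 1))) * ‖S t‖ := by
    refine norm_comm_le (C := Cg) (fun j => hCg (pos j)) hω (fun j k hjk => ?_)
    exact hunif _ _ (ht₀ t ht j k hjk).2.2
  have h2 : 16 * (η / (64 * (C + 1))) * ‖S t‖ ≤ η / 4 := by
    have h3 : ‖S t‖ ≤ C + 1 := (hSC t).trans (by linarith)
    calc 16 * (η / (64 * (C + 1))) * ‖S t‖ ≤ 16 * (η / (64 * (C + 1))) * (C + 1) := by gcongr
      _ = η / 4 := by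
        field_simp
        norm_num
  set A : BX X := opC X ((f : ℝ≥0 →ᵇ CM (gX X)) t) with hA
  have h4 : A * M - M * A = ((A - a • 1) - S t) * M - M * ((A - a • 1) - S t) +
      (S t * M - M * S t) := by
    simp only [sub_mul, mul_sub, smul_mul_assoc, mul_smul_comm, one_mul, mul_one]
    abel
  have h5 : ‖((A - a • 1) - S t) * M - M * ((A - a • 1) - S t)‖ ≤ η / 4 := by
    have h6 := hSf t
    have h7 : ‖((A - a • 1) - S t) * M‖ ≤ η / 8 := by
      calc ‖((A - a • 1) - S t) * M‖ ≤ ‖(A - a • 1) - S t‖ * ‖M‖ := norm_mul_le _ _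
        _ ≤ η / (8 * (‖M‖ + 1)) * (‖M‖ + 1) := by
          gcongr
          linarith only []
        _ = η / 8 := by
          field_simp
    have h8 : ‖M * ((A - a • 1) - S t)‖ ≤ η / 8 := by
      calc ‖M * ((A - a • 1) - S t)‖ ≤ ‖M‖ * ‖(A - a • 1) - S t‖ := norm_mul_le _ _
        _ ≤ (‖M‖ + 1) * (η / (8 * (‖M‖ + 1))) := by
          gcongr
          linarith only []
        _ = η / 8 := by
          field_simp
    refine (norm_sub_le _ _).trans ?_
    linarith only [h8, h7]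
  have h9 : ‖A * M - M * A‖ < η := by
    rw [h4]
    refine (norm_add_le _ _).trans_lt ?_
    linarith only [h5, h2, h1, hη]
  rw [dist_zero_right, norm_norm]
  exact h9

/-- The system of the maximal localization algebra. -/
noncomputable def locSys (X : Type) [MetricSpace X] [BddGeometry X] [Nonempty X] (r : ℝ) :
    LocSys X r (locU X r) where
  ev t :=
    { toFun := fun f => opC X ((f : ℝ≥0 →ᵇ CM (gX X)) t)
      map_one' := map_one _
      map_mul' := fun _ _ => map_mul _ _ _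
      map_zero' := map_zero _
      map_add' := fun _ _ => map_add _ _ _
      commutes' := fun c => (opC X).commutes c
      map_star' := fun _ => map_star _ _ }
  aug := augL X r
  bdd := by
    intro f
    exact ⟨‖(f : ℝ≥0 →ᵇ CM (gX X))‖, fun t =>
      (norm_opC_le _).trans (BoundedContinuousFunction.norm_coe_le_norm _ t)⟩
  comm := fun f g hg => tendsto_comm_locU r f g hg
  cpt := by
    intro f t B
    have h1 : IsClosed {T : BX X | IsCompactOperator T} := isClosed_setOfPred_isCompactOperator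
    refine h1.closure_subset_iff.2 le_rfl (Metric.mem_closure_iff.2 (fun ε hε => ?_))
    obtain ⟨S, hS, hSf⟩ := exists_isLocal_approx r f (half_pos hε)
    refine ⟨proj (gX X ⁻¹' (B : Set X)) * S t, (hS.roe t).isCompactOperator_proj_mul B, ?_⟩
    rw [dist_eq_norm, ← mul_sub]
    refine (norm_mul_le _ _).trans_lt ?_
    calc _ ≤ 1 * (ε / 2) := by
          gcongr
          · exact proj_norm_le _
          · exact hSf t
      _ < ε := by linarith
  rips := by
    intro f t j k hjk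
    by_contra hn
    refine hjk (norm_le_zero_iff.1 (le_of_forall_pos_le_add (fun ε hε => ?_)))
    obtain ⟨S, hS, hSf⟩ := exists_isLocal_approx r f hε
    rw [zero_add]
    refine norm_ent_le_of_norm_sub_le (hSf t) ?_
    by_contra hne
    have h2 := hS.rips t j k hne
    exact hn ⟨h2.1, h2.2.1⟩

theorem locSys_ev (r : ℝ) (t : ℝ≥0) (f : locU X r) :
    (locSys X r).ev t f = opC X ((f : ℝ≥0 →ᵇ CM (gX X)) t) := rfl

end Vale.Agent.P212
end
end

section

section

/-! The path of Bott projections on finer and finer grids. -/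

namespace Vale.Agent.P212

open NNReal BoundedContinuousFunction Matrix
open scoped Matrix.Norms.L2Operator

variable (τ : Tower)

/-- The paths of unitaries in `C*_max(X)^+`. -/
noncomputable def Upath (t : ℝ≥0) : CM (gX (XT τ)) :=
  toMax (gX (XT τ)) (Uel τ ⌊t⌋₊ (t - ⌊t⌋₊))

noncomputable def Vpath (t : ℝ≥0) : CM (gX (XT τ)) :=
  toMax (gX (XT τ)) (Vel τ ⌊t⌋₊ (t - ⌊t⌋₊))

/-- The Bott projections of the two paths form a matrix over the localization algebra. -/
theorem exists_path (r : ℝ) (hr : 2 ≤ r) :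
    ∃ E : Matrix (Fin 2) (Fin 2) (locU (XT τ) r), ∀ (t : ℝ≥0) (a b : Fin 2),
      (E a b : ℝ≥0 →ᵇ CM (gX (XT τ))) t = bottE (Upath τ t) (Vpath τ t) a b := by
  have key : ∀ a b : Fin 2, ∃ f : locU (XT τ) r, ∀ t : ℝ≥0,
      (f : ℝ≥0 →ᵇ CM (gX (XT τ))) t = bottE (Upath τ t) (Vpath τ t) a b := by
    intro a b
    refine exists_mem_locU (fun ε hε => ?_)
    obtain ⟨q, hq0, hq1⟩ := hq_approx (lt_min one_pos (show 0 < ε / 4 by positivity))
    obtain ⟨f, hf, hft⟩ := exists_mem_locAlg (bottF_mem τ q a b) (bottF_match τ hq0 a b) hr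
    refine ⟨f, hf, fun t => ?_⟩
    have hU : ‖Upath τ t‖ ≤ 1 :=
      norm_le_one_of_mem_unitary (toMax_mem_unitary (Uel_unitary τ _ _))
    have hV : ‖Vpath τ t‖ ≤ 1 :=
      norm_le_one_of_mem_unitary (toMax_mem_unitary (Vel_unitary τ _ _))
    have h1 := hq1 (CM (gX (XT τ))) (Upath τ t) hU
    have h2 : f t = bott (Upath τ t) (Vpath τ t) (hq q (Upath τ t)) a b := by
      rw [hft, bottF_apply, map_bott, map_hq]
      rfl
    have h3 : ‖hneg (Upath τ t)‖ ≤ 1 := (norm_hneg_le _).trans hU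
    have h4 : ‖hq q (Upath τ t)‖ ≤ 2 := by
      have e : hq q (Upath τ t) = hneg (Upath τ t) -
          (hneg (Upath τ t) - hq q (Upath τ t)) := (sub_sub_cancel _ _).symm
      rw [e]
      refine (norm_sub_le _ _).trans ?_
      have := h1.trans (min_le_left _ _)
      linarith
    rw [h2]
    change ‖bott (Upath τ t) (Vpath τ t) (hneg (Upath τ t)) a b -
      bott (Upath τ t) (Vpath τ t) (hq q (Upath τ t)) a b‖ ≤ ε
    refine (norm_bott_sub_le hU hV h3 h4 a b).trans ?_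
    have := h1.trans (min_le_right _ _)
    linarith
  choose E hE using key
  exact ⟨Matrix.of fun a b => E a b, fun t a b => hE a b t⟩

/-- The matrix over the localization algebra given by the Bott projections. -/
noncomputable def EL (r : ℝ) (hr : 2 ≤ r) : Matrix (Fin 2) (Fin 2) (locU (XT τ) r) :=
  Classical.choose (exists_path τ r hr)

theorem EL_spec (r : ℝ) (hr : 2 ≤ r) (t : ℝ≥0) (a b : Fin 2) :
    (EL τ r hr a b : ℝ≥0 →ᵇ CM (gX (XT τ))) t = bottE (Upath τ t) (Vpath τ t) a b :=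
  Classical.choose_spec (exists_path τ r hr) t a b

theorem EL_idem (r : ℝ) (hr : 2 ≤ r) : EL τ r hr * EL τ r hr = EL τ r hr := by
  ext a b t
  have hU := toMax_mem_unitary (Uel_unitary τ ⌊t⌋₊ (t - ⌊t⌋₊))
  have hV := toMax_mem_unitary (Vel_unitary τ ⌊t⌋₊ (t - ⌊t⌋₊))
  have hc : Commute (Upath τ t) (Vpath τ t) := by
    change toMax _ (Uel τ ⌊t⌋₊ (t - ⌊t⌋₊)) * toMax _ (Vel τ ⌊t⌋₊ (t - ⌊t⌋₊)) =
      toMax _ (Vel τ ⌊t⌋₊ (t - ⌊t⌋₊)) * toMax _ (Uel τ ⌊t⌋₊ (t - ⌊t⌋₊))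
    rw [← map_mul, ← map_mul, (Uel_Vel_commute τ ⌊t⌋₊ (t - ⌊t⌋₊)).eq]
  have h1 := congrFun (congrFun (bottE_idem hU hV hc) a) b
  rw [Matrix.mul_apply, Fin.sum_univ_two] at h1 ⊢
  change (EL τ r hr a 0 : ℝ≥0 →ᵇ CM (gX (XT τ))) t * (EL τ r hr 0 b : ℝ≥0 →ᵇ CM (gX (XT τ))) t +
    (EL τ r hr a 1 : ℝ≥0 →ᵇ CM (gX (XT τ))) t * (EL τ r hr 1 b : ℝ≥0 →ᵇ CM (gX (XT τ))) t = _
  rw [EL_spec, EL_spec, EL_spec, EL_spec, EL_spec]
  exact h1

instance : Nonempty (XT τ) := ⟨⟨0, 0, 0, 1⟩⟩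

theorem aug_of_sub_one {X : Type} [MetricSpace X] [BddGeometry X] [Nonempty X]
    {T : roeU (gX X)} (hT : IsRoe (gX X) ((T : BX X) - 1)) :
    aug (gX X) (toMax (gX X) T) = 1 := by
  have h4 : coefR (gX X) T = 1 :=
    coefR_eq (gX X) T hT (by rw [one_smul, add_sub_cancel])
  rw [toMax_eq, map_add, aug_roe _ _ (coefR_spec _ _), add_zero, map_smul, map_one,
    smul_eq_mul, mul_one, h4]

theorem EL_aug (r : ℝ) (hr : 2 ≤ r) : (EL τ r hr).map (augL (XT τ) r) = e11 ℂ := by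
  ext a b
  have h1 : augL (XT τ) r (EL τ r hr a b) =
      aug (gX (XT τ)) ((EL τ r hr a b : ℝ≥0 →ᵇ CM (gX (XT τ))) 0) := rfl
  have h2 := congrFun (congrFun (map_bottE (aug (gX (XT τ))) (Upath τ 0) (Vpath τ 0)) a) b
  have h3 : aug (gX (XT τ)) (Upath τ 0) = 1 := aug_of_sub_one (Ubp_roe τ _ _)
  rw [Matrix.map_apply, h1, EL_spec]
  rw [Matrix.map_apply, h3, bottE_one_left] at h2
  exact h2

theorem EL_incl {r r' : ℝ} (hr : 2 ≤ r) (h : r ≤ r') :
    (EL τ r hr).map (inclLoc (X := XT τ) h) = EL τ r' (hr.trans h) := by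
  ext a b t
  change (EL τ r hr a b : ℝ≥0 →ᵇ CM (gX (XT τ))) t =
    (EL τ r' (hr.trans h) a b : ℝ≥0 →ᵇ CM (gX (XT τ))) t
  rw [EL_spec, EL_spec]

end Vale.Agent.P212
end
end

section

section

/-! Vanishing of `K_0(C*_max(W)) → K_0(C*_max(X))`. -/

namespace Vale.Agent.P212

variable (τ : Tower)

/-- The standard grading of the space. -/
abbrev sX : XT τ × ℕ → XT τ := Prod.fst

instance : Countable (PT τ) := by
  have h : Countable (AT τ) := by
    have : Function.Injective (fun a : AT τ =>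
        (⟨a.n, a.w, a.y⟩ : Σ n : ℕ, Torus n × τ.G (2 * n))) := by
      rintro ⟨n, w, y⟩ ⟨n', w', y'⟩ h
      cases h
      rfl
    exact this.countable
  exact inferInstance

/-- The bijection of index sets. -/
noncomputable def th : PT τ × ℕ ≃ XT τ × ℕ := (exists_theta (gr τ) (gr_surjective τ)).choose

theorem th_spec (j : PT τ × ℕ) : sX τ (th τ j) = grJ τ j :=
  (exists_theta (gr τ) (gr_surjective τ)).choose_spec j

/-- The regrading unitary. -/
noncomputable def thL : LP (PT τ) →L[ℂ] LP (XT τ) := pushL2 (th τ) (th τ).injective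

theorem adjoint_thL_comp : ContinuousLinearMap.adjoint (thL τ) ∘L thL τ = 1 :=
  adjoint_pushL2_comp _

/-- The regrading homomorphism. -/
noncomputable def thHom : roeN (grJ τ) →⋆ₙₐ[ℂ] roeN (sX τ) :=
  conjN (grJ τ) (sX τ) (thL τ) (adjoint_thL_comp τ)
    (fun _ hT => isRoe_regrade (th τ) (th_spec τ) hT)

/-- The extension to the maximal algebras. -/
noncomputable def thC : CM (grJ τ) →⋆ₐ[ℂ] CM (sX τ) :=
  CM.lift _ (unitExt _ ((roeToMax (sX τ)).comp (thHom τ)))

/-- The covering isometry of the inclusion through fibrewise constant functions. -/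
noncomputable def wL : LP (base τ) →L[ℂ] LP (XT τ) := thL τ ∘L Cop τ

theorem adjoint_wL_comp : ContinuousLinearMap.adjoint (wL τ) ∘L wL τ = 1 := by
  rw [wL, ContinuousLinearMap.adjoint_comp, ContinuousLinearMap.comp_assoc,
    ← ContinuousLinearMap.comp_assoc (ContinuousLinearMap.adjoint (thL τ)), adjoint_thL_comp]
  exact C_isom τ

theorem isRoe_wL {T : LP (base τ) →L[ℂ] LP (base τ)} (hT : IsRoe (sB τ) T) :
    IsRoe (sX τ) (wL τ ∘L T ∘L ContinuousLinearMap.adjoint (wL τ)) := by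
  have h := isRoe_regrade (t := sX τ) (th τ) (th_spec τ) (isRoe_C τ hT)
  have h2 : wL τ ∘L T ∘L ContinuousLinearMap.adjoint (wL τ) =
      thL τ ∘L (Cop τ ∘L T ∘L ContinuousLinearMap.adjoint (Cop τ)) ∘L
        ContinuousLinearMap.adjoint (thL τ) := by
    rw [wL, ContinuousLinearMap.adjoint_comp]
    simp only [ContinuousLinearMap.comp_assoc]
  rw [h2]
  exact h

theorem adjoint_inclL_inc_mem {X : Type} (W : Set X) {x : X} (hx : x ∈ W) (f : L2 ℕ) :
    ContinuousLinearMap.adjoint (inclL W) (inc x f) = inc (⟨x, hx⟩ : W) f := by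
  apply lp.ext
  funext j
  obtain ⟨b, k⟩ := j
  refine (adjoint_pushL2_apply _ _ _).trans ?_
  change (inc x f : X × ℕ → ℂ) (b.1, k) = _
  by_cases h : b = ⟨x, hx⟩
  · subst h
    rw [inc_apply_self, inc_apply_self]
  · rw [inc_apply_ne h, inc_apply_ne (fun h' => h (Subtype.ext h'))]

theorem adjoint_inclL_inc_not_mem {X : Type} (W : Set X) {x : X} (hx : x ∉ W) (f : L2 ℕ) :
    ContinuousLinearMap.adjoint (inclL W) (inc x f) = 0 := by
  apply lp.ext
  funext j
  obtain ⟨b, k⟩ := j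
  refine (adjoint_pushL2_apply _ _ _).trans ?_
  change (inc x f : X × ℕ → ℂ) (b.1, k) = 0
  rw [inc_apply_ne (fun h' => hx (by rw [← h']; exact b.2))]

/-- The partial isometry comparing the two covering isometries. -/
theorem propLE_comp : PropLE (sX τ) (wL τ ∘L ContinuousLinearMap.adjoint (inclL (base τ))) 0 := by
  refine (propLE_iff_bl (fun x : XT τ => x) _ 0).2 ?_
  intro x x' hxx
  have hne : x ≠ x' := dist_pos.1 hxx
  apply ContinuousLinearMap.ext
  intro f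
  apply lp.ext
  funext k
  rw [bl_apply]
  change (thL τ (Cop τ (ContinuousLinearMap.adjoint (inclL (base τ)) (inc x' f))) :
    XT τ × ℕ → ℂ) (x, k) = 0
  by_cases hx' : x' ∈ base τ
  · rw [adjoint_inclL_inc_mem _ hx']
    obtain ⟨⟨p, k'⟩, hj⟩ := (th τ).surjective (x, k)
    rw [← hj, thL, pushL2_apply, ← bl_apply, fac_bl_C]
    rw [if_neg]
    · rfl
    · rintro ⟨h1, h2⟩
      apply hne
      have h3 := th_spec τ (p, k')
      rw [hj] at h3
      change x = gr τ p at h3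
      have h4 : gr τ p = p.1.pt.1 := by
        rw [gr, h1]
        exact fac_lev_zero τ p.1
      rw [h3, h4, h2]
  · rw [adjoint_inclL_inc_not_mem _ hx', map_zero, map_zero]
    rfl

theorem star_comp_comp : star (wL τ ∘L ContinuousLinearMap.adjoint (inclL (base τ))) *
    (wL τ ∘L ContinuousLinearMap.adjoint (inclL (base τ))) =
      inclL (base τ) ∘L ContinuousLinearMap.adjoint (inclL (base τ)) := by
  rw [ContinuousLinearMap.star_eq_adjoint, ContinuousLinearMap.adjoint_comp,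
    ContinuousLinearMap.adjoint_adjoint]
  change (inclL (base τ) ∘L ContinuousLinearMap.adjoint (wL τ)) ∘L
    (wL τ ∘L ContinuousLinearMap.adjoint (inclL (base τ))) = _
  rw [ContinuousLinearMap.comp_assoc, ← ContinuousLinearMap.comp_assoc _ (wL τ),
    adjoint_wL_comp]
  rfl

theorem isMult_comp : IsMult (sX τ) (wL τ ∘L ContinuousLinearMap.adjoint (inclL (base τ))) := by
  have h1 : inclL (base τ) ∘L ContinuousLinearMap.adjoint (inclL (base τ)) =
      proj (Set.range (fun j : base τ × ℕ => ((j.1 : XT τ), j.2))) := pushL2_comp_adjoint _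
  refine isMult_of_contraction (r := 1 - proj (Set.range
    (fun j : base τ × ℕ => ((j.1 : XT τ), j.2)))) (R' := 0) (propLE_comp τ) ?_ ?_
  · refine (PropLE.one le_rfl).sub ?_
    intro x y hxy
    have hne : x ≠ y := dist_pos.1 hxy
    rw [blk, proj_mul_proj, proj_mul_proj]
    rw [show sX τ ⁻¹' {x} ∩ Set.range (fun j : base τ × ℕ => ((j.1 : XT τ), j.2)) ∩
      sX τ ⁻¹' {y} = ∅ from ?_, proj_empty]
    ext j
    simp only [Set.mem_inter_iff, Set.mem_preimage, Set.mem_singleton_iff,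
      Set.mem_empty_iff_false, iff_false, not_and]
    rintro ⟨hx, _⟩ hy
    exact hne (hx.symm.trans hy)
  · rw [star_comp_comp, h1, star_sub, star_one, star_proj, mul_sub, sub_mul, sub_mul,
      proj_idem]
    simp

/-- The comparison element of the multiplier algebra. -/
noncomputable def wM : MM (sX τ) := toMM (sX τ) ⟨_, isMult_comp τ⟩

theorem thC_gC_roe (T : LP (base τ) →L[ℂ] LP (base τ)) (hT : IsRoe (sB τ) T) :
    thC τ (gC τ (toMax (sB τ) ⟨T, hT.mem_roeU⟩)) =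
      toMax (sX τ) ⟨wL τ ∘L T ∘L ContinuousLinearMap.adjoint (wL τ),
        (isRoe_wL τ hT).mem_roeU⟩ := by
  rw [gC_roe τ T hT, thC, CM.lift_toMax]
  refine (unitExt_apply (grJ τ) ((roeToMax (sX τ)).comp (thHom τ)) _ (isRoe_C τ hT)).trans ?_
  change toMax (sX τ) _ = _
  refine congrArg _ (Subtype.ext ?_)
  change thL τ ∘L (Cop τ ∘L T ∘L ContinuousLinearMap.adjoint (Cop τ)) ∘L
        ContinuousLinearMap.adjoint (thL τ) = wL τ ∘L T ∘L ContinuousLinearMap.adjoint (wL τ)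
  have h : wL τ = thL τ ∘L Cop τ := rfl
  rw [h, ContinuousLinearMap.adjoint_comp]
  simp only [ContinuousLinearMap.comp_assoc]

theorem inclC_roe (T : LP (base τ) →L[ℂ] LP (base τ)) (hT : IsRoe (sB τ) T) :
    inclC (base τ) (toMax (sB τ) ⟨T, hT.mem_roeU⟩) =
      toMax (sX τ) ⟨inclL (base τ) ∘L T ∘L ContinuousLinearMap.adjoint (inclL (base τ)),
        (isRoe_incl (base τ) hT).mem_roeU⟩ := by
  rw [inclC, CM.lift_toMax]
  exact unitExt_apply (sB τ) ((roeToMax (sX τ)).comp (inclN (base τ))) T hT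

theorem aug_inclC (b : CM (sB τ)) (hb : aug (sB τ) b = 0) :
    aug (sX τ) (inclC (base τ) b) = 0 := by
  have hg : Continuous (inclC (base τ)) := CM.continuous_lift _ _
  have ha : Continuous (aug (sX τ)) := CM.continuous_lift _ _
  refine eq_on_ker_aug (sB τ) (fun b => aug (sX τ) (inclC (base τ) b)) (fun _ => 0)
    (ha.comp hg) continuous_const ?_ b hb
  intro T hT
  change aug (sX τ) (inclC (base τ) (toMax (sB τ) ⟨T, hT.mem_roeU⟩)) = 0
  rw [inclC_roe τ T hT]
  exact aug_roe _ _ (isRoe_incl (base τ) hT)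

theorem aug_thC_gC (b : CM (sB τ)) (hb : aug (sB τ) b = 0) :
    aug (sX τ) (thC τ (gC τ b)) = 0 := by
  have hg : Continuous (gC τ) := CM.continuous_lift _ _
  have ht : Continuous (thC τ) := CM.continuous_lift _ _
  have ha : Continuous (aug (sX τ)) := CM.continuous_lift _ _
  refine eq_on_ker_aug (sB τ) (fun b => aug (sX τ) (thC τ (gC τ b))) (fun _ => 0)
    (ha.comp (ht.comp hg)) continuous_const ?_ b hb
  intro T hT
  change aug (sX τ) (thC τ (gC τ (toMax (sB τ) ⟨T, hT.mem_roeU⟩))) = 0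
  rw [thC_gC_roe τ T hT]
  exact aug_roe _ _ (isRoe_wL τ hT)

theorem comp_mul_one (T : LP (base τ) →L[ℂ] LP (base τ)) :
    inclL (base τ) ∘L ContinuousLinearMap.adjoint (inclL (base τ)) ∘L
      (inclL (base τ) ∘L T ∘L ContinuousLinearMap.adjoint (inclL (base τ))) =
      inclL (base τ) ∘L T ∘L ContinuousLinearMap.adjoint (inclL (base τ)) := by
  have h := adjoint_inclL_comp (base τ)
  rw [← ContinuousLinearMap.comp_assoc (ContinuousLinearMap.adjoint (inclL (base τ))), h]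
  rfl

theorem comp_mul_two (T : LP (base τ) →L[ℂ] LP (base τ)) :
    (wL τ ∘L ContinuousLinearMap.adjoint (inclL (base τ))) ∘L
      (inclL (base τ) ∘L T ∘L ContinuousLinearMap.adjoint (inclL (base τ))) ∘L
      (inclL (base τ) ∘L ContinuousLinearMap.adjoint (wL τ)) =
      wL τ ∘L T ∘L ContinuousLinearMap.adjoint (wL τ) := by
  have h : ∀ x, ContinuousLinearMap.adjoint (inclL (base τ)) (inclL (base τ) x) = x :=
    fun x => congrArg (fun L : LP (base τ) →L[ℂ] LP (base τ) => L x)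
      (adjoint_inclL_comp (base τ))
  ext x : 1
  simp [h]

theorem star_wM_mul_wM_mul (b : CM (sB τ)) (hb : aug (sB τ) b = 0) :
    star (wM τ) * wM τ * kap (sX τ) (inclC (base τ) b) = kap (sX τ) (inclC (base τ) b) := by
  have hg : Continuous (inclC (base τ)) := CM.continuous_lift _ _
  have hk : Continuous (kap (sX τ)) := continuous_kap _
  refine eq_on_ker_aug (sB τ)
    (fun b => star (wM τ) * wM τ * kap (sX τ) (inclC (base τ) b))
    (fun b => kap (sX τ) (inclC (base τ) b)) (continuous_const.mul (hk.comp hg))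
    (hk.comp hg) ?_ b hb
  intro T hT
  change star (wM τ) * wM τ * kap (sX τ) (inclC (base τ) (toMax (sB τ) ⟨T, hT.mem_roeU⟩)) =
    kap (sX τ) (inclC (base τ) (toMax (sB τ) ⟨T, hT.mem_roeU⟩))
  rw [inclC_roe τ T hT, kap_toMax, wM, ← map_star, ← map_mul, ← map_mul]
  refine congrArg _ (Subtype.ext ?_)
  change (star (wL τ ∘L ContinuousLinearMap.adjoint (inclL (base τ))) *
    (wL τ ∘L ContinuousLinearMap.adjoint (inclL (base τ)))) *
    (inclL (base τ) ∘L T ∘L ContinuousLinearMap.adjoint (inclL (base τ))) = _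
  rw [star_comp_comp]
  exact comp_mul_one τ T

theorem kap_thC_gC (b : CM (sB τ)) (hb : aug (sB τ) b = 0) :
    kap (sX τ) (thC τ (gC τ b)) =
      wM τ * kap (sX τ) (inclC (base τ) b) * star (wM τ) := by
  have hi : Continuous (inclC (base τ)) := CM.continuous_lift _ _
  have hk : Continuous (kap (sX τ)) := continuous_kap _
  have hg : Continuous (gC τ) := CM.continuous_lift _ _
  have ht : Continuous (thC τ) := CM.continuous_lift _ _
  refine eq_on_ker_aug (sB τ) (fun b => kap (sX τ) (thC τ (gC τ b)))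
    (fun b => wM τ * kap (sX τ) (inclC (base τ) b) * star (wM τ))
    (hk.comp (ht.comp hg)) ((continuous_const.mul (hk.comp hi)).mul continuous_const) ?_ b hb
  intro T hT
  change kap (sX τ) (thC τ (gC τ (toMax (sB τ) ⟨T, hT.mem_roeU⟩))) =
    wM τ * kap (sX τ) (inclC (base τ) (toMax (sB τ) ⟨T, hT.mem_roeU⟩)) * star (wM τ)
  rw [thC_gC_roe τ T hT, inclC_roe τ T hT, kap_toMax, kap_toMax, wM, ← map_star, ← map_mul,
    ← map_mul]
  refine congrArg _ (Subtype.ext ?_)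
  change wL τ ∘L T ∘L ContinuousLinearMap.adjoint (wL τ) =
    ((wL τ ∘L ContinuousLinearMap.adjoint (inclL (base τ))) ∘L
      (inclL (base τ) ∘L T ∘L ContinuousLinearMap.adjoint (inclL (base τ)))) ∘L
      star (wL τ ∘L ContinuousLinearMap.adjoint (inclL (base τ)))
  rw [ContinuousLinearMap.star_eq_adjoint, ContinuousLinearMap.adjoint_comp,
    ContinuousLinearMap.adjoint_adjoint, ContinuousLinearMap.comp_assoc]
  exact (comp_mul_two τ T).symm

theorem cls_inclC_eq_zero {n : ℕ} {e : Matrix (Fin n) (Fin n) (CM (sB τ))} (he : e * e = e)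
    (heI : ∀ i j, aug (sB τ) (e i j) = 0) :
    K0.map (inclC (base τ) : CM (sB τ) →+* CM (sX τ)) (K0.cls e he) = 0 := by
  have h0 : K0.cls (e.map (gC τ : CM (sB τ) →+* CM (grJ τ))) (mapMat_idem _ he) = 0 :=
    cls_gC_eq_zero τ he heI
  have h1 := congrArg (K0.map (thC τ : CM (grJ τ) →+* CM (sX τ))) h0
  rw [map_zero, K0.map_cls] at h1
  rw [K0.map_cls, ← h1]
  refine K0_transfer (sX τ) _ _ (fun i j => aug_inclC τ _ (heI i j))
    (fun i j => aug_thC_gC τ _ (heI i j)) (wM τ) (star (wM τ))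
    (fun i j => star_wM_mul_wM_mul τ _ (heI i j)) (fun i j => kap_thC_gC τ _ (heI i j))

theorem K0incl_eq_zero (x : K0 (CM (Prod.fst : base τ × ℕ → base τ)))
    (hx : x ∈ K0Max (Prod.fst : base τ × ℕ → base τ)) : K0incl (base τ) x = 0 := by
  obtain ⟨n, e, f, he, hf, heI, hfI, rfl⟩ := K0Max_rep x hx
  have h1 := cls_inclC_eq_zero τ he heI
  have h2 := cls_inclC_eq_zero τ hf hfI
  rw [map_sub]
  exact (congrArg₂ (fun a b => a - b) h1 h2).trans (sub_zero 0)

end Vale.Agent.P212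
end
end

section

section

/-! The maximal Roe algebra as the augmentation ideal of `CM`. -/

namespace Vale.Agent.P212

theorem starMap_fst {A B : Type} [NonUnitalCStarAlgebra A] [NonUnitalCStarAlgebra B]
    (φ : A →⋆ₙₐ[ℂ] B) (x : Unitization ℂ A) : (Unitization.starMap φ x).fst = x.fst := by
  change (algebraMap ℂ (Unitization ℂ B) x.fst + Unitization.inr (φ x.snd)).fst = x.fst
  rw [Unitization.fst_add, Unitization.fst_inr, add_zero]
  rfl

theorem starMap_snd {A B : Type} [NonUnitalCStarAlgebra A] [NonUnitalCStarAlgebra B]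
    (φ : A →⋆ₙₐ[ℂ] B) (x : Unitization ℂ A) : (Unitization.starMap φ x).snd = φ x.snd := by
  change (algebraMap ℂ (Unitization ℂ B) x.fst + Unitization.inr (φ x.snd)).snd = φ x.snd
  rw [Unitization.snd_add, Unitization.snd_inr]
  exact zero_add _

section Ideal

variable {X : Type} [MetricSpace X] [BddGeometry X] {J : Type} (s : J → X) [InfFib s]

/-- The augmentation ideal. -/
noncomputable def augI : NonUnitalStarSubalgebra ℂ (CM s) where
  carrier := {b | aug s b = 0}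
  mul_mem' {a b} ha _ := by
    change aug s (a * b) = 0
    rw [map_mul, show aug s a = 0 from ha, zero_mul]
  add_mem' {a b} ha hb := by
    change aug s (a + b) = 0
    rw [map_add, show aug s a = 0 from ha, show aug s b = 0 from hb, add_zero]
  zero_mem' := map_zero (aug s)
  smul_mem' c a ha := by
    change aug s (c • a) = 0
    rw [map_smul, show aug s a = 0 from ha, smul_zero]
  star_mem' {a} ha := by
    change aug s (star a) = 0
    rw [map_star, show aug s a = 0 from ha, star_zero]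

noncomputable instance (priority := 2000) aur : NonUnitalRing (augI s) :=
  (augI s).toNonUnitalRing
noncomputable instance (priority := 2000) aus : NonUnitalSemiring (augI s) :=
  (augI s).toNonUnitalSemiring
noncomputable instance (priority := 2000) aun : NonUnitalNonAssocSemiring (augI s) :=
  (aur s).toNonUnitalNonAssocSemiring
noncomputable instance (priority := 2000) auacm : AddCommMonoid (augI s) :=
  (aun s).toAddCommMonoid
noncomputable instance (priority := 2000) auam : AddMonoid (augI s) := (aur s).toAddMonoid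
noncomputable instance (priority := 2000) auazc : AddZeroClass (augI s) :=
  (auam s).toAddZeroClass
noncomputable instance (priority := 2000) aumod : Module ℂ (augI s) := (augI s).instModule
noncomputable instance (priority := 2000) audma : DistribMulAction ℂ (augI s) :=
  (aumod s).toDistribMulAction
noncomputable instance (priority := 2000) ausm : SMul ℂ (augI s) :=
  (aumod s).toDistribMulAction.toDistribSMul.toSMul

instance isClosed_augI : IsClosed (augI s : Set (CM s)) :=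
  isClosed_eq (continuous_aug s) continuous_const

noncomputable instance instCStarAugI : NonUnitalCStarAlgebra (augI s) := inferInstance

noncomputable instance (priority := 3000) uaCoe :
    CoeFun (Unitization ℂ (augI s) →⋆ₐ[ℂ] CM s) (fun _ => Unitization ℂ (augI s) → CM s) :=
  ⟨fun f => DFunLike.coe f⟩

/-- The map `ℂ[X] → C*_max(X)`. -/
noncomputable def iotaI : roeN s →⋆ₙₐ[ℂ] augI s where
  toFun T := ⟨toMax s ⟨T.1, T.2.mem_roeU⟩, aug_roe s T.1 T.2⟩
  map_smul' c T := Subtype.ext (map_smul (roeToMax s) c T)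
  map_zero' := Subtype.ext (map_zero (roeToMax s))
  map_add' T T' := Subtype.ext (map_add (roeToMax s) T T')
  map_mul' T T' := Subtype.ext (map_mul (roeToMax s) T T')
  map_star' T := Subtype.ext (map_star (roeToMax s) T)

theorem isMaxRoe_iotaI : IsMaxRoeN s (iotaI s) where
  dense := by
    intro a
    rw [closure_subtype]
    have h := (aug_eq_zero_iff s a.1).1 a.2
    refine closure_mono ?_ h
    rintro _ ⟨T, hT, rfl⟩
    exact ⟨iotaI s ⟨T, hT⟩, ⟨⟨T, hT⟩, rfl⟩, rfl⟩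
  max B _ φ T := by
    let ψ : roeN s →⋆ₙₐ[ℂ] Unitization ℂ B :=
      (Unitization.inrNonUnitalStarAlgHom ℂ B).comp φ
    have h1 := unitExt_apply s ψ T.1 T.2
    have h2 := norm_le_maxNorm_of_hom s (unitExt s ψ) ⟨T.1, T.2.mem_roeU⟩
    rw [h1] at h2
    have h3 : ‖ψ ⟨T.1, T.2⟩‖ = ‖φ T‖ := Unitization.norm_inr (𝕜 := ℂ) (φ T)
    rw [h3] at h2
    exact h2.trans (norm_toC (maxNorm s) (⟨T.1, T.2.mem_roeU⟩ : roeU s)).ge

/-- `C*_max(X)^+` as unitization. -/
noncomputable def uniCM : Unitization ℂ (augI s) →⋆ₐ[ℂ] CM s :=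
  Unitization.starLift (NonUnitalStarSubalgebraClass.subtype (augI s))

theorem uniCM_apply (x : Unitization ℂ (augI s)) :
    uniCM s x = algebraMap ℂ (CM s) x.fst + (x.snd : CM s) := rfl

theorem aug_uniCM (x : Unitization ℂ (augI s)) : aug s (uniCM s x) = x.fst := by
  rw [uniCM_apply, map_add, show aug s (x.snd : CM s) = 0 from x.snd.2, add_zero]
  exact (aug s).commutes x.fst

/-- The inverse map. -/
noncomputable def cmUni (b : CM s) : Unitization ℂ (augI s) :=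
  Unitization.inl (aug s b) + Unitization.inr ⟨b - algebraMap ℂ (CM s) (aug s b), by
    change aug s (b - algebraMap ℂ (CM s) (aug s b)) = 0
    rw [map_sub]
    exact sub_eq_zero.2 ((aug s).commutes (aug s b)).symm⟩

theorem cmUni_uniCM (x : Unitization ℂ (augI s)) : cmUni s (uniCM s x) = x := by
  have h := aug_uniCM s x
  apply Unitization.ext
  · simp [cmUni, h]
  · apply Subtype.ext
    simp only [cmUni, Unitization.snd_add, Unitization.snd_inl, Unitization.snd_inr, zero_add]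
    rw [h, uniCM_apply, add_sub_cancel_left]

theorem uniCM_cmUni (b : CM s) : uniCM s (cmUni s b) = b := by
  rw [uniCM_apply]
  simp [cmUni]

/-- The ring isomorphism. -/
noncomputable def cmEquiv : Unitization ℂ (augI s) ≃+* CM s :=
  { (uniCM s : Unitization ℂ (augI s) →+* CM s) with
    invFun := cmUni s
    left_inv := cmUni_uniCM s
    right_inv := uniCM_cmUni s }

end Ideal

variable {X : Type} [MetricSpace X] [BddGeometry X]

theorem aug_inclC_gen (W : Set X) [Nonempty W] [InfFib (Prod.fst : X × ℕ → X)]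
    (b : CM (Prod.fst : W × ℕ → W)) (hb : aug (Prod.fst : W × ℕ → W) b = 0) :
    aug (Prod.fst : X × ℕ → X) (inclC W b) = 0 := by
  have hg : Continuous (inclC W) := CM.continuous_lift _ _
  have ha : Continuous (aug (Prod.fst : X × ℕ → X)) := CM.continuous_lift _ _
  refine eq_on_ker_aug (Prod.fst : W × ℕ → W)
    (fun b => aug (Prod.fst : X × ℕ → X) (inclC W b)) (fun _ => 0)
    (ha.comp hg) continuous_const (fun T hT => ?_) b hb
  rw [inclC, CM.lift_toMax, unitExt_apply _ _ T hT]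
  exact aug_roe _ _ (isRoe_incl W hT)

section Incl

variable [Nonempty X] (W : Set X) [Nonempty W]

/-- The homomorphism `C*_max(W) → C*_max(X)`. -/
noncomputable def phiI : augI (Prod.fst : W × ℕ → W) →⋆ₙₐ[ℂ] augI (Prod.fst : X × ℕ → X) where
  toFun b := ⟨inclC W b.1, aug_inclC_gen W b.1 b.2⟩
  map_smul' c b := Subtype.ext (map_smul (inclC W) c b.1)
  map_zero' := Subtype.ext (map_zero (inclC W))
  map_add' a b := Subtype.ext (map_add (inclC W) a.1 b.1)
  map_mul' a b := Subtype.ext (map_mul (inclC W) a.1 b.1)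
  map_star' b := Subtype.ext (map_star (inclC W) b.1)

theorem phiI_iota (T : roeN (Prod.fst : W × ℕ → W)) :
    phiI W (iotaI _ T) = iotaI _ (inclN W T) := by
  apply Subtype.ext
  change inclC W (toMax (Prod.fst : W × ℕ → W) ⟨T.1, T.2.mem_roeU⟩) = _
  rw [inclC, CM.lift_toMax, unitExt_apply _ _ T.1 T.2]
  rfl

theorem starMap_phiI (x : Unitization ℂ (augI (Prod.fst : W × ℕ → W))) :
    uniCM _ (Unitization.starMap (phiI W) x) = inclC W (uniCM _ x) := by
  rw [uniCM_apply, uniCM_apply, starMap_fst, starMap_snd, map_add]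
  congr 1
  exact ((inclC W).commutes x.fst).symm

theorem starMap_phiI' (x : Unitization ℂ (augI (Prod.fst : W × ℕ → W))) :
    Unitization.starMap (phiI W) x = cmUni _ (inclC W (uniCM _ x)) := by
  rw [← starMap_phiI W x, cmUni_uniCM]

theorem K0_phiI (h : ∀ x ∈ K0Max (Prod.fst : W × ℕ → W), K0incl W x = 0)
    (x : K0 (Unitization ℂ (augI (Prod.fst : W × ℕ → W))))
    (hx : x ∈ K0N (augI (Prod.fst : W × ℕ → W))) :
    K0.map (Unitization.starMap (phiI W) : Unitization ℂ (augI (Prod.fst : W × ℕ → W)) →+*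
      Unitization ℂ (augI (Prod.fst : X × ℕ → X))) x = 0 := by
  let a : Unitization ℂ (augI (Prod.fst : W × ℕ → W)) →+* CM (Prod.fst : W × ℕ → W) :=
    (cmEquiv (Prod.fst : W × ℕ → W)).toRingHom
  let b : CM (Prod.fst : X × ℕ → X) →+* Unitization ℂ (augI (Prod.fst : X × ℕ → X)) :=
    (cmEquiv (Prod.fst : X × ℕ → X)).symm.toRingHom
  let i : CM (Prod.fst : W × ℕ → W) →+* CM (Prod.fst : X × ℕ → X) := (inclC W : _ →+* _)
  let ε : CM (Prod.fst : W × ℕ → W) →+* ℂ := (aug (Prod.fst : W × ℕ → W) : _ →+* ℂ)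
  have h1 : (Unitization.starMap (phiI W) : Unitization ℂ (augI (Prod.fst : W × ℕ → W)) →+*
      Unitization ℂ (augI (Prod.fst : X × ℕ → X))) = b.comp (i.comp a) :=
    RingHom.ext (fun y => starMap_phiI' W y)
  have h3 : ε.comp a = (Unitization.fstHom ℂ (augI (Prod.fst : W × ℕ → W)) :
      Unitization ℂ (augI (Prod.fst : W × ℕ → W)) →+* ℂ) :=
    RingHom.ext (fun y => aug_uniCM _ y)
  have h2 : K0.map a x ∈ K0Max (Prod.fst : W × ℕ → W) := by
    change K0.map ε (K0.map a x) = 0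
    rw [← K0.map_comp, h3]
    exact hx
  have h4 : K0.map i (K0.map a x) = 0 := h _ h2
  rw [h1, K0.map_comp, K0.map_comp, h4, map_zero]

end Incl

end Vale.Agent.P212
end
end

section

section

/-! Translation to the statement with abstract Hilbert spaces. -/

namespace Vale.Agent.P212

section Basis

variable {J : Type}

open Classical in
/-- The basis vectors. -/
noncomputable def bv (j : J) : L2 J := lp.single 2 j (1 : ℂ)

/-- The standard Hilbert basis of `l^2(J)`. -/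
noncomputable def stdB (J : Type) : HilbertBasis J ℂ (L2 J) :=
  HilbertBasis.ofRepr (LinearIsometryEquiv.refl ℂ (L2 J))

theorem stdB_apply (j : J) : stdB J j = bv j := by
  classical
  have h := (stdB J).repr_symm_single j
  rw [← h]
  rfl

open Classical in
theorem bv_apply (j k : J) : (bv j : J → ℂ) k = if k = j then 1 else 0 := by
  split_ifs with h
  · subst h
    exact lp.single_apply_self (E := fun _ : J => ℂ) 2 k (1 : ℂ)
  · exact lp.single_apply_ne (E := fun _ : J => ℂ) 2 j (1 : ℂ) h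

theorem adjoint_push_bv {K : Type} {u : J → K} (hu : Function.Injective u) (k : J) :
    ContinuousLinearMap.adjoint (pushL2 u hu) (bv (u k)) = bv k := by
  classical
  apply lp.ext
  funext j
  rw [adjoint_pushL2_apply, bv_apply, bv_apply]
  simp [hu.eq_iff]

theorem adjoint_push_bv_not {K : Type} {u : J → K} (hu : Function.Injective u) {k : K}
    (hk : k ∉ Set.range u) : ContinuousLinearMap.adjoint (pushL2 u hu) (bv k) = 0 := by
  classical
  apply lp.ext
  funext j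
  rw [adjoint_pushL2_apply, bv_apply, if_neg (fun h => hk ⟨j, h⟩)]
  rfl

theorem inner_bv (j : J) (f : L2 J) : inner ℂ (bv j) f = f j := by
  classical
  rw [bv, lp.inner_single_left]
  simp

theorem inner_stdB (j : J) (f : L2 J) : inner ℂ (stdB J j) f = f j := by
  rw [stdB_apply, inner_bv]

theorem proj_bv_mem {S : Set J} {j : J} (h : j ∈ S) : proj S (bv j) = bv j := by
  classical
  apply lp.ext
  funext k
  by_cases hk : k ∈ S
  · rw [proj_apply_mem _ hk]
  · rw [proj_apply_not_mem _ hk]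
    have hne : k ≠ j := fun h' => hk (h' ▸ h)
    exact (lp.single_apply_ne (E := fun _ : J => ℂ) 2 j (1 : ℂ) hne).symm

theorem proj_bv_not_mem {S : Set J} {j : J} (h : j ∉ S) : proj S (bv j) = 0 := by
  classical
  apply lp.ext
  funext k
  by_cases hk : k ∈ S
  · rw [proj_apply_mem _ hk]
    have hne : k ≠ j := fun h' => h (h' ▸ hk)
    exact lp.single_apply_ne (E := fun _ : J => ℂ) 2 j (1 : ℂ) hne
  · rw [proj_apply_not_mem _ hk]
    rfl

/-- Operators with the same matrix are equal. -/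
theorem ext_inner {T S : L2 J →L[ℂ] L2 J}
    (h : ∀ j k, inner ℂ (stdB J j) (T (stdB J k)) = inner ℂ (stdB J j) (S (stdB J k))) :
    T = S := by
  apply ContinuousLinearMap.ext_on (s := Set.range (stdB J)) ?_ ?_
  · exact Submodule.dense_iff_topologicalClosure_eq_top.2 (stdB J).dense_span
  · rintro _ ⟨k, rfl⟩
    apply lp.ext
    funext j
    have := h j k
    rwa [inner_stdB, inner_stdB] at this

end Basis

variable {X : Type} [MetricSpace X]

theorem blk_inner (s : X × ℕ → X) (T : L2 (X × ℕ) →L[ℂ] L2 (X × ℕ)) (x y : X) (j k : X × ℕ) :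
    inner ℂ (stdB _ j) (blk s T x y (stdB _ k)) =
      open Classical in
      if s j = x ∧ s k = y then inner ℂ (stdB _ j) (T (stdB _ k)) else 0 := by
  classical
  rw [inner_stdB, inner_stdB, stdB_apply]
  change (proj (s ⁻¹' {x}) (T (proj (s ⁻¹' {y}) (bv k))) : X × ℕ → ℂ) j = _
  by_cases hj : s j = x
  · rw [proj_apply_mem _ (show j ∈ s ⁻¹' {x} from hj)]
    by_cases hk : s k = y
    · rw [if_pos ⟨hj, hk⟩, proj_bv_mem (show k ∈ s ⁻¹' {y} from hk)]
    · rw [if_neg (fun h => hk h.2), proj_bv_not_mem (show k ∉ s ⁻¹' {y} from hk), map_zero]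
      rfl
  · rw [if_neg (fun h => hj h.1), proj_apply_not_mem _ (show j ∉ s ⁻¹' {x} from hj)]

theorem isRoeOp_iff (T : L2 (X × ℕ) →L[ℂ] L2 (X × ℕ)) :
    IsRoeOp (stdB (X × ℕ)) T ↔ IsRoe (Prod.fst : X × ℕ → X) T := by
  classical
  constructor
  · rintro ⟨⟨R, hR⟩, h2⟩
    refine ⟨⟨R, fun x y hxy => ?_⟩, fun x y => ?_⟩
    · apply ext_inner
      intro j k
      rw [blk_inner]
      split_ifs with h
      · rw [hR j k (by rw [h.1, h.2]; exact hxy)]
        simp
      · simp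
    · obtain ⟨K, hK, h3, h4⟩ := h2 x y
      have h5 : blk (Prod.fst : X × ℕ → X) T x y = K := by
        apply ext_inner
        intro j k
        rw [blk_inner]
        split_ifs with h
        · obtain ⟨j1, j2⟩ := j
          obtain ⟨k1, k2⟩ := k
          obtain ⟨rfl, rfl⟩ := h
          exact (h3 j2 k2).symm
        · exact (h4 j k h).symm
      rw [h5]
      exact hK
  · rintro ⟨⟨R, hR⟩, h2⟩
    refine ⟨⟨R, fun j k hjk => ?_⟩, fun x y => ⟨blk Prod.fst T x y, h2 x y, fun m n => ?_,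
      fun j k h => ?_⟩⟩
    · have h := blk_inner (Prod.fst : X × ℕ → X) T j.1 k.1 j k
      rw [if_pos ⟨rfl, rfl⟩, hR j.1 k.1 hjk] at h
      rw [← h]
      simp
    · rw [blk_inner, if_pos ⟨rfl, rfl⟩]
    · rw [blk_inner, if_neg h]

variable [BddGeometry X] {J' : Type}

open Classical in
/-- The map `ℂ[X] → C*_max(X)`, extended by zero to all operators. -/
noncomputable def iotaF (s : J' → X) [InfFib s] (T : L2 J' →L[ℂ] L2 J') : augI s :=
  if h : IsRoe s T then iotaI s ⟨T, h⟩ else 0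

theorem iotaF_eq (s : J' → X) [InfFib s] {T : L2 J' →L[ℂ] L2 J'} (h : IsRoe s T) :
    iotaF s T = iotaI s ⟨T, h⟩ := dif_pos h

theorem starHomOn_iotaF (s : J' → X) [InfFib s] :
    StarHomOn (E := L2 J' →L[ℂ] L2 J') (IsRoe s) (iotaF s) := by
  intro S T hS hT
  refine ⟨?_, ?_, ?_, fun c => ?_⟩
  · rw [iotaF_eq s hS, iotaF_eq s hT, iotaF_eq s (hS.add hT)]
    exact (iotaI s).map_add' ⟨S, hS⟩ ⟨T, hT⟩
  · rw [iotaF_eq s hS, iotaF_eq s hT, iotaF_eq s (hS.mul hT)]
    exact (iotaI s).map_mul' ⟨S, hS⟩ ⟨T, hT⟩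
  · rw [iotaF_eq s hT, iotaF_eq s hT.star]
    exact (iotaI s).map_star' ⟨T, hT⟩
  · rw [iotaF_eq s hT, iotaF_eq s (hT.smul c)]
    exact (iotaI s).map_smul' c ⟨T, hT⟩

theorem image_iotaF (s : J' → X) [InfFib s] :
    iotaF s '' {T | IsRoe s T} = Set.range (iotaI s) := by
  ext a
  constructor
  · rintro ⟨T, hT, rfl⟩
    exact ⟨⟨T, hT⟩, (iotaF_eq s hT).symm⟩
  · rintro ⟨⟨T, hT⟩, rfl⟩
    exact ⟨T, hT, iotaF_eq s hT⟩

theorem boundedOn_iotaF (s : J' → X) [InfFib s] (B : Type) [NonUnitalCStarAlgebra B] :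
    BoundedOn (E := L2 J' →L[ℂ] L2 J') (IsRoe s) (iotaF s) B := by
  intro φ hφ T hT
  have hz : φ 0 = 0 := by
    have h := (hφ 0 0 IsRoe.zero IsRoe.zero).1
    rw [add_zero] at h
    exact left_eq_add.1 h
  let ψ : roeN s →⋆ₙₐ[ℂ] B :=
    { toFun := fun T => φ T.1
      map_smul' := fun c T => (hφ T.1 T.1 T.2 T.2).2.2.2 c
      map_zero' := hz
      map_add' := fun S T => (hφ S.1 T.1 S.2 T.2).1
      map_mul' := fun S T => (hφ S.1 T.1 S.2 T.2).2.1
      map_star' := fun T => (hφ T.1 T.1 T.2 T.2).2.2.1 }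
  have h := (isMaxRoe_iotaI s).max B ψ ⟨T, hT⟩
  rw [iotaF_eq s hT]
  exact h

theorem isMaxRoe_model [InfFib (Prod.fst : X × ℕ → X)] :
    IsMaxRoe (stdB (X × ℕ)) (iotaF (Prod.fst : X × ℕ → X)) := by
  have h : (IsRoeOp (stdB (X × ℕ)) : (L2 (X × ℕ) →L[ℂ] L2 (X × ℕ)) → Prop) =
      IsRoe (Prod.fst : X × ℕ → X) := funext fun T => propext (isRoeOp_iff T)
  rw [IsMaxRoe, h]
  refine ⟨starHomOn_iotaF _, ?_, fun B _ => boundedOn_iotaF _ B⟩
  have h2 := (isMaxRoe_iotaI (Prod.fst : X × ℕ → X)).dense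
  rw [DenseRange, ← image_iotaF] at h2
  exact h2

omit [MetricSpace X] [BddGeometry X] in
theorem inner_incl (W : Set X) (T : LP W →L[ℂ] LP W) (j k : X × ℕ) :
    inner ℂ (stdB (X × ℕ) j) ((inclL W ∘L T ∘L ContinuousLinearMap.adjoint (inclL W))
      (stdB (X × ℕ) k)) = inner ℂ (ContinuousLinearMap.adjoint (inclL W) (bv j))
        (T (ContinuousLinearMap.adjoint (inclL W) (bv k))) := by
  rw [stdB_apply, stdB_apply, ContinuousLinearMap.adjoint_inner_left]
  rfl

omit [MetricSpace X] [BddGeometry X] in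
theorem incl_inj (W : Set X) : Function.Injective (fun j : W × ℕ => ((j.1 : X), j.2)) := by
  rintro ⟨a, b⟩ ⟨c, d⟩ h
  simpa [Subtype.ext_iff] using h

omit [MetricSpace X] [BddGeometry X] in
theorem inner_incl_mem (W : Set X) (T : LP W →L[ℂ] LP W) (j k : W × ℕ) :
    inner ℂ (stdB (X × ℕ) ((j.1 : X), j.2)) ((inclL W ∘L T ∘L
      ContinuousLinearMap.adjoint (inclL W)) (stdB (X × ℕ) ((k.1 : X), k.2))) =
      inner ℂ (stdB (W × ℕ) j) (T (stdB (W × ℕ) k)) := by
  have hmem : ∀ j : W × ℕ, ContinuousLinearMap.adjoint (inclL W) (bv ((j.1 : X), j.2)) =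
      bv j := fun j => adjoint_push_bv (incl_inj W) j
  rw [inner_incl, hmem, hmem, ← stdB_apply, ← stdB_apply]

omit [MetricSpace X] [BddGeometry X] in
theorem inner_incl_not (W : Set X) (T : LP W →L[ℂ] LP W) (j k : X × ℕ)
    (h : ¬ (j.1 ∈ W ∧ k.1 ∈ W)) :
    inner ℂ (stdB (X × ℕ) j) ((inclL W ∘L T ∘L
      ContinuousLinearMap.adjoint (inclL W)) (stdB (X × ℕ) k)) = 0 := by
  have hnot : ∀ j : X × ℕ, j.1 ∉ W → ContinuousLinearMap.adjoint (inclL W) (bv j) = 0 := by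
    intro j hj
    refine adjoint_push_bv_not (incl_inj W) ?_
    rintro ⟨l, rfl⟩
    exact hj l.1.2
  rw [inner_incl]
  by_cases hj : j.1 ∈ W
  · rw [hnot k (fun hk => h ⟨hj, hk⟩), map_zero, inner_zero_right]
  · rw [hnot j hj, inner_zero_left]

theorem isInduced_phiI [Nonempty X] (W : Set X) [Nonempty W] :
    IsInduced (stdB (W × ℕ)) (stdB (X × ℕ)) (iotaF Prod.fst) (iotaF Prod.fst) (phiI W) := by
  intro T hT
  have hT' := (isRoeOp_iff T).1 hT
  refine ⟨inclL W ∘L T ∘L ContinuousLinearMap.adjoint (inclL W),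
    (isRoeOp_iff _).2 (isRoe_incl W hT'), ?_, fun j k => inner_incl_mem W T j k,
    fun j k h => inner_incl_not W T j k h⟩
  rw [iotaF_eq _ hT', iotaF_eq _ (isRoe_incl W hT')]
  exact phiI_iota W ⟨T, hT'⟩

/-- Equality in `K_0` in elementary terms. -/
theorem sameK0_iff {R : Type} [Ring R] {n : ℕ} {e f : Matrix (Fin n) (Fin n) R}
    (he : e * e = e) (hf : f * f = f) : SameK0 e f ↔ K0.cls e he = K0.cls f hf :=
  (K0.cls_eq_iff he hf).symm

theorem K0MapZero_of {A B : Type} [NonUnitalCStarAlgebra A] [NonUnitalCStarAlgebra B]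
    (φ : A →⋆ₙₐ[ℂ] B) (h : ∀ x ∈ K0N A,
      K0.map (Unitization.starMap φ : Unitization ℂ A →+* Unitization ℂ B) x = 0) :
    K0MapZero φ := by
  intro n e f he hf hef
  have h1 : K0.cls e he - K0.cls f hf ∈ K0N A := by
    rw [K0N, AddMonoidHom.mem_ker, map_sub, K0.map_cls, K0.map_cls, sub_eq_zero]
    exact (sameK0_iff _ _).1 hef
  have h2 := h _ h1
  rw [map_sub, K0.map_cls, K0.map_cls, sub_eq_zero] at h2
  exact (sameK0_iff _ _).2 h2

theorem zeroOnK0_of [Nonempty X] (W : Set X) [Nonempty W]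
    (h : ∀ x ∈ K0Max (Prod.fst : W × ℕ → W), K0incl W x = 0) :
    ZeroOnK0 W (L2 (W × ℕ)) (L2 (X × ℕ)) (augI (Prod.fst : W × ℕ → W))
      (augI (Prod.fst : X × ℕ → X)) :=
  ⟨stdB _, stdB _, iotaF _, iotaF _, phiI W, isMaxRoe_model, isMaxRoe_model,
    isInduced_phiI W, K0MapZero_of (phiI W) (fun x hx => K0_phiI W h x hx)⟩

end Vale.Agent.P212
end
end

section

section

/-! The main theorem. -/

namespace Vale.Agent.P212

theorem main : ∃ (X : Type) (_ : MetricSpace X) (_ : BddGeometry X) (_ : UnifDiscrete X)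
    (W : Set X) (_ : Nonempty W),
    (∀ x ∈ K0Max (Prod.fst : W × ℕ → W), K0incl W x = 0) ∧
    ∃ c : (Fin 3 → W) → ℤ, Controlled c ∧ bdry c = 0 ∧ ∀ N : ℕ, 1 ≤ N →
      ∀ b : (Fin 4 → X) → ℤ, Controlled b → bdry b ≠ fun x => (N : ℤ) * extendChain W c x := by
  obtain ⟨τ⟩ := exists_tower
  exact ⟨XT τ, inferInstance, inferInstance, inferInstance, base τ, inferInstance,
    fun x hx => K0incl_eq_zero τ x hx, exists_cycle τ⟩

theorem main2 : ∃ (X : Type) (_ : MetricSpace X) (_ : BddGeometry X) (_ : UnifDiscrete X)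
    (W : Set X),
    (∃ (H H' A A' : Type) (_ : NormedAddCommGroup H) (_ : InnerProductSpace ℂ H)
      (_ : CompleteSpace H) (_ : NormedAddCommGroup H') (_ : InnerProductSpace ℂ H')
      (_ : CompleteSpace H') (_ : NonUnitalCStarAlgebra A) (_ : NonUnitalCStarAlgebra A'),
      ZeroOnK0 W H H' A A') ∧
    ∃ c : (Fin 3 → W) → ℤ, Controlled c ∧ bdry c = 0 ∧ ∀ N : ℕ, 1 ≤ N →
      ∀ b : (Fin 4 → X) → ℤ, Controlled b → bdry b ≠ fun x => (N : ℤ) * extendChain W c x := by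
  obtain ⟨X, h1, h2, h3, W, h4, h5, h6⟩ := main
  haveI : Nonempty X := Nonempty.map Subtype.val h4
  exact ⟨X, h1, h2, h3, W, ⟨_, _, _, _, _, _, inferInstance, _, _, inferInstance, _, _,
    zeroOnK0_of W h5⟩, h6⟩

end Vale.Agent.P212
end
end

section

section

/-! The assembly map kills the class. -/

namespace Vale.Agent.P212

open Matrix NNReal

variable (τ : Tower)

theorem Upath_unitary (t : ℝ≥0) : Upath τ t ∈ unitary (CM (gX (XT τ))) :=
  Unitary.map_mem (toMax (gX (XT τ))) (Uel_unitary τ _ _)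

theorem Vpath_unitary (t : ℝ≥0) : Vpath τ t ∈ unitary (CM (gX (XT τ))) :=
  Unitary.map_mem (toMax (gX (XT τ))) (Vel_unitary τ _ _)

theorem UVpath_commute (t : ℝ≥0) : Commute (Upath τ t) (Vpath τ t) :=
  (Uel_Vel_commute τ _ _).map (toMax (gX (XT τ)))

theorem bottE_path_idem (t : ℝ≥0) : bottE (Upath τ t) (Vpath τ t) * bottE (Upath τ t) (Vpath τ t) =
    bottE (Upath τ t) (Vpath τ t) :=
  bottE_idem (Upath_unitary τ t) (Vpath_unitary τ t) (UVpath_commute τ t)

/-! ### Restriction of permutations to a subspace -/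

section

variable {X : Type} [MetricSpace X] [BddGeometry X]

/-- The inclusion of index sets. -/
def ixW (W : Set X) (j : W × ℕ) : X × ℕ := ((j.1 : X), j.2)

omit [MetricSpace X] [BddGeometry X] in
theorem ixW_injective (W : Set X) : Function.Injective (ixW W) := by
  rintro ⟨a, b⟩ ⟨c, d⟩ h
  simpa [ixW, Subtype.ext_iff] using h

omit [MetricSpace X] [BddGeometry X] in
/-- Extension by zero of a permutation operator minus one. -/
theorem incl_permL_sub_one (W : Set X) (ρ' : Equiv.Perm (W × ℕ)) (ρ : Equiv.Perm (X × ℕ))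
    (h : ∀ j, ρ (ixW W j) = ixW W (ρ' j)) (h0 : ∀ k, k ∉ Set.range (ixW W) → ρ k = k) :
    inclL W ∘L (permL ρ' - 1) ∘L ContinuousLinearMap.adjoint (inclL W) = permL ρ - 1 := by
  apply ContinuousLinearMap.ext
  intro f
  apply lp.ext
  funext k
  have e1 : ((permL ρ - 1 : LP X →L[ℂ] LP X) f : X × ℕ → ℂ) k =
      (f : X × ℕ → ℂ) (ρ.symm k) - (f : X × ℕ → ℂ) k := rfl
  refine Eq.trans ?_ e1.symm
  change (inclL W ((permL ρ' - 1) (ContinuousLinearMap.adjoint (inclL W) f)) : X × ℕ → ℂ) k = _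
  by_cases hk : k ∈ Set.range (ixW W)
  · obtain ⟨j, rfl⟩ := hk
    have h1 : ρ.symm (ixW W j) = ixW W (ρ'.symm j) := by
      rw [Equiv.symm_apply_eq, h, Equiv.apply_symm_apply]
    rw [h1]
    have e2 : (inclL W ((permL ρ' - 1) (ContinuousLinearMap.adjoint (inclL W) f)) :
        X × ℕ → ℂ) (ixW W j) = ((permL ρ' - 1 : LP W →L[ℂ] LP W)
          (ContinuousLinearMap.adjoint (inclL W) f) : W × ℕ → ℂ) j :=
      pushL2_apply _ _ j
    have e3 : ((permL ρ' - 1 : LP W →L[ℂ] LP W)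
          (ContinuousLinearMap.adjoint (inclL W) f) : W × ℕ → ℂ) j =
        (ContinuousLinearMap.adjoint (inclL W) f : W × ℕ → ℂ) (ρ'.symm j) -
          (ContinuousLinearMap.adjoint (inclL W) f : W × ℕ → ℂ) j := rfl
    have e4 : ∀ i, (ContinuousLinearMap.adjoint (inclL W) f : W × ℕ → ℂ) i =
        (f : X × ℕ → ℂ) (ixW W i) := fun i => adjoint_pushL2_apply _ f i
    rw [e2, e3, e4, e4]
  · have h1 : ρ.symm k = k := by rw [Equiv.symm_apply_eq, h0 k hk]
    rw [h1, sub_self]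
    exact pushL2_apply_not_mem (ixW_injective W) _ hk

end

/-- The basis vectors used for the grid points, over the base. -/
noncomputable def jiW (m : ℕ) : GI m ↪ base τ × ℕ where
  toFun g := (⟨(ji τ m g).1, rfl⟩, (ji τ m g).2)
  inj' g g' h := by
    apply (ji τ m).injective
    have h1 := congrArg (ixW (base τ)) h
    exact h1

theorem ixW_jiW (m : ℕ) (g : GI m) : ixW (base τ) (jiW τ m g) = ji τ m g := rfl

/-- The permutation of the basis vectors over the base. -/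
noncomputable def pW (m : ℕ) (π : Equiv.Perm (GI m)) : LP (base τ) →L[ℂ] LP (base τ) :=
  permL (π.viaEmbedding (jiW τ m))

theorem pW_mul (m : ℕ) (π π' : Equiv.Perm (GI m)) : pW τ m (π * π') = pW τ m π * pW τ m π' := by
  rw [pW, pW, pW, ← permL_mul, ← Equiv.Perm.viaEmbeddingHom_apply,
    ← Equiv.Perm.viaEmbeddingHom_apply, ← Equiv.Perm.viaEmbeddingHom_apply, map_mul]

theorem pW_one (m : ℕ) : pW τ m 1 = 1 := by
  rw [pW, ← Equiv.Perm.viaEmbeddingHom_apply, map_one, permL_one]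

theorem star_pW (m : ℕ) (π : Equiv.Perm (GI m)) : star (pW τ m π) = pW τ m π⁻¹ := by
  rw [pW, pW, star_permL, ← Equiv.Perm.viaEmbeddingHom_apply, ← Equiv.Perm.viaEmbeddingHom_apply,
    map_inv]

theorem incl_pW (m : ℕ) (π : Equiv.Perm (GI m)) :
    inclL (base τ) ∘L (pW τ m π - 1) ∘L ContinuousLinearMap.adjoint (inclL (base τ)) =
      pL τ m π - 1 := by
  apply incl_permL_sub_one
  · intro j
    by_cases hj : j ∈ Set.range (jiW τ m)
    · obtain ⟨g, rfl⟩ := hj
      rw [ixW_jiW, Equiv.Perm.viaEmbedding_apply, Equiv.Perm.viaEmbedding_apply, ixW_jiW]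
    · have h1 : ixW (base τ) j ∉ Set.range (ji τ m) := by
        rintro ⟨g, hg⟩
        exact hj ⟨g, ixW_injective _ (by rw [ixW_jiW, hg])⟩
      rw [Equiv.Perm.viaEmbedding_apply_of_notMem _ _ _ hj,
        Equiv.Perm.viaEmbedding_apply_of_notMem _ _ _ h1]
  · intro k hk
    have h1 : k ∉ Set.range (ji τ m) := by
      rintro ⟨g, hg⟩
      exact hk ⟨jiW τ m g, by rw [ixW_jiW, hg]⟩
    rw [Equiv.Perm.viaEmbedding_apply_of_notMem _ _ _ h1]

/-- Permutations of the grid moving the vertices by at most two. -/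
theorem pW_roe (m : ℕ) (π : Equiv.Perm (GI m))
    (h : ∀ g, dist (ji τ m (π g)).1 (ji τ m g).1 ≤ 2) :
    IsRoe (gX (base τ)) (pW τ m π - 1) := by
  refine permL_mem _ (fun x => ?_) ⟨2, fun j => ?_⟩
  · refine ((finite_GI m (x : XT τ).n).image (jiW τ m)).subset ?_
    rintro j ⟨hj, hj2⟩
    by_cases hr : j ∈ Set.range (jiW τ m)
    · obtain ⟨g, rfl⟩ := hr
      refine ⟨g, ?_, rfl⟩
      have hj' : ((jiW τ m g).1 : XT τ) = x := congrArg Subtype.val hj
      have hj'' : (ji τ m g).1 = x := hj'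
      rw [fst_ji] at hj''
      exact congrArg XT.n hj''
    · exact absurd (Equiv.Perm.viaEmbedding_apply_of_notMem _ _ _ hr) hj2
  · by_cases hr : j ∈ Set.range (jiW τ m)
    · obtain ⟨g, rfl⟩ := hr
      rw [Equiv.Perm.viaEmbedding_apply]
      exact h g
    · rw [Equiv.Perm.viaEmbedding_apply_of_notMem _ _ _ hr, dist_self]
      norm_num

/-- The permutation as an element of `ℂ 1 + ℂ[W]`. -/
noncomputable def elW (m : ℕ) (π : Equiv.Perm (GI m))
    (h : ∀ g, dist (ji τ m (π g)).1 (ji τ m g).1 ≤ 2) : roeU (gX (base τ)) :=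
  ⟨pW τ m π, 1, by simpa using pW_roe τ m π h⟩

theorem toMax_elW (m : ℕ) (π : Equiv.Perm (GI m))
    (h : ∀ g, dist (ji τ m (π g)).1 (ji τ m g).1 ≤ 2) :
    toMax (gX (base τ)) (elW τ m π h) =
      1 + toMax (gX (base τ)) ⟨pW τ m π - 1, (pW_roe τ m π h).mem_roeU⟩ := by
  rw [← map_one (toMax (gX (base τ))), ← map_add]
  congr 1
  apply Subtype.ext
  exact (add_sub_cancel _ _).symm

theorem aug_elW (m : ℕ) (π : Equiv.Perm (GI m))
    (h : ∀ g, dist (ji τ m (π g)).1 (ji τ m g).1 ≤ 2) :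
    aug (gX (base τ)) (toMax (gX (base τ)) (elW τ m π h)) = 1 := by
  have h1 := aug_roe (gX (base τ)) (pW τ m π - 1) (pW_roe τ m π h)
  rw [toMax_elW, map_add, map_one, h1, add_zero]

/-- The image of the permutation operator under the inclusion. -/
theorem inclC_elW (m : ℕ) (π : Equiv.Perm (GI m))
    (h : ∀ g, dist (ji τ m (π g)).1 (ji τ m g).1 ≤ 2) (T : roeU (gX (XT τ)))
    (hT : (T : BX (XT τ)) = pL τ m π) :
    inclC (base τ) (toMax (gX (base τ)) (elW τ m π h)) = toMax (gX (XT τ)) T := by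
  rw [toMax_elW, map_add, map_one]
  have h1 := inclC_roe τ (pW τ m π - 1) (pW_roe τ m π h)
  have h2 : T = 1 + ⟨inclL (base τ) ∘L (pW τ m π - 1) ∘L
      ContinuousLinearMap.adjoint (inclL (base τ)),
        (isRoe_incl (base τ) (pW_roe τ m π h)).mem_roeU⟩ := by
    apply Subtype.ext
    change (T : BX (XT τ)) = 1 + inclL (base τ) ∘L (pW τ m π - 1) ∘L
      ContinuousLinearMap.adjoint (inclL (base τ))
    rw [incl_pW, hT, add_sub_cancel]
  rw [h2, map_add, map_one]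
  exact congrArg (fun b => 1 + b) h1

theorem elW_unitary (m : ℕ) (π : Equiv.Perm (GI m))
    (h : ∀ g, dist (ji τ m (π g)).1 (ji τ m g).1 ≤ 2) :
    elW τ m π h ∈ unitary (roeU (gX (base τ))) := by
  rw [Unitary.mem_iff]
  constructor
  · apply Subtype.ext
    change star (pW τ m π) * pW τ m π = 1
    rw [star_pW, ← pW_mul, inv_mul_cancel, pW_one]
  · apply Subtype.ext
    change pW τ m π * star (pW τ m π) = 1
    rw [star_pW, ← pW_mul, mul_inv_cancel, pW_one]

theorem elW_commute (m : ℕ) {π π' : Equiv.Perm (GI m)} (hc : Commute π π')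
    (h : ∀ g, dist (ji τ m (π g)).1 (ji τ m g).1 ≤ 2)
    (h' : ∀ g, dist (ji τ m (π' g)).1 (ji τ m g).1 ≤ 2) :
    Commute (elW τ m π h) (elW τ m π' h') := by
  apply Subtype.ext
  change pW τ m π * pW τ m π' = pW τ m π' * pW τ m π
  rw [← pW_mul, ← pW_mul, hc.eq]

theorem Uel_zero : (Uel τ 0 0 : BX (XT τ)) = pL τ 1 (gsX 0) := by
  change Ubp τ 0 0 = _
  rw [Ubp, ra_zero, rb_zero, one_smul, zero_smul, add_zero]

theorem Vel_zero : (Vel τ 0 0 : BX (XT τ)) = pL τ 1 (gsY 0) := by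
  change Vbp τ 0 0 = _
  rw [Vbp, ra_zero, rb_zero, one_smul, zero_smul, add_zero]

theorem Upath_zero : Upath τ 0 = toMax (gX (XT τ)) (Uel τ 0 0) := by
  unfold Upath
  simp

theorem Vpath_zero : Vpath τ 0 = toMax (gX (XT τ)) (Vel τ 0 0) := by
  unfold Vpath
  simp

/-- The vanishing of the class of the Bott projection, abstractly. -/
theorem cls_bott_abstract {A B : Type} [CStarAlgebra A] [CStarAlgebra B] (φ : A →⋆ₐ[ℂ] B)
    (α : A →⋆ₐ[ℂ] ℂ) (u v : A) (hu : u ∈ unitary A) (hv : v ∈ unitary A) (huv : Commute u v)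
    (hα : α u = 1) (hk : ∀ x : K0 A, K0.map (α : A →+* ℂ) x = 0 → K0.map (φ : A →+* B) x = 0)
    (U V : B) (hU : φ u = U) (hV : φ v = V) (hid : bottE U V * bottE U V = bottE U V) :
    K0.cls (bottE U V) hid = K0.cls (e11 B) (e11_idem _) := by
  subst hU
  subst hV
  have hidem := bottE_idem hu hv huv
  have hx : K0.map (α : A →+* ℂ) (K0.cls (bottE u v) hidem - K0.cls (e11 _) (e11_idem _)) = 0 := by
    rw [map_sub, K0.map_cls, K0.map_cls, sub_eq_zero]
    apply K0.cls_congr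
    rw [e11_map]
    have h1 := map_bottE α u v
    rw [hα, bottE_one_left] at h1
    exact h1
  have h0 := hk _ hx
  rw [map_sub, K0.map_cls, K0.map_cls, sub_eq_zero] at h0
  have e1 : (bottE u v).map (φ : A →+* B) = bottE (φ u) (φ v) := map_bottE φ u v
  have e2 := K0.cls_congr (mapMat_idem (φ : A →+* B) hidem) e1
  have e3 := K0.cls_congr (mapMat_idem (φ : A →+* B) (e11_idem A)) (e11_map (φ : A →+* B))
  rw [e2, e3] at h0
  exact h0

theorem inclC_uW : inclC (base τ) (toMax (gX (base τ)) (elW τ 1 (gsX 0) (dist_sX τ 0))) =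
    Upath τ 0 := by
  rw [Upath_zero]
  exact inclC_elW τ 1 (gsX 0) (dist_sX τ 0) _ (Uel_zero τ)

theorem inclC_vW : inclC (base τ) (toMax (gX (base τ)) (elW τ 1 (gsY 0) (dist_sY τ 0))) =
    Vpath τ 0 := by
  rw [Vpath_zero]
  exact inclC_elW τ 1 (gsY 0) (dist_sY τ 0) _ (Vel_zero τ)

theorem toMax_elW_unitary (m : ℕ) (π : Equiv.Perm (GI m))
    (h : ∀ g, dist (ji τ m (π g)).1 (ji τ m g).1 ≤ 2) :
    toMax (gX (base τ)) (elW τ m π h) ∈ unitary (CM (gX (base τ))) :=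
  Unitary.map_mem (toMax (gX (base τ))) (elW_unitary τ m π h)

theorem toMax_elW_commute (m : ℕ) {π π' : Equiv.Perm (GI m)} (hc : Commute π π')
    (h : ∀ g, dist (ji τ m (π g)).1 (ji τ m g).1 ≤ 2)
    (h' : ∀ g, dist (ji τ m (π' g)).1 (ji τ m g).1 ≤ 2) :
    Commute (toMax (gX (base τ)) (elW τ m π h)) (toMax (gX (base τ)) (elW τ m π' h')) :=
  (elW_commute τ m hc h h').map (toMax (gX (base τ)))

/-- The class of the Bott projection at time zero vanishes in `K_0(C*_max(X))`. -/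
theorem cls_bott_zero : K0.cls (bottE (Upath τ 0) (Vpath τ 0)) (bottE_path_idem τ 0) =
    K0.cls (e11 (CM (gX (XT τ)))) (e11_idem _) :=
  cls_bott_abstract (inclC (base τ)) (aug (gX (base τ))) _ _
    (toMax_elW_unitary τ 1 (gsX 0) (dist_sX τ 0)) (toMax_elW_unitary τ 1 (gsY 0) (dist_sY τ 0))
    (toMax_elW_commute τ 1 (commute_sX_sY 0) (dist_sX τ 0) (dist_sY τ 0))
    (aug_elW τ 1 (gsX 0) (dist_sX τ 0)) (fun x hx => K0incl_eq_zero τ x hx)
    _ _ (inclC_uW τ) (inclC_vW τ) (bottE_path_idem τ 0)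

end Vale.Agent.P212
end
end

section

section

/-! The class of the path of Bott projections in the coarse K-homology. -/

namespace Vale.Agent.P212

open Matrix TensorProduct NNReal

section aux

variable {X : Type} [MetricSpace X] [BddGeometry X] [Nonempty X]

end aux

variable (τ : Tower)

/-- The class at scale `r`. -/
noncomputable def yL (r : ℝ) (hr : 2 ≤ r) : K0 (locU (XT τ) r) :=
  K0.cls (EL τ r hr) (EL_idem τ r hr) - K0.cls (e11 (locU (XT τ) r)) (e11_idem _)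

theorem yL_mem (r : ℝ) (hr : 2 ≤ r) : yL τ r hr ∈ K0L (XT τ) r := by
  change K0.map (augL (XT τ) r : locU (XT τ) r →+* ℂ) (yL τ r hr) = 0
  unfold yL
  rw [map_sub, K0.map_cls, K0.map_cls, sub_eq_zero]
  have h1 : (EL τ r hr).map (augL (XT τ) r : locU (XT τ) r →+* ℂ) = e11 ℂ := EL_aug τ r hr
  have h2 : (e11 (locU (XT τ) r)).map (augL (XT τ) r : locU (XT τ) r →+* ℂ) = e11 ℂ :=
    e11_map _
  rw [K0.cls_congr _ h1, K0.cls_congr _ h2]

theorem yL_map {r r' : ℝ} (hr : 2 ≤ r) (h : r ≤ r') :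
    K0L.map h ⟨yL τ r hr, yL_mem τ r hr⟩ = ⟨yL τ r' (hr.trans h), yL_mem τ r' (hr.trans h)⟩ := by
  apply Subtype.ext
  change K0.map (inclLoc (X := XT τ) h : locU (XT τ) r →+* locU (XT τ) r') (yL τ r hr) =
    yL τ r' (hr.trans h)
  unfold yL
  rw [map_sub, K0.map_cls, K0.map_cls]
  have h1 : (EL τ r hr).map (inclLoc (X := XT τ) h : locU (XT τ) r →+* locU (XT τ) r') =
      EL τ r' (hr.trans h) := EL_incl τ hr h
  have h2 : (e11 (locU (XT τ) r)).map
      (inclLoc (X := XT τ) h : locU (XT τ) r →+* locU (XT τ) r') = e11 (locU (XT τ) r') :=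
    e11_map _
  rw [K0.cls_congr _ h1, K0.cls_congr _ h2]

end Vale.Agent.P212
end
end

section

section

/-! Translation of Theorem B to the statement with abstract Hilbert spaces. -/

namespace Vale.Agent.P212

open NNReal BoundedContinuousFunction Matrix

section Place

variable {X : Type} [MetricSpace X] [BddGeometry X]

/-- The position of a basis vector. -/
noncomputable def pC (j : X × ℕ) : X →₀ ℚ := (pos j).1

omit [BddGeometry X] in
theorem inRipsC_iff (r : ℝ) (q : RPt X) : InRipsC r q.1 ↔ InRips r q :=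
  ⟨fun h => h.2.2, fun h => ⟨q.2.1, q.2.2, h⟩⟩

omit [BddGeometry X] in
theorem exists_inRips (q : RPt X) : ∃ r, InRips r q := by
  classical
  have h := ((q.1.support ×ˢ q.1.support).finite_toSet.image
    (fun z : X × X => dist z.1 z.2)).bddAbove
  obtain ⟨r, hr⟩ := h
  refine ⟨r, fun x hx y hy => hr ⟨(x, y), ?_, rfl⟩⟩
  rw [Finset.mem_coe, Finset.mem_product]
  exact ⟨hx, hy⟩

theorem isPlacement_pC : IsPlacement (pC : X × ℕ → X →₀ ℚ) := by
  refine ⟨fun j => ?_, fun r q hq x hx => ?_⟩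
  · obtain ⟨r, hr⟩ := exists_inRips (pos j)
    exact ⟨r, (inRipsC_iff r _).2 hr, fst_mem_support_pos j⟩
  · let q' : RPt X := ⟨q, hq.1, hq.2.1⟩
    refine Set.infinite_of_injective_forall_mem
      (f := fun m : ℕ => (enum x).symm (⟨q', hx⟩, m)) ?_ ?_
    · intro a b h
      have h1 := (enum x).symm.injective h
      exact (Prod.mk.inj h1).2
    · intro m
      change (((enum x) ((enum x).symm (⟨q', hx⟩, m))).1).1.1 = q
      rw [Equiv.apply_symm_apply]

theorem inner_eq_ent (T : BX X) (j k : X × ℕ) :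
    inner ℂ (stdB (X × ℕ) j) (T (stdB (X × ℕ) k)) = ent T j k := by
  rw [inner_stdB, stdB_apply]
  rfl

theorem isLocalC_iff (r : ℝ) (T : ℝ≥0 → BX X) :
    IsLocalC (stdB (X × ℕ)) pC r T ↔ IsLocal r T := by
  constructor
  · rintro ⟨h1, h2, h3⟩
    refine ⟨fun t => (isRoeOp_iff (T t)).1 (h1 t), fun t j k hjk => ?_, fun ε hε => ?_⟩
    · rw [← inner_eq_ent] at hjk
      obtain ⟨h4, h5⟩ := h2 t j k hjk
      exact ⟨(inRipsC_iff r _).1 h4, (inRipsC_iff r _).1 h5, RPt.dist_le_two _ _⟩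
    · obtain ⟨t₀, ht₀⟩ := h3 ε hε
      refine ⟨t₀, fun t ht j k hjk => ?_⟩
      rw [← inner_eq_ent] at hjk
      obtain ⟨h4, h5⟩ := h2 t j k hjk
      exact ⟨(inRipsC_iff r _).1 h4, (inRipsC_iff r _).1 h5, ht₀ t ht j k hjk⟩
  · rintro ⟨h1, h2, h3⟩
    refine ⟨fun t => (isRoeOp_iff (T t)).2 (h1 t), fun t j k hjk => ?_, fun ε hε => ?_⟩
    · rw [inner_eq_ent] at hjk
      obtain ⟨h4, h5, _⟩ := h2 t j k hjk
      exact ⟨(inRipsC_iff r _).2 h4, (inRipsC_iff r _).2 h5⟩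
    · obtain ⟨t₀, ht₀⟩ := h3 ε hε
      refine ⟨t₀, fun t ht j k hjk => ?_⟩
      rw [inner_eq_ent] at hjk
      exact (ht₀ t ht j k hjk).2.2

end Place

section Loc

variable {X : Type} [MetricSpace X] [BddGeometry X] [Nonempty X]

/-- Unital paths as functions with values in the unitization. -/
noncomputable def Jr (X : Type) [MetricSpace X] [BddGeometry X] [Nonempty X] (r : ℝ) :
    locU X r →+* (ℝ≥0 → Unitization ℂ (augI (gX X))) where
  toFun F t := (cmEquiv (gX X)).symm ((F : ℝ≥0 →ᵇ CM (gX X)) t)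
  map_one' := funext fun _ => map_one (cmEquiv (gX X)).symm
  map_mul' F G := funext fun t => map_mul (cmEquiv (gX X)).symm _ _
  map_zero' := funext fun _ => map_zero (cmEquiv (gX X)).symm
  map_add' F G := funext fun t => map_add (cmEquiv (gX X)).symm _ _

theorem Jr_apply (r : ℝ) (F : locU X r) (t : ℝ≥0) :
    Jr X r F t = cmUni (gX X) ((F : ℝ≥0 →ᵇ CM (gX X)) t) := rfl

theorem cmUni_fst (b : CM (gX X)) : (cmUni (gX X) b).fst = aug (gX X) b := by
  simp [cmUni]

theorem cmUni_snd (b : CM (gX X)) : (((cmUni (gX X) b).snd : augI (gX X)) : CM (gX X)) =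
    b - algebraMap ℂ (CM (gX X)) (aug (gX X) b) := by
  simp [cmUni]

theorem Jr_injective (r : ℝ) : Function.Injective (Jr X r) := by
  intro F G h
  apply Subtype.ext
  ext t
  exact (cmEquiv (gX X)).symm.injective (congrFun h t)

theorem coe_iotaF {T : BX X} (hT : IsRoe (gX X) T) :
    ((iotaF (gX X) T : augI (gX X)) : CM (gX X)) = toMax (gX X) ⟨T, hT.mem_roeU⟩ := by
  rw [iotaF_eq (gX X) hT]
  rfl

theorem toMax_add_smul {T : BX X} (hT : IsRoe (gX X) T) (c : ℂ) (T' : roeU (gX X))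
    (h : (T' : BX X) - c • 1 = T) :
    toMax (gX X) T' = algebraMap ℂ (CM (gX X)) c + (iotaF (gX X) T : augI (gX X)) := by
  rw [coe_iotaF hT]
  have h1 : T' = algebraMap ℂ (roeU (gX X)) c + ⟨T, hT.mem_roeU⟩ := by
    apply Subtype.ext
    change (T' : BX X) = algebraMap ℂ (BX X) c + T
    rw [← h, Algebra.algebraMap_eq_smul_one, add_sub_cancel]
  conv_lhs => rw [h1]
  rw [map_add, AlgHomClass.commutes]

theorem norm_aug_le (a : CM (gX X)) : ‖aug (gX X) a‖ ≤ ‖a‖ :=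
  NonUnitalStarAlgHom.norm_apply_le (aug (gX X)) a

theorem norm_algebraMap_CM (c : ℂ) : ‖algebraMap ℂ (CM (gX X)) c‖ ≤ ‖c‖ := by
  rw [Algebra.algebraMap_eq_smul_one, norm_smul]
  exact (mul_le_mul_of_nonneg_left (norm_one_CM_le (gX X)) (norm_nonneg c)).trans
    (mul_one _).le

theorem aug_algebraMap_add (c : ℂ) (a : augI (gX X)) :
    aug (gX X) (algebraMap ℂ (CM (gX X)) c + (a : CM (gX X))) = c := by
  rw [map_add, show aug (gX X) (a : CM (gX X)) = 0 from a.2, add_zero, AlgHomClass.commutes]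
  rfl

/-- The scalar part of an element of the localization algebra does not depend on time. -/
theorem exists_approx_locU (r : ℝ) (F : locU X r) {ε : ℝ} (hε : 0 < ε) :
    ∃ (g : ℝ≥0 →ᵇ CM (gX X)) (c : ℂ) (T : ℝ≥0 → BX X), UniformContinuous g ∧ IsLocal r T ∧
      (∀ t, g t = algebraMap ℂ (CM (gX X)) c + (iotaF (gX X) (T t) : augI (gX X))) ∧
      ∀ t, ‖(F : ℝ≥0 →ᵇ CM (gX X)) t - g t‖ ≤ ε := by
  obtain ⟨g, hg, hFg⟩ := Metric.mem_closure_iff.1
    (show (F : ℝ≥0 →ᵇ CM (gX X)) ∈ closure ((locAlg X r : StarSubalgebra ℂ _) : Set _) from F.2)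
    ε hε
  obtain ⟨hu, c, T, hT, hgT⟩ := hg
  refine ⟨g, c, fun t => (T t : BX X) - c • 1, hu, hT, fun t => ?_, fun t => ?_⟩
  · rw [hgT t]
    exact toMax_add_smul (hT.roe t) c (T t) rfl
  · rw [← dist_eq_norm]
    exact (BoundedContinuousFunction.dist_coe_le_dist t).trans hFg.le

theorem aug_locU (r : ℝ) (F : locU X r) (t : ℝ≥0) :
    aug (gX X) ((F : ℝ≥0 →ᵇ CM (gX X)) t) = augL X r F := by
  refine eq_of_forall_dist_le (fun ε hε => ?_)
  obtain ⟨g, c, T, -, -, hg, hFg⟩ := exists_approx_locU r F (half_pos hε)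
  have h1 : ∀ s, ‖aug (gX X) ((F : ℝ≥0 →ᵇ CM (gX X)) s) - c‖ ≤ ε / 2 := by
    intro s
    have h2 : aug (gX X) (g s) = c := by rw [hg s, aug_algebraMap_add]
    rw [← h2, ← map_sub]
    exact (norm_aug_le _).trans (hFg s)
  have h3 := h1 t
  have h4 := h1 0
  rw [← dist_eq_norm] at h3 h4
  calc dist (aug (gX X) ((F : ℝ≥0 →ᵇ CM (gX X)) t)) (augL X r F)
      ≤ dist (aug (gX X) ((F : ℝ≥0 →ᵇ CM (gX X)) t)) c + dist c (augL X r F) :=
        dist_triangle _ _ _
    _ ≤ ε / 2 + ε / 2 := by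
        rw [dist_comm c]
        exact add_le_add h3 h4
    _ = ε := add_halves ε

theorem isLoc_Jr (r : ℝ) (F : locU X r) :
    IsLoc (stdB (X × ℕ)) (iotaF (gX X)) pC r (Jr X r F) := by
  refine ⟨augL X r F, fun t => (Jr X r F t).snd, fun t => ?_, fun ε hε => ?_⟩
  · apply Unitization.ext
    · rw [Jr_apply, cmUni_fst, aug_locU]
      simp
    · simp
  · obtain ⟨g, c, T, hu, hT, hg, hFg⟩ := exists_approx_locU r F (half_pos hε)
    have hval : ∀ t, ((iotaF (gX X) (T t) : augI (gX X)) : CM (gX X)) =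
        g t - algebraMap ℂ (CM (gX X)) c := by
      intro t
      rw [hg t, add_sub_cancel_left]
    refine ⟨T, (isLocalC_iff r T).2 hT, ?_, ⟨‖g‖ + ‖c‖, fun t => ?_⟩, fun t => ?_⟩
    · rw [isUniformEmbedding_subtype_val.isUniformInducing.uniformContinuous_iff]
      have h1 : (Subtype.val ∘ fun t => (iotaF (gX X) (T t) : augI (gX X))) =
          fun t => g t - algebraMap ℂ (CM (gX X)) c := funext hval
      rw [h1]
      exact hu.sub uniformContinuous_const
    · change ‖((iotaF (gX X) (T t) : augI (gX X)) : CM (gX X))‖ ≤ _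
      rw [hval t]
      refine (norm_sub_le _ _).trans (add_le_add (g.norm_coe_le_norm t) (norm_algebraMap_CM c))
    · change ‖(((Jr X r F t).snd : augI (gX X)) : CM (gX X)) -
        ((iotaF (gX X) (T t) : augI (gX X)) : CM (gX X))‖ ≤ ε
      have h2 : (((Jr X r F t).snd : augI (gX X)) : CM (gX X)) =
          (F : ℝ≥0 →ᵇ CM (gX X)) t - algebraMap ℂ (CM (gX X)) (augL X r F) := by
        rw [Jr_apply, cmUni_snd, aug_locU]
      have h3 : aug (gX X) (g t) = c := by rw [hg t, aug_algebraMap_add]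
      have h4 : ‖algebraMap ℂ (CM (gX X)) (augL X r F - c)‖ ≤ ε / 2 := by
        refine (norm_algebraMap_CM _).trans ?_
        rw [← h3, ← aug_locU r F t, ← map_sub]
        exact (norm_aug_le _).trans (hFg t)
      rw [h2, hval t]
      have h5 : (F : ℝ≥0 →ᵇ CM (gX X)) t - algebraMap ℂ (CM (gX X)) (augL X r F) -
          (g t - algebraMap ℂ (CM (gX X)) c) = ((F : ℝ≥0 →ᵇ CM (gX X)) t - g t) -
            algebraMap ℂ (CM (gX X)) (augL X r F - c) := by
        rw [map_sub]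
        abel
      rw [h5]
      refine (norm_sub_le _ _).trans ?_
      linarith only [hFg t, h4]

theorem exists_of_isLoc (r : ℝ) (G : ℝ≥0 → Unitization ℂ (augI (gX X)))
    (hG : IsLoc (stdB (X × ℕ)) (iotaF (gX X)) pC r G) : ∃ F : locU X r, Jr X r F = G := by
  obtain ⟨c, f, hf, happ⟩ := hG
  -- the approximating elements of the algebraic localization algebra
  have key : ∀ ε > 0, ∃ g : ℝ≥0 →ᵇ CM (gX X), g ∈ locAlg X r ∧
      ∀ t, ‖uniCM (gX X) (G t) - g t‖ ≤ ε := by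
    intro ε hε
    obtain ⟨T, hT, hu, ⟨C, hC⟩, hfT⟩ := happ ε hε
    have hT' := (isLocalC_iff r T).1 hT
    have hu' : UniformContinuous (fun t => algebraMap ℂ (CM (gX X)) c +
        ((iotaF (gX X) (T t) : augI (gX X)) : CM (gX X))) :=
      uniformContinuous_const.add (uniformContinuous_subtype_val.comp hu)
    refine ⟨BoundedContinuousFunction.ofNormedAddCommGroup (fun t =>
      algebraMap ℂ (CM (gX X)) c + ((iotaF (gX X) (T t) : augI (gX X)) : CM (gX X)))
      hu'.continuous (‖c‖ + C) (fun t => ?_), ⟨hu', c, fun t => ⟨c • 1 + T t, c, ?_⟩, ?_,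
      fun t => ?_⟩, fun t => ?_⟩
    · exact (norm_add_le _ _).trans (add_le_add (norm_algebraMap_CM c) (hC t))
    · rw [add_sub_cancel_left]
      exact hT'.roe t
    · have h1 : (fun t => ((⟨c • 1 + T t, c, by
          rw [add_sub_cancel_left]
          exact hT'.roe t⟩ : roeU (gX X)) : BX X) - c • 1) = T := by
        funext t
        exact add_sub_cancel_left _ _
      rw [h1]
      exact hT'
    · exact (toMax_add_smul (hT'.roe t) c ⟨c • 1 + T t, c, by
        rw [add_sub_cancel_left]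
        exact hT'.roe t⟩ (add_sub_cancel_left (c • (1 : BX X)) (T t))).symm
    · change ‖uniCM (gX X) (G t) - (algebraMap ℂ (CM (gX X)) c +
        ((iotaF (gX X) (T t) : augI (gX X)) : CM (gX X)))‖ ≤ ε
      rw [uniCM_apply, hf t]
      simp only [Unitization.fst_add, Unitization.fst_inl, Unitization.fst_inr, add_zero,
        Unitization.snd_add, Unitization.snd_inl, Unitization.snd_inr, zero_add]
      rw [add_sub_add_left_eq_sub]
      exact hfT t
  have hcont : Continuous (fun t => uniCM (gX X) (G t)) := by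
    refine continuous_of_uniform_approx_of_continuous (fun u hu => ?_)
    obtain ⟨ε, hε, hεu⟩ := Metric.mem_uniformity_dist.1 hu
    obtain ⟨g, -, hg⟩ := key (ε / 2) (half_pos hε)
    refine ⟨g, g.continuous, fun t => hεu ?_⟩
    rw [dist_eq_norm]
    exact (hg t).trans_lt (half_lt_self hε)
  obtain ⟨g₁, -, hg₁⟩ := key 1 one_pos
  let F : ℝ≥0 →ᵇ CM (gX X) := BoundedContinuousFunction.ofNormedAddCommGroup
    (fun t => uniCM (gX X) (G t)) hcont (1 + ‖g₁‖) (fun t => by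
      have h1 : uniCM (gX X) (G t) = (uniCM (gX X) (G t) - g₁ t) + g₁ t :=
        (sub_add_cancel _ _).symm
      rw [h1]
      exact (norm_add_le _ _).trans (add_le_add (hg₁ t) (g₁.norm_coe_le_norm t)))
  have hF : F ∈ locU X r := by
    change F ∈ closure ((locAlg X r : StarSubalgebra ℂ _) : Set _)
    rw [Metric.mem_closure_iff]
    intro ε hε
    obtain ⟨g, hg, hgF⟩ := key (ε / 2) (half_pos hε)
    refine ⟨g, hg, ?_⟩
    refine ((BoundedContinuousFunction.dist_le (half_pos hε).le).2 (fun t => ?_)).trans_lt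
      (half_lt_self hε)
    rw [dist_eq_norm]
    exact hgF t
  refine ⟨⟨F, hF⟩, ?_⟩
  funext t
  rw [Jr_apply]
  exact cmUni_uniCM (gX X) (G t)

end Loc

end Vale.Agent.P212
end
end

section

section

/-! The counterexample, for abstract Hilbert spaces. -/

namespace Vale.Agent.P212

open NNReal BoundedContinuousFunction Matrix

theorem sameK_true_iff {R : Type} [Ring R] {κ : Type} [Fintype κ] {e f : Matrix κ κ R}
    (he : e * e = e) (hf : f * f = f) :
    SameK (fun _ => True) e f ↔ K0.cls e he = K0.cls f hf := by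
  rw [K0.cls_eq_iff]
  constructor
  · rintro ⟨m, x, y, -, h1, h2⟩
    exact ⟨m, x, y, h1, h2⟩
  · rintro ⟨m, x, y, h1, h2⟩
    exact ⟨m, x, y, fun _ _ => ⟨trivial, trivial⟩, h1, h2⟩

theorem SameK.map_true {R S : Type} [Ring R] [Ring S] (φ : R →+* S) {κ : Type} [Fintype κ]
    {e f : Matrix κ κ R} (h : SameK (fun _ => True) e f) :
    SameK (fun _ => True) (e.map φ) (f.map φ) := by
  obtain ⟨m, x, y, -, h1, h2⟩ := h
  refine ⟨m, x.map φ, y.map φ, fun _ _ => ⟨trivial, trivial⟩, ?_, ?_⟩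
  · rw [← Matrix.map_mul, h1, Matrix.fromBlocks_map]
    simp
  · rw [← Matrix.map_mul, h2, Matrix.fromBlocks_map]
    simp

/-- Lifting along an injective homomorphism onto the subring. -/
theorem SameK.lift {R S : Type} [Ring R] [Ring S] (φ : R →+* S) (hφ : Function.Injective φ)
    {P : S → Prop} (hP : ∀ s, P s → ∃ r, φ r = s) {κ : Type} [Fintype κ]
    {e f : Matrix κ κ R} (h : SameK P (e.map φ) (f.map φ)) : SameK (fun _ => True) e f := by
  obtain ⟨m, x, y, hxy, h1, h2⟩ := h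
  choose x' hx' using fun j k => hP (x j k) (hxy j k).1
  choose y' hy' using fun j k => hP (y j k) (hxy j k).2
  have hx : (Matrix.of x').map φ = x := by
    ext j k
    exact hx' j k
  have hy : (Matrix.of y').map φ = y := by
    ext j k
    exact hy' j k
  have hinj : Function.Injective (fun M : Matrix (κ ⊕ Fin m) (κ ⊕ Fin m) R => M.map φ) :=
    Matrix.map_injective hφ
  refine ⟨m, Matrix.of x', Matrix.of y', fun _ _ => ⟨trivial, trivial⟩, hinj ?_, hinj ?_⟩
  · change (Matrix.of x' * Matrix.of y').map φ = (fromBlocks e 0 0 1).map φ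
    rw [Matrix.map_mul, hx, hy, h1, Matrix.fromBlocks_map]
    simp
  · change (Matrix.of y' * Matrix.of x').map φ = (fromBlocks f 0 0 1).map φ
    rw [Matrix.map_mul, hx, hy, h2, Matrix.fromBlocks_map]
    simp

theorem blockDiagonal_idem {R : Type} [Ring R] (N : ℕ) {E : Matrix (Fin 2) (Fin 2) R}
    (hE : E * E = E) : (blockDiagonal fun _ : Fin N => E) * (blockDiagonal fun _ : Fin N => E) =
      blockDiagonal fun _ : Fin N => E := by
  rw [← blockDiagonal_mul]
  simp [hE]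

theorem cls_blockDiagonal {R : Type} [Ring R] (N : ℕ) {E : Matrix (Fin 2) (Fin 2) R}
    (hE : E * E = E) :
    K0.cls (blockDiagonal fun _ : Fin N => E) (blockDiagonal_idem N hE) = N • K0.cls E hE := by
  rw [← K0.cls_copies N hE (copies_idem N hE)]
  have h1 : (blockDiagonal fun _ : Fin N => E) = (copies N E).submatrix
      (Equiv.prodComm (Fin 2) (Fin N)) (Equiv.prodComm (Fin 2) (Fin N)) := by
    ext a b
    simp [copies, blockDiagonal_apply]
  rw [K0.cls_congr _ h1, K0.cls_submatrix]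

theorem blockDiagonal_mapC {R S : Type} [Ring R] [Ring S] (φ : R →+* S) (N : ℕ)
    (E : Matrix (Fin 2) (Fin 2) R) : (blockDiagonal fun _ : Fin N => E.map φ) =
      (blockDiagonal fun _ : Fin N => E).map φ := by
  rw [Matrix.blockDiagonal_map _ _ (map_zero φ)]

theorem counterexample_of (τ : Tower)
    (hnt : ∀ (r : ℝ) (hr : 2 ≤ r) (N : ℕ), 1 ≤ N → N • yL τ r hr ≠ 0) :
    Counterexample (XT τ) (L2 (XT τ × ℕ)) (augI (gX (XT τ))) := by
  refine ⟨stdB _, iotaF (gX (XT τ)), pC, isMaxRoe_model, isPlacement_pC, fun hinj => ?_⟩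
  have h2 : (2 : ℝ) ≤ 2 := le_rfl
  have hE := EL_idem τ 2 h2
  have hF := e11_idem (locU (XT τ) 2)
  have haug : ((EL τ 2 h2).map (Jr (XT τ) 2)).map (fun F => (F 0).fst) =
      ((e11 (locU (XT τ) 2)).map (Jr (XT τ) 2)).map (fun F => (F 0).fst) := by
    have h3 : ∀ M : Matrix (Fin 2) (Fin 2) (locU (XT τ) 2),
        (M.map (Jr (XT τ) 2)).map (fun F => (F 0).fst) = M.map (augL (XT τ) 2) := by
      intro M
      ext a b
      exact cmUni_fst _
    rw [h3, h3, EL_aug]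
    exact (e11_map (augL (XT τ) 2 : locU (XT τ) 2 →+* ℂ)).symm
  have hev : SameK (fun _ => True) (((EL τ 2 h2).map (Jr (XT τ) 2)).map (fun F => F 0))
      (((e11 (locU (XT τ) 2)).map (Jr (XT τ) 2)).map (fun F => F 0)) := by
    have h3 : ∀ M : Matrix (Fin 2) (Fin 2) (locU (XT τ) 2),
        (M.map (Jr (XT τ) 2)).map (fun F => F 0) =
          (M.map (ev0 (XT τ) 2 : locU (XT τ) 2 →+* CM (gX (XT τ)))).map
            ((cmEquiv (gX (XT τ))).symm : CM (gX (XT τ)) →+* _) := fun M => rfl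
    have h4 : (EL τ 2 h2).map (ev0 (XT τ) 2 : locU (XT τ) 2 →+* CM (gX (XT τ))) =
        bottE (Upath τ 0) (Vpath τ 0) := by
      apply Matrix.ext
      intro a b
      exact EL_spec τ 2 h2 0 a b
    rw [h3, h3, h4, e11_map]
    refine SameK.map_true _ ?_
    exact (sameK_true_iff (bottE_path_idem τ 0) (e11_idem _)).2 (cls_bott_zero τ)
  obtain ⟨N, hN, s, hs, hsame⟩ := hinj 2 2 ((EL τ 2 h2).map (Jr (XT τ) 2))
    ((e11 (locU (XT τ) 2)).map (Jr (XT τ) 2))
    (fun j k => ⟨isLoc_Jr 2 _, isLoc_Jr 2 _⟩)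
    (by rw [← Matrix.map_mul, hE]) (by rw [← Matrix.map_mul, hF]) (by
      rw [haug]
      have h5 : (e11 (locU (XT τ) 2)).map (augL (XT τ) 2) = e11 ℂ :=
        e11_map (augL (XT τ) 2 : locU (XT τ) 2 →+* ℂ)
      have h6 : ((e11 (locU (XT τ) 2)).map (Jr (XT τ) 2)).map (fun F => (F 0).fst) =
          e11 ℂ := by
        rw [← h5]
        ext a b
        exact cmUni_fst _
      rw [h6]
      exact (sameK_true_iff (e11_idem ℂ) (e11_idem ℂ)).2 rfl) hev
  have h7 : (2 : ℝ) ≤ s := hs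
  have e1 : (EL τ 2 h2).map (Jr (XT τ) 2) = (EL τ s h7).map (Jr (XT τ) s) := by
    rw [← EL_incl τ h2 h7]
    rfl
  have e2 : (e11 (locU (XT τ) 2)).map (Jr (XT τ) 2) =
      (e11 (locU (XT τ) s)).map (Jr (XT τ) s) := by
    rw [e11_map, e11_map]
  rw [e1, e2, blockDiagonal_mapC, blockDiagonal_mapC] at hsame
  have h8 := SameK.lift (Jr (XT τ) s) (Jr_injective s) (exists_of_isLoc s) hsame
  rw [sameK_true_iff (blockDiagonal_idem N (EL_idem τ s h7))
    (blockDiagonal_idem N (e11_idem _)), cls_blockDiagonal, cls_blockDiagonal] at h8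
  refine hnt s h7 N hN ?_
  rw [yL, smul_sub, sub_eq_zero]
  exact h8

end Vale.Agent.P212
end
end

section

section

/-! The matrix coefficients of the Bott projections at integer times. -/

namespace Vale.Agent.P212

open NNReal Matrix
open scoped Matrix.Norms.L2Operator

section Red

variable {J : Type}

theorem commute_proj_iff (F : Set J) (T : L2 J →L[ℂ] L2 J) :
    Commute (proj F) T ↔ ∀ j k, ¬ (j ∈ F ↔ k ∈ F) → ent T j k = 0 := by
  constructor
  · intro h j k hjk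
    have h1 : ent (proj F * T) j k = ent (T * proj F) j k := by rw [h.eq]
    rw [ent_proj_mul, ent_mul_proj] at h1
    by_cases hj : j ∈ F
    · have hk : k ∉ F := fun hk => hjk ⟨fun _ => hk, fun _ => hj⟩
      rwa [Set.indicator_of_mem hj, Set.indicator_of_notMem hk] at h1
    · have hk : k ∈ F := by
        by_contra hk
        exact hjk ⟨fun h => absurd h hj, fun h => absurd h hk⟩
      rw [Set.indicator_of_notMem hj, Set.indicator_of_mem hk] at h1
      exact h1.symm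
  · intro h
    refine ext_ent fun j k => ?_
    rw [ent_proj_mul, ent_mul_proj]
    by_cases hjk : j ∈ F ↔ k ∈ F
    · by_cases hj : j ∈ F
      · rw [Set.indicator_of_mem hj, Set.indicator_of_mem (hjk.1 hj)]
      · rw [Set.indicator_of_notMem hj, Set.indicator_of_notMem (fun hk => hj (hjk.2 hk))]
    · by_cases hj : j ∈ F <;> by_cases hk : k ∈ F <;>
      simp [hj, hk, h j k hjk]

/-- The operators commuting with a diagonal projection. -/
noncomputable def redS (F : Set J) : StarSubalgebra ℂ (L2 J →L[ℂ] L2 J) :=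
  StarSubalgebra.centralizer ℂ {proj F}

theorem mem_redS {F : Set J} {T : L2 J →L[ℂ] L2 J} : T ∈ redS F ↔ Commute (proj F) T := by
  unfold redS
  rw [StarSubalgebra.mem_centralizer_iff]
  constructor
  · intro h
    exact (h (proj F) (Set.mem_singleton _)).1
  · rintro h g rfl
    refine ⟨h.eq, ?_⟩
    rw [star_proj]
    exact h.eq

instance isClosed_redS (F : Set J) :
    IsClosed ((redS F : StarSubalgebra ℂ (L2 J →L[ℂ] L2 J)) : Set (L2 J →L[ℂ] L2 J)) := by
  unfold redS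
  rw [StarSubalgebra.coe_centralizer]
  exact Set.isClosed_centralizer _

variable {ι : Type} [Fintype ι]

theorem ent_mul_of_redS (f : ι ↪ J) {T S : L2 J →L[ℂ] L2 J}
    (hS : Commute (proj (Set.range f)) S) (j : J) (i : ι) :
    ent (T * S) j (f i) = ∑ l, ent T j (f l) * ent S (f l) (f i) := by
  classical
  rw [ent_eq, ContinuousLinearMap.mul_apply]
  have h1 := hasSum_ent T (S (lp.single 2 (f i) (1 : ℂ))) j
  have h2 : HasSum (fun l => ent T j l * (S (lp.single 2 (f i) (1 : ℂ)) : J → ℂ) l)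
      (∑ l ∈ Finset.univ.map f, ent T j l * (S (lp.single 2 (f i) (1 : ℂ)) : J → ℂ) l) := by
    refine hasSum_sum_of_ne_finset_zero fun l hl => ?_
    rw [← ent_eq]
    have : ent S l (f i) = 0 := by
      refine (commute_proj_iff _ _).1 hS l (f i) fun h => ?_
      obtain ⟨i', hi'⟩ := h.2 ⟨i, rfl⟩
      exact hl (Finset.mem_map.2 ⟨i', Finset.mem_univ _, hi'⟩)
    rw [this, mul_zero]
  rw [h1.unique h2, Finset.sum_map]
  exact Finset.sum_congr rfl fun l _ => by rw [← ent_eq]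

variable [DecidableEq ι]

/-- The matrix of an operator reduced by a finite set of basis vectors. -/
noncomputable def redM (f : ι ↪ J) : redS (Set.range f) →⋆ₐ[ℂ] Matrix ι ι ℂ where
  toFun T := Matrix.of fun i i' => ent T.1 (f i) (f i')
  map_one' := by
    classical
    ext i i'
    change ent (1 : L2 J →L[ℂ] L2 J) (f i) (f i') = _
    rw [ent_one, Matrix.one_apply]
    simp only [EmbeddingLike.apply_eq_iff_eq]
  map_mul' T S := by
    ext i i'
    change ent (T.1 * S.1) (f i) (f i') = _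
    rw [ent_mul_of_redS f (mem_redS.1 S.2), Matrix.mul_apply]
    rfl
  map_zero' := by
    ext i i'
    change ent (0 : L2 J →L[ℂ] L2 J) (f i) (f i') = 0
    exact ent_zero _ _
  map_add' T S := by
    ext i i'
    exact ent_add _ _ _ _
  commutes' c := by
    classical
    ext i i'
    change ent ((algebraMap ℂ (L2 J →L[ℂ] L2 J)) c) (f i) (f i') = _
    rw [Algebra.algebraMap_eq_smul_one, ent_smul, ent_one, Matrix.algebraMap_matrix_apply]
    simp only [EmbeddingLike.apply_eq_iff_eq, Algebra.algebraMap_self, RingHom.id_apply]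
    split_ifs <;> simp
  map_star' T := by
    ext i i'
    change ent (star T.1) (f i) (f i') = _
    rw [ent_star]
    rfl

theorem redM_apply (f : ι ↪ J) (T : redS (Set.range f)) (i i' : ι) :
    redM f T i i' = ent T.1 (f i) (f i') := rfl

theorem ent_bottE_red (f : ι ↪ J) {U V : L2 J →L[ℂ] L2 J}
    (hU : Commute (proj (Set.range f)) U) (hV : Commute (proj (Set.range f)) V)
    (a b : Fin 2) (i i' : ι) :
    ent (bottE U V a b) (f i) (f i') =
      bottE (Matrix.of fun i i' => ent U (f i) (f i') : Matrix ι ι ℂ)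
        (Matrix.of fun i i' => ent V (f i) (f i') : Matrix ι ι ℂ) a b i i' := by
  have h1 := congrFun (congrFun (map_bottE (redS (Set.range f)).subtype
    ⟨U, mem_redS.2 hU⟩ ⟨V, mem_redS.2 hV⟩) a) b
  have h2 := congrFun (congrFun (map_bottE (redM f)
    ⟨U, mem_redS.2 hU⟩ ⟨V, mem_redS.2 hV⟩) a) b
  have h3 := congrFun (congrFun h2 i) i'
  rw [Matrix.map_apply, redM_apply] at h3
  rw [Matrix.map_apply] at h1
  change _ = bottE U V a b at h1
  rw [← h1]
  exact h3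

omit [Fintype ι] [DecidableEq ι] in
theorem ent_bottE_red_off {F : Set J} {U V : L2 J →L[ℂ] L2 J} (hU : Commute (proj F) U)
    (hV : Commute (proj F) V) (a b : Fin 2) {j k : J} (h : ¬ (j ∈ F ↔ k ∈ F)) :
    ent (bottE U V a b) j k = 0 := by
  have h1 := congrFun (congrFun (map_bottE (redS F).subtype
    ⟨U, mem_redS.2 hU⟩ ⟨V, mem_redS.2 hV⟩) a) b
  rw [Matrix.map_apply] at h1
  change _ = bottE U V a b at h1
  rw [← h1]
  exact (commute_proj_iff F _).1 (mem_redS.1 (bottE (⟨U, mem_redS.2 hU⟩ : redS F)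
    ⟨V, mem_redS.2 hV⟩ a b).2) j k h

end Red

section Fix

variable {A : Type} [CStarAlgebra A]

theorem norm_le_one_of_unitaryP {u : A} (hu : u ∈ unitary A) : ‖u‖ ≤ 1 := by
  rcases subsingleton_or_nontrivial A with hA | hA
  · rw [Subsingleton.elim u 0, norm_zero]
    exact zero_le_one
  · exact (CStarRing.norm_of_mem_unitary hu).le

theorem hneg_mul_of_fix {u p : A} (hu : ‖u‖ ≤ 1) (h : u * p = p) (h' : star u * p = p) :
    hneg u * p = 0 := by
  refine norm_le_zero_iff.1 (le_of_forall_pos_le_add fun ε hε => ?_)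
  rw [zero_add]
  obtain ⟨q, hq, hq'⟩ := hneg_approx (ε := ε / (‖p‖ + 1)) (by positivity)
  obtain ⟨q', rfl⟩ := Polynomial.X_dvd_iff.2 hq
  have h1 : (imaginaryPart u : A) * p = 0 := by
    rw [imaginaryPart_apply_coe, smul_mul_assoc, smul_mul_assoc, sub_mul, h, h', sub_self,
      smul_zero, smul_zero]
  have h2 : Polynomial.aeval (imaginaryPart u : A)
      ((Polynomial.X * q').map (algebraMap ℝ ℂ)) * p = 0 := by
    rw [Polynomial.map_mul, Polynomial.map_X, mul_comm, map_mul, Polynomial.aeval_X, mul_assoc,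
      h1, mul_zero]
  have h3 : hneg u * p = (hneg u - Polynomial.aeval (imaginaryPart u : A)
      ((Polynomial.X * q').map (algebraMap ℝ ℂ))) * p := by
    rw [sub_mul, h2, sub_zero]
  rw [h3]
  calc _ ≤ ε / (‖p‖ + 1) * ‖p‖ := (norm_mul_le _ _).trans (by gcongr; exact hq' A u hu)
    _ ≤ ε / (‖p‖ + 1) * (‖p‖ + 1) := by gcongr; linarith
    _ = ε := by field_simp

theorem bottE_mul_of {u v p : A} {q y : A} (hq : q = algebraMap ℂ A (1 / 4))
    (hy : y = (1 / 2 : ℂ) • (u + star u))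
    (hX : ∀ X, (X = q * (hneg u * hneg u) ∨ X = q * (hneg u * (1 + y)) ∨
      X = q * -(hneg u * (1 - y)) ∨ X = q * -(hneg u * hneg u)) → X * (v - 1) * p = 0)
    (hY : ∀ X, (X = q * (hneg u * hneg u) ∨ X = q * -((1 - y) * hneg u) ∨
      X = q * ((1 + y) * hneg u) ∨ X = q * -(hneg u * hneg u)) → star (v - 1) * X * p = 0)
    (a b : Fin 2) :
    bottE u v a b * p = e11 A a b * p := by
  unfold bottE
  rw [bott_eq u v (hneg u) (star_hneg u), ← hq, ← hy]
  fin_cases a <;> fin_cases b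
  · change (1 + q * (hneg u * hneg u) * (v - 1) + star (v - 1) * (q * (hneg u * hneg u))) * p =
      1 * p
    rw [add_mul, add_mul, hX _ (Or.inl rfl), hY _ (Or.inl rfl), add_zero, add_zero]
  · change (q * (hneg u * (1 + y)) * (v - 1) + star (v - 1) * (q * -((1 - y) * hneg u))) * p =
      0 * p
    rw [add_mul, hX _ (Or.inr (Or.inl rfl)), hY _ (Or.inr (Or.inl rfl)), add_zero, zero_mul]
  · change (q * -(hneg u * (1 - y)) * (v - 1) + star (v - 1) * (q * ((1 + y) * hneg u))) * p =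
      0 * p
    rw [add_mul, hX _ (Or.inr (Or.inr (Or.inl rfl))), hY _ (Or.inr (Or.inr (Or.inl rfl))),
      add_zero, zero_mul]
  · change (q * -(hneg u * hneg u) * (v - 1) + star (v - 1) * (q * -(hneg u * hneg u))) * p =
      0 * p
    rw [add_mul, hX _ (Or.inr (Or.inr (Or.inr rfl))), hY _ (Or.inr (Or.inr (Or.inr rfl))),
      add_zero, zero_mul]

theorem bottE_mul_left {u v p : A} (hu : u ∈ unitary A) (hup : u * p = p)
    (hvp : Commute v p) (a b : Fin 2) :
    bottE u v a b * p = e11 A a b * p := by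
  have hup' : star u * p = p := by
    have h1 : star u * (u * p) = star u * p := by rw [hup]
    rw [← mul_assoc, (Unitary.mem_iff.1 hu).1, one_mul] at h1
    exact h1.symm
  have hh := hneg_mul_of_fix (norm_le_one_of_unitaryP hu) hup hup'
  have hy : ((1 / 2 : ℂ) • (u + star u)) * p = p := by
    rw [smul_mul_assoc, add_mul, hup, hup', ← two_smul ℂ p, smul_smul]
    norm_num
  generalize hyd : (1 / 2 : ℂ) • (u + star u) = y at hy
  refine bottE_mul_of rfl hyd.symm (fun X hX => ?_) (fun X hX => ?_) a b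
  · have h1 : X * p = 0 := by
      rcases hX with rfl | rfl | rfl | rfl <;>
      simp only [mul_assoc, neg_mul, add_mul, sub_mul, hy, hh, mul_zero, neg_zero, one_mul,
        sub_self, mul_add, add_zero]
    rw [mul_assoc, (hvp.sub_left (Commute.one_left p)).eq, ← mul_assoc, h1, zero_mul]
  · have h1 : X * p = 0 := by
      rcases hX with rfl | rfl | rfl | rfl <;>
      simp only [mul_assoc, neg_mul, hh, mul_zero, neg_zero]
    rw [mul_assoc, h1, mul_zero]

theorem bottE_mul_right {u v p : A} (hv : v ∈ unitary A) (hvp : v * p = p)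
    (hup : Commute u p) (hup' : Commute (star u) p) (a b : Fin 2) :
    bottE u v a b * p = e11 A a b * p := by
  have hvp' : star v * p = p := by
    have h1 : star v * (v * p) = star v * p := by rw [hvp]
    rw [← mul_assoc, (Unitary.mem_iff.1 hv).1, one_mul] at h1
    exact h1.symm
  have hh : Commute (hneg u) p := hneg_commute hup hup'
  have hy : Commute ((1 / 2 : ℂ) • (u + star u)) p := (hup.add_left hup').smul_left _
  generalize hyd : (1 / 2 : ℂ) • (u + star u) = y at hy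
  have h1y : Commute (1 + y) p := (Commute.one_left p).add_left hy
  have h2y : Commute (1 - y) p := (Commute.one_left p).sub_left hy
  have hq : Commute (algebraMap ℂ A (1 / 4)) p := Algebra.commutes _ _
  refine bottE_mul_of rfl hyd.symm (fun X hX => ?_) (fun X hX => ?_) a b
  · rw [mul_assoc, sub_mul, hvp, one_mul, sub_self, mul_zero]
  · have h1 : Commute X p := by
      rcases hX with rfl | rfl | rfl | rfl
      · exact hq.mul_left (hh.mul_left hh)
      · exact hq.mul_left (h2y.mul_left hh).neg_left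
      · exact hq.mul_left (h1y.mul_left hh)
      · exact hq.mul_left (hh.mul_left hh).neg_left
    rw [mul_assoc, h1.eq, ← mul_assoc, star_sub, star_one, sub_mul, hvp', one_mul, sub_self,
      zero_mul]

end Fix

section Perm

variable {J : Type}

theorem commute_proj_permL {F : Set J} {ρ : Equiv.Perm J} (h : ∀ k, ρ k ∈ F ↔ k ∈ F) :
    Commute (proj F) (permL ρ) := by
  classical
  refine (commute_proj_iff _ _).2 fun j k hjk => ?_
  rw [ent_permL, if_neg]
  rintro rfl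
  exact hjk (h k)

theorem permL_unitary (ρ : Equiv.Perm J) : permL ρ ∈ unitary (L2 J →L[ℂ] L2 J) := by
  rw [Unitary.mem_iff, star_permL, ← permL_mul, ← permL_mul, inv_mul_cancel, mul_inv_cancel,
    permL_one]
  exact ⟨rfl, rfl⟩

theorem permL_mul_proj {F : Set J} {ρ : Equiv.Perm J} (h : ∀ k ∈ F, ρ k = k) :
    permL ρ * proj F = proj F := by
  classical
  refine ext_ent fun j k => ?_
  have h1 : ent (proj F) j k = ent (1 * proj F) j k := by rw [one_mul]
  rw [h1, ent_mul_proj, ent_mul_proj]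
  by_cases hk : k ∈ F
  · rw [Set.indicator_of_mem hk, Set.indicator_of_mem hk, ent_permL, ent_one, h k hk]
  · rw [Set.indicator_of_notMem hk, Set.indicator_of_notMem hk]

open Classical in
theorem ent_of_mul_proj {F : Set J} {T : L2 J →L[ℂ] L2 J} {a b : Fin 2}
    (h : T * proj F = e11 (L2 J →L[ℂ] L2 J) a b * proj F) {j k : J} (hk : k ∈ F) :
    ent T j k = if j = k then e11 ℂ a b else 0 := by
  have h1 : ent (T * proj F) j k = ent T j k := by
    rw [ent_mul_proj, Set.indicator_of_mem hk]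
  have h2 : ent (e11 (L2 J →L[ℂ] L2 J) a b * proj F) j k =
      ent (e11 (L2 J →L[ℂ] L2 J) a b) j k := by
    rw [ent_mul_proj, Set.indicator_of_mem hk]
  rw [← h1, h, h2]
  fin_cases a <;> fin_cases b
  · exact ent_one j k
  · change ent (0 : L2 J →L[ℂ] L2 J) j k = if j = k then 0 else 0
    rw [ent_zero, ite_self]
  · change ent (0 : L2 J →L[ℂ] L2 J) j k = if j = k then 0 else 0
    rw [ent_zero, ite_self]
  · change ent (0 : L2 J →L[ℂ] L2 J) j k = if j = k then 0 else 0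
    rw [ent_zero, ite_self]

open Classical in
/-- The Bott projection of two commuting permutations is trivial on the vectors fixed by one of
them. -/
theorem ent_bottE_fix {ρ σ : Equiv.Perm J} (hc : ρ * σ = σ * ρ) (a b : Fin 2) {j k : J}
    (hk : ρ k = k ∨ σ k = k) :
    ent (bottE (permL ρ) (permL σ) a b) j k = if j = k then e11 ℂ a b else 0 := by
  have hc' : ∀ l, ρ (σ l) = σ (ρ l) := fun l => DFunLike.congr_fun hc l
  rcases hk with hk | hk
  · have hF : ∀ l, ρ l ∈ {l | ρ l = l} ↔ l ∈ {l | ρ l = l} := fun l => by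
      simp only [Set.mem_setOf_eq, EmbeddingLike.apply_eq_iff_eq]
    have hG : ∀ l, σ l ∈ {l | ρ l = l} ↔ l ∈ {l | ρ l = l} := fun l => by
      simp only [Set.mem_setOf_eq, hc', EmbeddingLike.apply_eq_iff_eq]
    exact ent_of_mul_proj (bottE_mul_left (permL_unitary ρ) (permL_mul_proj (fun l hl => hl))
      (commute_proj_permL hG).symm a b) (show k ∈ {l | ρ l = l} from hk)
  · have hF : ∀ l, σ l ∈ {l | σ l = l} ↔ l ∈ {l | σ l = l} := fun l => by
      simp only [Set.mem_setOf_eq, EmbeddingLike.apply_eq_iff_eq]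
    have hG : ∀ l, ρ l ∈ {l | σ l = l} ↔ l ∈ {l | σ l = l} := fun l => by
      simp only [Set.mem_setOf_eq, ← hc', EmbeddingLike.apply_eq_iff_eq]
    have h1 := (commute_proj_permL hG).symm
    exact ent_of_mul_proj (bottE_mul_right (permL_unitary σ) (permL_mul_proj (fun l hl => hl))
      h1 (commute_star_of_unitary (permL_unitary ρ) h1) a b) (show k ∈ {l | σ l = l} from hk)

end Perm

section Path

variable (τ : Tower)

theorem opC_bott (m : ℕ) (a b : Fin 2) :
    opC (XT τ) (bottE (Upath τ m) (Vpath τ m) a b) =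
      bottE (permL ((gsX m).viaEmbedding (ji τ (m + 1))))
        (permL ((gsY m).viaEmbedding (ji τ (m + 1)))) a b := by
  have h1 := congrFun (congrFun (map_bottE (opC (XT τ)) (Upath τ m) (Vpath τ m)) a) b
  rw [Matrix.map_apply] at h1
  have hra : ra 0 = 1 := by unfold ra; norm_num
  have hrb : rb 0 = 0 := by unfold rb; norm_num
  have hU : opC (XT τ) (Upath τ m) = permL ((gsX m).viaEmbedding (ji τ (m + 1))) := by
    unfold Upath
    rw [opC_toMax, Nat.floor_natCast]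
    change Ubp τ m _ = _
    rw [NNReal.coe_natCast, sub_self, Ubp, hra, hrb, one_smul, zero_smul, add_zero]
    rfl
  have hV : opC (XT τ) (Vpath τ m) = permL ((gsY m).viaEmbedding (ji τ (m + 1))) := by
    unfold Vpath
    rw [opC_toMax, Nat.floor_natCast]
    change Vbp τ m _ = _
    rw [NNReal.coe_natCast, sub_self, Vbp, hra, hrb, one_smul, zero_smul, add_zero]
    rfl
  rw [h1, hU, hV]

theorem sd_succ (n m : ℕ) : sd n (m + 1) = 2 * sd n m := by
  change 2 ^ (m + 1) * (n + 1) = 2 * (2 ^ m * (n + 1))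
  ring

theorem dbl_succ (n m : ℕ) (x : ZMod (sd n m)) :
    ((2 * x.val : ℕ) : ZMod (sd n (m + 1))) + 2 = ((2 * (x + 1).val : ℕ) : ZMod (sd n (m + 1))) := by
  have h1 : (x + 1).val = (x.val + 1) % sd n m := by
    have h := ZMod.val_add x ((1 : ℕ) : ZMod (sd n m))
    rw [ZMod.val_natCast, Nat.add_mod_mod, Nat.cast_one] at h
    exact h
  have h2 : ((2 * x.val : ℕ) : ZMod (sd n (m + 1))) + 2 =
      ((2 * (x.val + 1) : ℕ) : ZMod (sd n (m + 1))) := by
    push_cast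
    ring
  rw [h2, h1, ZMod.natCast_eq_natCast_iff, sd_succ]
  exact Nat.ModEq.mul_left' 2 (Nat.mod_modEq _ _).symm

theorem dbl_even (n m x : ℕ) : ((2 * x : ℕ) : ZMod (sd n (m + 1))).val % 2 = 0 := by
  rw [ZMod.val_natCast, Nat.mod_mod_of_dvd _ (two_dvd_sd n m), Nat.mul_mod_right]

theorem gsX_dbl (m : ℕ) (n : {n : ℕ // 3 ≤ n}) (p : Grid (sd n.1 m)) :
    gsX m (dbl m ⟨n, p⟩) = dbl m ⟨n, (p.1 + 1, p.2)⟩ := by
  change (⟨n, (if ((2 * p.1.val : ℕ) : ZMod (sd n.1 (m + 1))).val % 2 = 0 then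
    ((2 * p.1.val : ℕ) : ZMod (sd n.1 (m + 1))) + 2 else
    ((2 * p.1.val : ℕ) : ZMod (sd n.1 (m + 1))),
    ((2 * p.2.val : ℕ) : ZMod (sd n.1 (m + 1))))⟩ : GI (m + 1)) = _
  rw [if_pos (dbl_even _ _ _), dbl_succ]
  rfl

theorem gsY_dbl (m : ℕ) (n : {n : ℕ // 3 ≤ n}) (p : Grid (sd n.1 m)) :
    gsY m (dbl m ⟨n, p⟩) = dbl m ⟨n, (p.1, p.2 + 1)⟩ := by
  change (⟨n, (((2 * p.1.val : ℕ) : ZMod (sd n.1 (m + 1))),
    if ((2 * p.2.val : ℕ) : ZMod (sd n.1 (m + 1))).val % 2 = 0 then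
    ((2 * p.2.val : ℕ) : ZMod (sd n.1 (m + 1))) + 2 else
    ((2 * p.2.val : ℕ) : ZMod (sd n.1 (m + 1))))⟩ : GI (m + 1)) = _
  rw [if_pos (dbl_even _ _ _), dbl_succ]
  rfl

theorem half_cast (n m : ℕ) (x : ZMod (sd n (m + 1))) (hx : x.val % 2 = 0) :
    ((2 * ((x.val / 2 : ℕ) : ZMod (sd n m)).val : ℕ) : ZMod (sd n (m + 1))) = x := by
  have h1 : x.val < sd n (m + 1) := ZMod.val_lt x
  have h3 := sd_succ n m
  rw [ZMod.val_natCast_of_lt (by omega)]
  have h2 : 2 * (x.val / 2) = x.val := by omega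
  rw [h2, ZMod.natCast_zmod_val]

theorem exists_dbl (m : ℕ) (g : GI (m + 1)) (h : gsX m g ≠ g) (h' : gsY m g ≠ g) :
    ∃ g', dbl m g' = g := by
  obtain ⟨n, x, y⟩ := g
  have hx : x.val % 2 = 0 := by
    by_contra hx
    apply h
    change (⟨n, (if x.val % 2 = 0 then x + 2 else x, y)⟩ : GI (m + 1)) = _
    rw [if_neg hx]
  have hy : y.val % 2 = 0 := by
    by_contra hy
    apply h'
    change (⟨n, (x, if y.val % 2 = 0 then y + 2 else y)⟩ : GI (m + 1)) = _
    rw [if_neg hy]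
  refine ⟨⟨n, (((x.val / 2 : ℕ) : ZMod _), ((y.val / 2 : ℕ) : ZMod _))⟩, ?_⟩
  change (⟨n, (((2 * ((x.val / 2 : ℕ) : ZMod (sd n.1 m)).val : ℕ) : ZMod (sd n.1 (m + 1))),
    ((2 * ((y.val / 2 : ℕ) : ZMod (sd n.1 m)).val : ℕ) : ZMod (sd n.1 (m + 1))))⟩ :
    GI (m + 1)) = _
  rw [half_cast _ _ _ hx, half_cast _ _ _ hy]

/-- The grid points of the component `n`. -/
noncomputable def jn (m : ℕ) (n : {n : ℕ // 3 ≤ n}) : Grid (sd n.1 m) ↪ XT τ × ℕ :=
  (Function.Embedding.sigmaMk n).trans (ji τ m)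

theorem jn_apply (m : ℕ) (n : {n : ℕ // 3 ≤ n}) (p : Grid (sd n.1 m)) :
    jn τ m n p = ji τ m ⟨n, p⟩ := rfl

theorem gsX_jn (m : ℕ) (n : {n : ℕ // 3 ≤ n}) (p : Grid (sd n.1 m)) :
    (gsX m).viaEmbedding (ji τ (m + 1)) (jn τ m n p) = jn τ m n (p.1 + 1, p.2) := by
  rw [jn_apply, jn_apply, ← ji_dbl τ m ⟨n, p⟩, ← ji_dbl τ m ⟨n, (p.1 + 1, p.2)⟩,
    Equiv.Perm.viaEmbedding_apply, gsX_dbl]

theorem gsY_jn (m : ℕ) (n : {n : ℕ // 3 ≤ n}) (p : Grid (sd n.1 m)) :
    (gsY m).viaEmbedding (ji τ (m + 1)) (jn τ m n p) = jn τ m n (p.1, p.2 + 1) := by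
  rw [jn_apply, jn_apply, ← ji_dbl τ m ⟨n, p⟩, ← ji_dbl τ m ⟨n, (p.1, p.2 + 1)⟩,
    Equiv.Perm.viaEmbedding_apply, gsY_dbl]

theorem mem_range_of_shift {J ι : Type} (f : ι ↪ J) (ρ : Equiv.Perm J) (r r' : ι → ι)
    (h : ∀ i, ρ (f i) = f (r i)) (hr : ∀ i, r (r' i) = i) (k : J) :
    ρ k ∈ Set.range f ↔ k ∈ Set.range f := by
  constructor
  · rintro ⟨i, hi⟩
    refine ⟨r' i, ?_⟩
    apply ρ.injective
    rw [h, hr, hi]
  · rintro ⟨i, rfl⟩
    exact ⟨r i, (h i).symm⟩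

theorem commute_X (m : ℕ) (n : {n : ℕ // 3 ≤ n}) : Commute (proj (Set.range (jn τ m n)))
    (permL ((gsX m).viaEmbedding (ji τ (m + 1)))) :=
  commute_proj_permL (mem_range_of_shift (jn τ m n) _ (fun p => (p.1 + 1, p.2))
    (fun p => (p.1 - 1, p.2)) (gsX_jn τ m n) (fun p => by simp))

theorem commute_Y (m : ℕ) (n : {n : ℕ // 3 ≤ n}) : Commute (proj (Set.range (jn τ m n)))
    (permL ((gsY m).viaEmbedding (ji τ (m + 1)))) :=
  commute_proj_permL (mem_range_of_shift (jn τ m n) _ (fun p => (p.1, p.2 + 1))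
    (fun p => (p.1, p.2 - 1)) (gsY_jn τ m n) (fun p => by simp))

theorem mat_X (m : ℕ) (n : {n : ℕ // 3 ≤ n}) : (Matrix.of fun p q =>
    ent (permL ((gsX m).viaEmbedding (ji τ (m + 1)))) (jn τ m n p) (jn τ m n q) :
    Matrix (Grid (sd n.1 m)) (Grid (sd n.1 m)) ℂ) = shX (sd n.1 m) (fun _ => 1) := by
  ext p q
  rw [Matrix.of_apply, ent_permL, gsX_jn, shX, ite_self]
  by_cases h : p = (q.1 + 1, q.2)
  · subst h
    rw [if_pos rfl, if_pos ⟨rfl, rfl⟩]
  · rw [if_neg (fun h' => h ((jn τ m n).injective h')),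
      if_neg (fun h' => h (Prod.ext h'.2 h'.1))]

theorem mat_Y (m : ℕ) (n : {n : ℕ // 3 ≤ n}) : (Matrix.of fun p q =>
    ent (permL ((gsY m).viaEmbedding (ji τ (m + 1)))) (jn τ m n p) (jn τ m n q) :
    Matrix (Grid (sd n.1 m)) (Grid (sd n.1 m)) ℂ) = shY (sd n.1 m) := by
  ext p q
  rw [Matrix.of_apply, ent_permL, gsY_jn, shY]
  by_cases h : p = (q.1, q.2 + 1)
  · subst h
    rw [if_pos rfl, if_pos ⟨rfl, rfl⟩]
  · rw [if_neg (fun h' => h ((jn τ m n).injective h')),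
      if_neg (fun h' => h (Prod.ext h'.1 h'.2))]

/-- The matrix coefficients of the Bott projections at integer times, on the grid. -/
theorem ent_path (m : ℕ) (a b : Fin 2) (n : {n : ℕ // 3 ≤ n}) (p q : Grid (sd n.1 m)) :
    ent (opC (XT τ) (bottE (Upath τ m) (Vpath τ m) a b)) (ji τ m ⟨n, p⟩) (ji τ m ⟨n, q⟩) =
      bottE (shX (sd n.1 m) (fun _ => 1)) (shY (sd n.1 m)) a b p q := by
  rw [opC_bott, ← jn_apply, ← jn_apply, ent_bottE_red (jn τ m n) (commute_X τ m n)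
    (commute_Y τ m n), mat_X, mat_Y]

open Classical in
/-- The matrix coefficients of the Bott projections at integer times, off the grid. -/
theorem ent_path_off (m : ℕ) (a b : Fin 2) (j k : XT τ × ℕ)
    (h : ¬ ∃ (n : {n : ℕ // 3 ≤ n}) (p q : Grid (sd n.1 m)),
      j = ji τ m ⟨n, p⟩ ∧ k = ji τ m ⟨n, q⟩) :
    ent (opC (XT τ) (bottE (Upath τ m) (Vpath τ m) a b)) j k =
      if j = k then e11 ℂ a b else 0 := by
  rw [opC_bott]
  by_cases hk : k ∈ Set.range (ji τ m)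
  · obtain ⟨⟨n, q⟩, rfl⟩ := hk
    have hj : j ∉ Set.range (jn τ m n) := by
      rintro ⟨p, rfl⟩
      exact h ⟨n, p, q, rfl, rfl⟩
    have hq : ji τ m ⟨n, q⟩ ∈ Set.range (jn τ m n) := ⟨q, rfl⟩
    rw [ent_bottE_red_off (commute_X τ m n) (commute_Y τ m n) a b (fun hh => hj (hh.2 hq)),
      if_neg (fun hh : j = ji τ m ⟨n, q⟩ => hj (by rw [hh]; exact hq))]
  · have key := ent_bottE_fix (ρ := (gsX m).viaEmbedding (ji τ (m + 1)))
      (σ := (gsY m).viaEmbedding (ji τ (m + 1))) (j := j) (k := k) ?_ a b ?_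
    · rw [key]
      by_cases hjk : j = k
      · rw [if_pos hjk, if_pos hjk]
      · rw [if_neg hjk, if_neg hjk]
    · rw [← Equiv.Perm.viaEmbeddingHom_apply, ← Equiv.Perm.viaEmbeddingHom_apply, ← map_mul,
        ← map_mul]
      rfl
    · by_cases hk' : k ∈ Set.range (ji τ (m + 1))
      · obtain ⟨g, rfl⟩ := hk'
        rw [Equiv.Perm.viaEmbedding_apply, Equiv.Perm.viaEmbedding_apply,
          EmbeddingLike.apply_eq_iff_eq, EmbeddingLike.apply_eq_iff_eq]
        by_contra hcon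
        push Not at hcon
        obtain ⟨g', rfl⟩ := exists_dbl m g hcon.1 hcon.2
        exact hk ⟨g', (ji_dbl τ m g').symm⟩
      · exact Or.inl (Equiv.Perm.viaEmbedding_apply_of_notMem _ _ _ hk')

end Path

end Vale.Agent.P212
end
end

section

section

/-! The line bundles on the grids in the tori. -/

set_option linter.unusedSectionVars false
set_option linter.unusedSimpArgs false

namespace Vale.Agent.P212

open Matrix

/-- The indicator of the crossing of the seam. -/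
def kz (n a i : ℕ) : ℤ := if a = n ∧ i = 1 then 1 else 0

theorem kz_zero (n a : ℕ) : kz n a 0 = 0 := by simp [kz]

theorem cast_eq_top {n a : ℕ} (ha : a ≤ n) : ((a : ZMod (n + 1)) = (n : ZMod (n + 1))) ↔ a = n := by
  constructor
  · intro h
    have h1 := congrArg ZMod.val h
    rwa [ZMod.val_natCast_of_lt (by omega), ZMod.val_natCast_of_lt (by omega)] at h1
  · intro h
    rw [h]

theorem cross_cols {n : ℕ} (hn : 3 ≤ n) {a : ℕ} (ha : a ≤ n) {i i' : ℕ} (hi : i ≤ 1)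
    (hi' : i' ≤ 1) :
    cross (n := n) ((a + i' : ℕ) : ZMod (n + 1)) ((a + i : ℕ) : ZMod (n + 1)) =
      kz n a i' - kz n a i := by
  have h1 : cross (n := n) ((a : ZMod (n + 1)) + 1) (a : ZMod (n + 1)) = kz n a 1 := by
    rw [cross_succ hn, kz]
    simp only [cast_eq_top ha, and_true]
  have h2 : cross (n := n) (a : ZMod (n + 1)) ((a : ZMod (n + 1)) + 1) = - kz n a 1 := by
    rw [cross_symm (i := (a : ZMod (n + 1)) + 1) (i' := (a : ZMod (n + 1))), h1]
    rw [cyc_disp_succ hn]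
    simp
    omega
  interval_cases i <;> interval_cases i'
  · simp [cross_same]
  · push_cast
    rw [add_zero, h1, kz_zero, sub_zero]
  · push_cast
    rw [add_zero, h2, kz_zero, zero_sub]
  · simp [cross_same]

variable (τ : Tower)

theorem vtx_w1 (n i j : ℕ) :
    (((vtx τ n i j).w.1.val : ℕ) : ZMod (n + 1)) = (i : ZMod (n + 1)) := by
  simp [vtx]

theorem vtx_w2 (n i j : ℕ) :
    (((vtx τ n i j).w.2.val : ℕ) : ZMod (n + 1)) = (j : ZMod (n + 1)) := by
  simp [vtx]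

theorem cr1_vtx (n i j i' j' : ℕ) : cr1 n (vtx τ n i j) (vtx τ n i' j') =
    cross (n := n) (i' : ZMod (n + 1)) (i : ZMod (n + 1)) := by
  rw [cr1, vtx_w1, vtx_w1]

theorem cr2_vtx (n i j i' j' : ℕ) : cr2 n (vtx τ n i j) (vtx τ n i' j') =
    cross (n := n) (j' : ZMod (n + 1)) (j : ZMod (n + 1)) := by
  rw [cr2, vtx_w2, vtx_w2]

open Classical in
/-- The vertices of the grid points. -/
theorem exists_vtx {n m X Y : ℕ} {x : XT τ} (h : gfs τ n m X Y x ≠ 0) :
    ∃ i ≤ 1, ∃ l ≤ 1, x = vtx τ n (X / 2 ^ m + i) (Y / 2 ^ m + l) ∧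
      (i = 1 → frc m X ≠ 0) := by
  by_contra hcon
  push Not at hcon
  apply h
  have key : ∀ i ≤ 1, ∀ l ≤ 1, ∀ c : ℚ, (i = 1 → frc m X = 0 → c = 0) →
      Finsupp.single (vtx τ n (X / 2 ^ m + i) (Y / 2 ^ m + l)) c x = 0 := by
    intro i hi l hl c hc
    rw [Finsupp.single_apply]
    split_ifs with hx
    · obtain ⟨h1, h2⟩ := hcon i hi l hl hx.symm
      exact hc h1 h2
    · rfl
  have k1 := key 0 (by omega) 0 (by omega) ((1 - frc m X) * (1 - frc m Y)) (by simp)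
  have k2 := key 1 (by omega) 0 (by omega) (frc m X * (1 - frc m Y))
    (fun _ h => by rw [h, zero_mul])
  have k3 := key 0 (by omega) 1 (by omega) ((1 - frc m X) * frc m Y) (by simp)
  have k4 := key 1 (by omega) 1 (by omega) (frc m X * frc m Y) (fun _ h => by rw [h, zero_mul])
  rw [add_zero] at k1 k2 k3
  rw [add_zero] at k1
  unfold gfs
  rw [Finsupp.add_apply, Finsupp.add_apply, Finsupp.add_apply, k1, k2, k3, k4]
  simp

/-- Sums over the vertices of the grid points. -/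
theorem sum_gfs (B : Finset (XT τ)) {n : ℕ} (hB : ∀ x : XT τ, x.n = n → x.l = 0 → x ∈ B)
    (m X Y : ℕ) (f : XT τ → ℂ) :
    ∑ w ∈ B, f w * (gfs τ n m X Y w : ℂ) =
      f (vtx τ n (X / 2 ^ m) (Y / 2 ^ m)) * ((1 - frc m X) * (1 - frc m Y) : ℚ) +
      f (vtx τ n (X / 2 ^ m + 1) (Y / 2 ^ m)) * (frc m X * (1 - frc m Y) : ℚ) +
      f (vtx τ n (X / 2 ^ m) (Y / 2 ^ m + 1)) * ((1 - frc m X) * frc m Y : ℚ) +
      f (vtx τ n (X / 2 ^ m + 1) (Y / 2 ^ m + 1)) * (frc m X * frc m Y : ℚ) := by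
  classical
  have key : ∀ (v : XT τ) (c : ℚ), v ∈ B →
      ∑ w ∈ B, f w * ((Finsupp.single v c w : ℚ) : ℂ) = f v * (c : ℂ) := by
    intro v c hv
    rw [Finset.sum_eq_single v]
    · rw [Finsupp.single_eq_same]
    · intro w _ hw
      rw [Finsupp.single_eq_of_ne hw]
      simp
    · intro h
      exact absurd hv h
  have e : ∀ w, f w * (gfs τ n m X Y w : ℂ) =
      f w * ((Finsupp.single (vtx τ n (X / 2 ^ m) (Y / 2 ^ m))
        ((1 - frc m X) * (1 - frc m Y)) w : ℚ) : ℂ) +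
      f w * ((Finsupp.single (vtx τ n (X / 2 ^ m + 1) (Y / 2 ^ m))
        (frc m X * (1 - frc m Y)) w : ℚ) : ℂ) +
      f w * ((Finsupp.single (vtx τ n (X / 2 ^ m) (Y / 2 ^ m + 1))
        ((1 - frc m X) * frc m Y) w : ℚ) : ℂ) +
      f w * ((Finsupp.single (vtx τ n (X / 2 ^ m + 1) (Y / 2 ^ m + 1))
        (frc m X * frc m Y) w : ℚ) : ℂ) := by
    intro w
    rw [gfs, Finsupp.add_apply, Finsupp.add_apply, Finsupp.add_apply]
    push_cast
    ring
  rw [Finset.sum_congr rfl fun w _ => e w, Finset.sum_add_distrib, Finset.sum_add_distrib,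
    Finset.sum_add_distrib, key _ _ (hB _ rfl rfl), key _ _ (hB _ rfl rfl),
    key _ _ (hB _ rfl rfl), key _ _ (hB _ rfl rfl)]

/-- The angle of the clutching function. -/
noncomputable def thT (n m Y : ℕ) : ℝ := ((Y - n * 2 ^ m : ℕ) : ℝ) / 2 ^ m

theorem thT_eq {n m Y : ℕ} (hY : Y < 2 ^ m * (n + 1)) :
    (thT n m Y : ℂ) = (kz n (Y / 2 ^ m) 1 : ℂ) * (frc m Y : ℂ) := by
  have hpos : 0 < 2 ^ m := by positivity
  have hdm := Nat.div_add_mod Y (2 ^ m)
  have hlt := Nat.mod_lt Y hpos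
  by_cases h : Y / 2 ^ m = n
  · have h1 : Y - n * 2 ^ m = Y % 2 ^ m := by
      rw [h, mul_comm] at hdm
      omega
    rw [thT, kz, if_pos ⟨h, rfl⟩, h1, frc]
    push_cast
    ring
  · have h2 : Y / 2 ^ m < n := by
      have : Y / 2 ^ m < n + 1 := Nat.div_lt_of_lt_mul hY
      omega
    have h1 : Y - n * 2 ^ m = 0 := by
      have : Y < n * 2 ^ m := by
        rw [Nat.div_lt_iff_lt_mul hpos] at h2
        exact h2
      omega
    rw [thT, kz, if_neg (fun hh => h hh.1), h1]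
    simp

theorem exp_int_aux (k : ℤ) (z : ℂ) :
    Complex.exp (2 * Real.pi * Complex.I * (z - k)) = Complex.exp (2 * Real.pi * Complex.I * z) := by
  have : 2 * Real.pi * Complex.I * (z - k) =
      2 * Real.pi * Complex.I * z - k * (2 * Real.pi * Complex.I) := by ring
  rw [this, Complex.exp_sub, Complex.exp_int_mul_two_pi_mul_I, div_one]

/-- The transition functions of the line bundle over the grid points. -/
theorem ph_grid [DecidableEq (XT τ)] {n : ℕ} (hn : 3 ≤ n) (B : Finset (XT τ))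
    (hB : ∀ x : XT τ, x.n = n → x.l = 0 → x ∈ B) (j m : ℕ) (g : Grid (sd n m))
    {i i' l l' : ℕ} (hi : i ≤ 1) (hi' : i' ≤ 1) (hl' : l' ≤ 1) :
    ph B (j • c0 n) (gpt τ n m g)
      (vtx τ n (g.1.val / 2 ^ m + i) (g.2.val / 2 ^ m + l))
      (vtx τ n (g.1.val / 2 ^ m + i') (g.2.val / 2 ^ m + l')) =
      Complex.exp (2 * Real.pi * Complex.I *
        (j * (kz n (g.1.val / 2 ^ m) i' - kz n (g.1.val / 2 ^ m) i) * thT n m g.2.val)) := by
  have hpos : 0 < 2 ^ m := by positivity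
  have hX := ZMod.val_lt g.1
  have hY := ZMod.val_lt g.2
  have ha : g.1.val / 2 ^ m ≤ n := by
    have : g.1.val / 2 ^ m < n + 1 := Nat.div_lt_of_lt_mul hX
    omega
  have hb : g.2.val / 2 ^ m ≤ n := by
    have : g.2.val / 2 ^ m < n + 1 := Nat.div_lt_of_lt_mul hY
    omega
  rw [thT_eq hY]
  unfold ph
  set x := vtx τ n (g.1.val / 2 ^ m + i) (g.2.val / 2 ^ m + l) with hx
  set y := vtx τ n (g.1.val / 2 ^ m + i') (g.2.val / 2 ^ m + l') with hy
  have h1 : cr1 n x y = kz n (g.1.val / 2 ^ m) i' - kz n (g.1.val / 2 ^ m) i := by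
    rw [hx, hy, cr1_vtx, cross_cols hn ha hi hi']
  have h2 : ∀ i'' l'', l'' ≤ 1 → cr2 n y (vtx τ n (g.1.val / 2 ^ m + i'') (g.2.val / 2 ^ m + l''))
      = kz n (g.2.val / 2 ^ m) l'' - kz n (g.2.val / 2 ^ m) l' := by
    intro i'' l'' hl''
    rw [hy, cr2_vtx, cross_cols hn hb hl' hl'']
  have h3 : ∑ w ∈ B, ((j • c0 n) x y w : ℂ) * ((gpt τ n m g).1 w : ℂ) =
      j * (kz n (g.1.val / 2 ^ m) i' - kz n (g.1.val / 2 ^ m) i) *
        (kz n (g.2.val / 2 ^ m) 1 * (frc m g.2.val : ℂ)) -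
      (((j : ℤ) * (kz n (g.1.val / 2 ^ m) i' - kz n (g.1.val / 2 ^ m) i) *
        kz n (g.2.val / 2 ^ m) l' : ℤ) : ℂ) := by
    have h4 := sum_gfs τ B hB m g.1.val g.2.val (fun w => ((j • c0 n) x y w : ℂ))
    have h5 : ∀ w, (((j • c0 n) x y w : ℤ) : ℂ) =
        j * (kz n (g.1.val / 2 ^ m) i' - kz n (g.1.val / 2 ^ m) i) * (cr2 n y w : ℂ) := by
      intro w
      have : (j • c0 n) x y w = (j : ℤ) * (cr1 n x y * cr2 n y w) := by
        simp [c0]
      rw [this, h1]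
      push_cast
      ring
    change ∑ w ∈ B, ((j • c0 n) x y w : ℂ) * (gfs τ n m g.1.val g.2.val w : ℂ) = _
    rw [h4]
    simp only [h5]
    have c1 := h2 0 0 (by omega)
    have c2 := h2 1 0 (by omega)
    have c3 := h2 0 1 (by omega)
    have c4 := h2 1 1 (by omega)
    rw [add_zero] at c1 c2 c3
    rw [add_zero] at c1
    rw [c1, c2, c3, c4, kz_zero]
    push_cast
    ring
  rw [h3, exp_int_aux]

/-- Whether a vertex of a square is on the other side of the seam. -/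
def kapT {τ : Tower} (n a : ℕ) (x : XT τ) : ℤ := if a = n ∧ x.w.1.val = 0 then 1 else 0

theorem kapT_vtx {n : ℕ} (hn : 3 ≤ n) (a : ℕ) {i : ℕ} (hi : i ≤ 1) (j : ℕ) :
    kapT n a (vtx τ n (a + i) j) = kz n a i := by
  unfold kapT kz
  by_cases h : a = n
  · subst h
    have h1 : ((vtx τ a (a + i) j).w.1.val = 0) ↔ i = 1 := by
      change (((a + i : ℕ) : ZMod (a + 1)).val = 0) ↔ i = 1
      rw [ZMod.val_natCast]
      interval_cases i
      · rw [add_zero, Nat.mod_eq_of_lt (by omega)]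
        omega
      · simp
    simp only [h1]
  · rw [if_neg (fun hh => h hh.1), if_neg (fun hh => h hh.1)]

/-- The unit vectors spanning the line bundle. -/
noncomputable def xiG (B : Finset (XT τ)) (j n m : ℕ) (g : Grid (sd n m)) (x : B) : ℂ :=
  (Real.sqrt ((gpt τ n m g).1 x) : ℂ) *
    Complex.exp (-(2 * Real.pi * Complex.I * (j * kapT n (g.1.val / 2 ^ m) (x : XT τ) *
      thT n m g.2.val)))

theorem gridQ_eq [DecidableEq (XT τ)] {n : ℕ} (hn : 3 ≤ n) (B : Finset (XT τ))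
    (hB : ∀ x : XT τ, x.n = n → x.l = 0 → x ∈ B) (j m : ℕ) (a : Grid (sd n m) × Fin 2) :
    Qb B (j • c0 n) (gpt τ n m a.1) =
      fun b b' => xiG τ B j n m a.1 b * star (xiG τ B j n m a.1 b') := by
  funext x y
  unfold Qb xiG
  by_cases hx : (gpt τ n m a.1).1 (x : XT τ) = 0
  · rw [hx]; simp
  by_cases hy : (gpt τ n m a.1).1 (y : XT τ) = 0
  · rw [hy]; simp
  obtain ⟨i, hi, l, hl, ex, -⟩ := exists_vtx τ hx
  obtain ⟨i', hi', l', hl', ey, -⟩ := exists_vtx τ hy
  have h1 : kapT n (a.1.1.val / 2 ^ m) (x : XT τ) = kz n (a.1.1.val / 2 ^ m) i := by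
    rw [ex, kapT_vtx τ hn _ hi]
  have h2 : kapT n (a.1.1.val / 2 ^ m) (y : XT τ) = kz n (a.1.1.val / 2 ^ m) i' := by
    rw [ey, kapT_vtx τ hn _ hi']
  have h3 : ph B (j • c0 n) (gpt τ n m a.1) (x : XT τ) (y : XT τ) =
      Complex.exp (2 * Real.pi * Complex.I *
        (j * (kz n (a.1.1.val / 2 ^ m) i' - kz n (a.1.1.val / 2 ^ m) i) *
          thT n m a.1.2.val)) := by
    rw [ex, ey]
    exact ph_grid τ hn B hB j m a.1 hi hi' hl'
  rw [h3, h1, h2, star_mul', Complex.star_def, Complex.conj_ofReal,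
    ← Complex.exp_conj]
  have h4 : Complex.exp (2 * Real.pi * Complex.I *
        (j * (kz n (a.1.1.val / 2 ^ m) i' - kz n (a.1.1.val / 2 ^ m) i) *
          thT n m a.1.2.val)) =
      Complex.exp (-(2 * Real.pi * Complex.I * (j * kz n (a.1.1.val / 2 ^ m) i *
        thT n m a.1.2.val))) *
      Complex.exp ((starRingEnd ℂ) (-(2 * Real.pi * Complex.I *
        (j * kz n (a.1.1.val / 2 ^ m) i' * thT n m a.1.2.val)))) := by
    rw [← Complex.exp_add]
    congr 1
    simp only [map_neg, map_mul, Complex.conj_I, Complex.conj_ofReal, map_ofNat,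
      map_natCast, map_intCast]
    ring
  rw [h4]
  ring

theorem support_gpt_subset {n : ℕ} (B : Finset (XT τ))
    (hB : ∀ x : XT τ, x.n = n → x.l = 0 → x ∈ B) (m : ℕ) (g : Grid (sd n m)) :
    (gpt τ n m g).1.support ⊆ B := fun _ hx =>
  hB _ (support_gpt τ n m g hx).1 (support_gpt τ n m g hx).2

theorem norm_phase (t : ℝ) : ‖Complex.exp (-(2 * Real.pi * Complex.I * (t : ℂ)))‖ = 1 := by
  have : -(2 * Real.pi * Complex.I * (t : ℂ)) = ((-(2 * Real.pi * t) : ℝ) : ℂ) * Complex.I := by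
    push_cast; ring
  rw [this, Complex.norm_exp_ofReal_mul_I]

theorem xiG_norm_sq {n : ℕ} (B : Finset (XT τ)) (j m : ℕ) (g : Grid (sd n m)) (x : B) :
    star (xiG τ B j n m g x) * xiG τ B j n m g x = ((gpt τ n m g).1 x : ℂ) := by
  have h1 : star (xiG τ B j n m g x) * xiG τ B j n m g x =
      ((‖xiG τ B j n m g x‖ ^ 2 : ℝ) : ℂ) := by
    rw [Complex.star_def, Complex.conj_mul']
    push_cast; rfl
  rw [h1, xiG, norm_mul]
  have h2 : (j * kapT n (g.1.val / 2 ^ m) (x : XT τ) * thT n m g.2.val : ℂ) =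
      ((j * kapT n (g.1.val / 2 ^ m) (x : XT τ) * thT n m g.2.val : ℝ) : ℂ) := by push_cast; ring
  rw [h2, norm_phase, mul_one, Complex.norm_real, Real.norm_of_nonneg (Real.sqrt_nonneg _),
    Real.sq_sqrt (by exact_mod_cast (gpt τ n m g).2.1 x)]
  push_cast
  rfl

theorem xiG_unit {n : ℕ} (B : Finset (XT τ))
    (hB : ∀ x : XT τ, x.n = n → x.l = 0 → x ∈ B) (j m : ℕ) (g : Grid (sd n m)) :
    ∑ x : B, star (xiG τ B j n m g x) * xiG τ B j n m g x = 1 := by
  simp only [xiG_norm_sq]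
  rw [Finset.sum_coe_sort B (fun x => ((gpt τ n m g).1 x : ℂ))]
  exact (gpt τ n m g).sum_eq_one (support_gpt_subset τ B hB m g)

end Vale.Agent.P212
end
end

section

section

/-! The line bundles on the grids in the tori are almost invariant. -/

set_option linter.unusedSectionVars false
set_option linter.unusedSimpArgs false

namespace Vale.Agent.P212

open Matrix

variable (τ : Tower)

theorem sqrt_sub_sq_le {a b : ℝ} (ha : 0 ≤ a) (hb : 0 ≤ b) :
    (Real.sqrt a - Real.sqrt b) ^ 2 ≤ |a - b| := by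
  have h1 := Real.sq_sqrt ha
  have h2 := Real.sq_sqrt hb
  have h3 := Real.sqrt_nonneg a
  have h4 := Real.sqrt_nonneg b
  rcases le_total (Real.sqrt a) (Real.sqrt b) with h | h
  · have : a ≤ b := by linarith only [mul_nonneg (sub_nonneg.2 h4) (sub_nonneg.2 h), mul_nonneg (sub_nonneg.2 h3) (sub_nonneg.2 h), h2, h1]
    rw [abs_of_nonpos (by linarith)]
    linarith only [mul_nonneg (sub_nonneg.2 h3) (sub_nonneg.2 h), h2, h1]
  · have : b ≤ a := by linarith only [mul_nonneg (sub_nonneg.2 h) (sub_nonneg.2 h), mul_nonneg (sub_nonneg.2 h4) (sub_nonneg.2 h), h2, h1]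
    rw [abs_of_nonneg (by linarith)]
    linarith only [mul_nonneg (sub_nonneg.2 h4) (sub_nonneg.2 h), h2, h1]

theorem norm_phase_sub_le (s t : ℝ) :
    ‖Complex.exp (-(2 * Real.pi * Complex.I * (s : ℂ))) -
      Complex.exp (-(2 * Real.pi * Complex.I * (t : ℂ)))‖ ≤ 2 * Real.pi * |s - t| := by
  have e : Complex.exp (-(2 * Real.pi * Complex.I * (s : ℂ))) -
      Complex.exp (-(2 * Real.pi * Complex.I * (t : ℂ))) =
      Complex.exp (-(2 * Real.pi * Complex.I * (t : ℂ))) *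
        (Complex.exp (Complex.I * ((-(2 * Real.pi * (s - t)) : ℝ) : ℂ)) - 1) := by
    rw [mul_sub, mul_one, ← Complex.exp_add]
    congr 2
    push_cast
    ring
  rw [e, norm_mul, norm_phase, one_mul]
  refine (Real.norm_exp_I_mul_ofReal_sub_one_le).trans (le_of_eq ?_)
  rw [Real.norm_eq_abs, abs_neg, abs_mul, abs_of_nonneg (by positivity)]

theorem phase_sub_int (k : ℤ) (t : ℝ) : Complex.exp (-(2 * Real.pi * Complex.I * ((t - k : ℝ) : ℂ)))
    = Complex.exp (-(2 * Real.pi * Complex.I * (t : ℂ))) := by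
  have : -(2 * Real.pi * Complex.I * ((t - k : ℝ) : ℂ)) =
      -(2 * Real.pi * Complex.I * (t : ℂ)) + k * (2 * Real.pi * Complex.I) := by
    push_cast; ring
  rw [this, Complex.exp_add, Complex.exp_int_mul_two_pi_mul_I, mul_one]

theorem val_add_one' {M : ℕ} [NeZero M] (x : ZMod M) : (x + 1).val = (x.val + 1) % M := by
  rw [ZMod.val_add, ZMod.val_one_eq_one_mod, Nat.add_mod_mod]

theorem thT_mono (n m : ℕ) : Monotone (thT n m) := by
  intro a b h
  unfold thT
  have : a - n * 2 ^ m ≤ b - n * 2 ^ m := Nat.sub_le_sub_right h _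
  gcongr

theorem thT_zero (n m : ℕ) : thT n m 0 = 0 := by simp [thT]

theorem thT_top (n m : ℕ) : thT n m (2 ^ m * (n + 1)) = 1 := by
  unfold thT
  have : 2 ^ m * (n + 1) - n * 2 ^ m = 2 ^ m := Nat.sub_eq_of_eq_add (by ring)
  rw [this]
  push_cast
  exact div_self (by positivity)

theorem thT_succ_le (n m y : ℕ) : thT n m (y + 1) - thT n m y ≤ 1 / 2 ^ m := by
  unfold thT
  rw [← sub_div]
  gcongr
  have : ((y + 1 - n * 2 ^ m : ℕ) : ℝ) ≤ ((y - n * 2 ^ m : ℕ) : ℝ) + 1 := by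
    exact_mod_cast (by omega : y + 1 - n * 2 ^ m ≤ (y - n * 2 ^ m) + 1)
  linarith

theorem thT_step (n m : ℕ) (y : ZMod (sd n m)) :
    ∃ z : ℤ, |thT n m y.val - thT n m (y + 1).val - z| ≤ 1 / 2 ^ m := by
  have hlt := ZMod.val_lt y
  have h1 := thT_succ_le n m y.val
  have h0 := thT_mono n m (Nat.le_succ y.val)
  have h0' : thT n m y.val ≤ thT n m (y.val + 1) := h0
  by_cases h : y.val + 1 = sd n m
  · refine ⟨1, ?_⟩
    rw [val_add_one', h, Nat.mod_self, thT_zero]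
    rw [h] at h1 h0'
    have h2 := thT_top n m
    change thT n m (sd n m) = 1 at h2
    rw [h2] at h1 h0'
    rw [abs_le]
    push_cast
    constructor <;> linarith
  · refine ⟨0, ?_⟩
    rw [val_add_one', Nat.mod_eq_of_lt (by omega), abs_le]
    push_cast
    constructor <;> linarith

theorem xiG_zero {B : Finset (XT τ)} {j n m : ℕ} {g : Grid (sd n m)} {x : B}
    (h : (gpt τ n m g).1 (x : XT τ) = 0) : xiG τ B j n m g x = 0 := by
  rw [xiG, h]
  simp

theorem norm_xiG_sq {B : Finset (XT τ)} {j n m : ℕ} {g : Grid (sd n m)} {x : B} :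
    ‖xiG τ B j n m g x‖ ^ 2 = ((gpt τ n m g).1 x : ℝ) := by
  have h := xiG_norm_sq τ B j m g x
  rw [Complex.star_def, Complex.conj_mul'] at h
  exact_mod_cast h

/-- Neighbours in the first direction. -/
theorem kapT_x {n m : ℕ} (hn : 3 ≤ n) (g : Grid (sd n m)) {x : XT τ}
    (hx' : (gpt τ n m (g.1 + 1, g.2)).1 x ≠ 0) :
    (g.1.val + 1 ≠ sd n m →
      kapT n (g.1.val / 2 ^ m) x = kapT n ((g.1 + 1).val / 2 ^ m) x) ∧
    (g.1.val + 1 = sd n m →
      kapT n (g.1.val / 2 ^ m) x = 1 ∧ kapT n ((g.1 + 1).val / 2 ^ m) x = 0) := by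
  have hpos : 0 < 2 ^ m := by positivity
  have hlt := ZMod.val_lt g.1
  have hlt' := ZMod.val_lt (g.1 + 1)
  obtain ⟨i, hi, l, hl, ex, hi1⟩ := exists_vtx τ hx'
  simp only at ex hi1
  constructor
  · intro h
    have hv : (g.1 + 1).val = g.1.val + 1 := by
      rw [val_add_one', Nat.mod_eq_of_lt (by omega)]
    rw [hv] at ex hi1 hlt' ⊢
    by_cases hd : (g.1.val + 1) / 2 ^ m = g.1.val / 2 ^ m
    · rw [hd]
    · have h1 : 2 ^ m ∣ g.1.val + 1 := by
        by_contra hcon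
        exact hd (Nat.succ_div_of_not_dvd hcon)
      have h2 : (g.1.val + 1) / 2 ^ m = g.1.val / 2 ^ m + 1 := Nat.succ_div_of_dvd h1
      have h3 : (g.1.val + 1) / 2 ^ m < n + 1 := Nat.div_lt_of_lt_mul hlt'
      have h4 : g.1.val / 2 ^ m ≠ n := by omega
      have h5 : frc m (g.1.val + 1) = 0 := by
        rw [frc, Nat.mod_eq_zero_of_dvd h1]
        simp
      have h6 : i = 0 := by
        by_contra hcon
        exact hi1 (by omega) h5
      have h7 : kapT n ((g.1.val + 1) / 2 ^ m) x = 0 := by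
        rw [ex, kapT_vtx τ hn _ hi, h6, kz_zero]
      rw [h7, kapT, if_neg (fun hh => h4 hh.1)]
  · intro h
    have hv : (g.1 + 1).val = 0 := by
      rw [val_add_one', h, Nat.mod_self]
    rw [hv] at ex hi1 ⊢
    have h5 : frc m 0 = 0 := by
      rw [frc]
      simp
    have h6 : i = 0 := by
      by_contra hcon
      exact hi1 (by omega) h5
    have h8 : g.1.val / 2 ^ m = n := by
      have e1 : g.1.val = 2 ^ m * n + (2 ^ m - 1) := by
        have : sd n m = 2 ^ m * n + 2 ^ m := by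
          change 2 ^ m * (n + 1) = _
          ring
        omega
      rw [e1, Nat.mul_add_div hpos, Nat.div_eq_of_lt (by omega)]
      simp
    constructor
    · rw [kapT, if_pos]
      refine ⟨h8, ?_⟩
      rw [ex, h6]
      simp [vtx]
    · rw [kapT, if_neg]
      rintro ⟨hh, -⟩
      rw [Nat.zero_div] at hh
      omega

theorem xiG_shift_x {n : ℕ} (hn : 3 ≤ n) (B : Finset (XT τ))
    (hB : ∀ x : XT τ, x.n = n → x.l = 0 → x ∈ B) (j m : ℕ) (g : Grid (sd n m)) :
    ∑ x : B, ‖xiG τ B j n m g x -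
      (if g.1.val + 1 = sd n m then wph (sd n m) j (thT n m) g.2 else 1) *
        xiG τ B j n m (g.1 + 1, g.2) x‖ ^ 2 ≤ 2 / 2 ^ m := by
  have hw : ‖(if g.1.val + 1 = sd n m then wph (sd n m) j (thT n m) g.2 else 1 : ℂ)‖ = 1 := by
    split_ifs
    · rw [wph]
      have := norm_phase (j * thT n m g.2.val)
      push_cast at this ⊢
      rw [← this]
      congr 2
      ring
    · simp
  have key : ∀ x : B, ‖xiG τ B j n m g x -
      (if g.1.val + 1 = sd n m then wph (sd n m) j (thT n m) g.2 else 1) *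
        xiG τ B j n m (g.1 + 1, g.2) x‖ ^ 2 ≤
      |((gpt τ n m g).1 (x : XT τ) : ℝ) - ((gpt τ n m (g.1 + 1, g.2)).1 (x : XT τ) : ℝ)| := by
    intro x
    by_cases hx : (gpt τ n m g).1 (x : XT τ) = 0
    · rw [xiG_zero τ hx, zero_sub, norm_neg, norm_mul, hw, one_mul, norm_xiG_sq, hx]
      rw [Rat.cast_zero, zero_sub, abs_neg]
      exact le_abs_self _
    by_cases hx' : (gpt τ n m (g.1 + 1, g.2)).1 (x : XT τ) = 0
    · rw [xiG_zero τ hx', mul_zero, sub_zero, norm_xiG_sq, hx']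
      rw [Rat.cast_zero, sub_zero]
      exact le_abs_self _
    have hk := kapT_x τ hn g hx'
    have e : xiG τ B j n m g x -
      (if g.1.val + 1 = sd n m then wph (sd n m) j (thT n m) g.2 else 1) *
        xiG τ B j n m (g.1 + 1, g.2) x =
      ((Real.sqrt ((gpt τ n m g).1 x) - Real.sqrt ((gpt τ n m (g.1 + 1, g.2)).1 x) : ℝ) : ℂ) *
        Complex.exp (-(2 * Real.pi * Complex.I *
          ((j * kapT n (g.1.val / 2 ^ m) (x : XT τ) * thT n m g.2.val : ℝ) : ℂ))) := by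
      unfold xiG wph
      by_cases h : g.1.val + 1 = sd n m
      · obtain ⟨k1, k2⟩ := hk.2 h
        rw [if_pos h, k1, k2]
        push_cast
        simp only [mul_zero, zero_mul, neg_zero, Complex.exp_zero, mul_one, sub_mul]
        rw [mul_comm (Complex.exp _)]
        congr 3
        ring
      · have k1 := hk.1 h
        rw [if_neg h, k1]
        push_cast
        simp only [one_mul, sub_mul]
    rw [e, norm_mul, norm_phase, mul_one, Complex.norm_real, Real.norm_eq_abs, sq_abs]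
    exact sqrt_sub_sq_le (by exact_mod_cast (gpt τ n m g).2.1 x)
      (by exact_mod_cast (gpt τ n m (g.1 + 1, g.2)).2.1 x)
  refine (Finset.sum_le_sum fun x _ => key x).trans ?_
  rw [Finset.sum_coe_sort B (fun x => |((gpt τ n m g).1 (x : XT τ) : ℝ) -
    ((gpt τ n m (g.1 + 1, g.2)).1 (x : XT τ) : ℝ)|)]
  rw [← RPt.dist_eq_sum _ _ B (support_gpt_subset τ B hB m g) (support_gpt_subset τ B hB m _)]
  exact dist_gpt_x τ n m hn g

theorem xiG_shift_y {n : ℕ} (hn : 3 ≤ n) (B : Finset (XT τ))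
    (hB : ∀ x : XT τ, x.n = n → x.l = 0 → x ∈ B) (j m : ℕ) (g : Grid (sd n m)) :
    ∑ x : B, ‖xiG τ B j n m g x - 1 * xiG τ B j n m (g.1, g.2 + 1) x‖ ^ 2 ≤
      2 * (2 / 2 ^ m) + 2 * (2 * Real.pi * (j * (1 / 2 ^ m))) ^ 2 := by
  obtain ⟨z, hz⟩ := thT_step n m g.2
  have key : ∀ x : B, ‖xiG τ B j n m g x - 1 * xiG τ B j n m (g.1, g.2 + 1) x‖ ^ 2 ≤
      2 * |((gpt τ n m g).1 (x : XT τ) : ℝ) - ((gpt τ n m (g.1, g.2 + 1)).1 (x : XT τ) : ℝ)| +
      2 * (2 * Real.pi * (j * (1 / 2 ^ m))) ^ 2 *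
        ((gpt τ n m (g.1, g.2 + 1)).1 (x : XT τ) : ℝ) := by
    intro x
    set p : ℝ := ((gpt τ n m g).1 (x : XT τ) : ℝ) with hp
    set p' : ℝ := ((gpt τ n m (g.1, g.2 + 1)).1 (x : XT τ) : ℝ) with hp'
    have hp0 : 0 ≤ p := by rw [hp]; exact_mod_cast (gpt τ n m g).2.1 x
    have hp0' : 0 ≤ p' := by rw [hp']; exact_mod_cast (gpt τ n m (g.1, g.2 + 1)).2.1 x
    set k : ℤ := kapT n (g.1.val / 2 ^ m) (x : XT τ) with hk
    have hk1 : |(k : ℝ)| ≤ 1 := by
      rw [hk, kapT]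
      split_ifs <;> simp
    set t : ℝ := j * k * thT n m g.2.val with ht
    set t' : ℝ := j * k * thT n m (g.2 + 1).val with ht'
    have e1 : xiG τ B j n m g x =
        (Real.sqrt p : ℂ) * Complex.exp (-(2 * Real.pi * Complex.I * (t : ℂ))) := by
      rw [xiG, ht]
      push_cast
      rfl
    have e2 : xiG τ B j n m (g.1, g.2 + 1) x =
        (Real.sqrt p' : ℂ) * Complex.exp (-(2 * Real.pi * Complex.I * (t' : ℂ))) := by
      rw [xiG, ht']
      push_cast
      rfl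
    have e3 : Complex.exp (-(2 * Real.pi * Complex.I * (t : ℂ))) =
        Complex.exp (-(2 * Real.pi * Complex.I * ((t - ((j * k * z : ℤ) : ℝ) : ℝ) : ℂ))) := by
      rw [phase_sub_int]
    have e4 : ‖Complex.exp (-(2 * Real.pi * Complex.I * (t : ℂ))) -
        Complex.exp (-(2 * Real.pi * Complex.I * (t' : ℂ)))‖ ≤ 2 * Real.pi * (j * (1 / 2 ^ m)) := by
      rw [e3]
      refine (norm_phase_sub_le _ _).trans ?_
      have : t - ((j * k * z : ℤ) : ℝ) - t' =
          j * (k * (thT n m g.2.val - thT n m (g.2 + 1).val - z)) := by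
        rw [ht, ht']
        push_cast
        ring
      rw [this, abs_mul, abs_mul, Nat.abs_cast]
      have h5 : |(k : ℝ)| * |thT n m g.2.val - thT n m (g.2 + 1).val - z| ≤ 1 * (1 / 2 ^ m) :=
        mul_le_mul hk1 hz (abs_nonneg _) zero_le_one
      rw [one_mul] at h5
      have h6 : (0 : ℝ) ≤ j := Nat.cast_nonneg j
      have h7 := Real.pi_pos
      gcongr
    have e5 : xiG τ B j n m g x - 1 * xiG τ B j n m (g.1, g.2 + 1) x =
        ((Real.sqrt p - Real.sqrt p' : ℝ) : ℂ) *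
          Complex.exp (-(2 * Real.pi * Complex.I * (t : ℂ))) +
        (Real.sqrt p' : ℂ) * (Complex.exp (-(2 * Real.pi * Complex.I * (t : ℂ))) -
        Complex.exp (-(2 * Real.pi * Complex.I * (t' : ℂ)))) := by
      rw [e1, e2]
      push_cast
      ring
    have e6 : ‖xiG τ B j n m g x - 1 * xiG τ B j n m (g.1, g.2 + 1) x‖ ≤
        |Real.sqrt p - Real.sqrt p'| + Real.sqrt p' * (2 * Real.pi * (j * (1 / 2 ^ m))) := by
      rw [e5]
      refine (norm_add_le _ _).trans (add_le_add ?_ ?_)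
      · rw [norm_mul, norm_phase, mul_one, Complex.norm_real, Real.norm_eq_abs]
      · rw [norm_mul, Complex.norm_real, Real.norm_of_nonneg (Real.sqrt_nonneg _)]
        exact mul_le_mul_of_nonneg_left e4 (Real.sqrt_nonneg _)
    have e7 := sqrt_sub_sq_le hp0 hp0'
    have e8 := Real.sq_sqrt hp0'
    set A := |Real.sqrt p - Real.sqrt p'| with hA
    have hA2 : A ^ 2 ≤ |p - p'| := by rw [hA, sq_abs]; exact e7
    set C := 2 * Real.pi * (j * (1 / 2 ^ m)) with hC
    have h9 : ‖xiG τ B j n m g x - 1 * xiG τ B j n m (g.1, g.2 + 1) x‖ ^ 2 ≤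
        (A + Real.sqrt p' * C) ^ 2 := by
      gcongr
    have h10 : (A + Real.sqrt p' * C) ^ 2 ≤ 2 * A ^ 2 + 2 * (Real.sqrt p' * C) ^ 2 := by
      linarith only [sq_nonneg (A - Real.sqrt p' * C)]
    have h11 : (Real.sqrt p' * C) ^ 2 = C ^ 2 * p' := by
      rw [mul_pow, e8]; ring
    rw [h11] at h10
    linarith only [h10, h9, hA2]
  refine (Finset.sum_le_sum fun x _ => key x).trans ?_
  rw [Finset.sum_add_distrib, ← Finset.mul_sum, ← Finset.mul_sum]
  rw [Finset.sum_coe_sort B (fun x => |((gpt τ n m g).1 (x : XT τ) : ℝ) -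
    ((gpt τ n m (g.1, g.2 + 1)).1 (x : XT τ) : ℝ)|),
    Finset.sum_coe_sort B (fun x => ((gpt τ n m (g.1, g.2 + 1)).1 (x : XT τ) : ℝ))]
  rw [← RPt.dist_eq_sum _ _ B (support_gpt_subset τ B hB m g) (support_gpt_subset τ B hB m _),
    RPt.sum_coord _ B (support_gpt_subset τ B hB m _), mul_one]
  have := dist_gpt_y τ n m hn g
  linarith

end Vale.Agent.P212
end
end

section

section

/-! The rank of the Bott projection twisted by the powers of the line bundle on the torus. -/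

namespace Vale.Agent.P212

open Matrix Filter Topology
open scoped Matrix.Norms.L2Operator

/-- The Bott projection of the two unit steps of the grid. -/
noncomputable def gridE (M : ℕ) [NeZero M] : Matrix (Grid M × Fin 2) (Grid M × Fin 2) ℂ :=
  flat (bottE (shX M (fun _ => 1)) (shY M))

/-- The line bundle of the cocycle `j c0` on the grid. -/
noncomputable def gridQ (τ : Tower) [DecidableEq (XT τ)] (B : Finset (XT τ)) (j n m : ℕ)
    (a : Grid (sd n m) × Fin 2) : Matrix B B ℂ := Qb B (j • c0 n) (gpt τ n m a.1)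

theorem shX_eq_pp (M : ℕ) (w : ZMod M → ℂ) : shX M w =
    pp (fun q : Grid M => (q.1 + 1, q.2)) (fun q => if q.1.val + 1 = M then w q.2 else 1) := by
  funext p q
  change (if p.2 = q.2 ∧ p.1 = q.1 + 1 then (if q.1.val + 1 = M then w q.2 else 1) else 0) =
    (if p = (q.1 + 1, q.2) then (if q.1.val + 1 = M then w q.2 else 1) else 0 : ℂ)
  by_cases h : p.2 = q.2 ∧ p.1 = q.1 + 1
  · rw [if_pos h, if_pos (Prod.ext h.2 h.1 : p = (q.1 + 1, q.2))]
  · rw [if_neg h, if_neg]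
    intro h'
    exact h ⟨(Prod.ext_iff.1 h').2, (Prod.ext_iff.1 h').1⟩

theorem shY_eq_pp (M : ℕ) : shY M = pp (fun q : Grid M => (q.1, q.2 + 1)) (fun _ => 1) := by
  funext p q
  change (if p.1 = q.1 ∧ p.2 = q.2 + 1 then 1 else 0) =
    (if p = (q.1, q.2 + 1) then 1 else 0 : ℂ)
  by_cases h : p.1 = q.1 ∧ p.2 = q.2 + 1
  · rw [if_pos h, if_pos (Prod.ext h.1 h.2 : p = (q.1, q.2 + 1))]
  · rw [if_neg h, if_neg]
    intro h'
    exact h (Prod.ext_iff.1 h')

theorem shX_one_eq_pp (M : ℕ) : shX M (fun _ => 1) =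
    pp (fun q : Grid M => (q.1 + 1, q.2)) (fun _ => 1) := by
  rw [shX_eq_pp]
  congr 1
  funext q
  simp

/-- The rank of the twisted Bott projection on fine grids. -/
theorem rk_torus : ∃ sgn : ℤ, (sgn = 1 ∨ sgn = -1) ∧
    ∀ (τ : Tower) [DecidableEq (XT τ)] (n : ℕ) (_ : 16 ≤ n) (B : Finset (XT τ))
      (_ : ∀ x : XT τ, x.n = n → x.l = 0 → x ∈ B) (j : ℕ) (ε' : ℝ), 0 < ε' →
    ∃ m₀ : ℕ, ∀ m ≥ m₀, NearId (tw (gridQ τ B j n m) (gridE (sd n m))) ε' ∧
      (rk (tw (gridQ τ B j n m) (gridE (sd n m))) : ℤ) = (sd n m : ℤ) ^ 2 + sgn * j := by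
  obtain ⟨sgn, hsgn, H⟩ := rk_bott
  refine ⟨sgn, hsgn, ?_⟩
  intro τ _ n hn B hB j ε' hε'
  obtain ⟨ε, hε, δ, hδ, H1⟩ := rk_tw_vec ε' hε'
  obtain ⟨ε₂, hε₂, M₀, H2⟩ := H j ε hε
  have t0 : Tendsto (fun m : ℕ => (1 : ℝ) / 2 ^ m) atTop (𝓝 0) := by
    have := tendsto_pow_atTop_nhds_zero_of_lt_one (r := (1 / 2 : ℝ)) (by norm_num) (by norm_num)
    refine this.congr fun m => ?_
    rw [div_pow, one_pow]
  have t1 : Tendsto (fun m : ℕ => 2 * (2 * ((1 : ℝ) / 2 ^ m)) +
      2 * (2 * Real.pi * (j * (1 / 2 ^ m))) ^ 2) atTop (𝓝 0) := by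
    have h := ((t0.const_mul 2).const_mul 2).add
      ((((t0.const_mul (j : ℝ)).const_mul (2 * Real.pi)).pow 2).const_mul 2)
    simpa using h
  have t2 : Tendsto (fun m : ℕ => (2 : ℕ) ^ m) atTop atTop :=
    tendsto_pow_atTop_atTop_of_one_lt (by norm_num)
  have ev := ((t0.eventually_le_const hε₂).and
    (t1.eventually_le_const (by positivity : 0 < δ ^ 2))).and (t2.eventually_ge_atTop M₀)
  obtain ⟨m₀, hm₀⟩ := eventually_atTop.1 ev
  refine ⟨m₀, fun m hm => ?_⟩
  obtain ⟨⟨h1, h2⟩, h3⟩ := hm₀ m hm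
  have hM : M₀ ≤ sd n m := h3.trans (Nat.le_mul_of_pos_right _ (by omega))
  obtain ⟨hn1, hr⟩ := H2 (sd n m) hM (thT n m) (thT_mono n m) (thT_zero n m) (thT_top n m)
    (fun y _ => (thT_succ_le n m y).trans h1)
  have hn3 : 3 ≤ n := by omega
  have hs1 : Function.Injective (fun q : Grid (sd n m) => (q.1 + 1, q.2)) := by
    intro p q h
    simp only [Prod.mk.injEq, add_left_inj] at h
    exact Prod.ext h.1 h.2
  have hs2 : Function.Injective (fun q : Grid (sd n m) => (q.1, q.2 + 1)) := by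
    intro p q h
    simp only [Prod.mk.injEq, add_left_inj] at h
    exact Prod.ext h.1 h.2
  have hpos : (0 : ℝ) < 1 / 2 ^ m := by positivity
  have key := H1 (Grid (sd n m)) B (xiG τ B j n m) (fun q => (q.1 + 1, q.2))
    (fun q => (q.1, q.2 + 1))
    (fun q => if q.1.val + 1 = sd n m then wph (sd n m) j (thT n m) q.2 else 1) (fun _ => 1)
    (gridQ τ B j n m) (xiG_unit τ B hB j m) (fun a => gridQ_eq τ hn3 B hB j m a) hs1 hs2
    (fun q => by
      have h4 : ‖(if q.1.val + 1 = sd n m then wph (sd n m) j (thT n m) q.2 else 1 : ℂ)‖ = 1 := by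
        split_ifs
        · rw [wph]
          have := norm_phase (j * thT n m q.2.val)
          push_cast at this ⊢
          rw [← this]
          congr 2
          ring
        · simp
      rw [Complex.star_def, Complex.conj_mul', h4]
      simp)
    (fun q => by simp)
    (fun g => (xiG_shift_x τ hn3 B hB j m g).trans (by
      have : (2 : ℝ) / 2 ^ m = 2 * (1 / 2 ^ m) := by ring
      rw [this]
      linarith only [sq_nonneg (2 * Real.pi * (j * (1 / 2 ^ m))), hpos, h2]))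
    (fun g => (xiG_shift_y τ hn3 B hB j m g).trans (by
      have : (2 : ℝ) / 2 ^ m = 2 * (1 / 2 ^ m) := by ring
      rw [this]
      exact h2))
  rw [← shX_eq_pp, ← shY_eq_pp, ← shX_one_eq_pp] at key
  obtain ⟨k1, k2⟩ := key hn1
  refine ⟨k1, ?_⟩
  unfold gridE
  rw [k2, hr]

end Vale.Agent.P212
end
end

section

section

/-! Cutting down to finite matrices: definitions. -/

namespace Vale.Agent.P212

open Filter Topology NNReal Matrix
open scoped Matrix.Norms.L2Operator Kronecker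

/-- The compression of a matrix of operators to finitely many basis vectors. -/
noncomputable def cutM {J κ : Type} (F : Finset J) (T : Matrix κ κ (L2 J →L[ℂ] L2 J)) :
    Matrix (F × κ) (F × κ) ℂ := fun a b => ent (T a.2 b.2) a.1 b.1

/-- Multiplication by a function of the position, on finitely many basis vectors. -/
noncomputable def dg {X κ : Type} [Countable X] [DecidableEq X] [DecidableEq κ]
    (F : Finset (X × ℕ)) (g : RPt X → ℂ) : Matrix (F × κ) (F × κ) ℂ :=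
  Matrix.diagonal (fun a => g (pos (a.1 : X × ℕ)))

/-- A scalar matrix acting on finitely many basis vectors. -/
def scM {J κ : Type} [DecidableEq J] (F : Finset J) (f : Matrix κ κ ℂ) :
    Matrix (F × κ) (F × κ) ℂ := (1 : Matrix F F ℂ) ⊗ₖ f

/-- Basis vectors at positions in `P_r(X)` with all vertices in `B`. -/
def GoodB {X : Type} [MetricSpace X] [BddGeometry X] (r : ℝ) (B : Finset X) (j : X × ℕ) : Prop :=
  InRips r (pos j) ∧ (pos j).1.support ⊆ B

end Vale.Agent.P212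
end
end

section

section

/-! Entrywise norms of matrices of operators, and compressions. -/

namespace Vale.Agent.P212

open Filter Topology NNReal Matrix
open scoped Matrix.Norms.L2Operator Kronecker

section En

variable {K : Type} [Fintype K] {𝔄 : Type} [NormedRing 𝔄]

/-- The sum of the norms of the entries. -/
noncomputable def en (T : Matrix K K 𝔄) : ℝ := ∑ i, ∑ j, ‖T i j‖

theorem en_nonneg (T : Matrix K K 𝔄) : 0 ≤ en T :=
  Finset.sum_nonneg fun _ _ => Finset.sum_nonneg fun _ _ => norm_nonneg _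

theorem en_add_le (S T : Matrix K K 𝔄) : en (S + T) ≤ en S + en T := by
  unfold en
  rw [← Finset.sum_add_distrib]
  refine Finset.sum_le_sum fun i _ => ?_
  rw [← Finset.sum_add_distrib]
  exact Finset.sum_le_sum fun j _ => norm_add_le _ _

theorem en_neg (T : Matrix K K 𝔄) : en (-T) = en T := by
  unfold en
  simp only [Matrix.neg_apply, norm_neg]

theorem en_sub_le (S T : Matrix K K 𝔄) : en (S - T) ≤ en S + en T := by
  rw [sub_eq_add_neg, ← en_neg T]
  exact en_add_le _ _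

theorem en_zero : en (0 : Matrix K K 𝔄) = 0 := by
  simp [en]

theorem en_mul_le (S T : Matrix K K 𝔄) : en (S * T) ≤ en S * en T := by
  have h : ∀ i j, ‖(S * T) i j‖ ≤ ∑ k, ‖S i k‖ * ‖T k j‖ := fun i j => by
    rw [Matrix.mul_apply]
    exact (norm_sum_le _ _).trans (Finset.sum_le_sum fun k _ => norm_mul_le _ _)
  calc en (S * T) ≤ ∑ i, ∑ j, ∑ k, ‖S i k‖ * ‖T k j‖ :=
        Finset.sum_le_sum fun i _ => Finset.sum_le_sum fun j _ => h i j
    _ = ∑ i, ∑ k, ‖S i k‖ * ∑ j, ‖T k j‖ := by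
        refine Finset.sum_congr rfl fun i _ => ?_
        rw [Finset.sum_comm]
        refine Finset.sum_congr rfl fun k _ => ?_
        rw [Finset.mul_sum]
    _ ≤ ∑ i, ∑ k, ‖S i k‖ * en T := by
        refine Finset.sum_le_sum fun i _ => Finset.sum_le_sum fun k _ => ?_
        refine mul_le_mul_of_nonneg_left ?_ (norm_nonneg _)
        exact Finset.single_le_sum (f := fun k => ∑ j, ‖T k j‖)
          (fun _ _ => Finset.sum_nonneg fun _ _ => norm_nonneg _) (Finset.mem_univ k)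
    _ = en S * en T := by
        unfold en
        rw [Finset.sum_mul]
        refine Finset.sum_congr rfl fun i _ => ?_
        rw [Finset.sum_mul]

theorem en_le_card (T : Matrix K K 𝔄) {c : ℝ} (h : ∀ i j, ‖T i j‖ ≤ c) :
    en T ≤ Fintype.card K * (Fintype.card K * c) := by
  unfold en
  calc ∑ i, ∑ j, ‖T i j‖ ≤ ∑ _i : K, ∑ _j : K, c :=
        Finset.sum_le_sum fun i _ => Finset.sum_le_sum fun j _ => h i j
    _ = _ := by simp

theorem en_mono {T S : Matrix K K 𝔄} (h : ∀ i j, ‖T i j‖ ≤ ‖S i j‖) : en T ≤ en S :=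
  Finset.sum_le_sum fun i _ => Finset.sum_le_sum fun j _ => h i j

theorem tendsto_en {ι : Type*} {l : Filter ι} {x : ι → Matrix K K 𝔄}
    (h : ∀ i j, Tendsto (fun t => ‖x t i j‖) l (𝓝 0)) :
    Tendsto (fun t => en (x t)) l (𝓝 0) := by
  have h1 : Tendsto (fun t => ∑ i, ∑ j, ‖x t i j‖) l (𝓝 (∑ _i : K, ∑ _j : K, (0 : ℝ))) :=
    tendsto_finsetSum _ fun i _ => tendsto_finsetSum _ fun j _ => h i j
  rw [Finset.sum_const_zero, Finset.sum_const_zero] at h1
  exact h1

end En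

section Cut

variable {J K : Type}

/-- The projection onto finitely many basis vectors, on all components. -/
noncomputable def PF (K : Type) [DecidableEq K] (F : Finset J) :
    Matrix K K (L2 J →L[ℂ] L2 J) := diagonal (fun _ => proj (F : Set J))

/-- Multiplication by a function on all components. -/
noncomputable def mO (K : Type) [DecidableEq K] (g : J → ℂ) :
    Matrix K K (L2 J →L[ℂ] L2 J) := diagonal (fun _ => mulOp g)

/-- A diagonal matrix. -/
def dJ (K : Type) [DecidableEq K] [DecidableEq J] (F : Finset J) (g : J → ℂ) :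
    Matrix (F × K) (F × K) ℂ := diagonal (fun a => g a.1)

theorem proj_finset_apply (F : Finset J) (f : L2 J) :
    proj (F : Set J) f = ∑ c ∈ F, (f : J → ℂ) c •
      (open Classical in (lp.single 2 c (1 : ℂ) : L2 J)) := by
  classical
  ext j
  rw [lp.coeFn_sum, Finset.sum_apply]
  by_cases hj : j ∈ F
  · rw [proj_apply_mem _ (Finset.mem_coe.2 hj), Finset.sum_eq_single j]
    · rw [lp.coeFn_smul, Pi.smul_apply, lp.single_apply_self, smul_eq_mul, mul_one]
    · intro c _ hc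
      rw [lp.coeFn_smul, Pi.smul_apply, lp.single_apply_ne _ _ _ (Ne.symm hc), smul_zero]
    · exact fun h => absurd hj h
  · rw [proj_apply_not_mem _ (fun h => hj (Finset.mem_coe.1 h))]
    symm
    refine Finset.sum_eq_zero fun c hc => ?_
    rw [lp.coeFn_smul, Pi.smul_apply, lp.single_apply_ne, smul_zero]
    rintro rfl
    exact hj hc

theorem ent_mul_proj_mul (F : Finset J) (S T : L2 J →L[ℂ] L2 J) (a b : J) :
    ent (S * proj (F : Set J) * T) a b = ∑ c ∈ F, ent S a c * ent T c b := by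
  classical
  change (S (proj (F : Set J) (T (lp.single 2 b (1 : ℂ)))) : J → ℂ) a = _
  rw [proj_finset_apply, map_sum, lp.coeFn_sum, Finset.sum_apply]
  refine Finset.sum_congr rfl fun c _ => ?_
  rw [map_smul, lp.coeFn_smul, Pi.smul_apply, smul_eq_mul, mul_comm]
  rfl

theorem ent_eq_dec [inst : DecidableEq J] (T : L2 J →L[ℂ] L2 J) (a b : J) :
    ent T a b = (T (lp.single 2 b (1 : ℂ)) : J → ℂ) a := by
  have h : inst = fun a b => Classical.propDecidable (a = b) := Subsingleton.elim _ _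
  subst h
  rfl

theorem ent_sum {ι : Type*} (s : Finset ι) (T : ι → L2 J →L[ℂ] L2 J) (a b : J) :
    ent (∑ i ∈ s, T i) a b = ∑ i ∈ s, ent (T i) a b := by
  classical
  induction s using Finset.induction_on with
  | empty => simp [ent_zero]
  | @insert i s hi ih => rw [Finset.sum_insert hi, Finset.sum_insert hi, ent_add, ih]

variable [Fintype K] [DecidableEq K] [DecidableEq J]

omit [DecidableEq J] in
theorem cutM_mul (F : Finset J) (S T : Matrix K K (L2 J →L[ℂ] L2 J)) :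
    cutM F S * cutM F T = cutM F (S * PF K F * T) := by
  ext ⟨a, i⟩ ⟨b, j⟩
  change ∑ c : F × K, ent (S i c.2) a c.1 * ent (T c.2 j) c.1 b =
    ent ((S * PF K F * T) i j) a b
  rw [Matrix.mul_apply, ent_sum, Fintype.sum_prod_type_right]
  refine Finset.sum_congr rfl fun k _ => ?_
  rw [PF, Matrix.mul_diagonal, ent_mul_proj_mul, ← Finset.sum_coe_sort F]

omit [Fintype K] [DecidableEq K] [DecidableEq J] in
theorem cutM_add (F : Finset J) (S T : Matrix K K (L2 J →L[ℂ] L2 J)) :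
    cutM F (S + T) = cutM F S + cutM F T := by
  ext a b
  exact ent_add _ _ _ _

omit [Fintype K] [DecidableEq K] [DecidableEq J] in
theorem cutM_sub (F : Finset J) (S T : Matrix K K (L2 J →L[ℂ] L2 J)) :
    cutM F (S - T) = cutM F S - cutM F T := by
  ext a b
  exact ent_sub _ _ _ _

omit [Fintype K] in
theorem cutM_one (F : Finset J) : cutM F (1 : Matrix K K (L2 J →L[ℂ] L2 J)) = 1 := by
  ext ⟨a, i⟩ ⟨b, j⟩
  change ent ((1 : Matrix K K (L2 J →L[ℂ] L2 J)) i j) a b = _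
  rw [Matrix.one_apply, Matrix.one_apply]
  by_cases h : i = j
  · subst h
    rw [if_pos rfl, ent_one]
    by_cases h' : a = b
    · subst h'
      simp
    · rw [if_neg (fun h => h' (Subtype.ext h)), if_neg]
      exact fun h => h' (congrArg Prod.fst h)
  · rw [if_neg h, ent_zero, if_neg]
    exact fun h' => h (congrArg Prod.snd h')

omit [Fintype K] [DecidableEq K] in
theorem cutM_scalar (F : Finset J) (f : Matrix K K ℂ) :
    cutM F (f.map (algebraMap ℂ (L2 J →L[ℂ] L2 J))) = scM F f := by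
  ext ⟨a, i⟩ ⟨b, j⟩
  change ent (algebraMap ℂ (L2 J →L[ℂ] L2 J) (f i j)) a b =
    (1 : Matrix F F ℂ) a b * f i j
  rw [Algebra.algebraMap_eq_smul_one, ent_smul, ent_one, Matrix.one_apply, mul_comm]
  by_cases h' : a = b
  · subst h'
    simp
  · rw [if_neg (fun h => h' (Subtype.ext h)), if_neg h']

theorem cutM_mul_mO (F : Finset J) (T : Matrix K K (L2 J →L[ℂ] L2 J)) {g : J → ℂ}
    (hg : ∃ C : ℝ, ∀ j, ‖g j‖ ≤ C) : cutM F (T * mO K g) = cutM F T * dJ K F g := by
  ext ⟨a, i⟩ ⟨b, j⟩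
  rw [dJ, Matrix.mul_diagonal]
  change ent ((T * mO K g) i j) a b = ent (T i j) a b * g b
  rw [mO, Matrix.mul_diagonal, ent_mul_mulOp hg]

theorem cutM_mO_mul (F : Finset J) (T : Matrix K K (L2 J →L[ℂ] L2 J)) {g : J → ℂ}
    (hg : ∃ C : ℝ, ∀ j, ‖g j‖ ≤ C) : cutM F (mO K g * T) = dJ K F g * cutM F T := by
  ext ⟨a, i⟩ ⟨b, j⟩
  rw [dJ, Matrix.diagonal_mul]
  change ent ((mO K g * T) i j) a b = g a * ent (T i j) a b
  rw [mO, Matrix.diagonal_mul, ent_mulOp_mul hg]

/-- The extension of a vector on finitely many basis vectors. -/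
noncomputable def extV (F : Finset J) (v : F → ℂ) : L2 J :=
  ∑ c : F, v c • (lp.single 2 (c : J) (1 : ℂ) : L2 J)

theorem extV_apply (F : Finset J) (v : F → ℂ) (c : F) : (extV F v : J → ℂ) c = v c := by
  unfold extV
  rw [lp.coeFn_sum, Finset.sum_apply, Finset.sum_eq_single c]
  · rw [lp.coeFn_smul, Pi.smul_apply, lp.single_apply_self, smul_eq_mul, mul_one]
  · intro d _ hd
    rw [lp.coeFn_smul, Pi.smul_apply, lp.single_apply_ne, smul_zero]
    exact fun h => hd (Subtype.ext h.symm)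
  · exact fun h => absurd (Finset.mem_univ _) h

theorem extV_apply_not_mem (F : Finset J) (v : F → ℂ) {j : J} (hj : j ∉ F) :
    (extV F v : J → ℂ) j = 0 := by
  unfold extV
  rw [lp.coeFn_sum, Finset.sum_apply]
  refine Finset.sum_eq_zero fun d _ => ?_
  rw [lp.coeFn_smul, Pi.smul_apply, lp.single_apply_ne, smul_zero]
  rintro rfl
  exact hj d.2

theorem norm_sq_extV (F : Finset J) (v : F → ℂ) : ‖extV F v‖ ^ 2 = ∑ c : F, ‖v c‖ ^ 2 := by
  have h := lp.norm_rpow_eq_tsum (p := 2) (by norm_num) (extV F v)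
  norm_num at h
  rw [h, tsum_eq_sum (s := F)]
  · rw [← Finset.sum_coe_sort]
    exact Finset.sum_congr rfl fun c _ => by rw [extV_apply]
  · intro b hb
    rw [extV_apply_not_mem F v hb]
    simp

omit [DecidableEq J] in
theorem sum_norm_sq_le (F : Finset J) (f : L2 J) : ∑ c : F, ‖(f : J → ℂ) c‖ ^ 2 ≤ ‖f‖ ^ 2 := by
  have h := lp.sum_rpow_le_norm_rpow (p := 2) (by norm_num) f F
  norm_num at h
  rw [← Finset.sum_coe_sort] at h
  exact h

/-- One block. -/
noncomputable def blkM (F : Finset J) (T : L2 J →L[ℂ] L2 J) (i j : K) :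
    Matrix (F × K) (F × K) ℂ :=
  fun a b => if a.2 = i ∧ b.2 = j then ent T a.1 b.1 else 0

/-- The norm of one block. -/
theorem norm_block_le (F : Finset J) (T : L2 J →L[ℂ] L2 J) (i j : K) :
    ‖blkM F T i j‖ ≤ ‖T‖ := by
  rw [Matrix.l2_opNorm_def]
  refine ContinuousLinearMap.opNorm_le_bound _ (norm_nonneg _) fun v => ?_
  set w : L2 J := extV F (fun c => v (c, j)) with hw
  have h1 : ‖w‖ ^ 2 ≤ ‖v‖ ^ 2 := by
    rw [hw, norm_sq_extV, EuclideanSpace.norm_sq_eq, Fintype.sum_prod_type]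
    refine Finset.sum_le_sum fun c _ => ?_
    exact Finset.single_le_sum (f := fun k => ‖v (c, k)‖ ^ 2) (fun _ _ => by positivity)
      (Finset.mem_univ j)
  have h1' : ‖w‖ ≤ ‖v‖ := by
    exact (sq_le_sq₀ (norm_nonneg _) (norm_nonneg _)).1 h1
  have h2 : ∀ a : F × K, ((Matrix.toEuclideanLin (blkM F T i j)) v) a =
      if a.2 = i then (T w : J → ℂ) a.1 else 0 := by
    rintro ⟨a, k⟩
    change ∑ b : F × K, (if k = i ∧ b.2 = j then ent T a b.1 else 0) * v b = _
    by_cases hk : k = i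
    · rw [if_pos hk, Fintype.sum_prod_type, hw, extV, map_sum, lp.coeFn_sum, Finset.sum_apply]
      refine Finset.sum_congr rfl fun c _ => ?_
      rw [Finset.sum_eq_single j]
      · rw [if_pos ⟨hk, rfl⟩, map_smul, lp.coeFn_smul, Pi.smul_apply, smul_eq_mul, mul_comm,
          ent_eq_dec]
      · intro b _ hb
        rw [if_neg (fun h => hb h.2), zero_mul]
      · exact fun h => absurd (Finset.mem_univ _) h
    · rw [if_neg hk]
      refine Finset.sum_eq_zero fun b _ => ?_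
      rw [if_neg (fun h => hk h.1), zero_mul]
  have h3 : ‖(Matrix.toEuclideanLin (blkM F T i j)) v‖ ^ 2 ≤ (‖T‖ * ‖v‖) ^ 2 := by
    rw [EuclideanSpace.norm_sq_eq, Fintype.sum_prod_type]
    calc _ = ∑ c : F, ‖(T w : J → ℂ) c‖ ^ 2 := by
          refine Finset.sum_congr rfl fun c _ => ?_
          rw [Finset.sum_eq_single i]
          · rw [h2, if_pos rfl]
          · intro b _ hb
            rw [h2, if_neg hb]
            simp
          · exact fun h => absurd (Finset.mem_univ _) h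
      _ ≤ ‖T w‖ ^ 2 := sum_norm_sq_le F _
      _ ≤ (‖T‖ * ‖v‖) ^ 2 := by
          refine pow_le_pow_left₀ (norm_nonneg _) ?_ 2
          exact (T.le_opNorm w).trans (mul_le_mul_of_nonneg_left h1' (norm_nonneg _))
  exact (sq_le_sq₀ (norm_nonneg _) (by positivity)).1 h3

theorem norm_cutM_le (F : Finset J) (T : Matrix K K (L2 J →L[ℂ] L2 J)) :
    ‖cutM F T‖ ≤ en T := by
  have h : cutM F T = ∑ i, ∑ j, blkM F (T i j) i j := by
    ext ⟨a, k⟩ ⟨b, l⟩
    rw [Matrix.sum_apply]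
    rw [Finset.sum_eq_single k]
    · rw [Matrix.sum_apply, Finset.sum_eq_single l]
      · exact (if_pos ⟨rfl, rfl⟩).symm
      · intro c _ hc
        exact if_neg (fun h => hc h.2.symm)
      · exact fun h => absurd (Finset.mem_univ _) h
    · intro c _ hc
      rw [Matrix.sum_apply]
      exact Finset.sum_eq_zero fun d _ => if_neg (fun h => hc h.1.symm)
    · exact fun h => absurd (Finset.mem_univ _) h
  rw [h]
  refine (norm_sum_le _ _).trans (Finset.sum_le_sum fun i _ => ?_)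
  exact (norm_sum_le _ _).trans (Finset.sum_le_sum fun j _ => norm_block_le F (T i j) i j)

theorem norm_dJ_le (F : Finset J) {g : J → ℂ} {C : ℝ} (hC : 0 ≤ C) (hg : ∀ j, ‖g j‖ ≤ C) :
    ‖dJ K F g‖ ≤ C := by
  rw [dJ, Matrix.l2_opNorm_diagonal]
  exact (pi_norm_le_iff_of_nonneg hC).2 fun a => hg _

end Cut

end Vale.Agent.P212
end
end

section

section

/-! Cutting an almost finite invertible matrix of operators down to a finite matrix. -/

namespace Vale.Agent.P212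

open Filter Topology NNReal Matrix
open scoped Matrix.Norms.L2Operator Kronecker

theorem proj_compl_eq {J : Type} (S : Set J) : proj Sᶜ = 1 - proj S := by
  rw [← Approx.proj_add_compl S, add_sub_cancel_left]

theorem proj_compl_tendsto {J : Type} (f : L2 J) {δ : ℝ} (hδ : 0 < δ) :
    ∃ F₀ : Finset J, ∀ F : Finset J, F₀ ⊆ F → ‖proj ((F : Set J)ᶜ) f‖ < δ := by
  classical
  have h : Filter.Tendsto (fun s : Finset J =>
      ∑ i ∈ s, (lp.single 2 i ((f : J → ℂ) i) : L2 J)) Filter.atTop (nhds f) :=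
    lp.hasSum_single (E := fun _ : J => ℂ) (p := 2) (by simp) f
  obtain ⟨s, hs⟩ := Metric.tendsto_atTop.1 h δ hδ
  refine ⟨s, fun F hF => ?_⟩
  have hs' := hs F hF
  have h2 : ∑ i ∈ F, (lp.single 2 i ((f : J → ℂ) i) : L2 J) = proj (F : Set J) f := by
    ext j
    rw [lp.coeFn_sum, Finset.sum_apply]
    by_cases hj : j ∈ F
    · rw [proj_apply_mem _ (Finset.mem_coe.2 hj), Finset.sum_eq_single j]
      · rw [lp.single_apply_self]
      · intro c _ hc
        rw [lp.single_apply_ne _ _ _ (Ne.symm hc)]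
      · exact fun h => absurd hj h
    · rw [proj_apply_not_mem _ (fun h => hj (Finset.mem_coe.1 h))]
      refine Finset.sum_eq_zero fun c hc => ?_
      rw [lp.single_apply_ne]
      rintro rfl
      exact hj hc
  rw [h2, dist_comm, dist_eq_norm] at hs'
  rw [proj_compl_eq]
  exact hs'

theorem compl_mul_compact {J : Type} {T : L2 J →L[ℂ] L2 J} (hT : IsCompactOperator T)
    {δ : ℝ} (hδ : 0 < δ) :
    ∃ F₀ : Finset J, ∀ F : Finset J, F₀ ⊆ F → ‖proj ((F : Set J)ᶜ) * T‖ ≤ δ := by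
  classical
  have h1 := hT
  change IsCompactOperator (T : L2 J →ₗ[ℂ] L2 J) at h1
  rw [isCompactOperator_iff_isCompact_closure_image_closedBall _ zero_lt_one] at h1
  have h3 : TotallyBounded (T '' Metric.closedBall 0 1) :=
    h1.totallyBounded.subset subset_closure
  obtain ⟨t, ht, hcov⟩ := Metric.totallyBounded_iff.1 h3 (δ / 2) (by positivity)
  have hex : ∀ y : L2 J, ∃ F₀ : Finset J, ∀ F : Finset J, F₀ ⊆ F →
      ‖proj ((F : Set J)ᶜ) y‖ < δ / 2 :=
    fun y => proj_compl_tendsto y (by positivity)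
  choose k hk using hex
  refine ⟨ht.toFinset.sup k, fun F hF => ?_⟩
  refine ContinuousLinearMap.opNorm_le_of_unit_norm hδ.le (fun f hf => ?_)
  have hf' := hcov ⟨f, by rw [mem_closedBall_zero_iff, hf], rfl⟩
  simp only [Set.mem_iUnion, Metric.mem_ball, exists_prop] at hf'
  obtain ⟨y, hy, hfy⟩ := hf'
  have hl' : k y ≤ F := (Finset.le_sup (f := k) (ht.mem_toFinset.2 hy)).trans hF
  have h4 := hk y F hl'
  have h5 : ‖proj ((F : Set J)ᶜ) (T f - y)‖ < δ / 2 := by
    refine (norm_proj_apply_le _ _).trans_lt ?_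
    rwa [← dist_eq_norm]
  change ‖proj ((F : Set J)ᶜ) (T f)‖ ≤ δ
  have h6 : proj ((F : Set J)ᶜ) (T f) =
      proj ((F : Set J)ᶜ) (T f - y) + proj ((F : Set J)ᶜ) y := by
    rw [map_sub]; abel
  rw [h6]
  refine (norm_add_le _ _).trans ?_
  linarith

theorem entB_proj_mul {J : Type} (S : Set J) (T : L2 J →L[ℂ] L2 J) (a b : J)
    [Decidable (a ∈ S)] : ent (proj S * T) a b = if a ∈ S then ent T a b else 0 := by
  classical
  rw [ent_eq_dec, ent_eq_dec]
  change (proj S (T (lp.single 2 b (1 : ℂ))) : J → ℂ) a = _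
  split_ifs with h
  · exact proj_apply_mem _ h
  · exact proj_apply_not_mem _ h

theorem proj_single_mem {J : Type} [DecidableEq J] {S : Set J} {b : J} (h : b ∈ S) :
    proj S (lp.single 2 b (1 : ℂ) : L2 J) = lp.single 2 b (1 : ℂ) := by
  ext j
  by_cases hj : j = b
  · subst hj
    exact proj_apply_mem _ h
  · rw [lp.single_apply_ne _ _ _ hj, proj_apply]
    by_cases hS : j ∈ S
    · rw [Set.indicator_of_mem hS, lp.single_apply_ne _ _ _ hj]
    · rw [Set.indicator_of_notMem hS]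

theorem proj_single_not_mem {J : Type} [DecidableEq J] {S : Set J} {b : J} (h : b ∉ S) :
    proj S (lp.single 2 b (1 : ℂ) : L2 J) = 0 := by
  ext j
  change _ = (0 : ℂ)
  by_cases hj : j = b
  · subst hj
    exact proj_apply_not_mem _ h
  · rw [proj_apply]
    by_cases hS : j ∈ S
    · rw [Set.indicator_of_mem hS, lp.single_apply_ne _ _ _ hj]
    · rw [Set.indicator_of_notMem hS]

theorem entB_mul_proj {J : Type} (S : Set J) (T : L2 J →L[ℂ] L2 J) (a b : J)
    [Decidable (b ∈ S)] : ent (T * proj S) a b = if b ∈ S then ent T a b else 0 := by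
  classical
  rw [ent_eq_dec, ent_eq_dec]
  change (T (proj S (lp.single 2 b (1 : ℂ))) : J → ℂ) a = _
  split_ifs with h
  · rw [proj_single_mem h]
  · rw [proj_single_not_mem h, map_zero]
    rfl

theorem exists_cut {J K : Type} [Fintype K] (T : Matrix K K (L2 J →L[ℂ] L2 J)) (𝒢 : J → Prop)
    (hc : ∀ i j, IsCompactOperator (T i j)) (hs : ∀ i j a b, ent (T i j) a b ≠ 0 → 𝒢 a)
    {δ : ℝ} (hδ : 0 < δ) : ∃ F₀ : Finset J, (∀ j ∈ F₀, 𝒢 j) ∧ ∀ F : Finset J, F₀ ⊆ F →
      ∀ i j, ‖proj ((F : Set J)ᶜ) * T i j‖ ≤ δ := by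
  classical
  have h1 : ∀ i j, ∃ F₀ : Finset J, ∀ F : Finset J, F₀ ⊆ F →
      ‖proj ((F : Set J)ᶜ) * T i j‖ ≤ δ := fun i j => compl_mul_compact (hc i j) hδ
  choose k hk using h1
  set F₁ : Finset J := Finset.univ.biUnion fun i => Finset.univ.biUnion fun j => k i j with hF₁
  refine ⟨F₁.filter 𝒢, fun j hj => (Finset.mem_filter.1 hj).2, fun F hF i j => ?_⟩
  have h2 : proj ((F : Set J)ᶜ) * T i j = proj (((F ∪ F₁ : Finset J) : Set J)ᶜ) * T i j := by
    refine ext_ent fun a b => ?_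
    rw [entB_proj_mul, entB_proj_mul]
    by_cases ha : a ∈ F
    · have e1 : a ∉ ((F : Set J)ᶜ) := fun h => h (Finset.mem_coe.2 ha)
      have e2 : a ∉ (((F ∪ F₁ : Finset J) : Set J)ᶜ) :=
        fun h => h (Finset.mem_coe.2 (Finset.mem_union_left _ ha))
      rw [if_neg e1, if_neg e2]
    · have e1 : a ∈ ((F : Set J)ᶜ) := fun h => ha (Finset.mem_coe.1 h)
      rw [if_pos e1]
      by_cases ha' : a ∈ F₁
      · have e2 : a ∉ (((F ∪ F₁ : Finset J) : Set J)ᶜ) :=
          fun h => h (Finset.mem_coe.2 (Finset.mem_union_right _ ha'))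
        rw [if_neg e2]
        by_contra hne
        exact ha (hF (Finset.mem_filter.2 ⟨ha', hs i j a b hne⟩))
      · have e2 : a ∈ (((F ∪ F₁ : Finset J) : Set J)ᶜ) := by
          intro h
          rcases Finset.mem_union.1 (Finset.mem_coe.1 h) with h | h
          · exact ha h
          · exact ha' h
        rw [if_pos e2]
  rw [h2]
  refine hk i j _ ?_
  refine Finset.Subset.trans ?_ Finset.subset_union_right
  intro x hx
  exact Finset.mem_biUnion.2 ⟨i, Finset.mem_univ _, Finset.mem_biUnion.2 ⟨j, Finset.mem_univ _, hx⟩⟩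

section

variable {J K : Type} [Fintype K] [DecidableEq K]

/-- The complementary projection. -/
noncomputable def PC (K : Type) [DecidableEq K] (F : Finset J) :
    Matrix K K (L2 J →L[ℂ] L2 J) := diagonal (fun _ => proj ((F : Set J)ᶜ))

omit [Fintype K] in
theorem PF_add_PC (F : Finset J) : PF K F + PC K F = 1 := by
  rw [PF, PC, Matrix.diagonal_add, ← Matrix.diagonal_one]
  congr 1
  ext1 i
  exact Approx.proj_add_compl _

theorem PF_mul_PF (F : Finset J) : PF K F * PF K F = PF K F := by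
  rw [PF, Matrix.diagonal_mul_diagonal, proj_idem]

theorem PF_comm_scalar (F : Finset J) (f : Matrix K K ℂ) :
    PF K F * f.map (algebraMap ℂ (L2 J →L[ℂ] L2 J)) =
      f.map (algebraMap ℂ (L2 J →L[ℂ] L2 J)) * PF K F := by
  ext1 i j
  rw [PF, Matrix.diagonal_mul, Matrix.mul_diagonal]
  exact (Algebra.commutes (f i j) (_ : L2 J →L[ℂ] L2 J)).symm

theorem PC_comm_scalar (F : Finset J) (f : Matrix K K ℂ) :
    PC K F * f.map (algebraMap ℂ (L2 J →L[ℂ] L2 J)) =
      f.map (algebraMap ℂ (L2 J →L[ℂ] L2 J)) * PC K F := by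
  ext1 i j
  rw [PC, Matrix.diagonal_mul, Matrix.mul_diagonal]
  exact (Algebra.commutes (f i j) (_ : L2 J →L[ℂ] L2 J)).symm

theorem cutM_mul_PC (F : Finset J) (S : Matrix K K (L2 J →L[ℂ] L2 J)) :
    cutM F (S * PC K F) = 0 := by
  classical
  ext ⟨a, i⟩ ⟨b, j⟩
  change ent ((S * PC K F) i j) a b = 0
  rw [PC, Matrix.mul_diagonal, entB_mul_proj, if_neg]
  exact fun h => h (Finset.mem_coe.2 b.2)

theorem cutM_PC_mul (F : Finset J) (S : Matrix K K (L2 J →L[ℂ] L2 J)) :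
    cutM F (PC K F * S) = 0 := by
  classical
  ext ⟨a, i⟩ ⟨b, j⟩
  change ent ((PC K F * S) i j) a b = 0
  rw [PC, Matrix.diagonal_mul, entB_proj_mul, if_neg]
  exact fun h => h (Finset.mem_coe.2 a.2)

/-- The compression of a product with a complementary projection inserted. -/
theorem cutM_PC_insert (F : Finset J) (f : Matrix K K ℂ) (T T' : Matrix K K (L2 J →L[ℂ] L2 J)) :
    cutM F ((1 + T) * (f.map (algebraMap ℂ (L2 J →L[ℂ] L2 J)) * PC K F) * (1 + T')) =
      cutM F (T * f.map (algebraMap ℂ (L2 J →L[ℂ] L2 J)) * (PC K F * T')) := by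
  set f' := f.map (algebraMap ℂ (L2 J →L[ℂ] L2 J)) with hf'
  have h : (1 + T) * (f' * PC K F) * (1 + T') =
      T * f' * (PC K F * T') + ((1 + T) * f' * PC K F + PC K F * (f' * T')) := by
    rw [← mul_assoc (PC K F) f' T', hf', PC_comm_scalar, ← hf']
    noncomm_ring
  rw [h, cutM_add, cutM_add, cutM_mul_PC, cutM_PC_mul, add_zero, add_zero]

/-- The compression of a product. -/
theorem cutM_prod [DecidableEq J] (F : Finset J) (f : Matrix K K ℂ)
    (T T' : Matrix K K (L2 J →L[ℂ] L2 J)) :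
    cutM F (1 + T) * scM F f * cutM F (1 + T') =
      cutM F ((1 + T) * f.map (algebraMap ℂ (L2 J →L[ℂ] L2 J)) * (1 + T')) -
        cutM F (T * f.map (algebraMap ℂ (L2 J →L[ℂ] L2 J)) * (PC K F * T')) := by
  rw [← cutM_scalar, cutM_mul, cutM_mul, ← cutM_PC_insert, ← cutM_sub]
  congr 1
  set f' := f.map (algebraMap ℂ (L2 J →L[ℂ] L2 J)) with hf'
  have h1 : (1 + T) * PF K F * f' * PF K F = (1 + T) * (f' * PF K F) := by
    rw [mul_assoc (1 + T), hf', PF_comm_scalar, mul_assoc, mul_assoc, PF_mul_PF]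
  rw [h1]
  have h2 : f' * PC K F = f' - f' * PF K F := by
    have h3 := PF_add_PC (K := K) F
    rw [eq_sub_iff_add_eq', ← mul_add, h3, mul_one]
  rw [h2]
  noncomm_ring

end

end Vale.Agent.P212
end
end

section

section

/-! Asymptotic commutation in localization systems. -/

namespace Vale.Agent.P212

open Filter Topology NNReal Matrix

/-! ### Multiplication operators -/

section MulOp

variable {J : Type}

theorem mulOp_comm {g h : J → ℂ} (hg : ∃ C : ℝ, ∀ j, ‖g j‖ ≤ C) (hh : ∃ C : ℝ, ∀ j, ‖h j‖ ≤ C) :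
    mulOp g * mulOp h = mulOp h * mulOp g := by
  rw [← mulOp_mul hg hh, ← mulOp_mul hh hg]
  congr 1
  ext1 j
  exact mul_comm _ _

theorem mulOp_zero : mulOp (fun _ : J => (0 : ℂ)) = 0 := by
  refine ext_ent fun j k => ?_
  have h := ent_mulOp_mul (J := J) (g := fun _ => (0 : ℂ)) ⟨0, by simp⟩ 1 j k
  rw [mul_one, zero_mul] at h
  rw [h, ent_zero]

theorem mulOp_neg {g : J → ℂ} (hg : ∃ C : ℝ, ∀ j, ‖g j‖ ≤ C) :
    mulOp (fun j => -g j) = -mulOp g := by
  have hg' : ∃ C : ℝ, ∀ j, ‖-g j‖ ≤ C := by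
    obtain ⟨C, hC⟩ := hg
    exact ⟨C, fun j => by rw [norm_neg]; exact hC j⟩
  have h := mulOp_add hg hg'
  simp only [add_neg_cancel] at h
  rw [mulOp_zero] at h
  exact (neg_eq_of_add_eq_zero_right h.symm).symm

theorem mulOp_sub {g h : J → ℂ} (hg : ∃ C : ℝ, ∀ j, ‖g j‖ ≤ C)
    (hh : ∃ C : ℝ, ∀ j, ‖h j‖ ≤ C) : mulOp (fun j => g j - h j) = mulOp g - mulOp h := by
  have hh' : ∃ C : ℝ, ∀ j, ‖-h j‖ ≤ C := by
    obtain ⟨C, hC⟩ := hh
    exact ⟨C, fun j => by rw [norm_neg]; exact hC j⟩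
  simp only [sub_eq_add_neg]
  rw [mulOp_add hg hh', mulOp_neg hh]

open Classical in
theorem proj_eq_mulOp (S : Set J) : proj S = mulOp (fun j => if j ∈ S then (1 : ℂ) else 0) := by
  refine ext_ent fun j k => ?_
  have hb : ∃ C : ℝ, ∀ j, ‖(if j ∈ S then (1 : ℂ) else 0)‖ ≤ C :=
    ⟨1, fun j => by split_ifs <;> simp⟩
  have h := ent_mulOp_mul hb (1 : L2 J →L[ℂ] L2 J) j k
  have h' := entB_proj_mul S (1 : L2 J →L[ℂ] L2 J) j k
  rw [mul_one] at h h'
  rw [h, h']
  split_ifs <;> simp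

open Classical in
theorem bdd_ind (S : Set J) : ∃ C : ℝ, ∀ j, ‖(if j ∈ S then (1 : ℂ) else 0)‖ ≤ C :=
  ⟨1, fun j => by split_ifs <;> simp⟩

theorem proj_comm_mulOp (S : Set J) {g : J → ℂ} (hg : ∃ C : ℝ, ∀ j, ‖g j‖ ≤ C) :
    proj S * mulOp g = mulOp g * proj S := by
  rw [proj_eq_mulOp]
  exact mulOp_comm (bdd_ind S) hg

variable {K : Type} [Fintype K] [DecidableEq K]

theorem mO_comm {g h : J → ℂ} (hg : ∃ C : ℝ, ∀ j, ‖g j‖ ≤ C) (hh : ∃ C : ℝ, ∀ j, ‖h j‖ ≤ C) :
    mO K g * mO K h = mO K h * mO K g := by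
  rw [mO, mO, Matrix.diagonal_mul_diagonal, Matrix.diagonal_mul_diagonal, mulOp_comm hg hh]

theorem en_mO_mul_le {g : J → ℂ} (hg : ∀ j, ‖g j‖ ≤ 1) (T : Matrix K K (L2 J →L[ℂ] L2 J)) :
    en (mO K g * T) ≤ en T := by
  refine en_mono fun i j => ?_
  rw [mO, Matrix.diagonal_mul]
  refine (norm_mul_le _ _).trans ?_
  exact mul_le_of_le_one_left (norm_nonneg _) (norm_mulOp_le hg zero_le_one)

theorem en_mul_mO_le {g : J → ℂ} (hg : ∀ j, ‖g j‖ ≤ 1) (T : Matrix K K (L2 J →L[ℂ] L2 J)) :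
    en (T * mO K g) ≤ en T := by
  refine en_mono fun i j => ?_
  rw [mO, Matrix.mul_diagonal]
  refine (norm_mul_le _ _).trans ?_
  exact mul_le_of_le_one_right (norm_nonneg _) (norm_mulOp_le hg zero_le_one)

/-- The commutator of a compression. -/
theorem en_comm_cut_le {g θ : J → ℂ} (hg : ∃ C : ℝ, ∀ j, ‖g j‖ ≤ C) (hθ : ∀ j, ‖θ j‖ ≤ 1)
    (V : Matrix K K (L2 J →L[ℂ] L2 J)) :
    en (mO K θ * (V - 1) * mO K θ * mO K g - mO K g * (mO K θ * (V - 1) * mO K θ)) ≤
      en (V * mO K g - mO K g * V) := by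
  have h1 := mO_comm (K := K) hg ⟨1, hθ⟩
  have h : mO K θ * (V - 1) * mO K θ * mO K g - mO K g * (mO K θ * (V - 1) * mO K θ) =
      mO K θ * ((V * mO K g - mO K g * V) * mO K θ) := by
    have e1 : mO K g * (mO K θ * (V - 1) * mO K θ) = mO K θ * (mO K g * (V - 1)) * mO K θ := by
      rw [← mul_assoc, ← mul_assoc, h1, mul_assoc (mO K θ)]
    rw [mul_assoc (mO K θ * (V - 1)), ← h1, e1]
    noncomm_ring
  rw [h]
  exact (en_mO_mul_le hθ _).trans (en_mul_mO_le hθ _)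

/-- The error of a compression. -/
theorem en_cut_le {θ η : J → ℂ} (hθ : ∀ j, ‖θ j‖ ≤ 1) (hη : mO K θ + mO K η = 1)
    (V : Matrix K K (L2 J →L[ℂ] L2 J)) {ε₁ ε₂ : ℝ} (h1 : en (V * mO K η - mO K η) ≤ ε₁)
    (h2 : en (V * mO K η - mO K η * V) ≤ ε₂) :
    en (V - 1 - mO K θ * (V - 1) * mO K θ) ≤ 2 * ε₁ + ε₂ := by
  have e1 : V - 1 - mO K θ * (V - 1) * mO K θ =
      (V * mO K η - mO K η) +
        ((V * mO K η - mO K η) - (V * mO K η - mO K η * V)) * mO K θ := by
    have e2 : mO K θ = 1 - mO K η := by rw [← hη]; abel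
    rw [e2]
    noncomm_ring
  rw [e1]
  refine (en_add_le _ _).trans ?_
  have h3 : en (((V * mO K η - mO K η) - (V * mO K η - mO K η * V)) * mO K θ) ≤ ε₁ + ε₂ :=
    (en_mul_mO_le hθ _).trans ((en_sub_le _ _).trans (add_le_add h1 h2))
  linarith

end MulOp

/-! ### Asymptotic intertwining -/

section Asy

variable {K : Type} [Fintype K] {𝔄 : Type} [NormedRing 𝔄]

/-- `x h` is asymptotically within `ε` of `h x'`. -/
def Asy (h : Matrix K K 𝔄) (ε : ℝ) (x x' : ℝ≥0 → Matrix K K 𝔄) : Prop :=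
  ∀ᶠ t in atTop, en (x t * h - h * x' t) ≤ ε

theorem Asy.mono {h : Matrix K K 𝔄} {ε ε' : ℝ} (hε : ε ≤ ε') {x x' : ℝ≥0 → Matrix K K 𝔄}
    (hx : Asy h ε x x') : Asy h ε' x x' := by
  unfold Asy at hx ⊢
  exact hx.mono fun t ht => le_trans ht hε

theorem Asy.of_tendsto {h : Matrix K K 𝔄} {x x' : ℝ≥0 → Matrix K K 𝔄}
    (hx : Tendsto (fun t => en (x t * h - h * x' t)) atTop (𝓝 0)) {ε : ℝ} (hε : 0 < ε) :
    Asy h ε x x' := (hx.eventually (gt_mem_nhds hε)).mono fun _ ht => ht.le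

theorem Asy.of_eq {h : Matrix K K 𝔄} {x x' : ℝ≥0 → Matrix K K 𝔄}
    (hx : ∀ t, x t * h = h * x' t) {ε : ℝ} (hε : 0 ≤ ε) : Asy h ε x x' :=
  Eventually.of_forall fun t => by rw [hx t, sub_self, en_zero]; exact hε

theorem Asy.mul {h : Matrix K K 𝔄} {ε₁ ε₂ C₁ C₂ : ℝ} (hC₁ : 0 ≤ C₁) (hε₁ : 0 ≤ ε₁)
    {x x' y y' : ℝ≥0 → Matrix K K 𝔄}
    (hx : Asy h ε₁ x x') (hy : Asy h ε₂ y y') (bx : ∀ t, en (x t) ≤ C₁)
    (by' : ∀ t, en (y' t) ≤ C₂) :
    Asy h (C₁ * ε₂ + ε₁ * C₂) (fun t => x t * y t) (fun t => x' t * y' t) := by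
  filter_upwards [hx, hy] with t h1 h2
  have e : x t * y t * h - h * (x' t * y' t) =
      x t * (y t * h - h * y' t) + (x t * h - h * x' t) * y' t := by noncomm_ring
  rw [e]
  refine (en_add_le _ _).trans (add_le_add ?_ ?_)
  · exact (en_mul_le _ _).trans (mul_le_mul (bx t) h2 (en_nonneg _) hC₁)
  · exact (en_mul_le _ _).trans (mul_le_mul h1 (by' t) (en_nonneg _) hε₁)

theorem en_mul_le_of {x y : ℝ≥0 → Matrix K K 𝔄} {C₁ C₂ : ℝ} (hC₁ : 0 ≤ C₁)
    (bx : ∀ t, en (x t) ≤ C₁) (bY : ∀ t, en (y t) ≤ C₂) (t : ℝ≥0) :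
    en (x t * y t) ≤ C₁ * C₂ :=
  (en_mul_le _ _).trans (mul_le_mul (bx t) (bY t) (en_nonneg _) hC₁)

/-- Products of four factors. -/
theorem Asy.mul4 {h : Matrix K K 𝔄} {ε D : ℝ} (hD : 0 ≤ D) (hε : 0 ≤ ε)
    {x₁ x₂ x₃ x₄ x₁' x₂' x₃' x₄' : ℝ≥0 → Matrix K K 𝔄}
    (h₁ : Asy h ε x₁ x₁') (h₂ : Asy h ε x₂ x₂') (h₃ : Asy h ε x₃ x₃') (h₄ : Asy h ε x₄ x₄')
    (b₁ : ∀ t, en (x₁ t) ≤ D) (b₂ : ∀ t, en (x₂ t) ≤ D) (b₃ : ∀ t, en (x₃ t) ≤ D)
    (b₂' : ∀ t, en (x₂' t) ≤ D) (b₃' : ∀ t, en (x₃' t) ≤ D) (b₄' : ∀ t, en (x₄' t) ≤ D) :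
    Asy h (4 * D ^ 3 * ε) (fun t => x₁ t * x₂ t * x₃ t * x₄ t)
      (fun t => x₁' t * x₂' t * x₃' t * x₄' t) := by
  have c1 := Asy.mul hD hε h₁ h₂ b₁ b₂'
  have c2 := Asy.mul (by positivity) (by positivity) c1 h₃
    (fun t => en_mul_le_of hD b₁ b₂ t) b₃'
  have c3 := Asy.mul (by positivity) (by (clear * - hD hε; positivity)) c2 h₄
    (fun t => en_mul_le_of (by positivity) (fun t => en_mul_le_of hD b₁ b₂ t) b₃ t) b₄'
  exact c3.mono (le_of_eq (by ring))

/-- Products of three factors. -/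
theorem Asy.mul3 {h : Matrix K K 𝔄} {ε D : ℝ} (hD : 0 ≤ D) (hε : 0 ≤ ε)
    {x₁ x₂ x₃ x₁' x₂' x₃' : ℝ≥0 → Matrix K K 𝔄}
    (h₁ : Asy h ε x₁ x₁') (h₂ : Asy h ε x₂ x₂') (h₃ : Asy h ε x₃ x₃')
    (b₁ : ∀ t, en (x₁ t) ≤ D) (b₂ : ∀ t, en (x₂ t) ≤ D)
    (b₂' : ∀ t, en (x₂' t) ≤ D) (b₃' : ∀ t, en (x₃' t) ≤ D) :
    Asy h (3 * D ^ 2 * ε) (fun t => x₁ t * x₂ t * x₃ t)
      (fun t => x₁' t * x₂' t * x₃' t) := by
  have c1 := Asy.mul hD hε h₁ h₂ b₁ b₂'
  have c2 := Asy.mul (by positivity) (by positivity) c1 h₃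
    (fun t => en_mul_le_of hD b₁ b₂ t) b₃'
  exact c2.mono (le_of_eq (by ring))

end Asy

end Vale.Agent.P212
end
end

section

section

/-! The rotation construction in a localization system. -/

namespace Vale.Agent.P212

open Filter Topology NNReal Matrix

/-! ### Rotations -/

section Rot

variable {κ : Type} [Fintype κ] [DecidableEq κ] {𝔄 : Type} [NormedRing 𝔄]

/-- The rotation matrix. -/
def rot (κ : Type) [DecidableEq κ] {𝔄 : Type} [NormedRing 𝔄] (c s : 𝔄) :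
    Matrix (κ ⊕ κ) (κ ⊕ κ) 𝔄 :=
  fromBlocks (diagonal fun _ => c) (diagonal fun _ => -s) (diagonal fun _ => s)
    (diagonal fun _ => c)

theorem rot_mul (c s c' s' : 𝔄) :
    rot κ c s * rot κ c' s' = rot κ (c * c' - s * s') (s * c' + c * s') := by
  unfold rot
  rw [Matrix.fromBlocks_multiply]
  simp only [Matrix.diagonal_mul_diagonal, Matrix.diagonal_add]
  congr 2 <;> (funext i; noncomm_ring)

omit [Fintype κ] in
theorem rot_one_zero : rot κ (1 : 𝔄) 0 = 1 := by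
  unfold rot
  rw [neg_zero, Matrix.diagonal_zero, Matrix.diagonal_one, Matrix.fromBlocks_one]

omit [Fintype κ] in
theorem rot_sub (c s c' s' : 𝔄) : rot κ c s - rot κ c' s' = rot κ (c - c') (s - s') := by
  ext (i | i) (j | j) <;> by_cases h : i = j <;> simp [rot, h, Matrix.diagonal] <;> abel

theorem en_rot_le (c s : 𝔄) {m : ℝ} (hc : ‖c‖ ≤ m) (hs : ‖s‖ ≤ m) :
    en (rot κ c s) ≤ Fintype.card (κ ⊕ κ) * (Fintype.card (κ ⊕ κ) * m) := by
  have hm : 0 ≤ m := (norm_nonneg _).trans hc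
  refine en_le_card _ fun i j => ?_
  rcases i with i | i <;> rcases j with j | j <;> by_cases h : i = j <;>
    simp [rot, h, Matrix.diagonal, hc, hs, hm]

omit [Fintype κ] in
theorem diagonal_eq_rot (h : 𝔄) : (diagonal fun _ => h : Matrix (κ ⊕ κ) (κ ⊕ κ) 𝔄) =
    rot κ h 0 := by
  ext (i | i) (j | j) <;> by_cases hij : i = j <;> simp [rot, hij, Matrix.diagonal]

end Rot

/-! ### Locally compact operators on the Rips complex -/

variable {X : Type} [MetricSpace X] [BddGeometry X]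

/-- Locally compact operators on the Rips complex. -/
structure LC (r : ℝ) (T : BX X) : Prop where
  cpt : ∀ B : Finset X, IsCompactOperator (proj (gX X ⁻¹' (B : Set X)) * T)
  supp : ∀ j k, ent T j k ≠ 0 → InRips r (pos j) ∧ InRips r (pos k)

/-- Multiplication operators. -/
def IsMO (T : BX X) : Prop := ∃ g : X × ℕ → ℂ, (∃ C : ℝ, ∀ j, ‖g j‖ ≤ C) ∧ T = mulOp g

theorem LC.zero (r : ℝ) : LC r (0 : BX X) := by
  refine ⟨fun B => ?_, fun j k h => absurd (ent_zero j k) h⟩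
  rw [mul_zero]
  exact isCompactOperator_zero

theorem LC.add {r : ℝ} {T S : BX X} (hT : LC r T) (hS : LC r S) : LC r (T + S) := by
  refine ⟨fun B => ?_, fun j k h => ?_⟩
  · rw [mul_add]
    exact (hT.cpt B).add (hS.cpt B)
  · rw [ent_add] at h
    by_cases h1 : ent T j k = 0
    · rw [h1, zero_add] at h
      exact hS.supp j k h
    · exact hT.supp j k h1

theorem LC.sum {r : ℝ} {ι : Type*} (s : Finset ι) {T : ι → BX X} (h : ∀ i, LC r (T i)) :
    LC r (∑ i ∈ s, T i) := by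
  classical
  induction s using Finset.induction_on with
  | empty => rw [Finset.sum_empty]; exact LC.zero r
  | @insert i s hi ih => rw [Finset.sum_insert hi]; exact (h i).add ih

theorem LC.mul {r : ℝ} {T S : BX X} (hT : LC r T) (hS : LC r S) : LC r (T * S) := by
  refine ⟨fun B => ?_, fun j k h => ?_⟩
  · rw [← mul_assoc]
    exact (hT.cpt B).comp_clm S
  · obtain ⟨l, h1, h2⟩ := exists_of_ent_mul_ne_zero h
    exact ⟨(hT.supp j l h1).1, (hS.supp l k h2).2⟩

theorem LC.mo_mul {r : ℝ} {T S : BX X} (hT : LC r T) (hS : IsMO S) : LC r (S * T) := by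
  obtain ⟨g, hg, rfl⟩ := hS
  refine ⟨fun B => ?_, fun j k h => ?_⟩
  · rw [← mul_assoc, proj_comm_mulOp _ hg, mul_assoc]
    exact (hT.cpt B).clm_comp (mulOp g)
  · rw [ent_mulOp_mul hg] at h
    exact hT.supp j k (right_ne_zero_of_mul h)

theorem LC.mul_mo {r : ℝ} {T S : BX X} (hT : LC r T) (hS : IsMO S) : LC r (T * S) := by
  obtain ⟨g, hg, rfl⟩ := hS
  refine ⟨fun B => ?_, fun j k h => ?_⟩
  · rw [← mul_assoc]
    exact (hT.cpt B).comp_clm (mulOp g)
  · rw [ent_mul_mulOp hg] at h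
    exact hT.supp j k (left_ne_zero_of_mul h)

section Mat

variable {K : Type} [Fintype K]

/-- Matrices of locally compact operators. -/
def LCM (r : ℝ) (T : Matrix K K (BX X)) : Prop := ∀ i j, LC r (T i j)

/-- Matrices of multiplication operators. -/
def IsMOM (T : Matrix K K (BX X)) : Prop := ∀ i j, IsMO (T i j)

omit [Fintype K] in
theorem LCM.add {r : ℝ} {T S : Matrix K K (BX X)} (hT : LCM r T) (hS : LCM r S) :
    LCM r (T + S) := fun i j => (hT i j).add (hS i j)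

theorem LCM.mul {r : ℝ} {T S : Matrix K K (BX X)} (hT : LCM r T) (hS : LCM r S) :
    LCM r (T * S) := fun i j => by
  rw [Matrix.mul_apply]
  exact LC.sum _ fun k => (hT i k).mul (hS k j)

theorem LCM.mo_mul {r : ℝ} {T S : Matrix K K (BX X)} (hT : LCM r T) (hS : IsMOM S) :
    LCM r (S * T) := fun i j => by
  rw [Matrix.mul_apply]
  exact LC.sum _ fun k => (hT k j).mo_mul (hS i k)

theorem LCM.mul_mo {r : ℝ} {T S : Matrix K K (BX X)} (hT : LCM r T) (hS : IsMOM S) :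
    LCM r (T * S) := fun i j => by
  rw [Matrix.mul_apply]
  exact LC.sum _ fun k => (hT i k).mul_mo (hS k j)

omit [MetricSpace X] [BddGeometry X] in
theorem isMO_zero : IsMO (0 : BX X) := ⟨fun _ => 0, ⟨0, by simp⟩, mulOp_zero.symm⟩

omit [MetricSpace X] [BddGeometry X] in
theorem isMO_mulOp {g : X × ℕ → ℂ} (hg : ∃ C : ℝ, ∀ j, ‖g j‖ ≤ C) : IsMO (mulOp g : BX X) :=
  ⟨g, hg, rfl⟩

omit [MetricSpace X] [BddGeometry X] in
theorem isMO_neg_mulOp {g : X × ℕ → ℂ} (hg : ∃ C : ℝ, ∀ j, ‖g j‖ ≤ C) :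
    IsMO (-mulOp g : BX X) := by
  refine ⟨fun j => -g j, ?_, (mulOp_neg hg).symm⟩
  obtain ⟨C, hC⟩ := hg
  exact ⟨C, fun j => by rw [norm_neg]; exact hC j⟩

theorem isMOM_rot {κ : Type} [DecidableEq κ] {c s : X × ℕ → ℂ}
    (hc : ∃ C : ℝ, ∀ j, ‖c j‖ ≤ C) (hs : ∃ C : ℝ, ∀ j, ‖s j‖ ≤ C) :
    IsMOM (rot κ (mulOp c : BX X) (mulOp s)) := by
  rintro (i | i) (j | j) <;> by_cases h : i = j <;>
    simp [rot, h, Matrix.diagonal, isMO_zero, isMO_mulOp hc, isMO_mulOp hs, isMO_neg_mulOp hs]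

/-- Cutting a locally compact operator by a function supported near finitely many vertices. -/
theorem LC.cut {r : ℝ} {T : BX X} (hT : LC r T) {B₁ B₂ : Finset X}
    (hB : ∀ x ∈ B₁, ∀ y, dist x y ≤ r → y ∈ B₂) {θ : X × ℕ → ℂ} (hθ : ∀ j, ‖θ j‖ ≤ 1)
    (hθ' : ∀ j, θ j ≠ 0 → 0 < mass B₁ (pos j)) :
    IsCompactOperator (mulOp θ * T * mulOp θ) ∧
      ∀ j k, ent (mulOp θ * T * mulOp θ) j k ≠ 0 → GoodB r B₂ j ∧ GoodB r B₂ k := by
  classical
  have hb : ∃ C : ℝ, ∀ j, ‖θ j‖ ≤ C := ⟨1, hθ⟩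
  have hgood : ∀ j, θ j ≠ 0 → InRips r (pos j) → GoodB r B₂ j := by
    intro j hj hr
    refine ⟨hr, ?_⟩
    obtain ⟨x, hx, hx'⟩ := (mass_pos_iff B₁ (pos j)).1 (hθ' j hj)
    intro y hy
    exact hB x hx y (hr x hx' y hy)
  constructor
  · have h1 : mulOp θ * T = mulOp θ * (proj (gX X ⁻¹' (B₂ : Set X)) * T) := by
      refine ext_ent fun j k => ?_
      rw [ent_mulOp_mul hb, ent_mulOp_mul hb, entB_proj_mul]
      split_ifs with h
      · rfl
      · rw [mul_zero]
        by_contra hne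
        have h2 := hT.supp j k (right_ne_zero_of_mul hne)
        have h3 := hgood j (left_ne_zero_of_mul hne) h2.1
        exact h (Finset.mem_coe.2 (h3.2 (fst_mem_support_pos j)))
    rw [h1]
    exact ((hT.cpt B₂).clm_comp (mulOp θ)).comp_clm (mulOp θ)
  · intro j k h
    rw [ent_mul_mulOp hb, ent_mulOp_mul hb] at h
    have h1 := left_ne_zero_of_mul h
    have h2 := hT.supp j k (right_ne_zero_of_mul h1)
    exact ⟨hgood j (left_ne_zero_of_mul h1) h2.1, hgood k (right_ne_zero_of_mul h) h2.2⟩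

end Mat

/-! ### Elements of a localization system -/

section Sys

variable {r : ℝ} {A : Type} [Ring A] [StarRing A] [Algebra ℂ A] (S : LocSys X r A)

theorem LocSys.lc (a : A) (t : ℝ≥0) : LC r (S.ev t a - S.aug a • (1 : BX X)) :=
  ⟨fun B => S.cpt a t B, fun j k h => S.rips a t j k h⟩

/-- The basis vectors on the Rips complex. -/
def RP (X : Type) [MetricSpace X] [BddGeometry X] (r : ℝ) : Set (X × ℕ) :=
  {j | InRips r (pos j)}

theorem LocSys.comm_proj (a : A) (t : ℝ≥0) :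
    S.ev t a * proj (RP X r) = proj (RP X r) * S.ev t a := by
  classical
  set T := S.ev t a - S.aug a • (1 : BX X) with hT
  have h1 : T * proj (RP X r) = T := by
    refine ext_ent fun j k => ?_
    rw [entB_mul_proj]
    split_ifs with h
    · rfl
    · by_contra hne
      exact h (S.rips a t j k (Ne.symm hne)).2
  have h2 : proj (RP X r) * T = T := by
    refine ext_ent fun j k => ?_
    rw [entB_proj_mul]
    split_ifs with h
    · rfl
    · by_contra hne
      exact h (S.rips a t j k (Ne.symm hne)).1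
  have h3 : S.ev t a = T + S.aug a • (1 : BX X) := by rw [hT]; abel
  rw [h3, add_mul, mul_add, h1, h2, smul_mul_assoc, mul_smul_comm, one_mul, mul_one]

open Classical in
/-- A function restricted to the Rips complex. -/
noncomputable def gR (r : ℝ) (g : RPt X → ℂ) (j : X × ℕ) : ℂ :=
  if j ∈ RP X r then g (pos j) else 0

theorem gR_bdd {g : RPt X → ℂ} {C : ℝ} (hg : ∀ p, ‖g p‖ ≤ C) (hC : 0 ≤ C) (j : X × ℕ) :
    ‖gR r g j‖ ≤ C := by
  unfold gR
  split_ifs
  · exact hg _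
  · rw [norm_zero]; exact hC

theorem mulOp_gR {g : RPt X → ℂ} (hg : ∃ C : ℝ, ∀ p, ‖g p‖ ≤ C) :
    (mulOp (gR r g) : BX X) = proj (RP X r) * mulG g := by
  classical
  obtain ⟨C, hC⟩ := hg
  have hg' : ∃ C : ℝ, ∀ j : X × ℕ, ‖g (pos j)‖ ≤ C := ⟨C, fun j => hC _⟩
  rw [mulG, proj_eq_mulOp, ← mulOp_mul (bdd_ind _) hg']
  congr 1
  funext j
  unfold gR
  split_ifs <;> simp

theorem LocSys.tendsto_comm_gR (a : A) {g : RPt X → ℂ} (hg : Cyl g) :
    Tendsto (fun t => ‖S.ev t a * mulOp (gR r g) - mulOp (gR r g) * S.ev t a‖) atTop (𝓝 0) := by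
  refine squeeze_zero (fun _ => norm_nonneg _) (fun t => ?_) (S.comm a g hg)
  rw [mulOp_gR hg.bdd, ← mul_assoc, S.comm_proj, mul_assoc, mul_assoc, ← mul_sub]
  refine (norm_mul_le _ _).trans ?_
  exact mul_le_of_le_one_left (norm_nonneg _) (proj_norm_le _)

theorem LocSys.bdd_mat {κ : Type} [Fintype κ] (G : Matrix κ κ A) :
    ∃ C : ℝ, 0 ≤ C ∧ ∀ t, en (G.map (S.ev t)) ≤ C := by
  choose C hC using fun a => S.bdd a
  refine ⟨∑ i, ∑ j, |C (G i j)|, by positivity, fun t => ?_⟩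
  refine Finset.sum_le_sum fun i _ => Finset.sum_le_sum fun j _ => ?_
  exact (hC (G i j) t).trans (le_abs_self _)

theorem map_ev_mul {κ : Type} [Fintype κ] (G G' : Matrix κ κ A) (t : ℝ≥0) :
    (G * G').map (S.ev t) = G.map (S.ev t) * G'.map (S.ev t) := by
  ext1 i j
  simp only [Matrix.map_apply, Matrix.mul_apply, map_sum, map_mul]

theorem map_ev_one {κ : Type} [DecidableEq κ] (t : ℝ≥0) :
    (1 : Matrix κ κ A).map (S.ev t) = 1 := by
  ext1 i j
  rw [Matrix.map_apply, Matrix.one_apply, Matrix.one_apply]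
  split_ifs
  · exact map_one _
  · exact map_zero _

theorem map_ev_scalar {κ : Type} (f : Matrix κ κ ℂ) (t : ℝ≥0) :
    (f.map (algebraMap ℂ A)).map (S.ev t) = f.map (algebraMap ℂ (BX X)) := by
  ext1 i j
  simp only [Matrix.map_apply]
  exact (S.ev t).commutes _

end Sys

end Vale.Agent.P212
end
end

section

section

/-! The rotated conjugating matrices. -/

namespace Vale.Agent.P212

open Filter Topology NNReal Matrix

variable {X : Type} [MetricSpace X] [BddGeometry X]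

section Rot2

variable {κ : Type} [Fintype κ] [DecidableEq κ]

omit [MetricSpace X] [BddGeometry X] [Fintype κ] in
theorem mO_eq_rot (g : X × ℕ → ℂ) : mO (κ ⊕ κ) g = rot κ (mulOp g) 0 := diagonal_eq_rot _

/-- Almost intertwining of a rotation and a multiplication operator. -/
theorem en_rot_comm_le (c s c₁ s₁ : BX X) (g : X × ℕ → ℂ) {m : ℝ}
    (hc : ‖c * mulOp g - mulOp g * c₁‖ ≤ m) (hs : ‖s * mulOp g - mulOp g * s₁‖ ≤ m) :
    en (rot κ c s * mO (κ ⊕ κ) g - mO (κ ⊕ κ) g * rot κ c₁ s₁) ≤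
      Fintype.card (κ ⊕ κ) * (Fintype.card (κ ⊕ κ) * m) := by
  have h : rot κ c s * mO (κ ⊕ κ) g - mO (κ ⊕ κ) g * rot κ c₁ s₁ =
      rot κ (c * mulOp g - mulOp g * c₁) (s * mulOp g - mulOp g * s₁) := by
    rw [mO_eq_rot, rot_mul, rot_mul, rot_sub]
    congr 1 <;> noncomm_ring
  rw [h]
  exact en_rot_le _ _ hc hs

omit [MetricSpace X] [BddGeometry X] in
theorem rot_mul_inv {c s : X × ℕ → ℂ} (hc : ∃ C : ℝ, ∀ j, ‖c j‖ ≤ C)
    (hs : ∃ C : ℝ, ∀ j, ‖s j‖ ≤ C) (h : ∀ j, c j * c j + s j * s j = 1) :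
    rot κ (mulOp c : BX X) (mulOp s) * rot κ (mulOp c) (mulOp fun j => -s j) = 1 ∧
    rot κ (mulOp c : BX X) (mulOp fun j => -s j) * rot κ (mulOp c) (mulOp s) = 1 := by
  have h1 : (mulOp c * mulOp c + mulOp s * mulOp s : BX X) = 1 := by
    have hcc : ∃ C : ℝ, ∀ j, ‖c j * c j‖ ≤ C := by
      obtain ⟨C, hC⟩ := hc
      refine ⟨C * C, fun j => ?_⟩
      rw [norm_mul]
      exact mul_le_mul (hC j) (hC j) (norm_nonneg _) ((norm_nonneg _).trans (hC j))
    have hss : ∃ C : ℝ, ∀ j, ‖s j * s j‖ ≤ C := by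
      obtain ⟨C, hC⟩ := hs
      refine ⟨C * C, fun j => ?_⟩
      rw [norm_mul]
      exact mul_le_mul (hC j) (hC j) (norm_nonneg _) ((norm_nonneg _).trans (hC j))
    rw [← mulOp_mul hc hc, ← mulOp_mul hs hs, ← mulOp_add hcc hss]
    simp only [h]
    exact mulOp_one
  have h2 : (mulOp s * mulOp c : BX X) = mulOp c * mulOp s := mulOp_comm hs hc
  rw [mulOp_neg hs]
  constructor
  · rw [rot_mul, ← rot_one_zero]
    congr 1
    · rw [mul_neg, sub_neg_eq_add, h1]
    · rw [mul_neg, h2, add_neg_cancel]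
  · rw [rot_mul, ← rot_one_zero]
    congr 1
    · rw [neg_mul, sub_neg_eq_add, h1]
    · rw [neg_mul, h2, neg_add_cancel]

end Rot2

section En2

variable {κ : Type} [Fintype κ] [DecidableEq κ] {𝔄 : Type} [NormedRing 𝔄]

omit [DecidableEq κ] in
theorem en_fromBlocks (A D : Matrix κ κ 𝔄) :
    en (fromBlocks A 0 0 D) = en A + en D := by
  unfold en
  rw [Fintype.sum_sum_type]
  congr 1
  · refine Finset.sum_congr rfl fun i _ => ?_
    rw [Fintype.sum_sum_type]
    simp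
  · refine Finset.sum_congr rfl fun i _ => ?_
    rw [Fintype.sum_sum_type]
    simp

end En2

section Data

variable {r : ℝ} {A : Type} [Ring A] [StarRing A] [Algebra ℂ A] (S : LocSys X r A)
  {κ : Type} [Fintype κ] [DecidableEq κ]

/-- The matrix `diag(G, 1)` at time `t`. -/
noncomputable def aB (G : Matrix κ κ A) (t : ℝ≥0) : Matrix (κ ⊕ κ) (κ ⊕ κ) (BX X) :=
  fromBlocks (G.map (S.ev t)) 0 0 1

theorem aB_mul {G G' : Matrix κ κ A} (h : G * G' = 1) (t : ℝ≥0) : aB S G t * aB S G' t = 1 := by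
  unfold aB
  rw [Matrix.fromBlocks_multiply]
  simp only [mul_zero, add_zero, zero_mul, mul_one, zero_add]
  rw [← map_ev_mul, h, map_ev_one, Matrix.fromBlocks_one]

theorem aB_bdd (G : Matrix κ κ A) : ∃ C : ℝ, 0 ≤ C ∧ ∀ t, en (aB S G t) ≤ C := by
  obtain ⟨C, hC, h⟩ := S.bdd_mat G
  refine ⟨C + en (1 : Matrix κ κ (BX X)), add_nonneg hC (en_nonneg _), fun t => ?_⟩
  unfold aB
  rw [en_fromBlocks]
  exact add_le_add (h t) le_rfl

/-- Functions which asymptotically commute with the system. -/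
def AC (g : X × ℕ → ℂ) : Prop :=
  (∃ C : ℝ, ∀ j, ‖g j‖ ≤ C) ∧ ∀ a : A, Tendsto
    (fun t => ‖S.ev t a * mulOp g - mulOp g * S.ev t a‖) atTop (𝓝 0)

theorem ac_of_cyl {g : RPt X → ℂ} (hg : Cyl g) : AC S (fun j => g (pos j)) := by
  refine ⟨?_, fun a => S.comm a g hg⟩
  obtain ⟨C, hC⟩ := hg.bdd
  exact ⟨C, fun j => hC _⟩

theorem ac_gR {g : RPt X → ℂ} (hg : Cyl g) : AC S (gR r g) := by
  refine ⟨?_, fun a => S.tendsto_comm_gR a hg⟩
  obtain ⟨C, hC⟩ := hg.bdd
  exact ⟨|C|, fun j => gR_bdd (fun p => (hC p).trans (le_abs_self _)) (abs_nonneg _) j⟩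

theorem tendsto_fromBlocks_comm {g : X × ℕ → ℂ} (hg : AC S g) (G : Matrix κ κ A)
    (D : Matrix κ κ (BX X)) (hD : ∀ i j, D i j * mulOp g = mulOp g * D i j) :
    Tendsto (fun t => en (fromBlocks (G.map (S.ev t)) 0 0 D * mO (κ ⊕ κ) g -
      mO (κ ⊕ κ) g * fromBlocks (G.map (S.ev t)) 0 0 D)) atTop (𝓝 0) := by
  refine tendsto_en fun i j => ?_
  simp only [mO, Matrix.sub_apply, Matrix.mul_diagonal, Matrix.diagonal_mul]
  rcases i with i | i <;> rcases j with j | j
  · simp only [Matrix.fromBlocks_apply₁₁, Matrix.map_apply]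
    exact hg.2 _
  · simp
  · simp
  · simp only [Matrix.fromBlocks_apply₂₂, hD, sub_self, norm_zero]
    exact tendsto_const_nhds

theorem aB_asy {g : X × ℕ → ℂ} (hg : AC S g) (G : Matrix κ κ A) {ε : ℝ} (hε : 0 < ε) :
    Asy (mO (κ ⊕ κ) g) ε (aB S G) (aB S G) := by
  refine Asy.of_tendsto (tendsto_fromBlocks_comm S hg G 1 fun i j => ?_) hε
  rw [Matrix.one_apply]
  split_ifs
  · rw [one_mul, mul_one]
  · rw [zero_mul, mul_zero]

/-- The matrix `diag(e, 0)` at time `t`. -/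
noncomputable def eB (e : Matrix κ κ A) (t : ℝ≥0) : Matrix (κ ⊕ κ) (κ ⊕ κ) (BX X) :=
  fromBlocks (e.map (S.ev t)) 0 0 0

theorem eB_asy {g : X × ℕ → ℂ} (hg : AC S g) (e : Matrix κ κ A) {ε : ℝ} (hε : 0 < ε) :
    Asy (mO (κ ⊕ κ) g) ε (eB S e) (eB S e) := by
  refine Asy.of_tendsto (tendsto_fromBlocks_comm S hg e 0 fun i j => ?_) hε
  rw [Matrix.zero_apply, zero_mul, mul_zero]

omit [Fintype κ] in
/-- The difference `diag(G, 1) - 1` is locally compact. -/
theorem aB_sub_lcm {G : Matrix κ κ A} (h : G.map S.aug = 1) (t : ℝ≥0) :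
    LCM r (aB S G t - 1) := by
  intro i j
  rcases i with i | i <;> rcases j with j | j
  · have h1 : (aB S G t - 1) (Sum.inl i) (Sum.inl j) =
        S.ev t (G i j) - S.aug (G i j) • (1 : BX X) := by
      have h2 : S.aug (G i j) = (1 : Matrix κ κ ℂ) i j := by rw [← h]; rfl
      rw [h2]
      simp only [aB, Matrix.sub_apply, Matrix.fromBlocks_apply₁₁, Matrix.map_apply,
        Matrix.one_apply, Sum.inl.injEq]
      split_ifs <;> simp
    rw [h1]
    exact S.lc _ _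
  · have h1 : (aB S G t - 1) (Sum.inl i) (Sum.inr j) = 0 := by
      simp [aB]
    rw [h1]
    exact LC.zero r
  · have h1 : (aB S G t - 1) (Sum.inr i) (Sum.inl j) = 0 := by
      simp [aB]
    rw [h1]
    exact LC.zero r
  · have h1 : (aB S G t - 1) (Sum.inr i) (Sum.inr j) = 0 := by
      simp [aB, Matrix.one_apply]
    rw [h1]
    exact LC.zero r

/-- The first matrix. -/
noncomputable def vB (G G' : Matrix κ κ A) (R R' : Matrix (κ ⊕ κ) (κ ⊕ κ) (BX X)) (t : ℝ≥0) :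
    Matrix (κ ⊕ κ) (κ ⊕ κ) (BX X) := aB S G t * R * aB S G' t * R'

/-- Its inverse. -/
noncomputable def wB (G G' : Matrix κ κ A) (R R' : Matrix (κ ⊕ κ) (κ ⊕ κ) (BX X)) (t : ℝ≥0) :
    Matrix (κ ⊕ κ) (κ ⊕ κ) (BX X) := R * aB S G t * R' * aB S G' t

theorem vB_mul_wB {G G' : Matrix κ κ A} (h1 : G * G' = 1) (h2 : G' * G = 1)
    {R R' : Matrix (κ ⊕ κ) (κ ⊕ κ) (BX X)} (h3 : R * R' = 1) (h4 : R' * R = 1) (t : ℝ≥0) :
    vB S G G' R R' t * wB S G G' R R' t = 1 := by
  unfold vB wB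
  have e1 := aB_mul S h1 t
  have e2 := aB_mul S h2 t
  set a := aB S G t
  set b := aB S G' t
  calc a * R * b * R' * (R * a * R' * b) = a * R * b * (R' * R) * a * R' * b := by
        noncomm_ring
    _ = a * R * (b * a) * R' * b := by rw [h4]; noncomm_ring
    _ = a * (R * R') * b := by rw [e2]; noncomm_ring
    _ = 1 := by rw [h3, mul_one, e1]

theorem vB_sub_lcm {G G' : Matrix κ κ A} (h3 : G.map S.aug = 1) (h4 : G'.map S.aug = 1)
    {R R' : Matrix (κ ⊕ κ) (κ ⊕ κ) (BX X)} (hR : IsMOM R) (hR' : IsMOM R') (h : R * R' = 1)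
    (t : ℝ≥0) : LCM r (vB S G G' R R' t - 1) := by
  have e : vB S G G' R R' t - 1 = (aB S G t - 1) + R * (aB S G' t - 1) * R' +
      (aB S G t - 1) * (R * (aB S G' t - 1) * R') := by
    unfold vB
    set a := aB S G t
    set b := aB S G' t
    have e1 : (a - 1) + R * (b - 1) * R' + (a - 1) * (R * (b - 1) * R') =
        a * R * b * R' - 1 + (1 - a * (R * R')) + (a - 1) := by noncomm_ring
    rw [e1, h, mul_one]
    abel
  rw [e]
  have hb : LCM r (R * (aB S G' t - 1) * R') := ((aB_sub_lcm S h4 t).mo_mul hR).mul_mo hR'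
  exact ((aB_sub_lcm S h3 t).add hb).add ((aB_sub_lcm S h3 t).mul hb)

theorem wB_sub_lcm {G G' : Matrix κ κ A} (h3 : G.map S.aug = 1) (h4 : G'.map S.aug = 1)
    {R R' : Matrix (κ ⊕ κ) (κ ⊕ κ) (BX X)} (hR : IsMOM R) (hR' : IsMOM R') (h : R * R' = 1)
    (t : ℝ≥0) : LCM r (wB S G G' R R' t - 1) := by
  have e : wB S G G' R R' t - 1 = (aB S G' t - 1) + R * (aB S G t - 1) * R' +
      (R * (aB S G t - 1) * R') * (aB S G' t - 1) := by
    unfold wB
    set a := aB S G t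
    set b := aB S G' t
    have e1 : (b - 1) + R * (a - 1) * R' + (R * (a - 1) * R') * (b - 1) =
        R * a * R' * b - 1 + (1 - (R * R') * b) + (b - 1) := by noncomm_ring
    rw [e1, h, one_mul]
    abel
  rw [e]
  have hb : LCM r (R * (aB S G t - 1) * R') := ((aB_sub_lcm S h3 t).mo_mul hR).mul_mo hR'
  exact ((aB_sub_lcm S h4 t).add hb).add (hb.mul (aB_sub_lcm S h4 t))

omit [MetricSpace X] [BddGeometry X] [Fintype κ] in
theorem rot_zero_one_eq : rot κ (0 : BX X) 1 = fromBlocks 0 (-1) 1 0 := by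
  unfold rot
  rw [Matrix.diagonal_zero, Matrix.diagonal_one]
  congr 1
  rw [← Matrix.diagonal_one, Matrix.diagonal_neg]

omit [MetricSpace X] [BddGeometry X] [Fintype κ] in
theorem rot_zero_neg_one_eq : rot κ (0 : BX X) (-1) = fromBlocks 0 1 (-1) 0 := by
  unfold rot
  rw [Matrix.diagonal_zero, neg_neg, Matrix.diagonal_one]
  congr 1
  rw [← Matrix.diagonal_one, Matrix.diagonal_neg]

/-- The limit of the conjugation. -/
theorem conj_limit {G G' e : Matrix κ κ A} {f : Matrix κ κ ℂ} (h1 : G * G' = 1)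
    (he : e * G = G * f.map (algebraMap ℂ A)) (t : ℝ≥0) :
    vB S G G' (rot κ 0 1) (rot κ 0 (-1)) t *
      (fromBlocks f 0 0 0).map (algebraMap ℂ (BX X)) *
      wB S G G' (rot κ 0 1) (rot κ 0 (-1)) t = eB S e t := by
  have h5 : G.map (S.ev t) * f.map (algebraMap ℂ (BX X)) * G'.map (S.ev t) = e.map (S.ev t) := by
    rw [← map_ev_scalar S f t, ← map_ev_mul, ← map_ev_mul, ← he, mul_assoc, h1, mul_one]
  rw [Matrix.fromBlocks_map]
  unfold vB wB aB eB
  rw [rot_zero_one_eq, rot_zero_neg_one_eq]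
  have h0 : (0 : Matrix κ κ ℂ).map (algebraMap ℂ (BX X)) = 0 := by
    ext1 i j
    exact map_zero (algebraMap ℂ (BX X))
  rw [h0]
  simp only [Matrix.fromBlocks_multiply, mul_zero, zero_mul, mul_one, one_mul, add_zero, zero_add,
    mul_neg, neg_neg, neg_zero]
  rw [h5]

end Data

end Vale.Agent.P212
end
end

section

section

/-! The finite matrices obtained from an almost finite invertible matrix of operators. -/

namespace Vale.Agent.P212

open Filter Topology NNReal Matrix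
open scoped Matrix.Norms.L2Operator Kronecker

/-- Inverses of matrices close to one. -/
theorem exists_inv_near_one {β : Type} [Fintype β] [DecidableEq β] (W : Matrix β β ℂ) {c : ℝ}
    (h : ‖W - 1‖ ≤ c) (hc : c ≤ 1 / 2) :
    ∃ W' : Matrix β β ℂ, W * W' = 1 ∧ W' * W = 1 ∧ ‖W'‖ ≤ 2 ∧ ‖W' - 1‖ ≤ 2 * c := by
  have : CompleteSpace (Matrix β β ℂ) := FiniteDimensional.complete ℂ _
  have h1 : ‖1 - W‖ < 1 := by
    rw [norm_sub_rev]
    linarith
  set u : (Matrix β β ℂ)ˣ := Units.oneSub (1 - W) h1 with hu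
  have hu1 : (u : Matrix β β ℂ) = W := by
    rw [hu, Units.val_oneSub, sub_sub_cancel]
  have e1 : W * (↑u⁻¹ : Matrix β β ℂ) = 1 := by rw [← hu1]; exact u.mul_inv
  have e2 : (↑u⁻¹ : Matrix β β ℂ) * W = 1 := by rw [← hu1]; exact u.inv_mul
  set W' : Matrix β β ℂ := ↑u⁻¹ with hW'
  have h2 : ‖(1 : Matrix β β ℂ)‖ ≤ 1 := by
    rw [← Matrix.diagonal_one, Matrix.l2_opNorm_diagonal]
    exact (pi_norm_le_iff_of_nonneg zero_le_one).2 fun _ => by simp
  have h3 : W' = 1 + (1 - W) * W' := by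
    rw [sub_mul, one_mul, e1]
    abel
  have h4 : ‖W'‖ ≤ 2 := by
    have h5 : ‖W'‖ ≤ 1 + 1 / 2 * ‖W'‖ := by
      calc ‖W'‖ = ‖1 + (1 - W) * W'‖ := by rw [← h3]
        _ ≤ ‖(1 : Matrix β β ℂ)‖ + ‖(1 - W) * W'‖ := norm_add_le _ _
        _ ≤ 1 + ‖1 - W‖ * ‖W'‖ := add_le_add h2 (norm_mul_le _ _)
        _ ≤ 1 + 1 / 2 * ‖W'‖ := by
            have : ‖1 - W‖ ≤ 1 / 2 := by rw [norm_sub_rev]; exact h.trans hc
            have := mul_le_mul_of_nonneg_right this (norm_nonneg W')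
            linarith
    linarith
  refine ⟨W', e1, e2, h4, ?_⟩
  have h6 : W' - 1 = (1 - W) * W' := by
    rw [sub_mul, one_mul, e1]
  rw [h6]
  calc ‖(1 - W) * W'‖ ≤ ‖1 - W‖ * ‖W'‖ := norm_mul_le _ _
    _ ≤ c * 2 := by
        have h7 : ‖1 - W‖ ≤ c := by rw [norm_sub_rev]; exact h
        exact mul_le_mul h7 h4 (norm_nonneg _) ((norm_nonneg _).trans h7)
    _ = 2 * c := mul_comm _ _

section

variable {K : Type} [Fintype K] [DecidableEq K]

theorem mul_le_aux {a b c d : ℝ} (h1 : a ≤ c) (h2 : b ≤ d) (hb : 0 ≤ b) (hc : 0 ≤ c) :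
    a * b ≤ c * d := mul_le_mul h1 h2 hb hc

/-- The main estimates for the compressions. -/
theorem fin_core {J : Type} [DecidableEq J] {C ε : ℝ} (hC : 1 ≤ C) (hε : 0 ≤ ε) (hε1 : ε ≤ 1)
    (V V' T T' : Matrix K K (L2 J →L[ℂ] L2 J))
    (h1 : en (1 : Matrix K K (L2 J →L[ℂ] L2 J)) ≤ C) (hV : en V ≤ C)
    (hV' : en V' ≤ C) (hT : en (V - 1 - T) ≤ ε) (hT' : en (V' - 1 - T') ≤ ε)
    (F : Finset J) (hF : en (PC K F * T') ≤ ε) (f : Matrix K K ℂ) {Φ : ℝ}
    (hΦ : 0 ≤ Φ) (hf : en (f.map (algebraMap ℂ (L2 J →L[ℂ] L2 J))) ≤ Φ) :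
    en (1 + T) ≤ C + 1 ∧ en (1 + T') ≤ C + 1 ∧
    ∃ Y : Matrix K K (L2 J →L[ℂ] L2 J), en Y ≤ (2 * C + 1) * Φ * ε ∧
      ∃ Z : Matrix K K (L2 J →L[ℂ] L2 J), en Z ≤ (2 * C + 1) * Φ * ε ∧
      cutM F (1 + T) * scM F f * cutM F (1 + T') =
        cutM F (V * f.map (algebraMap ℂ (L2 J →L[ℂ] L2 J)) * V') + cutM F Y + cutM F Z := by
  set f' := f.map (algebraMap ℂ (L2 J →L[ℂ] L2 J)) with hf'
  have hT1 : en (1 + T) ≤ C + 1 := by
    have : 1 + T = V - (V - 1 - T) := by abel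
    rw [this]
    refine (en_sub_le _ _).trans ?_
    linarith
  have hT1' : en (1 + T') ≤ C + 1 := by
    have : 1 + T' = V' - (V' - 1 - T') := by abel
    rw [this]
    refine (en_sub_le _ _).trans ?_
    linarith
  have hT2 : en T ≤ 2 * C + 1 := by
    have : T = (1 + T) - 1 := by abel
    rw [this]
    refine (en_sub_le _ _).trans ?_
    linarith
  refine ⟨hT1, hT1', (1 + T) * f' * (1 + T') - V * f' * V', ?_, -(T * f' * (PC K F * T')), ?_, ?_⟩
  · have e1 : (1 + T) * f' * (1 + T') - V * f' * V' =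
        -((V - 1 - T) * f' * (1 + T')) - V * f' * (V' - 1 - T') := by
      noncomm_ring
    rw [e1]
    refine (en_sub_le _ _).trans ?_
    rw [en_neg]
    have a1 : en ((V - 1 - T) * f' * (1 + T')) ≤ ε * Φ * (C + 1) := by
      refine (en_mul_le _ _).trans (mul_le_aux ?_ hT1' (en_nonneg _) (by positivity))
      exact (en_mul_le _ _).trans (mul_le_aux hT hf (en_nonneg _) hε)
    have a2 : en (V * f' * (V' - 1 - T')) ≤ C * Φ * ε := by
      refine (en_mul_le _ _).trans (mul_le_aux ?_ hT' (en_nonneg _) (by positivity))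
      exact (en_mul_le _ _).trans (mul_le_aux hV hf (en_nonneg _) (by positivity))
    calc _ ≤ ε * Φ * (C + 1) + C * Φ * ε := add_le_add a1 a2
      _ = (2 * C + 1) * Φ * ε := by ring
  · rw [en_neg]
    refine (en_mul_le _ _).trans (mul_le_aux ?_ hF (en_nonneg _) (by positivity))
    exact (en_mul_le _ _).trans (mul_le_aux hT2 hf (en_nonneg _) (by positivity))
  · rw [cutM_prod, ← hf', ← cutM_add, ← cutM_add, ← cutM_sub]
    congr 1
    abel

omit [Fintype K] in
theorem map_one_algebraMap (J : Type) :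
    (1 : Matrix K K ℂ).map (algebraMap ℂ (L2 J →L[ℂ] L2 J)) = 1 :=
  Matrix.map_one _ (map_zero _) (map_one _)

omit [Fintype K] in
theorem scM_one {J : Type} [DecidableEq J] (F : Finset J) :
    scM F (1 : Matrix K K ℂ) = 1 := by
  rw [← cutM_scalar, map_one_algebraMap, cutM_one]

theorem bdd_of_le {J : Type} {g : J → ℂ} {Γ : ℝ} (h : ∀ j, ‖g j‖ ≤ Γ) :
    ∃ C : ℝ, ∀ j, ‖g j‖ ≤ C := ⟨Γ, h⟩

/-- Cutting down to finite matrices. -/
theorem fin_level (C Γ Φ : ℝ) (hC : 1 ≤ C) (hΓ : 0 ≤ Γ) (hΦ : 0 ≤ Φ) {δ : ℝ} (hδ : 0 < δ) :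
    ∃ ε > 0, ∀ (J : Type) [DecidableEq J] (𝒢 : J → Prop)
      (V V' T T' : Matrix K K (L2 J →L[ℂ] L2 J)),
      en (1 : Matrix K K (L2 J →L[ℂ] L2 J)) ≤ C → V * V' = 1 → en V ≤ C → en V' ≤ C →
      en (V - 1 - T) ≤ ε → en (V' - 1 - T') ≤ ε →
      (∀ i j, IsCompactOperator (T' i j)) → (∀ i j a b, ent (T' i j) a b ≠ 0 → 𝒢 a) →
      ∃ F₀ : Finset J, (∀ j ∈ F₀, 𝒢 j) ∧ ∀ F : Finset J, F₀ ⊆ F →
        ∃ U U' : Matrix (F × K) (F × K) ℂ, U * U' = 1 ∧ U' * U = 1 ∧
          ‖U‖ ≤ 2 * (C + 1) ∧ ‖U'‖ ≤ 2 * (C + 1) ∧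
          (∀ g : J → ℂ, (∀ j, ‖g j‖ ≤ Γ) → en (T * mO K g - mO K g * T) ≤ ε →
            en (T' * mO K g - mO K g * T') ≤ ε →
            ‖U * dJ K F g - dJ K F g * U‖ ≤ δ ∧ ‖U' * dJ K F g - dJ K F g * U'‖ ≤ δ) ∧
          (∀ (g : J → ℂ) (f : Matrix K K ℂ) (E : Matrix K K (L2 J →L[ℂ] L2 J)),
            (∀ j, ‖g j‖ ≤ Γ) → en (f.map (algebraMap ℂ (L2 J →L[ℂ] L2 J))) ≤ Φ →
            en ((V * f.map (algebraMap ℂ (L2 J →L[ℂ] L2 J)) * V' - E) * mO K g) ≤ ε →
            ‖(U * scM F f * U' - cutM F E) * dJ K F g‖ ≤ δ) := by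
  set c₀ : ℝ := 2 * ((2 * C + 1) * C) with hc₀
  have hc₀pos : 0 < c₀ := by positivity
  set c₁ : ℝ := 4 * (C + 1) * c₀ * Γ + 2 * (C + 1) * (C + 1) * Φ * c₀ * Γ +
    2 * ((2 * C + 1) * Φ) * Γ + 1 with hc₁
  have hc₁pos : 0 < c₁ := by positivity
  set ε : ℝ := min 1 (min (1 / (2 * c₀)) (δ / c₁)) with hεdef
  have hε : 0 < ε := by
    refine lt_min one_pos (lt_min (by positivity) (by positivity))
  have hε1 : ε ≤ 1 := min_le_left _ _
  have hε2 : c₀ * ε ≤ 1 / 2 := by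
    have : ε ≤ 1 / (2 * c₀) := (min_le_right _ _).trans (min_le_left _ _)
    calc c₀ * ε ≤ c₀ * (1 / (2 * c₀)) := mul_le_mul_of_nonneg_left this hc₀pos.le
      _ = 1 / 2 := by field_simp
  have hε3 : c₁ * ε ≤ δ := by
    have : ε ≤ δ / c₁ := (min_le_right _ _).trans (min_le_right _ _)
    calc c₁ * ε ≤ c₁ * (δ / c₁) := mul_le_mul_of_nonneg_left this hc₁pos.le
      _ = δ := by field_simp
  refine ⟨ε, hε, ?_⟩
  intro J _ 𝒢 V V' T T' h1 hVV hV hV' hT hT' hcpt hsupp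
  obtain ⟨F₀, hF₀, hF₀'⟩ := exists_cut T' 𝒢 hcpt hsupp
    (δ := ε / ((Fintype.card K : ℝ) * Fintype.card K + 1)) (by (clear * - hC hδ hΓ hΦ; positivity))
  refine ⟨F₀, hF₀, fun F hF => ?_⟩
  have hPC : en (PC K F * T') ≤ ε := by
    refine (en_le_card _ (c := ε / ((Fintype.card K : ℝ) * Fintype.card K + 1))
      fun i j => ?_).trans ?_
    · rw [PC, Matrix.diagonal_mul]
      exact hF₀' F hF i j
    · have h2 : (Fintype.card K : ℝ) * ((Fintype.card K : ℝ) *
          (ε / ((Fintype.card K : ℝ) * Fintype.card K + 1))) =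
          ε * (((Fintype.card K : ℝ) * Fintype.card K) /
            ((Fintype.card K : ℝ) * Fintype.card K + 1)) := by ring
      rw [h2]
      refine mul_le_of_le_one_right hε.le ?_
      rw [div_le_one (by (clear * -; positivity))]
      linarith only []
  obtain ⟨hT1, hT1', Y, hY, Z, hZ, hW⟩ := fin_core hC hε.le hε1 V V' T T' h1 hV hV' hT hT' F hPC
    (1 : Matrix K K ℂ) (Φ := C) (by linarith only [hC]) (by rw [map_one_algebraMap]; exact h1)
  rw [scM_one, mul_one, map_one_algebraMap, mul_one, hVV, cutM_one] at hW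
  set U : Matrix (F × K) (F × K) ℂ := cutM F (1 + T) with hU
  set U₁ : Matrix (F × K) (F × K) ℂ := cutM F (1 + T') with hU₁
  have hW1 : ‖U * U₁ - 1‖ ≤ c₀ * ε := by
    have : U * U₁ - 1 = cutM F Y + cutM F Z := by rw [hW]; abel
    rw [this]
    refine (norm_add_le _ _).trans ((add_le_add (norm_cutM_le F Y) (norm_cutM_le F Z)).trans ?_)
    refine (add_le_add hY hZ).trans (le_of_eq ?_)
    rw [hc₀]; ring
  obtain ⟨W', hW'1, hW'2, hW'3, hW'4⟩ := exists_inv_near_one (U * U₁) hW1 hε2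
  have hUn : ‖U‖ ≤ C + 1 := (norm_cutM_le _ _).trans hT1
  have hU₁n : ‖U₁‖ ≤ C + 1 := (norm_cutM_le _ _).trans hT1'
  have hC0 : 0 ≤ C + 1 := by linarith only [hC]
  have hinv : U * (U₁ * W') = 1 := by rw [← mul_assoc, hW'1]
  have hdiff : ‖U₁ * W' - U₁‖ ≤ (C + 1) * (2 * (c₀ * ε)) := by
    have : U₁ * W' - U₁ = U₁ * (W' - 1) := by rw [mul_sub, mul_one]
    rw [this]
    exact (norm_mul_le _ _).trans (mul_le_aux hU₁n hW'4 (norm_nonneg _) hC0)
  refine ⟨U, U₁ * W', hinv, mul_eq_one_comm.1 hinv, by linarith only [hUn, hC], ?_, ?_, ?_⟩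
  · calc ‖U₁ * W'‖ ≤ ‖U₁‖ * ‖W'‖ := norm_mul_le _ _
      _ ≤ (C + 1) * 2 := mul_le_aux hU₁n hW'3 (norm_nonneg _) hC0
      _ = 2 * (C + 1) := by ring
  · intro g hg hg1 hg2
    have hgn : ‖dJ K F g‖ ≤ Γ := norm_dJ_le F hΓ hg
    have e1 : U * dJ K F g - dJ K F g * U = cutM F (T * mO K g - mO K g * T) := by
      rw [hU, ← cutM_mul_mO _ _ (bdd_of_le hg), ← cutM_mO_mul _ _ (bdd_of_le hg), ← cutM_sub]
      congr 1
      noncomm_ring
    have e2 : U₁ * dJ K F g - dJ K F g * U₁ = cutM F (T' * mO K g - mO K g * T') := by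
      rw [hU₁, ← cutM_mul_mO _ _ (bdd_of_le hg), ← cutM_mO_mul _ _ (bdd_of_le hg), ← cutM_sub]
      congr 1
      noncomm_ring
    have hεδ : ε ≤ δ := by
      refine le_trans ?_ hε3
      have : 1 ≤ c₁ := by
        rw [hc₁]
        have : 0 ≤ 4 * (C + 1) * c₀ * Γ + 2 * (C + 1) * (C + 1) * Φ * c₀ * Γ +
          2 * ((2 * C + 1) * Φ) * Γ := by (clear * - hC hΓ hΦ; positivity)
        linarith only [this]
      exact le_mul_of_one_le_left hε.le this
    constructor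
    · rw [e1]
      exact (norm_cutM_le _ _).trans (hg1.trans hεδ)
    · have e3 : U₁ * W' * dJ K F g - dJ K F g * (U₁ * W') =
          (U₁ * W' - U₁) * dJ K F g - dJ K F g * (U₁ * W' - U₁) +
            (U₁ * dJ K F g - dJ K F g * U₁) := by noncomm_ring
      rw [e3, e2]
      have a1 : ‖(U₁ * W' - U₁) * dJ K F g‖ ≤ (C + 1) * (2 * (c₀ * ε)) * Γ :=
        (norm_mul_le _ _).trans (mul_le_aux hdiff hgn (norm_nonneg _) (by (clear * - hC hδ hΓ hΦ; positivity)))
      have a2 : ‖dJ K F g * (U₁ * W' - U₁)‖ ≤ Γ * ((C + 1) * (2 * (c₀ * ε))) :=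
        (norm_mul_le _ _).trans (mul_le_aux hgn hdiff (norm_nonneg _) hΓ)
      have a3 : ‖cutM F (T' * mO K g - mO K g * T')‖ ≤ ε := (norm_cutM_le _ _).trans hg2
      refine (norm_add_le _ _).trans ?_
      refine (add_le_add (norm_sub_le _ _) le_rfl).trans ?_
      refine (add_le_add (add_le_add a1 a2) a3).trans ?_
      refine le_trans ?_ hε3
      have hp : 0 ≤ (2 * (C + 1) * (C + 1) * Φ * c₀ * Γ + 2 * ((2 * C + 1) * Φ) * Γ) * ε := by
        (clear * - hC hΦ hΓ hδ; positivity)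
      calc _ = (4 * (C + 1) * c₀ * Γ + 1) * ε := by ring
        _ ≤ (4 * (C + 1) * c₀ * Γ + 1) * ε +
            (2 * (C + 1) * (C + 1) * Φ * c₀ * Γ + 2 * ((2 * C + 1) * Φ) * Γ) * ε := by linarith only [hp]
        _ = c₁ * ε := by rw [hc₁]; ring
  · intro g f E hg hf hE
    have hgn : ‖dJ K F g‖ ≤ Γ := norm_dJ_le F hΓ hg
    obtain ⟨-, -, Y', hY', Z', hZ', hW''⟩ := fin_core hC hε.le hε1 V V' T T' h1 hV hV' hT hT'
      F hPC f hΦ hf
    rw [← hU, ← hU₁] at hW''
    set f' := f.map (algebraMap ℂ (L2 J →L[ℂ] L2 J)) with hf'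
    have hsc : ‖scM F f‖ ≤ Φ := by
      rw [← cutM_scalar]
      exact (norm_cutM_le _ _).trans hf
    have e1 : (U * scM F f * (U₁ * W') - cutM F E) * dJ K F g =
        U * scM F f * (U₁ * W' - U₁) * dJ K F g +
        (cutM F Y' * dJ K F g + cutM F Z' * dJ K F g) +
        cutM F ((V * f' * V' - E) * mO K g) := by
      rw [cutM_mul_mO _ _ (bdd_of_le hg), cutM_sub]
      have : U * scM F f * (U₁ * W') = U * scM F f * (U₁ * W' - U₁) + U * scM F f * U₁ := by
        noncomm_ring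
      rw [this, hW'']
      noncomm_ring
    rw [e1]
    have a1 : ‖U * scM F f * (U₁ * W' - U₁) * dJ K F g‖ ≤
        (C + 1) * Φ * ((C + 1) * (2 * (c₀ * ε))) * Γ := by
      refine (norm_mul_le _ _).trans (mul_le_aux ?_ hgn (norm_nonneg _) (by (clear * - hC hΦ hδ hΓ; positivity)))
      refine (norm_mul_le _ _).trans (mul_le_aux ?_ hdiff (norm_nonneg _) (by positivity))
      exact (norm_mul_le _ _).trans (mul_le_aux hUn hsc (norm_nonneg _) hC0)
    have a2 : ‖cutM F Y' * dJ K F g‖ ≤ (2 * C + 1) * Φ * ε * Γ :=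
      (norm_mul_le _ _).trans (mul_le_aux ((norm_cutM_le _ _).trans hY') hgn (norm_nonneg _)
        (by (clear * - hC hΦ hδ hΓ; positivity)))
    have a3 : ‖cutM F Z' * dJ K F g‖ ≤ (2 * C + 1) * Φ * ε * Γ :=
      (norm_mul_le _ _).trans (mul_le_aux ((norm_cutM_le _ _).trans hZ') hgn (norm_nonneg _)
        (by (clear * - hC hΦ hδ hΓ; positivity)))
    have a4 : ‖cutM F ((V * f' * V' - E) * mO K g)‖ ≤ ε := (norm_cutM_le _ _).trans hE
    refine (norm_add_le _ _).trans ?_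
    refine (add_le_add ((norm_add_le _ _).trans (add_le_add a1 ((norm_add_le _ _).trans
      (add_le_add a2 a3)))) a4).trans ?_
    refine le_trans ?_ hε3
    have hp : 0 ≤ (4 * (C + 1) * c₀ * Γ) * ε := by (clear * - hC hΓ hδ hΦ; positivity)
    calc _ = (2 * (C + 1) * (C + 1) * Φ * c₀ * Γ + 2 * ((2 * C + 1) * Φ) * Γ + 1) * ε := by ring
      _ ≤ (2 * (C + 1) * (C + 1) * Φ * c₀ * Γ + 2 * ((2 * C + 1) * Φ) * Γ + 1) * ε +
          (4 * (C + 1) * c₀ * Γ) * ε := by linarith only [hp]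
      _ = c₁ * ε := by rw [hc₁]; ring

end

end Vale.Agent.P212
end
end

section

section

/-! Preparations for the cut and paste construction. -/

namespace Vale.Agent.P212

open Filter Topology NNReal Matrix
open scoped Matrix.Norms.L2Operator Kronecker

variable {X : Type} [MetricSpace X] [BddGeometry X]

section Prep

variable {r : ℝ} {A : Type} [Ring A] [StarRing A] [Algebra ℂ A] (S : LocSys X r A)
  {κ : Type} [Fintype κ] [DecidableEq κ]

theorem vB_asy {G G' : Matrix κ κ A} {g : X × ℕ → ℂ} {D ε : ℝ} (hD : 0 ≤ D) (hε : 0 < ε)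
    (ha : ∀ t, en (aB S G t) ≤ D) (hb : ∀ t, en (aB S G' t) ≤ D)
    {R R' R₁ R₁' : Matrix (κ ⊕ κ) (κ ⊕ κ) (BX X)} (hR : en R ≤ D) (hR' : en R' ≤ D)
    (hR₁ : en R₁ ≤ D) (hR₁' : en R₁' ≤ D) (hg : AC S g)
    (e1 : en (R * mO (κ ⊕ κ) g - mO (κ ⊕ κ) g * R₁) ≤ ε)
    (e2 : en (R' * mO (κ ⊕ κ) g - mO (κ ⊕ κ) g * R₁') ≤ ε) :
    Asy (mO (κ ⊕ κ) g) (4 * D ^ 3 * ε) (vB S G G' R R') (vB S G G' R₁ R₁') ∧
      Asy (mO (κ ⊕ κ) g) (4 * D ^ 3 * ε) (wB S G G' R R') (wB S G G' R₁ R₁') := by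
  have hA := aB_asy S hg G hε
  have hB := aB_asy S hg G' hε
  have hRR : Asy (mO (κ ⊕ κ) g) ε (fun _ => R) (fun _ => R₁) := Eventually.of_forall fun _ => e1
  have hRR' : Asy (mO (κ ⊕ κ) g) ε (fun _ => R') (fun _ => R₁') :=
    Eventually.of_forall fun _ => e2
  exact ⟨Asy.mul4 hD hε.le hA hRR hB hRR' ha (fun _ => hR) hb (fun _ => hR₁) hb (fun _ => hR₁'),
    Asy.mul4 hD hε.le hRR hA hRR' hB (fun _ => hR) ha (fun _ => hR') ha (fun _ => hR₁') hb⟩

theorem vB_one {G G' : Matrix κ κ A} (h1 : G * G' = 1) (t : ℝ≥0) :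
    vB S G G' (1 : Matrix (κ ⊕ κ) (κ ⊕ κ) (BX X)) 1 t = 1 ∧
    wB S G G' (1 : Matrix (κ ⊕ κ) (κ ⊕ κ) (BX X)) 1 t = 1 := by
  unfold vB wB
  rw [mul_one, mul_one, one_mul, mul_one]
  exact ⟨aB_mul S h1 t, aB_mul S h1 t⟩

theorem mul_four_le {a b c d D : ℝ} (hD : 0 ≤ D) (n2 : 0 ≤ b) (n3 : 0 ≤ c) (n4 : 0 ≤ d)
    (h₁ : a ≤ D) (h₂ : b ≤ D) (h₃ : c ≤ D) (h₄ : d ≤ D) : a * b * c * d ≤ D * D * D * D :=
  mul_le_mul (mul_le_mul (mul_le_mul h₁ h₂ n2 hD) h₃ n3 (mul_nonneg hD hD)) h₄ n4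
    (mul_nonneg (mul_nonneg hD hD) hD)

theorem vB_bdd {G G' : Matrix κ κ A} {D : ℝ} (hD : 0 ≤ D)
    (ha : ∀ t, en (aB S G t) ≤ D) (hb : ∀ t, en (aB S G' t) ≤ D)
    {R R' : Matrix (κ ⊕ κ) (κ ⊕ κ) (BX X)} (hR : en R ≤ D) (hR' : en R' ≤ D) (t : ℝ≥0) :
    en (vB S G G' R R' t) ≤ D ^ 4 ∧ en (wB S G G' R R' t) ≤ D ^ 4 := by
  have key : ∀ x₁ x₂ x₃ x₄ : Matrix (κ ⊕ κ) (κ ⊕ κ) (BX X), en x₁ ≤ D → en x₂ ≤ D →
      en x₃ ≤ D → en x₄ ≤ D → en (x₁ * x₂ * x₃ * x₄) ≤ D ^ 4 := by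
    intro x₁ x₂ x₃ x₄ h₁ h₂ h₃ h₄
    calc en (x₁ * x₂ * x₃ * x₄) ≤ en (x₁ * x₂ * x₃) * en x₄ := en_mul_le _ _
      _ ≤ en (x₁ * x₂) * en x₃ * en x₄ :=
          mul_le_mul_of_nonneg_right (en_mul_le _ _) (en_nonneg _)
      _ ≤ en x₁ * en x₂ * en x₃ * en x₄ := mul_le_mul_of_nonneg_right
          (mul_le_mul_of_nonneg_right (en_mul_le _ _) (en_nonneg _)) (en_nonneg _)
      _ ≤ D * D * D * D := mul_four_le hD (en_nonneg x₂) (en_nonneg x₃) (en_nonneg x₄) h₁ h₂ h₃ h₄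
      _ = D ^ 4 := by ring
  exact ⟨key _ _ _ _ (ha t) hR (hb t) hR', key _ _ _ _ hR (ha t) hR' (hb t)⟩

/-- Conjugation by the rotated matrices over the points where the rotation is complete. -/
theorem conj_asy {G G' e : Matrix κ κ A} {f : Matrix κ κ ℂ} (h1 : G * G' = 1)
    (he : e * G = G * f.map (algebraMap ℂ A)) {g : X × ℕ → ℂ} {D : ℝ} (hD : 0 ≤ D)
    (hf : en ((fromBlocks f 0 0 0 : Matrix (κ ⊕ κ) (κ ⊕ κ) ℂ).map (algebraMap ℂ (BX X))) ≤ D)
    {V W V₁ W₁ : ℝ≥0 → Matrix (κ ⊕ κ) (κ ⊕ κ) (BX X)}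
    (hV₁ : ∀ t, V₁ t = vB S G G' (rot κ 0 1) (rot κ 0 (-1)) t)
    (hW₁ : ∀ t, W₁ t = wB S G G' (rot κ 0 1) (rot κ 0 (-1)) t)
    (bV : ∀ t, en (V t) ≤ D) (bW : ∀ t, en (W₁ t) ≤ D)
    (hg : AC S g) (hV : ∀ ε > 0, Asy (mO (κ ⊕ κ) g) ε V V₁)
    (hW : ∀ ε > 0, Asy (mO (κ ⊕ κ) g) ε W W₁) {ε : ℝ} (hε : 0 < ε) :
    ∀ᶠ t in atTop, en ((V t * (fromBlocks f 0 0 0 : Matrix (κ ⊕ κ) (κ ⊕ κ) ℂ).map (algebraMap ℂ (BX X)) * W t - eB S e t) *
      mO (κ ⊕ κ) g) ≤ ε := by
  set f₀ := (fromBlocks f 0 0 0 : Matrix (κ ⊕ κ) (κ ⊕ κ) ℂ).map (algebraMap ℂ (BX X)) with hf₀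
  have hε' : 0 < ε / (2 * (3 * D ^ 2 + 1)) := by positivity
  have hcf : Asy (mO (κ ⊕ κ) g) (ε / (2 * (3 * D ^ 2 + 1))) (fun _ => f₀) (fun _ => f₀) := by
    refine Asy.of_eq (fun _ => ?_) hε'.le
    ext1 i j
    rw [mO, Matrix.mul_diagonal, Matrix.diagonal_mul]
    exact Algebra.commutes ((fromBlocks f 0 0 0 : Matrix (κ ⊕ κ) (κ ⊕ κ) ℂ) i j)
      (mulOp g : BX X)
  have h2 := Asy.mul3 hD hε'.le (hV _ hε') hcf (hW _ hε') bV (fun _ => hf) (fun _ => hf) bW
  have h3 := eB_asy S hg e (ε := ε / 2) (by positivity)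
  filter_upwards [h2, h3] with t h4 h5
  have e1 : V₁ t * f₀ * W₁ t = eB S e t := by
    rw [hV₁, hW₁]
    exact conj_limit S h1 he t
  rw [e1] at h4
  have e2 : (V t * f₀ * W t - eB S e t) * mO (κ ⊕ κ) g =
      (V t * f₀ * W t * mO (κ ⊕ κ) g - mO (κ ⊕ κ) g * eB S e t) -
      (eB S e t * mO (κ ⊕ κ) g - mO (κ ⊕ κ) g * eB S e t) := by noncomm_ring
  rw [e2]
  refine (en_sub_le _ _).trans ((add_le_add h4 h5).trans ?_)
  have h6 : 3 * D ^ 2 * (ε / (2 * (3 * D ^ 2 + 1))) ≤ ε / 2 := by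
    have h7 : 3 * D ^ 2 * (ε / (2 * (3 * D ^ 2 + 1))) =
        ε / 2 * (3 * D ^ 2 / (3 * D ^ 2 + 1)) := by
      field_simp
    rw [h7]
    refine mul_le_of_le_one_right (by positivity) ?_
    rw [div_le_one (by positivity)]
    linarith only []
  linarith only [h6]

end Prep

section Fun

omit [MetricSpace X] [BddGeometry X]

/-- The cosine of the rotation angle. -/
noncomputable def cF (B : Finset X) (p : RPt X) : ℂ :=
  ((Real.cos (Real.pi / 2 * mass B p) : ℝ) : ℂ)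

/-- The sine of the rotation angle. -/
noncomputable def sF (B : Finset X) (p : RPt X) : ℂ :=
  ((Real.sin (Real.pi / 2 * mass B p) : ℝ) : ℂ)

/-- The cut-off function. -/
noncomputable def tF (B : Finset X) (ε : ℝ) (p : RPt X) : ℂ :=
  ((min 1 (mass B p / ε) : ℝ) : ℂ)

theorem norm_cF_le (B : Finset X) (p : RPt X) : ‖cF B p‖ ≤ 1 := by
  rw [cF, Complex.norm_real]
  exact Real.abs_cos_le_one _

theorem norm_sF_le (B : Finset X) (p : RPt X) : ‖sF B p‖ ≤ 1 := by
  rw [sF, Complex.norm_real]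
  exact Real.abs_sin_le_one _

theorem cF_sF (B : Finset X) (p : RPt X) : cF B p * cF B p + sF B p * sF B p = 1 := by
  rw [cF, sF, ← Complex.ofReal_mul, ← Complex.ofReal_mul, ← Complex.ofReal_add,
    ← Complex.ofReal_one]
  congr 1
  have := Real.cos_sq_add_sin_sq (Real.pi / 2 * mass B p)
  nlinarith

theorem cyl_tF (B : Finset X) (ε : ℝ) : Cyl (fun p => 1 - tF B ε p) :=
  Cyl.mass B (φ := fun x => 1 - ((min 1 (x / ε) : ℝ) : ℂ)) (by fun_prop)

theorem norm_tF_le (B : Finset X) {ε : ℝ} (hε : 0 < ε) (p : RPt X) : ‖tF B ε p‖ ≤ 1 := by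
  rw [tF, Complex.norm_real, Real.norm_eq_abs, abs_of_nonneg]
  · exact min_le_left _ _
  · exact le_min zero_le_one (div_nonneg (mass_nonneg B p) hε.le)

theorem tF_ne_zero (B : Finset X) {ε : ℝ} {p : RPt X} (h : tF B ε p ≠ 0) :
    0 < mass B p := by
  refine lt_of_le_of_ne (mass_nonneg B p) fun h0 => h ?_
  rw [tF, ← h0, zero_div, min_eq_right zero_le_one, Complex.ofReal_zero]

theorem one_sub_tF_norm (B : Finset X) {ε : ℝ} (hε : 0 < ε) (p : RPt X) :
    ‖1 - tF B ε p‖ ≤ 1 ∧ (ε ≤ mass B p → 1 - tF B ε p = 0) := by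
  constructor
  · rw [tF, ← Complex.ofReal_one, ← Complex.ofReal_sub, Complex.norm_real, Real.norm_eq_abs,
      abs_of_nonneg]
    · have : 0 ≤ min 1 (mass B p / ε) := le_min zero_le_one (div_nonneg (mass_nonneg B p) hε.le)
      linarith only [this]
    · have := min_le_left 1 (mass B p / ε)
      linarith
  · intro h
    rw [tF, min_eq_left ((one_le_div hε).2 h), Complex.ofReal_one, sub_self]

theorem small_cF (B : Finset X) {ε : ℝ} (hε : 0 < ε) (p : RPt X) :
    ‖cF B p * (1 - tF B ε p) - (1 - tF B ε p)‖ ≤ 2 * ε := by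
  obtain ⟨h1, h2⟩ := one_sub_tF_norm B hε p
  by_cases h : ε ≤ mass B p
  · rw [h2 h, mul_zero, sub_zero, norm_zero]
    positivity
  · have h3 : cF B p * (1 - tF B ε p) - (1 - tF B ε p) = (cF B p - 1) * (1 - tF B ε p) := by ring
    rw [h3, norm_mul]
    have hm0 := mass_nonneg B p
    have hm1 := mass_le_one B p
    have h4 : ‖cF B p - 1‖ ≤ 2 * ε := by
      rw [cF, ← Complex.ofReal_one, ← Complex.ofReal_sub, Complex.norm_real, Real.norm_eq_abs,
        abs_sub_comm, abs_of_nonneg (by have := Real.cos_le_one (Real.pi / 2 * mass B p); linarith only [this])]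
      have h5 := Real.one_sub_sq_div_two_le_cos (x := Real.pi / 2 * mass B p)
      have h6 : Real.pi / 2 * mass B p ≤ 2 * mass B p := by
        have := Real.pi_le_four
        linarith only [mul_nonneg (sub_nonneg.2 hm0) (sub_nonneg.2 this)]
      have h7 : 0 ≤ Real.pi / 2 * mass B p := mul_nonneg (by positivity) hm0
      have h8 : (Real.pi / 2 * mass B p) ^ 2 ≤ (2 * mass B p) ^ 2 := pow_le_pow_left₀ h7 h6 2
      have h9 : mass B p ^ 2 ≤ mass B p := by linarith only [mul_nonneg (sub_nonneg.2 hm1) (sub_nonneg.2 h7), mul_nonneg (sub_nonneg.2 hm1) (sub_nonneg.2 h6)]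
      push Not at h
      linarith only [h, h9, h8, h5]
    calc ‖cF B p - 1‖ * ‖1 - tF B ε p‖ ≤ 2 * ε * 1 :=
          mul_le_mul h4 h1 (norm_nonneg _) (by positivity)
      _ = 2 * ε := mul_one _

theorem small_sF (B : Finset X) {ε : ℝ} (hε : 0 < ε) (p : RPt X) :
    ‖sF B p * (1 - tF B ε p)‖ ≤ 2 * ε := by
  obtain ⟨h1, h2⟩ := one_sub_tF_norm B hε p
  by_cases h : ε ≤ mass B p
  · rw [h2 h, mul_zero, norm_zero]
    positivity
  · rw [norm_mul]
    have hm0 := mass_nonneg B p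
    have hm1 := mass_le_one B p
    have h4 : ‖sF B p‖ ≤ 2 * ε := by
      have h6 : Real.pi / 2 * mass B p ≤ 2 * mass B p := by
        have := Real.pi_le_four
        linarith only [mul_nonneg (sub_nonneg.2 hm0) (sub_nonneg.2 this)]
      have h7 : 0 ≤ Real.pi / 2 * mass B p := mul_nonneg (by positivity) hm0
      rw [sF, Complex.norm_real, Real.norm_eq_abs]
      have h8 : |Real.sin (Real.pi / 2 * mass B p)| ≤ Real.pi / 2 * mass B p := by
        have := Real.abs_sin_le_abs (x := Real.pi / 2 * mass B p)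
        rwa [abs_of_nonneg h7] at this
      push Not at h
      linarith only [h, h8, h6]
    calc ‖sF B p‖ * ‖1 - tF B ε p‖ ≤ 2 * ε * 1 :=
          mul_le_mul h4 h1 (norm_nonneg _) (by positivity)
      _ = 2 * ε := mul_one _

end Fun

end Vale.Agent.P212
end
end

section

section

/-! Cutting down to finite matrices. -/

namespace Vale.Agent.P212

open Filter Topology NNReal Matrix
open scoped Matrix.Norms.L2Operator Kronecker

variable {X : Type} [MetricSpace X] [BddGeometry X] [DecidableEq X]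

omit [MetricSpace X] [BddGeometry X] [DecidableEq X] in
theorem exists_common_bound (𝓖 : Finset (RPt X → ℂ)) (h : ∀ g ∈ 𝓖, Cyl g) :
    ∃ Γ : ℝ, 0 ≤ Γ ∧ ∀ g ∈ 𝓖, ∀ p, ‖g p‖ ≤ Γ := by
  classical
  have h1 : ∀ g : 𝓖, ∃ C : ℝ, ∀ p, ‖g.1 p‖ ≤ C := fun g => (h g.1 g.2).bdd
  choose C hC using h1
  refine ⟨∑ g : 𝓖, |C g|, Finset.sum_nonneg fun _ _ => abs_nonneg _, fun g hg p => ?_⟩
  refine (hC ⟨g, hg⟩ p).trans ((le_abs_self _).trans ?_)
  exact Finset.single_le_sum (f := fun g : 𝓖 => |C g|) (fun _ _ => abs_nonneg _)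
    (Finset.mem_univ (⟨g, hg⟩ : 𝓖))

/-- The cut and paste construction: an invertible matrix over a localization system
conjugating `f` to `e` gives, for large times, invertible finite matrices `U`, almost commuting
with given cylinder functions, such that `U (f ⊕ 0) U⁻¹` is close to `e ⊕ 0` over the points
with all vertices in `B₁`, and which are trivial outside the points having vertices in `B₁`. -/
theorem fin_cut {r : ℝ} {A : Type} [Ring A] [StarRing A] [Algebra ℂ A] (S : LocSys X r A)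
    {κ : Type} [Fintype κ] [DecidableEq κ] (G G' e : Matrix κ κ A) (f : Matrix κ κ ℂ)
    (h1 : G * G' = 1) (h2 : G' * G = 1) (h3 : G.map S.aug = 1) (h4 : G'.map S.aug = 1)
    (hf : f * f = f) (he : e * G = G * f.map (algebraMap ℂ A)) :
    ∃ C : ℝ, ∀ B₁ B₂ : Finset X, (∀ x ∈ B₁, ∀ y, dist x y ≤ r → y ∈ B₂) →
      ∀ 𝓖 : Finset (RPt X → ℂ), (∀ g ∈ 𝓖, Cyl g) → ∀ δ > 0, ∃ t₀ : ℝ≥0, ∀ t ≥ t₀,
      ∃ F₀ : Finset (X × ℕ), (∀ j ∈ F₀, GoodB r B₂ j) ∧
      ∀ F : Finset (X × ℕ), F₀ ⊆ F → (∀ j ∈ F, GoodB r B₂ j) →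
      ∃ U U' : Matrix (F × (κ ⊕ κ)) (F × (κ ⊕ κ)) ℂ, U * U' = 1 ∧ U' * U = 1 ∧
        ‖U‖ ≤ C ∧ ‖U'‖ ≤ C ∧
        (∀ g ∈ 𝓖, ‖U * dg F g - dg F g * U‖ ≤ δ ∧ ‖U' * dg F g - dg F g * U'‖ ≤ δ) ∧
        (∀ g ∈ 𝓖, (∀ p, InRips r p → g p ≠ 0 → p.1.support ⊆ B₁) →
          ‖(U * scM F (fromBlocks f 0 0 0) * U' -
            cutM F (fromBlocks (e.map (S.ev t)) 0 0 0)) * dg F g‖ ≤ δ) := by
  obtain ⟨Ca, hCa, ha⟩ := aB_bdd S G
  obtain ⟨Cb, hCb, hb⟩ := aB_bdd S G'
  set n : ℝ := (Fintype.card (κ ⊕ κ) : ℝ) with hn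
  have hn0 : 0 ≤ n := by positivity
  set f₀ : Matrix (κ ⊕ κ) (κ ⊕ κ) (BX X) :=
    (fromBlocks f 0 0 0 : Matrix (κ ⊕ κ) (κ ⊕ κ) ℂ).map (algebraMap ℂ (BX X)) with hf₀
  set D : ℝ := Ca + Cb + n * (n * 1) + 1 with hDdef
  have hD1 : 1 ≤ D := by
    have : 0 ≤ n * (n * 1) := by positivity
    linarith
  have hDp : 0 < D := lt_of_lt_of_le one_pos hD1
  have hD0 : 0 ≤ D := hDp.le
  have hnn : 0 ≤ n * (n * 1) := mul_nonneg hn0 (mul_nonneg hn0 zero_le_one)
  have ha' : ∀ t, en (aB S G t) ≤ D := fun t => (ha t).trans (by linarith)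
  have hb' : ∀ t, en (aB S G' t) ≤ D := fun t => (hb t).trans (by linarith)
  have hone : ‖(1 : BX X)‖ ≤ 1 := ContinuousLinearMap.norm_id_le
  have hrot : ∀ c s : BX X, ‖c‖ ≤ 1 → ‖s‖ ≤ 1 → en (rot κ c s) ≤ D := fun c s hc hs =>
    (en_rot_le c s hc hs).trans (by linarith)
  have hen1 : en (1 : Matrix (κ ⊕ κ) (κ ⊕ κ) (BX X)) ≤ D := by
    rw [← rot_one_zero]
    exact hrot _ _ hone (by rw [norm_zero]; exact zero_le_one)
  have hC1 : 1 ≤ D ^ 4 := one_le_pow₀ hD1
  have hDD : D ≤ D ^ 4 := by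
    calc D = D ^ 1 := (pow_one D).symm
      _ ≤ D ^ 4 := pow_le_pow_right₀ hD1 (by norm_num)
  refine ⟨2 * (D ^ 4 + 1), fun B₁ B₂ hB 𝓖 h𝓖 δ hδ => ?_⟩
  obtain ⟨Γ, hΓ0, hΓ⟩ := exists_common_bound 𝓖 h𝓖
  obtain ⟨ε, hε, hfin⟩ := fin_level (K := κ ⊕ κ) (D ^ 4) Γ (en f₀) hC1 hΓ0 (en_nonneg _) hδ
  -- the rotation
  set c : X × ℕ → ℂ := fun j => cF B₁ (pos j) with hc
  set s : X × ℕ → ℂ := fun j => sF B₁ (pos j) with hs
  have hcn : ∀ j, ‖c j‖ ≤ 1 := fun j => norm_cF_le _ _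
  have hsn : ∀ j, ‖s j‖ ≤ 1 := fun j => norm_sF_le _ _
  have hsn' : ∀ j, ‖-s j‖ ≤ 1 := fun j => by rw [norm_neg]; exact hsn j
  have hcb : ∃ C : ℝ, ∀ j, ‖c j‖ ≤ C := ⟨1, hcn⟩
  have hsb : ∃ C : ℝ, ∀ j, ‖s j‖ ≤ C := ⟨1, hsn⟩
  have hsb' : ∃ C : ℝ, ∀ j, ‖-s j‖ ≤ C := ⟨1, hsn'⟩
  set R : Matrix (κ ⊕ κ) (κ ⊕ κ) (BX X) := rot κ (mulOp c) (mulOp s) with hR
  set R' : Matrix (κ ⊕ κ) (κ ⊕ κ) (BX X) := rot κ (mulOp c) (mulOp fun j => -s j) with hR'
  obtain ⟨hRR', hR'R⟩ := rot_mul_inv (κ := κ) hcb hsb (fun j => cF_sF B₁ (pos j))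
  rw [← hR, ← hR'] at hRR' hR'R
  have hRn : en R ≤ D := hrot _ _ (norm_mulOp_le hcn zero_le_one) (norm_mulOp_le hsn zero_le_one)
  have hR'n : en R' ≤ D :=
    hrot _ _ (norm_mulOp_le hcn zero_le_one) (norm_mulOp_le hsn' zero_le_one)
  have hRm : IsMOM R := isMOM_rot hcb hsb
  have hR'm : IsMOM R' := isMOM_rot hcb hsb'
  -- commutation with cylinder functions
  have hcomm : ∀ g : X × ℕ → ℂ, AC S g → ∀ ε' > 0,
      Asy (mO (κ ⊕ κ) g) ε' (vB S G G' R R') (vB S G G' R R') ∧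
      Asy (mO (κ ⊕ κ) g) ε' (wB S G G' R R') (wB S G G' R R') := by
    intro g hg ε' hε'
    have hε'' : 0 < ε' / (4 * D ^ 3) := div_pos hε' (mul_pos four_pos (pow_pos hDp 3))
    have z1 : ‖mulOp c * mulOp g - mulOp g * mulOp c‖ ≤ 0 := by
      rw [mulOp_comm hcb hg.1, sub_self, norm_zero]
    have z2 : ‖mulOp s * mulOp g - mulOp g * mulOp s‖ ≤ 0 := by
      rw [mulOp_comm hsb hg.1, sub_self, norm_zero]
    have z3 : ‖mulOp (fun j => -s j) * mulOp g - mulOp g * mulOp (fun j => -s j)‖ ≤ 0 := by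
      rw [mulOp_comm hsb' hg.1, sub_self, norm_zero]
    have z4 := en_rot_comm_le (κ := κ) _ _ _ _ g z1 z2
    have z5 := en_rot_comm_le (κ := κ) _ _ _ _ g z1 z3
    rw [mul_zero, mul_zero] at z4 z5
    have z6 := vB_asy S hD0 hε'' ha' hb' hRn hR'n hRn hR'n hg (z4.trans hε''.le)
      (z5.trans hε''.le)
    have z7 : 4 * D ^ 3 * (ε' / (4 * D ^ 3)) = ε' := by field_simp
    rw [z7] at z6
    exact z6
  -- the cut-off function
  set ε₁ : ℝ := ε / 4 / (4 * D ^ 3) with hε₁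
  have hε₁pos : 0 < ε₁ := div_pos (div_pos hε four_pos) (mul_pos four_pos (pow_pos hDp 3))
  have hn1 : 0 < 2 * (n * n) + 1 :=
    add_pos_of_nonneg_of_pos (mul_nonneg zero_le_two (mul_nonneg hn0 hn0)) one_pos
  set ε₂ : ℝ := ε₁ / (2 * (n * n) + 1) with hε₂
  have hε₂pos : 0 < ε₂ := div_pos hε₁pos hn1
  have h2ε₂ : 0 ≤ 2 * ε₂ := mul_nonneg zero_le_two hε₂pos.le
  have hε₂le : n * (n * (2 * ε₂)) ≤ ε₁ := by
    have : n * (n * (2 * ε₂)) = ε₁ * (2 * (n * n) / (2 * (n * n) + 1)) := by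
      rw [hε₂]; ring
    rw [this]
    refine mul_le_of_le_one_right hε₁pos.le ?_
    rw [div_le_one hn1]
    linarith only []
  set θ : X × ℕ → ℂ := fun j => tF B₁ ε₂ (pos j) with hθ
  set η : X × ℕ → ℂ := fun j => 1 - tF B₁ ε₂ (pos j) with hη
  have hθn : ∀ j, ‖θ j‖ ≤ 1 := fun j => norm_tF_le _ hε₂pos _
  have hηn : ∀ j, ‖η j‖ ≤ 1 := fun j => (one_sub_tF_norm _ hε₂pos _).1
  have hηb : ∃ C : ℝ, ∀ j, ‖η j‖ ≤ C := ⟨1, hηn⟩
  have hθη : mO (κ ⊕ κ) θ + mO (κ ⊕ κ) η = 1 := by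
    rw [mO, mO, Matrix.diagonal_add, ← Matrix.diagonal_one]
    congr 1
    funext _
    rw [← mulOp_add ⟨1, hθn⟩ hηb, ← mulOp_one]
    congr 1
    funext j
    exact add_sub_cancel _ _
  have hacη : AC S η := ac_of_cyl S (cyl_tF B₁ ε₂)
  have hcη : ‖mulOp c * mulOp η - mulOp η * 1‖ ≤ 2 * ε₂ := by
    have hcη' : ∃ C : ℝ, ∀ j, ‖c j * η j‖ ≤ C := ⟨1, fun j => by
      rw [norm_mul]; exact mul_le_one₀ (hcn j) (norm_nonneg _) (hηn j)⟩
    rw [mul_one, ← mulOp_mul hcb hηb, ← mulOp_sub hcη' hηb]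
    exact norm_mulOp_le (fun j => small_cF B₁ hε₂pos (pos j)) h2ε₂
  have hsη : ‖mulOp s * mulOp η - mulOp η * 0‖ ≤ 2 * ε₂ := by
    rw [mul_zero, sub_zero, ← mulOp_mul hsb hηb]
    exact norm_mulOp_le (fun j => small_sF B₁ hε₂pos (pos j)) h2ε₂
  have hsη' : ‖mulOp (fun j => -s j) * mulOp η - mulOp η * 0‖ ≤ 2 * ε₂ := by
    rw [mul_zero, sub_zero, ← mulOp_mul hsb' hηb]
    refine norm_mulOp_le (fun j => ?_) h2ε₂
    rw [neg_mul, norm_neg]
    exact small_sF B₁ hε₂pos (pos j)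
  have hVη : Asy (mO (κ ⊕ κ) η) (ε / 4) (vB S G G' R R') (vB S G G' 1 1) ∧
      Asy (mO (κ ⊕ κ) η) (ε / 4) (wB S G G' R R') (wB S G G' 1 1) := by
    have z4 := (en_rot_comm_le (κ := κ) _ _ _ _ η hcη hsη).trans hε₂le
    have z5 := (en_rot_comm_le (κ := κ) _ _ _ _ η hcη hsη').trans hε₂le
    rw [rot_one_zero] at z4 z5
    have z6 := vB_asy S hD0 hε₁pos ha' hb' hRn hR'n hen1 hen1 hacη z4 z5
    have z7 : 4 * D ^ 3 * ε₁ = ε / 4 := by rw [hε₁]; field_simp
    rw [z7] at z6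
    exact z6
  -- conjugation over `B₁`
  have hgR : ∀ g ∈ 𝓖, (∀ p, InRips r p → g p ≠ 0 → p.1.support ⊆ B₁) →
      ∀ᶠ t in atTop, en ((vB S G G' R R' t * f₀ * wB S G G' R R' t - eB S e t) *
        mO (κ ⊕ κ) (gR r g)) ≤ ε := by
    intro g hg hsupp
    have hac : AC S (gR r g) := ac_gR S (h𝓖 g hg)
    have hmass : ∀ j, gR r g j ≠ 0 → mass B₁ (pos j) = 1 := by
      intro j hj
      unfold gR at hj
      split_ifs at hj with hj'
      · exact (mass_eq_one_iff B₁ (pos j)).2 (hsupp _ hj' hj)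
      · exact absurd rfl hj
    have hcz : ∀ j, c j * gR r g j = 0 := by
      intro j
      by_cases hj : gR r g j = 0
      · rw [hj, mul_zero]
      · have : c j = 0 := by
          change cF B₁ (pos j) = 0
          rw [cF, hmass j hj, mul_one, Real.cos_pi_div_two, Complex.ofReal_zero]
        rw [this, zero_mul]
    have hso : ∀ j, s j * gR r g j = gR r g j := by
      intro j
      by_cases hj : gR r g j = 0
      · rw [hj, mul_zero]
      · have : s j = 1 := by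
          change sF B₁ (pos j) = 1
          rw [sF, hmass j hj, mul_one, Real.sin_pi_div_two, Complex.ofReal_one]
        rw [this, one_mul]
    have z1 : ‖mulOp c * mulOp (gR r g) - mulOp (gR r g) * 0‖ ≤ 0 := by
      rw [mul_zero, sub_zero, ← mulOp_mul hcb hac.1]
      simp only [hcz]
      rw [mulOp_zero, norm_zero]
    have z2 : ‖mulOp s * mulOp (gR r g) - mulOp (gR r g) * 1‖ ≤ 0 := by
      rw [mul_one, ← mulOp_mul hsb hac.1]
      simp only [hso]
      rw [sub_self, norm_zero]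
    have z3 : ‖mulOp (fun j => -s j) * mulOp (gR r g) - mulOp (gR r g) * (-1)‖ ≤ 0 := by
      rw [mulOp_neg hsb, neg_mul, mul_neg, mul_one, ← mulOp_mul hsb hac.1]
      simp only [hso]
      rw [sub_self, norm_zero]
    have z4 := en_rot_comm_le (κ := κ) _ _ _ _ (gR r g) z1 z2
    have z5 := en_rot_comm_le (κ := κ) _ _ _ _ (gR r g) z1 z3
    rw [mul_zero, mul_zero] at z4 z5
    have hr1 : en (rot κ (0 : BX X) 1) ≤ D := hrot _ _ (by rw [norm_zero]; exact zero_le_one) hone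
    have hr2 : en (rot κ (0 : BX X) (-1)) ≤ D :=
      hrot _ _ (by rw [norm_zero]; exact zero_le_one) (by rw [norm_neg]; exact hone)
    have z6 : ∀ ε' > 0, Asy (mO (κ ⊕ κ) (gR r g)) ε' (vB S G G' R R')
        (vB S G G' (rot κ 0 1) (rot κ 0 (-1))) ∧
        Asy (mO (κ ⊕ κ) (gR r g)) ε' (wB S G G' R R')
        (wB S G G' (rot κ 0 1) (rot κ 0 (-1))) := by
      intro ε' hε'
      have hε'' : 0 < ε' / (4 * D ^ 3) := div_pos hε' (mul_pos four_pos (pow_pos hDp 3))
      have z6 := vB_asy S hD0 hε'' ha' hb' hRn hR'n hr1 hr2 hac (z4.trans hε''.le)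
        (z5.trans hε''.le)
      have z7 : 4 * D ^ 3 * (ε' / (4 * D ^ 3)) = ε' := by field_simp
      rw [z7] at z6
      exact z6
    have hD4 : 0 ≤ D ^ 4 := pow_nonneg hD0 4
    have hP : 0 ≤ D ^ 4 + en f₀ := add_nonneg hD4 (en_nonneg _)
    exact conj_asy S (D := D ^ 4 + en f₀) h1 he hP
      (by rw [← hf₀]; exact le_add_of_nonneg_left hD4) (fun _ => rfl) (fun _ => rfl)
      (fun t => (vB_bdd S hD0 ha' hb' hRn hR'n t).1.trans
        (le_add_of_nonneg_right (en_nonneg f₀)))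
      (fun t => (vB_bdd S hD0 ha' hb' hr1 hr2 t).2.trans
        (le_add_of_nonneg_right (en_nonneg f₀))) hac (fun ε' hε' => (z6 ε' hε').1) (fun ε' hε' => (z6 ε' hε').2) hε
  -- all conditions hold eventually
  have hev : ∀ᶠ t in (atTop : Filter ℝ≥0),
      (en (vB S G G' R R' t * mO (κ ⊕ κ) η - mO (κ ⊕ κ) η) ≤ ε / 4 ∧
        en (wB S G G' R R' t * mO (κ ⊕ κ) η - mO (κ ⊕ κ) η) ≤ ε / 4) ∧
      (en (vB S G G' R R' t * mO (κ ⊕ κ) η - mO (κ ⊕ κ) η * vB S G G' R R' t) ≤ ε / 4 ∧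
        en (wB S G G' R R' t * mO (κ ⊕ κ) η - mO (κ ⊕ κ) η * wB S G G' R R' t) ≤ ε / 4) ∧
      (∀ g ∈ 𝓖, en (vB S G G' R R' t * mO (κ ⊕ κ) (fun j => g (pos j)) -
          mO (κ ⊕ κ) (fun j => g (pos j)) * vB S G G' R R' t) ≤ ε ∧
        en (wB S G G' R R' t * mO (κ ⊕ κ) (fun j => g (pos j)) -
          mO (κ ⊕ κ) (fun j => g (pos j)) * wB S G G' R R' t) ≤ ε) ∧
      (∀ g ∈ 𝓖, (∀ p, InRips r p → g p ≠ 0 → p.1.support ⊆ B₁) →
        en ((vB S G G' R R' t * f₀ * wB S G G' R R' t - eB S e t) *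
          mO (κ ⊕ κ) (gR r g)) ≤ ε) := by
    have q1 : ∀ᶠ t in (atTop : Filter ℝ≥0), ∀ g ∈ 𝓖,
        (en (vB S G G' R R' t * mO (κ ⊕ κ) (fun j => g (pos j)) -
          mO (κ ⊕ κ) (fun j => g (pos j)) * vB S G G' R R' t) ≤ ε ∧
        en (wB S G G' R R' t * mO (κ ⊕ κ) (fun j => g (pos j)) -
          mO (κ ⊕ κ) (fun j => g (pos j)) * wB S G G' R R' t) ≤ ε) := by
      rw [Filter.eventually_all_finset]
      intro g hg
      have q := hcomm _ (ac_of_cyl S (h𝓖 g hg)) ε hε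
      exact q.1.and q.2
    have q2 : ∀ᶠ t in (atTop : Filter ℝ≥0), ∀ g ∈ 𝓖,
        ((∀ p, InRips r p → g p ≠ 0 → p.1.support ⊆ B₁) →
        en ((vB S G G' R R' t * f₀ * wB S G G' R R' t - eB S e t) *
          mO (κ ⊕ κ) (gR r g)) ≤ ε) := by
      rw [Filter.eventually_all_finset]
      intro g hg
      by_cases hsupp : ∀ p, InRips r p → g p ≠ 0 → p.1.support ⊆ B₁
      · exact (hgR g hg hsupp).mono fun t ht _ => ht
      · exact Eventually.of_forall fun t h => absurd h hsupp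
    have q3 := hcomm η hacη (ε / 4) (div_pos hε four_pos)
    have q3a := q3.1
    have q3b := q3.2
    have q4a := hVη.1
    have q4b := hVη.2
    unfold Asy at q3a q3b q4a q4b
    filter_upwards [q1, q2, q3a, q3b, q4a, q4b] with t w1 w2 w3 w4 w5 w6
    rw [(vB_one S h1 t).1, mul_one] at w5
    rw [(vB_one S h1 t).2, mul_one] at w6
    exact ⟨⟨w5, w6⟩, ⟨w3, w4⟩, w1, w2⟩
  obtain ⟨t₀, ht₀⟩ := Filter.eventually_atTop.1 hev
  refine ⟨t₀, fun t ht => ?_⟩
  obtain ⟨⟨u1, u2⟩, ⟨u3, u4⟩, u5, u6⟩ := ht₀ t ht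
  have hVb := vB_bdd S hD0 ha' hb' hRn hR'n t
  have hVW := vB_mul_wB S h1 h2 hRR' hR'R t
  have hlcV := vB_sub_lcm S h3 h4 hRm hR'm hRR' t
  have hlcW := wB_sub_lcm S h3 h4 hRm hR'm hRR' t
  have hcutW : ∀ i j, IsCompactOperator
      ((mO (κ ⊕ κ) θ * (wB S G G' R R' t - 1) * mO (κ ⊕ κ) θ) i j) ∧
      ∀ a b, ent ((mO (κ ⊕ κ) θ * (wB S G G' R R' t - 1) * mO (κ ⊕ κ) θ) i j) a b ≠ 0 →
        GoodB r B₂ a ∧ GoodB r B₂ b := by
    intro i j
    have : (mO (κ ⊕ κ) θ * (wB S G G' R R' t - 1) * mO (κ ⊕ κ) θ) i j =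
        mulOp θ * (wB S G G' R R' t - 1) i j * mulOp θ := by
      simp only [mO]
      rw [Matrix.mul_diagonal, Matrix.diagonal_mul]
    rw [this]
    exact (hlcW i j).cut hB hθn (fun j hj => tF_ne_zero B₁ hj)
  obtain ⟨F₀, hF₀, hF₀'⟩ := hfin (X × ℕ) (GoodB r B₂) (vB S G G' R R' t) (wB S G G' R R' t)
    (mO (κ ⊕ κ) θ * (vB S G G' R R' t - 1) * mO (κ ⊕ κ) θ)
    (mO (κ ⊕ κ) θ * (wB S G G' R R' t - 1) * mO (κ ⊕ κ) θ)
    (hen1.trans hDD) hVW hVb.1 hVb.2
    ((en_cut_le hθn hθη _ u1 u3).trans (by linarith only [hε]))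
    ((en_cut_le hθn hθη _ u2 u4).trans (by linarith only [hε]))
    (fun i j => (hcutW i j).1) (fun i j a b hab => ((hcutW i j).2 a b hab).1)
  refine ⟨F₀, hF₀, fun F hF hgood => ?_⟩
  obtain ⟨U, U', v1, v2, v3, v4, v5, v6⟩ := hF₀' F hF
  refine ⟨U, U', v1, v2, v3, v4, fun g hg => ?_, fun g hg hsupp => ?_⟩
  · obtain ⟨w1, w2⟩ := u5 g hg
    have hgb : ∃ C : ℝ, ∀ j : X × ℕ, ‖g (pos j)‖ ≤ C := ⟨Γ, fun j => hΓ g hg _⟩
    exact v5 (fun j => g (pos j)) (fun j => hΓ g hg _)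
      ((en_comm_cut_le hgb hθn _).trans w1) ((en_comm_cut_le hgb hθn _).trans w2)
  · have hdg : dg F g = dJ (κ ⊕ κ) F (gR r g) := by
      unfold dg dJ
      congr 1
      funext a
      have : ((a.1 : X × ℕ)) ∈ RP X r := (hgood a.1 a.1.2).1
      unfold gR
      rw [if_pos this]
    rw [hdg]
    exact v6 (gR r g) (fromBlocks f 0 0 0) (eB S e t)
      (fun j => gR_bdd (hΓ g hg) hΓ0 j) le_rfl (u6 g hg hsupp)

end Vale.Agent.P212
end
end

section

section

/-! The rank of the twisted compression of the stabilised Bott projection. -/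

namespace Vale.Agent.P212

open Matrix NNReal
open scoped Matrix.Norms.L2Operator Kronecker

/-! ### Partitions and reindexings of twisted matrices -/

section BEIgen

variable {α B : Type} [Fintype α] [DecidableEq α] [Fintype B] [DecidableEq B]

theorem bei_nearId_reindex {β : Type} [Fintype β] [DecidableEq β] (σ : β ≃ α)
    {y : Matrix α α ℂ} {ε : ℝ} (h : NearId (y.submatrix σ σ) ε) : NearId y ε := by
  obtain ⟨z, hz, hn⟩ := h
  refine ⟨z.submatrix σ.symm σ.symm, ?_, ?_⟩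
  · rw [submatrix_mul_equiv, hz]
  · have : z.submatrix σ.symm σ.symm - y =
        (z - y.submatrix σ σ).submatrix σ.symm σ.symm := by
      ext i j; simp
    rw [this, norm_submatrix_equiv]
    exact hn

/-- Reindexing a twisted matrix. -/
theorem bei_tw_equiv {β : Type} [Fintype β] [DecidableEq β] (σ : β ≃ α)
    (Q : α → Matrix B B ℂ) (x : Matrix α α ℂ) (Q' : β → Matrix B B ℂ) (x' : Matrix β β ℂ)
    (hQ : ∀ b, Q (σ b) = Q' b) (hx : ∀ b c, x (σ b) (σ c) = x' b c) {ε : ℝ}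
    (h : NearId (tw Q' x') ε) : NearId (tw Q x) ε ∧ rk (tw Q x) = rk (tw Q' x') := by
  have e : (tw Q x).submatrix (σ.prodCongr (Equiv.refl B)) (σ.prodCongr (Equiv.refl B)) =
      tw Q' x' := by
    ext i j
    rw [submatrix_apply, tw_apply, tw_apply]
    simp only [Equiv.prodCongr_apply, Prod.map_fst, Prod.map_snd, Equiv.refl_apply, hQ, hx]
  constructor
  · apply bei_nearId_reindex (σ.prodCongr (Equiv.refl B))
    rw [e]
    exact h
  · rw [← e, rk_reindex]

/-- Ranks of block diagonal matrices for a partition of the index set. -/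
theorem bei_tw_partition {ι : Type} [Fintype ι] [DecidableEq ι] (π : α → ι)
    (Q : α → Matrix B B ℂ) (x : Matrix α α ℂ) (h : ∀ a b, π a ≠ π b → x a b = 0) {ε : ℝ}
    (hε0 : 0 < ε) (hε : ε ≤ 1 / 4)
    (hn : ∀ i, NearId (tw (fun a : {a // π a = i} => Q a.1)
      (x.submatrix Subtype.val Subtype.val)) ε) :
    NearId (tw Q x) ε ∧ rk (tw Q x) =
      ∑ i, rk (tw (fun a : {a // π a = i} => Q a.1) (x.submatrix Subtype.val Subtype.val)) := by
  let σ : ∀ i, {a : α // π a = i} × B ≃ {p : α × B // π p.1 = i} := fun i =>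
    { toFun := fun p => ⟨(p.1.1, p.2), p.1.2⟩
      invFun := fun p => (⟨p.1.1, p.2⟩, p.1.2)
      left_inv := fun _ => rfl
      right_inv := fun _ => rfl }
  have e : ∀ i, ((tw Q x).submatrix (Subtype.val : {p : α × B // π p.1 = i} → α × B)
      Subtype.val).submatrix (σ i) (σ i) =
      tw (fun a : {a // π a = i} => Q a.1) (x.submatrix Subtype.val Subtype.val) := by
    intro i
    ext p q
    rw [submatrix_apply, submatrix_apply, tw_apply, tw_apply, submatrix_apply]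
    rfl
  have h1 := rk_partition (fun p : α × B => π p.1) (tw Q x) (fun a b hab => by
    rw [tw_apply, h _ _ hab, zero_mul]) hε0 hε (fun i => by
    apply bei_nearId_reindex (σ i)
    rw [e i]
    exact hn i)
  refine ⟨h1.1, h1.2.trans (Finset.sum_congr rfl fun i _ => ?_)⟩
  rw [← e i, rk_reindex]

end BEIgen

variable (τ : Tower) [DecidableEq (XT τ)]

/-- The index set of the doubled matrices. -/
abbrev Ix2 (N k : ℕ) : Type := (Ix N k ⊕ Ix N k) ⊕ (Ix N k ⊕ Ix N k)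

instance instDecidableEqIx2 (N k : ℕ) : DecidableEq (Ix2 N k) := inferInstance

/-- The compression at the integer time `m` of the stabilised Bott projection. -/
noncomputable def ehat (r : ℝ) (hr : 2 ≤ r) (N k m : ℕ) (F : Finset (XT τ × ℕ)) :
    Matrix (F × Ix2 N k) (F × Ix2 N k) ℂ :=
  cutM F (fromBlocks ((stab N k (EL τ r hr)).map ((locSys (XT τ) r).ev m)) 0 0 0)

/-- The corresponding scalar projection. -/
noncomputable def fhat (N k : ℕ) (F : Finset (XT τ × ℕ)) :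
    Matrix (F × Ix2 N k) (F × Ix2 N k) ℂ :=
  scM F (fromBlocks (stab N k (e11 ℂ)) 0 0 0)

/-! ### The matrix entries -/

/-- The copy to which an index belongs. -/
def beiCpy {N k : ℕ} : Ix2 N k → Option (Fin N × Fin 2)
  | Sum.inl (Sum.inl (Sum.inl p)) => some p
  | _ => none

/-- The scalar matrix. -/
noncomputable def beiF (N k : ℕ) : Matrix (Ix2 N k) (Ix2 N k) ℂ :=
  fromBlocks (stab N k (e11 ℂ)) 0 0 0

omit [DecidableEq (XT τ)] in
theorem bei_map (r : ℝ) (hr : 2 ≤ r) (N k m : ℕ) :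
    (stab N k (EL τ r hr)).map ((locSys (XT τ) r).ev m) =
      stab N k ((EL τ r hr).map ((locSys (XT τ) r).ev m)) :=
  stab_map ((locSys (XT τ) r).ev m : locU (XT τ) r →+* BX (XT τ)) N k (EL τ r hr)

theorem bei_cpy_some {N k : ℕ} {x : Ix2 N k} {p : Fin N × Fin 2} (h : beiCpy x = some p) :
    x = Sum.inl (Sum.inl (Sum.inl p)) := by
  rcases x with ((x | x) | x) | x <;> simp [beiCpy] at h ⊢
  exact h

omit [DecidableEq (XT τ)] in
/-- The entries of a compression, for two indices of the copies. -/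
theorem bei_cut_some (N k : ℕ) (F : Finset (XT τ × ℕ)) (T : Matrix (Fin 2) (Fin 2) (BX (XT τ)))
    (i j : F) (p q : Fin N × Fin 2) :
    cutM F (fromBlocks (stab N k T) 0 0 0 : Matrix (Ix2 N k) (Ix2 N k) (BX (XT τ)))
      (i, Sum.inl (Sum.inl (Sum.inl p))) (j, Sum.inl (Sum.inl (Sum.inl q))) =
      if p.1 = q.1 then ent (T p.2 q.2) i j else 0 := by
  simp only [cutM, stab, fromBlocks_apply₁₁, copies]
  split_ifs with h
  · rfl
  · exact ent_zero _ _

/-- The entries of a compression, in the scalar part. -/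
theorem bei_cut_none (N k : ℕ) (F : Finset (XT τ × ℕ)) (T : Matrix (Fin 2) (Fin 2) (BX (XT τ)))
    (a b : F × Ix2 N k) (hab : beiCpy a.2 = none ∨ beiCpy b.2 = none) :
    cutM F (fromBlocks (stab N k T) 0 0 0 : Matrix (Ix2 N k) (Ix2 N k) (BX (XT τ))) a b =
      if a.1 = b.1 then beiF N k a.2 b.2 else 0 := by
  obtain ⟨i, x⟩ := a
  obtain ⟨j, y⟩ := b
  have h1 : ent (1 : BX (XT τ)) i j = if i = j then 1 else 0 := by
    rw [ent_one]
    by_cases h : i = j
    · rw [if_pos h, if_pos (congrArg Subtype.val h)]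
    · rw [if_neg h, if_neg (fun h' => h (Subtype.ext h'))]
  rcases x with ((x | x) | x) | x <;> rcases y with ((y | y) | y) | y <;>
    simp only [cutM, beiF, stab, fromBlocks_apply₁₁, fromBlocks_apply₁₂,
      fromBlocks_apply₂₁, fromBlocks_apply₂₂, Matrix.zero_apply, ent_zero, ite_self]
  · simp [beiCpy] at hab
  · rw [one_apply, one_apply]
    by_cases h : x = y
    · rw [if_pos h, if_pos h, h1]
    · rw [if_neg h, if_neg h, ent_zero, ite_self]

/-- The entries of the scalar matrix. -/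
theorem bei_F_some (N k : ℕ) (p q : Fin N × Fin 2) :
    beiF N k (Sum.inl (Sum.inl (Sum.inl p))) (Sum.inl (Sum.inl (Sum.inl q))) =
      if p.1 = q.1 then e11 ℂ p.2 q.2 else 0 := by
  simp only [beiF, stab, fromBlocks_apply₁₁, copies]

/-- The scalar matrix respects the copies. -/
theorem bei_F_ne {N k : ℕ} {x y : Ix2 N k}
    (h : (beiCpy x).map Prod.fst ≠ (beiCpy y).map Prod.fst) : beiF N k x y = 0 := by
  rcases x with ((x | x) | x) | x <;> rcases y with ((y | y) | y) | y <;>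
    simp only [beiF, stab, fromBlocks_apply₁₁, fromBlocks_apply₁₂,
      fromBlocks_apply₂₁, fromBlocks_apply₂₂, Matrix.zero_apply]
  · rw [copies, if_neg]
    intro h'
    apply h
    simp [beiCpy, h']
  · exact absurd rfl h

theorem bei_F_idem (N k : ℕ) : beiF N k * beiF N k = beiF N k := by
  simp only [beiF, Matrix.fromBlocks_multiply, Matrix.mul_zero, Matrix.zero_mul, add_zero,
    stab_idem N k (e11_idem ℂ)]

theorem bei_F_star (N k : ℕ) : (beiF N k)ᴴ = beiF N k := by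
  have h1 : (copies N (e11 ℂ))ᴴ = copies N (e11 ℂ) := by
    ext ⟨i, a⟩ ⟨j, b⟩
    rw [conjTranspose_apply]
    simp only [copies]
    by_cases h : i = j
    · rw [if_pos h, if_pos h.symm]
      fin_cases a <;> fin_cases b <;> simp [e11]
    · rw [if_neg h, if_neg (Ne.symm h), star_zero]
  simp only [beiF, stab, Matrix.fromBlocks_conjTranspose, h1, conjTranspose_zero,
    conjTranspose_one]

theorem bei_trace_blocks {ι κ : Type} [Fintype ι] [Fintype κ] (A : Matrix ι ι ℂ)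
    (B : Matrix ι κ ℂ) (C : Matrix κ ι ℂ) (D : Matrix κ κ ℂ) :
    (fromBlocks A B C D).trace = A.trace + D.trace := by
  simp [trace, Fintype.sum_sum_type]

theorem rank_stab (N k : ℕ) : (fromBlocks (stab N k (e11 ℂ)) 0 0 0 :
    Matrix (Ix2 N k) (Ix2 N k) ℂ).rank = N + k := by
  have h1 := rank_eq_trace (bei_F_idem N k)
  have h2 : (beiF N k).trace = ((N + k : ℕ) : ℂ) := by
    simp only [beiF, stab, bei_trace_blocks, trace_zero, add_zero, trace_one]
    have h3 : (copies N (e11 ℂ)).trace = N := by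
      rw [trace, Fintype.sum_prod_type]
      simp [copies, e11, Fin.sum_univ_two]
    rw [h3]
    simp
  rw [h2] at h1
  exact_mod_cast h1

/-- The indices outside the copies. -/
abbrev BeiR (N k : ℕ) : Type := Fin k ⊕ (Ix N k ⊕ (Ix N k ⊕ Ix N k))

/-- The inclusion of the indices outside the copies. -/
def beiE {N k : ℕ} : BeiR N k → Ix2 N k
  | Sum.inl c => Sum.inl (Sum.inl (Sum.inr c))
  | Sum.inr (Sum.inl x) => Sum.inl (Sum.inr x)
  | Sum.inr (Sum.inr y) => Sum.inr y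

theorem bei_E_inj {N k : ℕ} {x y : BeiR N k} (h : beiE x = beiE y) : x = y := by
  rcases x with x | x | x <;> rcases y with y | y | y <;> simp [beiE] at h ⊢ <;> exact h

theorem bei_E_cpy {N k : ℕ} (x : BeiR N k) : beiCpy (beiE x) = none := by
  rcases x with x | x | x <;> rfl

theorem bei_E_surj {N k : ℕ} {y : Ix2 N k} (h : beiCpy y = none) : ∃ x : BeiR N k, beiE x = y := by
  rcases y with ((y | y) | y) | y
  · simp [beiCpy] at h
  · exact ⟨Sum.inl y, rfl⟩
  · exact ⟨Sum.inr (Sum.inl y), rfl⟩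
  · exact ⟨Sum.inr (Sum.inr y), rfl⟩

/-- The scalar matrix outside the copies. -/
def beiG (N k : ℕ) : Matrix (BeiR N k) (BeiR N k) ℂ := fromBlocks 1 0 0 0

theorem bei_F_E {N k : ℕ} (x y : BeiR N k) : beiF N k (beiE x) (beiE y) = beiG N k x y := by
  rcases x with x | x | x <;> rcases y with y | y | y <;> rfl

theorem bei_G_idem (N k : ℕ) : beiG N k * beiG N k = beiG N k := by
  simp only [beiG, Matrix.fromBlocks_multiply, Matrix.mul_zero, add_zero, Matrix.mul_one]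

theorem bei_G_star (N k : ℕ) : (beiG N k)ᴴ = beiG N k := by
  simp only [beiG, Matrix.fromBlocks_conjTranspose, conjTranspose_zero, conjTranspose_one]

theorem bei_G_rank (N k : ℕ) : (beiG N k).rank = k := by
  have h1 := rank_eq_trace (bei_G_idem N k)
  have h2 : (beiG N k).trace = ((k : ℕ) : ℂ) := by
    simp only [beiG, bei_trace_blocks, trace_zero, add_zero, trace_one]
    simp
  rw [h2] at h1
  exact_mod_cast h1

omit [DecidableEq (XT τ)] in
theorem bei_T (r : ℝ) (hr : 2 ≤ r) (m : ℕ) (s s' : Fin 2) :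
    ((EL τ r hr).map ((locSys (XT τ) r).ev m)) s s' =
      opC (XT τ) (bottE (Upath τ m) (Vpath τ m) s s') := by
  rw [map_apply, locSys_ev, EL_spec]

theorem bei_GI {m n : ℕ} (hn : 3 ≤ n) (g : GI m) (h : g.1.1 = n) :
    ∃ p : Grid (sd n m), g = ⟨⟨n, hn⟩, p⟩ := by
  obtain ⟨⟨n', hn'⟩, g⟩ := g
  simp only at h
  subst h
  exact ⟨g, rfl⟩

/-- The entries of a compression where they are scalar. -/
theorem bei_ehat_off (r : ℝ) (hr : 2 ≤ r) (N k m : ℕ) (F : Finset (XT τ × ℕ))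
    (a b : F × Ix2 N k)
    (h : ¬ ∃ (n : {n : ℕ // 3 ≤ n}) (p q : Grid (sd n.1 m)),
      (a.1 : XT τ × ℕ) = ji τ m ⟨n, p⟩ ∧ (b.1 : XT τ × ℕ) = ji τ m ⟨n, q⟩) :
    ehat τ r hr N k m F a b = if a.1 = b.1 then beiF N k a.2 b.2 else 0 := by
  rw [ehat, bei_map]
  obtain ⟨i, x⟩ := a
  obtain ⟨j, y⟩ := b
  by_cases hx : beiCpy x = none
  · exact bei_cut_none τ N k F _ _ _ (Or.inl hx)
  by_cases hy : beiCpy y = none
  · exact bei_cut_none τ N k F _ _ _ (Or.inr hy)
  obtain ⟨p, hp⟩ := Option.ne_none_iff_exists'.1 hx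
  obtain ⟨q, hq⟩ := Option.ne_none_iff_exists'.1 hy
  obtain rfl := bei_cpy_some hp
  obtain rfl := bei_cpy_some hq
  rw [bei_cut_some, bei_T, ent_path_off τ m _ _ _ _ h, bei_F_some]
  by_cases h1 : i = j
  · subst h1
    simp
  · have h2 : (i : XT τ × ℕ) ≠ j := fun h' => h1 (Subtype.ext h')
    simp [h1, h2]

theorem bei_fhat_apply (N k : ℕ) (F : Finset (XT τ × ℕ)) (a b : F × Ix2 N k) :
    fhat τ N k F a b = if a.1 = b.1 then beiF N k a.2 b.2 else 0 := by
  rw [fhat, scM, kroneckerMap_apply, one_apply, ite_mul, one_mul, zero_mul]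
  rfl

/-- Away from the grid the two matrices agree. -/
theorem ehat_apply_off (r : ℝ) (hr : 2 ≤ r) (N k m : ℕ) (F : Finset (XT τ × ℕ))
    (a b : F × Ix2 N k) (h : ¬ ∃ x ∈ (pos (b.1 : XT τ × ℕ)).1.support, x.l = 0) :
    ehat τ r hr N k m F a b = fhat τ N k F a b := by
  rw [bei_fhat_apply, bei_ehat_off]
  rintro ⟨n, p, q, -, hq⟩
  apply h
  rw [hq, pos_ji]
  exact ⟨_, vtx_mem_gpt τ n.1 m q, rfl⟩

omit [DecidableEq (XT τ)] in
/-- A basis vector at a grid point whose position has its vertices in the component `n`. -/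
theorem bei_grid_comp {m n : ℕ} (hn : 3 ≤ n) {B : Finset (XT τ)} (hB : ∀ x ∈ B, x.n = n)
    {l : XT τ × ℕ} (hl : (pos l).1.support ⊆ B) {w : GI m} (e : l = ji τ m w) :
    ∃ p : Grid (sd n m), w = ⟨⟨n, hn⟩, p⟩ := by
  apply bei_GI hn
  have h2 := vtx_mem_gpt τ w.1.1 m w.2
  rw [← pos_ji, ← e] at h2
  exact hB _ (hl h2)

theorem exists_pi_cases {α β : Type} (p : α → Prop) (u v : α → β) :
    ∃ π : α → β, (∀ a, p a → π a = u a) ∧ (∀ a, ¬ p a → π a = v a) := by
  classical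
  exact ⟨fun a => if p a then u a else v a, fun a h => if_pos h, fun a h => if_neg h⟩

/-- The rank of the twisted compression of `ehat` to a set of basis vectors containing the
grid of the component `n`. -/
theorem rk_ehat (r : ℝ) (hr : 2 ≤ r) (N k m n j : ℕ) (hn : 16 ≤ n) (sgn : ℤ)
    (F : Finset (XT τ × ℕ)) (B : Finset (XT τ)) (hB : ∀ x ∈ B, x.n = n)
    (hF : ∀ i ∈ F, (pos i).1.support ⊆ B)
    (hg : ∀ g : Grid (sd n m), ji τ m ⟨⟨n, by omega⟩, g⟩ ∈ F)
    (hc : ∀ i ∈ F, CocAt (j • c0 n) (pos i))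
    (h1 : NearId (tw (gridQ τ B j n m) (gridE (sd n m))) (1 / 16))
    (h2 : (rk (tw (gridQ τ B j n m) (gridE (sd n m))) : ℤ) = (sd n m : ℤ) ^ 2 + sgn * j)
    (P : F × Ix2 N k → Prop) [DecidablePred P] (P' : F → Prop) [DecidablePred P']
    (hP : ∀ a, P a ↔ P' a.1)
    (hP' : ∀ (g : Grid (sd n m)), P' ⟨_, hg g⟩) :
    NearId (tw (fun a : {a : F × Ix2 N k // P a} => Qb B (j • c0 n) (pos (a.1.1 : XT τ × ℕ)))
      ((ehat τ r hr N k m F).submatrix Subtype.val Subtype.val)) (1 / 8) ∧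
    (rk (tw (fun a : {a : F × Ix2 N k // P a} => Qb B (j • c0 n) (pos (a.1.1 : XT τ × ℕ)))
      ((ehat τ r hr N k m F).submatrix Subtype.val Subtype.val)) : ℤ) =
      N * (Fintype.card {i : F // P' i} + sgn * j) + k * Fintype.card {i : F // P' i} := by
  classical
  have hn3 : 3 ≤ n := by omega
  -- the grid vectors
  obtain ⟨gi, hgi⟩ : ∃ gi : Grid (sd n m) → F, ∀ g, (gi g : XT τ × ℕ) = ji τ m ⟨⟨n, hn3⟩, g⟩ :=
    ⟨fun g => ⟨ji τ m ⟨⟨n, hn3⟩, g⟩, hg g⟩, fun g => rfl⟩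
  have hgiP : ∀ g, P' (gi g) := by
    intro g
    have h3 := hP' g
    have h4 : gi g = ⟨ji τ m ⟨⟨n, hn3⟩, g⟩, hg g⟩ := Subtype.ext (hgi g)
    rw [h4]
    exact h3
  have hgiinj : Function.Injective gi := by
    intro g g' h
    have h3 : ji τ m ⟨⟨n, hn3⟩, g⟩ = ji τ m ⟨⟨n, hn3⟩, g'⟩ := by rw [← hgi, ← hgi, h]
    have h4 := (ji τ m).injective h3
    have h5 := (Sigma.mk.inj_iff.1 h4).2
    exact eq_of_heq h5
  have hgiQ : ∀ g, Qb B (j • c0 n) (pos (gi g : XT τ × ℕ)) =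
      Qb B (j • c0 n) (gpt τ n m g) := by
    intro g
    rw [hgi, pos_ji]
  have hQb : ∀ i : F, (Qb B (j • c0 n) (pos (i : XT τ × ℕ)))ᴴ = Qb B (j • c0 n) (pos i) ∧
      Qb B (j • c0 n) (pos (i : XT τ × ℕ)) * Qb B (j • c0 n) (pos i) =
        Qb B (j • c0 n) (pos i) := fun i => Qb_bun (hF i i.2) (hc i i.2)
  have hQr : ∀ i : F, (Qb B (j • c0 n) (pos (i : XT τ × ℕ))).rank = 1 := fun i =>
    Qb_rank (hF i i.2) (hc i i.2)
  -- the entries
  have hoff : ∀ a b : F × Ix2 N k, ¬ ((∃ g, gi g = a.1) ∧ ∃ g, gi g = b.1) →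
      ehat τ r hr N k m F a b = if a.1 = b.1 then beiF N k a.2 b.2 else 0 := by
    intro a b hab
    apply bei_ehat_off
    rintro ⟨n', p, q, e1, e2⟩
    apply hab
    obtain ⟨p', hp'⟩ := bei_grid_comp τ hn3 hB (hF _ a.1.2) e1
    obtain ⟨q', hq'⟩ := bei_grid_comp τ hn3 hB (hF _ b.1.2) e2
    refine ⟨⟨p', Subtype.ext ?_⟩, ⟨q', Subtype.ext ?_⟩⟩
    · rw [hgi, e1, hp']
    · rw [hgi, e2, hq']
  have hon : ∀ (g g' : Grid (sd n m)) (p q : Fin N × Fin 2),
      ehat τ r hr N k m F (gi g, Sum.inl (Sum.inl (Sum.inl p)))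
        (gi g', Sum.inl (Sum.inl (Sum.inl q))) =
      if p.1 = q.1 then gridE (sd n m) (g, p.2) (g', q.2) else 0 := by
    intro g g' p q
    rw [ehat, bei_map, bei_cut_some, bei_T, hgi, hgi, ent_path]
    rfl
  have hnone : ∀ a b : F × Ix2 N k, beiCpy a.2 = none ∨ beiCpy b.2 = none →
      ehat τ r hr N k m F a b = if a.1 = b.1 then beiF N k a.2 b.2 else 0 := by
    intro a b hab
    rw [ehat, bei_map]
    exact bei_cut_none τ N k F _ _ _ hab
  -- the partition
  obtain ⟨π, hπ1, hπ2⟩ : ∃ π : {a : F × Ix2 N k // P a} → Option (Fin N) ⊕ Unit,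
      (∀ a, (∃ g, gi g = a.1.1) → π a = Sum.inl ((beiCpy a.1.2).map Prod.fst)) ∧
      (∀ a, (¬ ∃ g, gi g = a.1.1) → π a = Sum.inr ()) :=
    exists_pi_cases (fun a : {a : F × Ix2 N k // P a} => ∃ g, gi g = a.1.1)
      (fun a => Sum.inl ((beiCpy a.1.2).map Prod.fst)) (fun _ => Sum.inr ())
  have hzero : ∀ a b : {a : F × Ix2 N k // P a}, π a ≠ π b →
      ((ehat τ r hr N k m F).submatrix (Subtype.val : {a : F × Ix2 N k // P a} → _)
        Subtype.val) a b = 0 := by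
    intro a b hab
    rw [submatrix_apply]
    by_cases ha : ∃ g, gi g = a.1.1
    · by_cases hb : ∃ g, gi g = b.1.1
      · rw [hπ1 a ha, hπ1 b hb] at hab
        have hab' : (beiCpy a.1.2).map Prod.fst ≠ (beiCpy b.1.2).map Prod.fst :=
          fun h => hab (by rw [h])
        obtain ⟨⟨i, x⟩, hx⟩ := a
        obtain ⟨⟨i', y⟩, hy⟩ := b
        simp only at ha hb hab' ⊢
        by_cases hx0 : beiCpy x = none
        · rw [hnone _ _ (Or.inl hx0)]
          simp only [bei_F_ne hab', ite_self]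
        by_cases hy0 : beiCpy y = none
        · rw [hnone _ _ (Or.inr hy0)]
          simp only [bei_F_ne hab', ite_self]
        obtain ⟨p, hp⟩ := Option.ne_none_iff_exists'.1 hx0
        obtain ⟨q, hq⟩ := Option.ne_none_iff_exists'.1 hy0
        rw [hp, hq] at hab'
        obtain rfl := bei_cpy_some hp
        obtain rfl := bei_cpy_some hq
        obtain ⟨g, rfl⟩ := ha
        obtain ⟨g', rfl⟩ := hb
        rw [hon, if_neg]
        intro h
        apply hab'
        simp only [Option.map_some, h]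
      · rw [hoff _ _ (fun h => hb h.2), if_neg]
        intro h
        rw [h] at ha
        exact hb ha
    · rw [hoff _ _ (fun h => ha h.1), if_neg]
      intro h
      by_cases hb : ∃ g, gi g = b.1.1
      · rw [← h] at hb
        exact ha hb
      · rw [hπ2 a ha, hπ2 b hb] at hab
        exact hab rfl
  -- the copies
  have hA : ∀ n1 : Fin N, NearId (tw (fun a : {a // π a = Sum.inl (some n1)} =>
      Qb B (j • c0 n) (pos (a.1.1.1 : XT τ × ℕ)))
      (((ehat τ r hr N k m F).submatrix (Subtype.val : {a : F × Ix2 N k // P a} → _)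
        Subtype.val).submatrix Subtype.val Subtype.val)) (1 / 8) ∧
      rk (tw (fun a : {a // π a = Sum.inl (some n1)} =>
      Qb B (j • c0 n) (pos (a.1.1.1 : XT τ × ℕ)))
      (((ehat τ r hr N k m F).submatrix (Subtype.val : {a : F × Ix2 N k // P a} → _)
        Subtype.val).submatrix Subtype.val Subtype.val)) =
        rk (tw (gridQ τ B j n m) (gridE (sd n m))) := by
    intro n1
    let f : Grid (sd n m) × Fin 2 → {a // π a = Sum.inl (some n1)} := fun p =>
      ⟨⟨(gi p.1, Sum.inl (Sum.inl (Sum.inl (n1, p.2)))), (hP _).2 (hgiP _)⟩,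
        hπ1 _ ⟨p.1, rfl⟩⟩
    have hf : Function.Bijective f := by
      constructor
      · rintro ⟨g, s⟩ ⟨g', s'⟩ h
        have h3 := Prod.mk.inj (congrArg (fun z : {a // π a = Sum.inl (some n1)} => z.1.1) h)
        have h4 := (Prod.mk.inj (Sum.inl.inj (Sum.inl.inj (Sum.inl.inj h3.2)))).2
        exact Prod.ext (hgiinj h3.1) h4
      · rintro ⟨⟨⟨i, x⟩, hx⟩, ha⟩
        by_cases hi : ∃ g, gi g = i
        · rw [hπ1 _ hi] at ha
          simp only [Sum.inl.injEq] at ha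
          obtain ⟨⟨n1', s⟩, hp, hp'⟩ := Option.map_eq_some_iff.1 ha
          obtain rfl := bei_cpy_some hp
          simp only at hp'
          subst hp'
          obtain ⟨g, rfl⟩ := hi
          exact ⟨(g, s), rfl⟩
        · rw [hπ2 _ hi] at ha
          exact absurd ha (by simp)
    refine bei_tw_equiv (Equiv.ofBijective f hf) _ _ (gridQ τ B j n m) (gridE (sd n m)) ?_ ?_
      (h1.mono (by norm_num))
    · intro b
      exact hgiQ b.1
    · intro b c
      change ehat τ r hr N k m F (gi b.1, _) (gi c.1, _) = _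
      rw [hon, if_pos rfl]
  -- the grid, outside the copies
  have hC : NearId (tw (fun a : {a // π a = Sum.inl none} =>
      Qb B (j • c0 n) (pos (a.1.1.1 : XT τ × ℕ)))
      (((ehat τ r hr N k m F).submatrix (Subtype.val : {a : F × Ix2 N k // P a} → _)
        Subtype.val).submatrix Subtype.val Subtype.val)) (1 / 8) ∧
      rk (tw (fun a : {a // π a = Sum.inl none} =>
      Qb B (j • c0 n) (pos (a.1.1.1 : XT τ × ℕ)))
      (((ehat τ r hr N k m F).submatrix (Subtype.val : {a : F × Ix2 N k // P a} → _)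
        Subtype.val).submatrix Subtype.val Subtype.val)) =
        Fintype.card (Grid (sd n m)) * k := by
    let f : Grid (sd n m) × BeiR N k → {a // π a = Sum.inl none} := fun p =>
      ⟨⟨(gi p.1, beiE p.2), (hP _).2 (hgiP _)⟩, by
        rw [hπ1 _ ⟨p.1, rfl⟩, bei_E_cpy]
        rfl⟩
    have hf : Function.Bijective f := by
      constructor
      · rintro ⟨g, s⟩ ⟨g', s'⟩ h
        simp only [f, Subtype.mk.injEq, Prod.mk.injEq] at h
        rw [hgiinj h.1, bei_E_inj h.2]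
      · rintro ⟨⟨⟨i, x⟩, hx⟩, ha⟩
        by_cases hi : ∃ g, gi g = i
        · rw [hπ1 _ hi] at ha
          simp only [Sum.inl.injEq, Option.map_eq_none_iff] at ha
          obtain ⟨y, rfl⟩ := bei_E_surj ha
          obtain ⟨g, rfl⟩ := hi
          exact ⟨(g, y), rfl⟩
        · rw [hπ2 _ hi] at ha
          exact absurd ha (by simp)
    have h3 := rk_tw_scalar (α := Grid (sd n m)) (beiG N k) (bei_G_idem N k) (bei_G_star N k)
      (fun g => Qb B (j • c0 n) (pos (gi g : XT τ × ℕ))) (fun g => hQb (gi g))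
      (fun g => hQr (gi g)) (1 / 8) (by norm_num)
    rw [bei_G_rank] at h3
    have h4 := bei_tw_equiv (Equiv.ofBijective f hf)
      (fun a : {a // π a = Sum.inl none} => Qb B (j • c0 n) (pos (a.1.1.1 : XT τ × ℕ)))
      (((ehat τ r hr N k m F).submatrix (Subtype.val : {a : F × Ix2 N k // P a} → _)
        Subtype.val).submatrix Subtype.val Subtype.val)
      (fun a : Grid (sd n m) × BeiR N k => Qb B (j • c0 n) (pos (gi a.1 : XT τ × ℕ)))
      (fun a b => if a.1 = b.1 then beiG N k a.2 b.2 else 0)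
      (fun b => rfl) (fun b c => by
        change ehat τ r hr N k m F (gi b.1, _) (gi c.1, _) = _
        rw [hnone _ _ (Or.inl (bei_E_cpy _)), bei_F_E]
        by_cases h : b.1 = c.1
        · rw [if_pos h, if_pos (by rw [h])]
        · rw [if_neg h, if_neg (fun h' => h (hgiinj h'))]) h3.1
    exact ⟨h4.1, h4.2.trans h3.2⟩
  -- the points off the grid
  have hD : NearId (tw (fun a : {a // π a = Sum.inr ()} =>
      Qb B (j • c0 n) (pos (a.1.1.1 : XT τ × ℕ)))
      (((ehat τ r hr N k m F).submatrix (Subtype.val : {a : F × Ix2 N k // P a} → _)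
        Subtype.val).submatrix Subtype.val Subtype.val)) (1 / 8) ∧
      rk (tw (fun a : {a // π a = Sum.inr ()} =>
      Qb B (j • c0 n) (pos (a.1.1.1 : XT τ × ℕ)))
      (((ehat τ r hr N k m F).submatrix (Subtype.val : {a : F × Ix2 N k // P a} → _)
        Subtype.val).submatrix Subtype.val Subtype.val)) =
        Fintype.card {i : {i : F // P' i} // ¬ ∃ g, gi g = i.1} * (N + k) := by
    let f : {i : {i : F // P' i} // ¬ ∃ g, gi g = i.1} × Ix2 N k →
        {a // π a = Sum.inr ()} := fun p =>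
      ⟨⟨(p.1.1.1, p.2), (hP _).2 p.1.1.2⟩, hπ2 _ p.1.2⟩
    have hf : Function.Bijective f := by
      constructor
      · rintro ⟨⟨⟨g, _⟩, _⟩, s⟩ ⟨⟨⟨g', _⟩, _⟩, s'⟩ h
        simp only [f, Subtype.mk.injEq, Prod.mk.injEq] at h
        obtain ⟨rfl, rfl⟩ := h
        rfl
      · rintro ⟨⟨⟨i, x⟩, hx⟩, ha⟩
        by_cases hi : ∃ g, gi g = i
        · rw [hπ1 _ hi] at ha
          exact absurd ha (by simp)
        · exact ⟨(⟨⟨i, (hP _).1 hx⟩, hi⟩, x), rfl⟩
    have h3 := rk_tw_scalar (α := {i : {i : F // P' i} // ¬ ∃ g, gi g = i.1}) (beiF N k)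
      (bei_F_idem N k) (bei_F_star N k)
      (fun i => Qb B (j • c0 n) (pos (i.1.1 : XT τ × ℕ))) (fun i => hQb i.1.1)
      (fun i => hQr i.1.1) (1 / 8) (by norm_num)
    have h3r : (beiF N k).rank = N + k := rank_stab N k
    rw [h3r] at h3
    have h4 := bei_tw_equiv (Equiv.ofBijective f hf)
      (fun a : {a // π a = Sum.inr ()} => Qb B (j • c0 n) (pos (a.1.1.1 : XT τ × ℕ)))
      (((ehat τ r hr N k m F).submatrix (Subtype.val : {a : F × Ix2 N k // P a} → _)
        Subtype.val).submatrix Subtype.val Subtype.val)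
      (fun a : {i : {i : F // P' i} // ¬ ∃ g, gi g = i.1} × Ix2 N k =>
        Qb B (j • c0 n) (pos (a.1.1.1 : XT τ × ℕ)))
      (fun a b => if a.1 = b.1 then beiF N k a.2 b.2 else 0)
      (fun b => rfl) (fun b c => by
        change ehat τ r hr N k m F (b.1.1.1, b.2) (c.1.1.1, c.2) = _
        rw [hoff _ _ (fun h => b.1.2 h.1)]
        by_cases h : b.1 = c.1
        · rw [if_pos h, if_pos (by rw [h])]
        · rw [if_neg h, if_neg (fun h' => h (Subtype.ext (Subtype.ext h')))]) h3.1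
    exact ⟨h4.1, h4.2.trans h3.2⟩
  -- the number of points
  have hcard : Fintype.card {i : F // P' i} = Fintype.card (Grid (sd n m)) +
      Fintype.card {i : {i : F // P' i} // ¬ ∃ g, gi g = i.1} := by
    rw [← Fintype.card_sum]
    symm
    refine Fintype.card_of_bijective (f := Sum.elim (fun g => (⟨gi g, hgiP g⟩ : {i : F // P' i}))
      Subtype.val) ⟨?_, ?_⟩
    · rintro (g | i) (g' | i') h
      · simp only [Sum.elim_inl, Subtype.mk.injEq] at h
        rw [hgiinj h]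
      · exfalso
        simp only [Sum.elim_inl, Sum.elim_inr] at h
        exact i'.2 ⟨g, by rw [← h]⟩
      · exfalso
        simp only [Sum.elim_inl, Sum.elim_inr] at h
        exact i.2 ⟨g', by rw [h]⟩
      · simp only [Sum.elim_inr] at h
        rw [Subtype.ext h]
    · intro i
      by_cases hi : ∃ g, gi g = i.1
      · obtain ⟨g, hg'⟩ := hi
        exact ⟨Sum.inl g, Subtype.ext hg'⟩
      · exact ⟨Sum.inr ⟨i, hi⟩, rfl⟩
  have hcg : (Fintype.card (Grid (sd n m)) : ℤ) = (sd n m : ℤ) ^ 2 := by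
    rw [Fintype.card_prod, ZMod.card, Nat.cast_mul, sq]
  have hmain := bei_tw_partition π
    (fun a : {a : F × Ix2 N k // P a} => Qb B (j • c0 n) (pos (a.1.1 : XT τ × ℕ)))
    ((ehat τ r hr N k m F).submatrix Subtype.val Subtype.val) hzero
    (ε := 1 / 8) (by norm_num) (by norm_num) (by
      rintro ((_ | n1) | _)
      · exact hC.1
      · exact (hA n1).1
      · exact hD.1)
  refine ⟨hmain.1, ?_⟩
  have hv : ∀ i, rk (tw (fun a : {a // π a = i} =>
      Qb B (j • c0 n) (pos (a.1.1.1 : XT τ × ℕ)))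
      (((ehat τ r hr N k m F).submatrix (Subtype.val : {a : F × Ix2 N k // P a} → _)
        Subtype.val).submatrix Subtype.val Subtype.val)) =
      Sum.elim (fun o : Option (Fin N) => o.elim (Fintype.card (Grid (sd n m)) * k)
        (fun _ => rk (tw (gridQ τ B j n m) (gridE (sd n m)))))
        (fun _ => Fintype.card {i : {i : F // P' i} // ¬ ∃ g, gi g = i.1} * (N + k)) i := by
    rintro ((_ | n1) | _)
    · exact hC.2
    · exact (hA n1).2
    · exact hD.2
  have hfin := hmain.2.trans (Finset.sum_congr rfl (fun i _ => hv i))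
  rw [hfin, Fintype.sum_sum_type]
  simp only [Sum.elim_inl, Sum.elim_inr, Fintype.sum_option, Option.elim_none, Option.elim_some,
    Finset.sum_const, Finset.card_univ, Fintype.card_fin, Fintype.card_unit, smul_eq_mul,
    one_mul, hcard, Nat.cast_add, Nat.cast_mul, hcg, h2]
  ring

end Vale.Agent.P212
end
end

section

section

/-! The class has infinite order. -/

namespace Vale.Agent.P212

open Matrix NNReal
open scoped Matrix.Norms.L2Operator

variable (τ : Tower)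

section Pieces

variable {τ} [DecidableEq (XT τ)]

theorem stab_map_algebraMap {A : Type} [Ring A] [Algebra ℂ A] (N k : ℕ) :
    (stab N k (e11 ℂ)).map (algebraMap ℂ A) = stab N k (e11 A) := by
  have h1 : (copies N (e11 ℂ)).map (algebraMap ℂ A) = copies N (e11 A) := by
    ext a b
    simp only [map_apply, copies]
    split_ifs
    · rcases a with ⟨a, i⟩
      rcases b with ⟨b, j⟩
      fin_cases i <;> fin_cases j <;> simp [e11]
    · simp
  rw [stab, stab, fromBlocks_map, fromBlocks_map, h1]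
  simp

theorem star_stab (N k : ℕ) : (stab N k (e11 ℂ))ᴴ = stab N k (e11 ℂ) := by
  have h1 : (copies N (e11 ℂ))ᴴ = copies N (e11 ℂ) := by
    ext a b
    rcases a with ⟨a, i⟩
    rcases b with ⟨b, j⟩
    simp only [conjTranspose_apply, copies]
    by_cases h : a = b
    · subst h
      fin_cases i <;> fin_cases j <;> simp [e11]
    · rw [if_neg (Ne.symm h), if_neg h, star_zero]
  rw [stab, fromBlocks_conjTranspose, fromBlocks_conjTranspose, h1]
  simp

/-- The finite matrices given by a torsion relation. -/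
theorem torsion_data (r : ℝ) (hr : 2 ≤ r) (N : ℕ) (h : N • yL τ r hr = 0) :
    ∃ (k : ℕ) (C : ℝ), ∀ B₁ B₂ : Finset (XT τ), (∀ x ∈ B₁, ∀ y, dist x y ≤ r → y ∈ B₂) →
      ∀ 𝓖 : Finset (RPt (XT τ) → ℂ), (∀ g ∈ 𝓖, Cyl g) → ∀ δ > 0, ∃ t₀ : ℝ≥0, ∀ m : ℕ,
      t₀ ≤ m → ∃ F₀ : Finset (XT τ × ℕ), (∀ j ∈ F₀, GoodB r B₂ j) ∧
      ∀ F : Finset (XT τ × ℕ), F₀ ⊆ F → (∀ j ∈ F, GoodB r B₂ j) →
      ∃ U U' : Matrix (F × Ix2 N k) (F × Ix2 N k) ℂ, U * U' = 1 ∧ U' * U = 1 ∧
        ‖U‖ ≤ C ∧ ‖U'‖ ≤ C ∧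
        (∀ g ∈ 𝓖, ‖U * dg F g - dg F g * U‖ ≤ δ ∧ ‖U' * dg F g - dg F g * U'‖ ≤ δ) ∧
        (∀ g ∈ 𝓖, (∀ p, InRips r p → g p ≠ 0 → p.1.support ⊆ B₁) →
          ‖(U * fhat τ N k F * U' - ehat τ r hr N k m F) * dg F g‖ ≤ δ) := by
  obtain ⟨k, G, G', h1, h2, h3, h4, h5⟩ := extract
    ((augL (XT τ) r : locU (XT τ) r →⋆ₐ[ℂ] ℂ) : locU (XT τ) r →ₐ[ℂ] ℂ)
    (EL_idem τ r hr) (EL_aug τ r hr) N h
  obtain ⟨C, hC⟩ := fin_cut (locSys (XT τ) r) G G' (stab N k (EL τ r hr)) (stab N k (e11 ℂ))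
    h1 h2 h3 h4 (stab_idem N k (e11_idem ℂ)) (by rw [h5, stab_map_algebraMap])
  refine ⟨k, C, fun B₁ B₂ hB 𝓖 h𝓖 δ hδ => ?_⟩
  obtain ⟨t₀, ht₀⟩ := hC B₁ B₂ hB 𝓖 h𝓖 δ hδ
  exact ⟨t₀, fun m hm => ht₀ m hm⟩


theorem fhat_idem (N k : ℕ) (F : Finset (XT τ × ℕ)) :
    fhat τ N k F * fhat τ N k F = fhat τ N k F := by
  rw [fhat, scM, ← mul_kronecker_mul, Matrix.one_mul, fromBlocks_multiply]
  simp [stab_idem N k (e11_idem ℂ)]

theorem norm_fhat_le (N k : ℕ) (F : Finset (XT τ × ℕ)) : ‖fhat τ N k F‖ ≤ 1 := by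
  refine norm_le_one_of_proj ?_ (fhat_idem N k F)
  rw [fhat, scM, conjTranspose_kronecker, fromBlocks_conjTranspose, star_stab]
  simp

theorem fhat_dg (N k : ℕ) (F : Finset (XT τ × ℕ)) (g : RPt (XT τ) → ℂ) :
    fhat τ N k F * dg F g = dg F g * fhat τ N k F := by
  ext a b
  rw [dg, mul_diagonal, diagonal_mul, fhat, scM, kroneckerMap_apply, one_apply]
  split_ifs with h
  · rw [h, one_mul, mul_comm]
  · simp

/-- The commutator of a conjugate. -/
theorem norm_conj_comm {α : Type} [Fintype α] [DecidableEq α] {U U' f g : Matrix α α ℂ}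
    {C δ : ℝ} (hU : ‖U‖ ≤ C) (hU' : ‖U'‖ ≤ C) (hf : ‖f‖ ≤ 1) (hfg : f * g = g * f)
    (h1 : ‖U * g - g * U‖ ≤ δ) (h2 : ‖U' * g - g * U'‖ ≤ δ) :
    ‖U * f * U' * g - g * (U * f * U')‖ ≤ 2 * C * δ := by
  have hC : 0 ≤ C := (norm_nonneg _).trans hU
  have hδ : 0 ≤ δ := (norm_nonneg _).trans h1
  have h : U * f * U' * g - g * (U * f * U') =
      U * f * (U' * g - g * U') + (U * g - g * U) * f * U' := by
    have h3 : U * f * (g * U') = U * g * f * U' := by
      rw [← Matrix.mul_assoc (U * f), Matrix.mul_assoc U f g, hfg, ← Matrix.mul_assoc U]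
    rw [Matrix.mul_sub, h3, Matrix.sub_mul, Matrix.sub_mul, ← Matrix.mul_assoc (U * f)]
    simp only [Matrix.mul_assoc]
    abel
  rw [h]
  calc _ ≤ ‖U‖ * ‖f‖ * ‖U' * g - g * U'‖ + ‖U * g - g * U‖ * ‖f‖ * ‖U'‖ := by
        refine (norm_add_le _ _).trans (add_le_add ?_ ?_)
        · exact (norm_mul_le _ _).trans (mul_le_mul_of_nonneg_right (norm_mul_le _ _)
            (norm_nonneg _))
        · exact (norm_mul_le _ _).trans (mul_le_mul_of_nonneg_right (norm_mul_le _ _)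
            (norm_nonneg _))
    _ ≤ C * 1 * δ + δ * 1 * C := by
        gcongr
    _ = 2 * C * δ := by ring

theorem norm_conj_le {α : Type} [Fintype α] [DecidableEq α] {U U' f : Matrix α α ℂ}
    {C : ℝ} (hU : ‖U‖ ≤ C) (hU' : ‖U'‖ ≤ C) (hf : ‖f‖ ≤ 1) : ‖U * f * U'‖ ≤ C * C := by
  have hC : 0 ≤ C := (norm_nonneg _).trans hU
  calc _ ≤ ‖U‖ * ‖f‖ * ‖U'‖ := (norm_mul_le _ _).trans
        (mul_le_mul_of_nonneg_right (norm_mul_le _ _) (norm_nonneg _))
    _ ≤ C * 1 * C := by gcongr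
    _ = C * C := by ring

/-- Positions over the deep part. -/
theorem deep_of_mass {r n : ℕ} (hr : r < n) {p : RPt (XT τ)} (hp : InRips r p)
    (hn : ∀ x ∈ p.1.support, x.n = n)
    (hm : mass (lowF τ n (2 * n + 2 * r + 1)) p < 1) :
    ∀ x ∈ p.1.support, x.n = n ∧ 2 * n + r < x.l := by
  have h1 : ¬ p.1.support ⊆ lowF τ n (2 * n + 2 * r + 1) := fun h =>
    hm.ne ((mass_eq_one_iff _ _).2 h)
  obtain ⟨y, hy, hy'⟩ := Finset.not_subset.1 h1
  rw [mem_lowF, not_and, not_lt] at hy'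
  have h2 := hy' (hn y hy)
  intro x hx
  have h3 := close_comp hr (hn y hy) (hp y hy x hx)
  exact ⟨hn x hx, by omega⟩

/-- Positions near the low part. -/
theorem low_of_mass {r n L : ℕ} (hr : r < n) {p : RPt (XT τ)} (hp : InRips r p)
    (hm : 0 < mass (lowF τ n L) p) : p.1.support ⊆ lowF τ n (L + r) := by
  obtain ⟨y, hy, hy'⟩ := (mass_pos_iff _ _).1 hm
  rw [mem_lowF] at hy
  intro x hx
  have h3 := close_comp hr hy.1 (hp y hy' x hx)
  rw [mem_lowF]
  exact ⟨h3.1, by omega⟩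

end Pieces

end Vale.Agent.P212
end
end

section

section

/-! The class has infinite order at each scale: analysis of the finite matrices. -/

namespace Vale.Agent.P212

open Matrix NNReal
open scoped Matrix.Norms.L2Operator Kronecker

section Inf

variable {τ : Tower} [DecidableEq (XT τ)]

theorem kap0_eq_zero_of_ge {t : ℝ} (h : 1 ≤ t) : kap0 t = 0 := by
  unfold kap0
  exact max_eq_left ((min_le_right _ _).trans ((min_le_right _ _).trans (by linarith)))

/-- Almost commutation with the entries of a matrix valued function of the position. -/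
theorem almComm_dg {X κ : Type} [Countable X] [DecidableEq X] [Fintype κ] [DecidableEq κ]
    (F : Finset (X × ℕ)) {δ : ℝ} {z : Matrix (F × κ) (F × κ) ℂ} {B B' : Type}
    (M : RPt X → Matrix B B' ℂ)
    (h : ∀ b b', ‖z * dg F (fun p => M p b b') - dg F (fun p => M p b b') * z‖ ≤ δ ∧
      ‖z * dg F (fun p => star (M p b b')) - dg F (fun p => star (M p b b')) * z‖ ≤ δ) :
    AlmComm δ z (fun a => M (pos (a.1 : X × ℕ))) := by
  intro b b'
  exact h b b'

theorem dgr_mass_eq {X κ : Type} [Countable X] [DecidableEq X] [Fintype κ] [DecidableEq κ]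
    (F : Finset (X × ℕ)) (BI : Finset X) (φ : ℝ → ℝ) :
    dgr (fun a : F × κ => mass BI (pos (a.1 : X × ℕ))) φ =
      dg F (fun p => ((φ (mass BI p) : ℝ) : ℂ)) := rfl

theorem kap1_eq_zero {t : ℝ} (h : t ≤ 1 / 16) : kap1 t = 0 := by
  unfold kap1
  exact max_eq_left ((min_le_right _ _).trans (by linarith only [h]))

/-- The two matrices agree over the overlap. -/
theorem ehat_mul_kap (r : ℝ) (hr : 2 ≤ r) (N k m : ℕ) (F : Finset (XT τ × ℕ))
    (BI : Finset (XT τ))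
    (hd : ∀ a ∈ F, mass BI (pos a) < 1 → ¬ ∃ x ∈ (pos a).1.support, x.l = 0) :
    ehat τ r hr N k m F * dgr (fun a : F × Ix2 N k => mass BI (pos (a.1 : XT τ × ℕ))) kap0 =
      fhat τ N k F * dgr (fun a : F × Ix2 N k => mass BI (pos (a.1 : XT τ × ℕ))) kap0 := by
  ext a a'
  rw [dgr, mul_diagonal, mul_diagonal]
  by_cases h : 1 ≤ mass BI (pos (a'.1 : XT τ × ℕ))
  · rw [kap0_eq_zero_of_ge h, Complex.ofReal_zero, mul_zero, mul_zero]
  · rw [ehat_apply_off τ r hr N k m F a a' (hd _ a'.1.2 (not_le.1 h))]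

theorem fhat_off (N k : ℕ) (F : Finset (XT τ × ℕ)) (BI : Finset (XT τ)) (a b : F × Ix2 N k)
    (h : mass BI (pos (a.1 : XT τ × ℕ)) ≠ mass BI (pos (b.1 : XT τ × ℕ))) :
    fhat τ N k F a b = 0 := by
  rw [fhat, scM, kroneckerMap_apply, one_apply_ne, zero_mul]
  intro h'
  exact h (by rw [h'])

theorem fromBlocks_stab_idem (N k : ℕ) :
    (fromBlocks (stab N k (e11 ℂ)) 0 0 0 : Matrix (Ix2 N k) (Ix2 N k) ℂ) *
      fromBlocks (stab N k (e11 ℂ)) 0 0 0 = fromBlocks (stab N k (e11 ℂ)) 0 0 0 := by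
  rw [fromBlocks_multiply]
  simp [stab_idem N k (e11_idem ℂ)]

theorem norm_fromBlocks_stab_le (N k : ℕ) :
    ‖(fromBlocks (stab N k (e11 ℂ)) 0 0 0 : Matrix (Ix2 N k) (Ix2 N k) ℂ)‖ ≤ 1 := by
  refine norm_le_one_of_proj ?_ (fromBlocks_stab_idem N k)
  rw [fromBlocks_conjTranspose, star_stab]
  simp

/-- The total rank. -/
theorem total_rank {C δ₂ : ℝ} {bb : ℕ}
    (h₂ : ∀ (α κ B : Type) [Fintype α]
    [DecidableEq α] [Fintype κ] [DecidableEq κ] [Fintype B] [DecidableEq B],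
    Fintype.card B ≤ bb →
    ∀ (U U' : Matrix (α × κ) (α × κ) ℂ) (f : Matrix κ κ ℂ) (Q : α → Matrix B B ℂ),
    ‖U‖ ≤ C → ‖U'‖ ≤ C → U * U' = 1 → U' * U = 1 → f * f = f → IsBun Q →
    (∀ a, (Q a).rank = 1) → AlmComm δ₂ U (fun a : α × κ => Q a.1) →
    AlmComm δ₂ U' (fun a : α × κ => Q a.1) → ‖f‖ ≤ 1 →
    rk (tw (fun a : α × κ => Q a.1) (U * ((1 : Matrix α α ℂ) ⊗ₖ f) * U')) =
      Fintype.card α * f.rank)
    (N k : ℕ) (F : Finset (XT τ × ℕ)) (B2 : Finset (XT τ)) (hb : Fintype.card B2 ≤ bb)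
    (c : XT τ → XT τ → XT τ → ℤ) (hs : ∀ i ∈ F, (pos i).1.support ⊆ B2)
    (hc : ∀ i ∈ F, CocAt c (pos i))
    (U U' : Matrix (F × Ix2 N k) (F × Ix2 N k) ℂ) (h1 : U * U' = 1) (h1' : U' * U = 1)
    (hU : ‖U‖ ≤ C) (hU' : ‖U'‖ ≤ C)
    (hcU : AlmComm δ₂ U (fun a : F × Ix2 N k => Qb B2 c (pos (a.1 : XT τ × ℕ))))
    (hcU' : AlmComm δ₂ U' (fun a : F × Ix2 N k => Qb B2 c (pos (a.1 : XT τ × ℕ)))) :
    (rk (tw (fun a : F × Ix2 N k => Qb B2 c (pos (a.1 : XT τ × ℕ)))
      (U * fhat τ N k F * U')) : ℤ) = Fintype.card F * (N + k) := by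
  have h := h₂ F (Ix2 N k) B2 hb U U' (fromBlocks (stab N k (e11 ℂ)) 0 0 0)
    (fun i => Qb B2 c (pos (i : XT τ × ℕ))) hU hU' h1 h1'
    (fromBlocks_stab_idem N k)
    (fun i => Qb_bun (hs i i.2) (hc _ i.2))
    (fun i => Qb_rank (hs i i.2) (hc _ i.2)) hcU hcU' (norm_fromBlocks_stab_le N k)
  rw [rank_stab] at h
  have h' := congrArg (Nat.cast : ℕ → ℤ) h
  push_cast at h'
  exact h'

/-- The rank of the low part. -/
theorem low_rank {r n N k m D : ℕ} (hr : (2 : ℝ) ≤ r) (hn : 16 ≤ n) (sgn : ℤ)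
    (BI B2 : Finset (XT τ)) (hBI : BI = lowF τ n (2 * n + 2 * r + 1))
    (hB2 : B2 = lowF τ n (2 * n + 2 * r + 1 + r + r))
    (F : Finset (XT τ × ℕ)) (hF : ∀ j ∈ F, GoodB r B2 j)
    (hgr : ∀ g : Grid (sd n m), ji τ m ⟨⟨n, by omega⟩, g⟩ ∈ F)
    (hcoc : ∀ (j : ℕ) (i : XT τ × ℕ), i ∈ F → CocAt (j • c0 n) (pos i))
    (htor1 : ∀ j ≤ D, NearId (tw (gridQ τ B2 j n m) (gridE (sd n m))) (1 / 16))
    (htor2 : ∀ j ≤ D, (rk (tw (gridQ τ B2 j n m) (gridE (sd n m))) : ℤ) =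
      (sd n m : ℤ) ^ 2 + sgn * j) (j : ℕ) (hj : j ≤ D) :
    NearId (tw (fun a : {a : F × Ix2 N k // 1 / 2 < mass BI (pos (a.1 : XT τ × ℕ))} =>
        Qb B2 (j • c0 n) (pos (a.1.1 : XT τ × ℕ)))
      ((ehat τ r hr N k m F).submatrix Subtype.val Subtype.val)) (1 / 8) ∧
    (rk (tw (fun a : {a : F × Ix2 N k // 1 / 2 < mass BI (pos (a.1 : XT τ × ℕ))} =>
        Qb B2 (j • c0 n) (pos (a.1.1 : XT τ × ℕ)))
      ((ehat τ r hr N k m F).submatrix Subtype.val Subtype.val)) : ℤ) =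
      (N + k) * Fintype.card {i : F // 1 / 2 < mass BI (pos (i : XT τ × ℕ))} +
        N * sgn * j := by
  have h := rk_ehat τ r hr N k m n j hn sgn F B2 (fun x hx => by
      rw [hB2, mem_lowF] at hx
      exact hx.1) (fun i hi => (hF i hi).2) hgr (hcoc j) (htor1 j hj) (htor2 j hj)
    (fun a : F × Ix2 N k => 1 / 2 < mass BI (pos (a.1 : XT τ × ℕ)))
    (fun i : F => 1 / 2 < mass BI (pos (i : XT τ × ℕ))) (fun a => Iff.rfl) (fun g => by
      have h1 : mass BI (pos (ji τ m ⟨⟨n, by omega⟩, g⟩)) = 1 := by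
        rw [mass_eq_one_iff, pos_ji]
        intro x hx
        have h2 := support_gpt τ n m g hx
        rw [hBI, mem_lowF]
        exact ⟨h2.1, by omega⟩
      show (1 / 2 : ℝ) < mass BI (pos (ji τ m ⟨⟨n, by omega⟩, g⟩))
      rw [h1]
      norm_num)
  refine ⟨h.1, h.2.trans ?_⟩
  ring

/-- The analysis of the finite matrices: they force divisibility. -/
theorem finite_core (C : ℝ) (bb : ℕ) : ∃ δ > 0, ∀ (τ : Tower) [DecidableEq (XT τ)]
    (r n N k m D : ℕ) (hr : (2 : ℝ) ≤ r) (_ : 4 * r < n) (hn : 16 ≤ n) (_ : 1 ≤ D) (sgn : ℤ)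
    (χ : XT τ → Fin D) (_ : ∀ x y, x ≠ y → dist x y ≤ (r : ℝ) → χ x ≠ χ y)
    (b : XT τ → XT τ → ℤ) (c : XT τ → XT τ → XT τ → ℤ)
    (_ : ∀ p : RPt (XT τ), InRips r p → (∀ x ∈ p.1.support, x.n = n ∧ 2 * n + r ≤ x.l) →
      CocAt c p ∧ ∀ x ∈ p.1.support, ∀ y ∈ p.1.support, ∀ z ∈ p.1.support,
        ((11 ^ n : ℕ) : ℤ) * c x y z = c0 n x y z + (b y z - b x z + b x y))
    (BI B1 B2 : Finset (XT τ)) (_ : BI = lowF τ n (2 * n + 2 * r + 1))
    (_ : B1 = lowF τ n (2 * n + 2 * r + 1 + r)) (_ : B2 = lowF τ n (2 * n + 2 * r + 1 + r + r))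
    (KM : ℕ → RPt (XT τ) → Matrix (Σ _ : Ev D, B2) (Σ _ : Od D, B2) ℂ)
    (_ : ∀ i, ∀ p : RPt (XT τ), p.1.support ⊆ B2 → CocAt c p →
      Set.InjOn χ p.1.support →
        KM i p * (KM i p)ᴴ = Matrix.blockDiagonal'
          (fun S : Ev D => Qb B2 ((i + S.1.card) • c) p) ∧
        (KM i p)ᴴ * KM i p = Matrix.blockDiagonal'
          (fun S : Od D => Qb B2 ((i + S.1.card) • c) p))
    (_ : Fintype.card B2 ≤ bb)
    (_ : Fintype.card (Σ _ : Ev D, B2) ≤ bb)
    (_ : Fintype.card (Σ _ : Od D, B2) ≤ bb)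
    (𝓖 : Finset (RPt (XT τ) → ℂ))
    (_ : ∀ φ ∈ ({kap1, kapm, kapp} : Set (ℝ → ℝ)), (fun p => ((φ (mass BI p) : ℝ) : ℂ)) ∈ 𝓖)
    (_ : ∀ j ≤ D, ∀ x y, (fun p => Qb B2 (j • c0 n) p x y) ∈ 𝓖 ∧
        (fun p => star (Qb B2 (j • c0 n) p x y)) ∈ 𝓖)
    (_ : ∀ j ≤ D, ∀ x y, (fun p => Mb B2 (j • c0 n) (j • b) p x y) ∈ 𝓖 ∧
        (fun p => star (Mb B2 (j • c0 n) (j • b) p x y)) ∈ 𝓖)
    (_ : ∀ i ≤ D * 11 ^ n + D, ∀ x y, (fun p => Qb B2 (i • c) p x y) ∈ 𝓖 ∧
        (fun p => star (Qb B2 (i • c) p x y)) ∈ 𝓖)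
    (_ : ∀ i ≤ D * 11 ^ n, ∀ x y, (fun p => KM i p x y) ∈ 𝓖 ∧
        (fun p => star (KM i p x y)) ∈ 𝓖)
    (F : Finset (XT τ × ℕ)) (_ : ∀ j ∈ F, GoodB r B2 j)
    (_ : ∀ g : Grid (sd n m), ji τ m ⟨⟨n, by omega⟩, g⟩ ∈ F)
    (_ : ∀ j ≤ D, NearId (tw (gridQ τ B2 j n m) (gridE (sd n m))) (1 / 16))
    (_ : ∀ j ≤ D, (rk (tw (gridQ τ B2 j n m) (gridE (sd n m))) : ℤ) =
      (sd n m : ℤ) ^ 2 + sgn * j)
    (U U' : Matrix (F × Ix2 N k) (F × Ix2 N k) ℂ), U * U' = 1 → U' * U = 1 →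
    ‖U‖ ≤ C → ‖U'‖ ≤ C →
    (∀ g ∈ 𝓖, ‖U * dg F g - dg F g * U‖ ≤ δ ∧ ‖U' * dg F g - dg F g * U'‖ ≤ δ) →
    (∀ g ∈ 𝓖, (∀ p, InRips r p → g p ≠ 0 → p.1.support ⊆ B1) →
      ‖(U * fhat τ N k F * U' - ehat τ r hr N k m F) * dg F g‖ ≤ δ) →
    ((11 ^ n : ℕ) : ℤ) ∣ N * sgn := by
  obtain ⟨δ₁, hδ₁, h₁⟩ := core_abs (C * C) bb
  obtain ⟨δ₂, hδ₂, h₂⟩ := rk_tw_conj C bb
  refine ⟨min (min δ₁ δ₂) (δ₁ / (2 * (|C| + 1))), lt_min (lt_min hδ₁ hδ₂) (by positivity), ?_⟩
  intro τ _ r n N k m D hr hrn hn hD sgn χ hχ b c hbc BI B1 B2 hBI hB1 hB2 KM hKM hb0 hb1 hb2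
    𝓖 hφ hQ hM hQc hK F hF hgr htor1 htor2 U U' hUU hUU' hU hU' hcomm hclose
  set δ := min (min δ₁ δ₂) (δ₁ / (2 * (|C| + 1))) with hδ
  have l1 : δ ≤ δ₁ := (min_le_left _ _).trans (min_le_left _ _)
  have l2 : δ ≤ δ₂ := (min_le_left _ _).trans (min_le_right _ _)
  have l3 : 2 * C * δ ≤ δ₁ := by
    have h1 : δ ≤ δ₁ / (2 * (|C| + 1)) := min_le_right _ _
    have h2 : 0 < 2 * (|C| + 1) := by positivity
    rw [le_div_iff₀ h2] at h1
    have h3 : 0 < δ := lt_min (lt_min hδ₁ hδ₂) (by positivity)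
    have h4 : C ≤ |C| := le_abs_self C
    linarith only [mul_nonneg (le_of_lt (sub_pos.2 h3)) (sub_nonneg.2 h4), h3, h1]
  have hsup : ∀ a : F × Ix2 N k, (pos (a.1 : XT τ × ℕ)).1.support ⊆ B2 := fun a =>
    (hF a.1 a.1.2).2
  have hrips : ∀ a : F × Ix2 N k, InRips r (pos (a.1 : XT τ × ℕ)) := fun a =>
    (hF a.1 a.1.2).1
  have hcomp : ∀ a : F × Ix2 N k, ∀ x ∈ (pos (a.1 : XT τ × ℕ)).1.support, x.n = n := by
    intro a x hx
    have h := hsup a hx
    rw [hB2, mem_lowF] at h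
    exact h.1
  have hcoc : ∀ (j : ℕ) (i : XT τ × ℕ), i ∈ F → CocAt (j • c0 n) (pos i) := by
    intro j i hi
    refine cocAt_c0 hrn j (hF i hi).1 ⟨i.1, fst_mem_support_pos i, ?_⟩
    have h := (hF i hi).2 (fst_mem_support_pos i)
    rw [hB2, mem_lowF] at h
    exact h.1
  have hz : U * fhat τ N k F * U' * (U * fhat τ N k F * U') = U * fhat τ N k F * U' := by
    calc _ = U * fhat τ N k F * (U' * U) * (fhat τ N k F * U') := by
          simp only [Matrix.mul_assoc]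
      _ = _ := by
          rw [hUU', Matrix.mul_one, ← Matrix.mul_assoc, Matrix.mul_assoc U, fhat_idem]
  have hzc : ∀ g ∈ 𝓖, ‖U * fhat τ N k F * U' * dg F g - dg F g * (U * fhat τ N k F * U')‖ ≤ δ₁ :=
    fun g hg => (norm_conj_comm hU hU' (norm_fhat_le N k F) (fhat_dg N k F g)
      (hcomm g hg).1 (hcomm g hg).2).trans l3
  -- the deep part
  have hdeep : ∀ a : F × Ix2 N k, mass BI (pos (a.1 : XT τ × ℕ)) < 1 →
      ∀ x ∈ (pos (a.1 : XT τ × ℕ)).1.support, x.n = n ∧ 2 * n + r < x.l := by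
    intro a ha
    rw [hBI] at ha
    exact deep_of_mass (by omega) (hrips a) (hcomp a) ha
  have hdeep' : ∀ a : F × Ix2 N k, ¬ 1 / 2 < mass BI (pos (a.1 : XT τ × ℕ)) →
      CocAt c (pos (a.1 : XT τ × ℕ)) ∧ ∀ x ∈ (pos (a.1 : XT τ × ℕ)).1.support,
        ∀ y ∈ (pos (a.1 : XT τ × ℕ)).1.support, ∀ z ∈ (pos (a.1 : XT τ × ℕ)).1.support,
        ((11 ^ n : ℕ) : ℤ) * c x y z = c0 n x y z + (b y z - b x z + b x y) := by
    intro a ha
    refine hbc _ (hrips a) fun x hx => ?_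
    have h := hdeep a (by linarith only [ha]) x hx
    exact ⟨h.1, h.2.le⟩
  have hinj : ∀ a : F × Ix2 N k, Set.InjOn χ (pos (a.1 : XT τ × ℕ)).1.support := by
    intro a x hx y hy hxy
    by_contra hne
    exact hχ x y hne (hrips a x hx y hy) hxy
  have hover : ∀ a ∈ F, mass BI (pos a) < 1 → ¬ ∃ x ∈ (pos a).1.support, x.l = 0 := by
    rintro a ha h ⟨x, hx, hx0⟩
    rw [hBI] at h
    have hco : ∀ x ∈ (pos a).1.support, x.n = n := by
      intro x hx
      have h := (hF a ha).2 hx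
      rw [hB2, mem_lowF] at h
      exact h.1
    have := deep_of_mass (by omega) (hF a ha).1 hco h x hx
    omega
  have hbd : ((11 ^ n : ℕ) : ℤ) ∣ N * sgn := by
    refine h₁ (F × Ix2 N k) B2 D (11 ^ n) (U * fhat τ N k F * U') (ehat τ r hr N k m F)
      (fhat τ N k F) (fun a => mass BI (pos (a.1 : XT τ × ℕ)))
      (fun j a => Qb B2 (j • c0 n) (pos (a.1 : XT τ × ℕ)))
      (fun i a => Qb B2 (i • c) (pos (a.1 : XT τ × ℕ)))
      (fun j a => Mb B2 (j • c0 n) (j • b) (pos (a.1 : XT τ × ℕ)))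
      (fun i a => KM i (pos (a.1 : XT τ × ℕ)))
      (Fintype.card F * (N + k) : ℤ)
      ((N + k) * Fintype.card {i : F // 1 / 2 < mass BI (pos (i : XT τ × ℕ))} : ℤ)
      (N * sgn) hD (Nat.one_le_pow _ _ (by norm_num)) hb0 hb1 hb2 hz
      (norm_conj_le hU hU' (norm_fhat_le N k F)) ?_ ?_ ?_ ?_ ?_ ?_ ?_ ?_ ?_ ?_ ?_ ?_ ?_ ?_ ?_
    · -- bundles
      intro j hj a
      exact Qb_bun (hsup a) (hcoc j _ a.1.2)
    · intro j hj
      refine almComm_dg F (Qb B2 (j • c0 n)) fun x y => ⟨?_, ?_⟩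
      · exact hzc _ (hQ j hj x y).1
      · exact hzc _ (hQ j hj x y).2
    · intro j hj
      refine almComm_dg F (Mb B2 (j • c0 n) (j • b)) fun x y => ⟨?_, ?_⟩
      · exact hzc _ (hM j hj x y).1
      · exact hzc _ (hM j hj x y).2
    · intro i hi
      refine almComm_dg F (Qb B2 (i • c)) fun x y => ⟨?_, ?_⟩
      · exact hzc _ (hQc i hi x y).1
      · exact hzc _ (hQc i hi x y).2
    · intro i hi
      refine almComm_dg F (KM i) fun x y => ⟨?_, ?_⟩
      · exact hzc _ (hK i hi x y).1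
      · exact hzc _ (hK i hi x y).2
    · intro i a ha
      exact Qb_bun (hsup a) ((hdeep' a ha).1.nsmul i)
    · intro j a ha
      refine Mb_iso (hsup a) (hcoc j _ a.1.2) fun x hx y hy z hz => ?_
      have h := (hdeep' a ha).2 x hx y hy z hz
      simp only [Pi.smul_apply, nsmul_eq_mul]
      push_cast at h ⊢
      linear_combination (j : ℤ) * h
    · intro i a ha
      exact hKM i _ (hsup a) (hdeep' a ha).1 (hinj a)
    · -- closeness
      refine (hclose _ (hφ kap1 (by simp)) ?_).trans l1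
      intro p hp hne
      have h1 : 0 < mass BI p := by
        by_contra h0
        have h2 : mass BI p ≤ 1 / 16 := by linarith only [h0]
        exact hne (by rw [kap1_eq_zero h2, Complex.ofReal_zero])
      rw [hB1]
      rw [hBI] at h1
      exact low_of_mass (by omega) hp h1
    · exact ehat_mul_kap r hr N k m F BI hover
    · exact fhat_off N k F BI
    · rw [dgr_mass_eq]
      exact hzc _ (hφ kapm (by simp))
    · rw [dgr_mass_eq]
      exact hzc _ (hφ kapp (by simp))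
    · -- total rank
      intro j hj
      refine total_rank h₂ N k F B2 hb0 (j • c0 n) (fun i hi => (hF i hi).2) (hcoc j) U U'
        hUU hUU' hU hU' ?_ ?_
      · exact almComm_dg F (Qb B2 (j • c0 n)) fun x y =>
          ⟨(hcomm _ (hQ j hj x y).1).1.trans l2, (hcomm _ (hQ j hj x y).2).1.trans l2⟩
      · exact almComm_dg F (Qb B2 (j • c0 n)) fun x y =>
          ⟨(hcomm _ (hQ j hj x y).1).2.trans l2, (hcomm _ (hQ j hj x y).2).2.trans l2⟩
    · -- low rank
      exact fun j hj => low_rank hr hn sgn BI B2 hBI hB2 F hF hgr hcoc htor1 htor2 j hj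
  exact hbd

end Inf

end Vale.Agent.P212
end
end

section

section

/-! The class has infinite order at each scale. -/

namespace Vale.Agent.P212

open Matrix NNReal
open scoped Matrix.Norms.L2Operator Kronecker

section Inf

variable {τ : Tower}

theorem lowF_close {r n L : ℕ} (hr : r < n) {x y : XT τ} (hx : x ∈ lowF τ n L)
    (hd : dist x y ≤ r) : y ∈ lowF τ n (L + r) := by
  rw [mem_lowF] at hx ⊢
  have h := close_comp hr hx.1 hd
  exact ⟨h.1, by omega⟩

theorem goodB_grid (r n m L : ℕ) (hr : (2 : ℝ) ≤ r) (hn : 3 ≤ n) (hL : 0 < L)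
    (g : Grid (sd n m)) : GoodB (r : ℝ) (lowF τ n L) (ji τ m ⟨⟨n, hn⟩, g⟩) := by
  unfold GoodB
  rw [pos_ji]
  constructor
  · intro x hx y hy
    exact (inRips_gpt τ n m g x hx y hy).trans hr
  · intro x hx
    have h := support_gpt τ n m g hx
    rw [mem_lowF]
    exact ⟨h.1, by omega⟩

/-- The class at a natural scale has infinite order. -/
theorem yL_nat (r : ℕ) (hr : (2 : ℝ) ≤ r) (N : ℕ) (hN : 1 ≤ N) : N • yL τ r hr ≠ 0 := by
  classical
  intro h0
  obtain ⟨k, C, hC⟩ := torsion_data (τ := τ) r hr N h0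
  obtain ⟨sgn, hsgn, htor⟩ := rk_torus
  obtain ⟨D, χ, hχ⟩ := exists_colouring (X := XT τ) (r : ℝ)
  obtain ⟨n₁, hn₁⟩ := exists_div τ r
  set n : ℕ := n₁ + 16 + 4 * r + N + 1 with hn
  obtain ⟨b, c, hbc⟩ := hn₁ n (by omega)
  have hn16 : 16 ≤ n := by omega
  have hD : 1 ≤ D := by
    have h := (χ (vtx τ 0 0 0)).pos
    omega
  set BI := lowF τ n (2 * n + 2 * r + 1) with hBI
  set B1 := lowF τ n (2 * n + 2 * r + 1 + r) with hB1
  set B2 := lowF τ n (2 * n + 2 * r + 1 + r + r) with hB2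
  have hkos := fun i => koszul B2 c D χ i
  choose KM hKMc hKM using hkos
  obtain ⟨δ, hδ, hcore⟩ := finite_core C
    (Fintype.card B2 + Fintype.card (Σ _ : Ev D, B2) + Fintype.card (Σ _ : Od D, B2))
  obtain ⟨𝓖, h𝓖, hφ, hQ, hM, hQc, hK⟩ := exists_big_family BI B2 D (11 ^ n) (c0 n) c b KM hKMc
  obtain ⟨t₀, ht₀⟩ := hC B1 B2 (fun x hx y hd => lowF_close (by omega) hx hd) 𝓖 h𝓖 δ hδ
  have hB2z : ∀ x : XT τ, x.n = n → x.l = 0 → x ∈ B2 := by
    intro x h1 h2
    rw [hB2, mem_lowF]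
    exact ⟨h1, by omega⟩
  have hm := fun j : ℕ => htor τ n hn16 B2 hB2z j (1 / 16) (by norm_num)
  choose m₀ hm₀ using hm
  obtain ⟨m, hm1, hm2⟩ : ∃ m : ℕ, t₀ ≤ m ∧ ∀ j ≤ D, m₀ j ≤ m := by
    obtain ⟨m1, hm1⟩ := exists_nat_ge t₀
    refine ⟨m1 + ∑ j ∈ Finset.range (D + 1), m₀ j, ?_, ?_⟩
    · refine hm1.trans ?_
      exact_mod_cast Nat.le_add_right _ _
    · intro j hj
      refine (Finset.single_le_sum (f := m₀) (fun _ _ => Nat.zero_le _)
        (Finset.mem_range.2 (by omega))).trans (Nat.le_add_left _ _)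
  obtain ⟨F₀, hF₀, hF⟩ := ht₀ m hm1
  set F : Finset (XT τ × ℕ) := F₀ ∪ Finset.univ.image
    (fun g : Grid (sd n m) => ji τ m ⟨⟨n, by omega⟩, g⟩) with hFdef
  have hFg : ∀ j ∈ F, GoodB r B2 j := by
    intro j hj
    rw [hFdef, Finset.mem_union, Finset.mem_image] at hj
    rcases hj with hj | ⟨g, _, rfl⟩
    · exact hF₀ j hj
    · exact goodB_grid r n m _ hr (by omega) (by omega) g
  obtain ⟨U, U', hUU, hUU', hU, hU', hc1, hc2⟩ := hF F Finset.subset_union_left hFg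
  have hdvd : ((11 ^ n : ℕ) : ℤ) ∣ N * sgn := by
    refine hcore τ r n N k m D hr (by omega) hn16 hD sgn χ hχ b c hbc BI B1 B2 hBI hB1 hB2 KM
      hKM (by omega) (by omega) (by omega) 𝓖 hφ hQ hM hQc hK F hFg ?_
      (fun j hj => (hm₀ j m (hm2 j hj)).1) (fun j hj => (hm₀ j m (hm2 j hj)).2) U U' hUU hUU'
      hU hU' hc1 hc2
    intro g
    exact Finset.mem_union_right _ (Finset.mem_image_of_mem _ (Finset.mem_univ g))
  have hdvd' : (11 ^ n : ℕ) ∣ N := by
    have h1 : ((11 ^ n : ℕ) : ℤ) ∣ N := by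
      rcases hsgn with h | h
      · rw [h, mul_one] at hdvd
        exact hdvd
      · rw [h, mul_neg, mul_one, dvd_neg] at hdvd
        exact hdvd
    exact_mod_cast h1
  have h1 := Nat.le_of_dvd (by omega) hdvd'
  have h2 : n < 11 ^ n := Nat.lt_pow_self (by norm_num)
  omega

end Inf

end Vale.Agent.P212
end
end

section

section

/-! The class has infinite order, and the main theorem. -/

namespace Vale.Agent.P212

open Matrix TensorProduct NNReal

variable (τ : Tower)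

theorem yL_not_torsion (r : ℝ) (hr : 2 ≤ r) (N : ℕ) (hN : 1 ≤ N) : N • yL τ r hr ≠ 0 := by
  intro h
  have h1 : r ≤ ((⌈r⌉₊ : ℕ) : ℝ) := Nat.le_ceil r
  have h2 : (2 : ℝ) ≤ ((⌈r⌉₊ : ℕ) : ℝ) := hr.trans h1
  apply yL_nat (τ := τ) ⌈r⌉₊ h2 N hN
  have h3 : N • (⟨yL τ r hr, yL_mem τ r hr⟩ : K0L (XT τ) r) = 0 := Subtype.ext h
  have h4 : N • (⟨yL τ ⌈r⌉₊ h2, yL_mem τ ⌈r⌉₊ h2⟩ : K0L (XT τ) ⌈r⌉₊) = 0 := by
    rw [← yL_map τ hr h1, ← map_nsmul, h3, map_zero]
  exact congrArg Subtype.val h4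

end Vale.Agent.P212
end
end

section

section

/-! The counterexample to rational injectivity. -/

namespace Vale.Agent.P212

theorem exists_counterexample :
    ∃ (X : Type) (_ : MetricSpace X) (_ : BddGeometry X) (_ : UnifDiscrete X)
      (H A : Type) (_ : NormedAddCommGroup H) (_ : InnerProductSpace ℂ H)
      (_ : CompleteSpace H) (_ : NonUnitalCStarAlgebra A), Counterexample X H A := by
  obtain ⟨τ⟩ := exists_tower
  exact ⟨XT τ, inferInstance, inferInstance, inferInstance, _, _, _, _, inferInstance, _,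
    counterexample_of τ (fun r hr N hN => yL_not_torsion τ r hr N hN)⟩

end Vale.Agent.P212
end
end
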